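import Claimed.Agent.R285.Entry.Quad

/-!
# ROW 285, Entry toolkit, leaf L-B9-VREG-C: Cameron coordinates (bridge to the shape of `RG.Vobs`)
`x = (x₁, x₂) ↦ ξ = (Rᵀ x₁, x₂)`: `[B R, 1] ξ = B C x₁ + x₂`, `|ξ|² = ⟨x₁, C x₁⟩ + |x₂|²`: `≤`.  Conversely `ξ₁ = Rᵀ x₁ + κ`, `R κ = 0` (orthogonal decomposition, cf. `exists_preimage_le` applied to
`R` and ... or directly): `≥` needs `0 ≤ p₁⁻¹`.  If one of the two ranges is unbounded so is the other (both `⨆` are then `0` by convention): prove equality of the two SETS of upper bounds, or `BddAbove` iff.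
-/

set_option autoImplicit false

namespace Claimed.Agent.R285.Entry

open scoped BigOperators ENNReal NNReal
open MeasureTheory ProbabilityTheory

noncomputable section

variable {O V W : Type} [Fintype O] [Fintype V] [Fintype W] [DecidableEq O]

/-- two real families which dominate each other have the same `⨆` (also when unbounded) -/
theorem vregC_iSup_eq {α β : Type} [Nonempty α] [Nonempty β] (F : α → ℝ) (G : β → ℝ)
    (h1 : ∀ a, ∃ b, F a ≤ G b) (h2 : ∀ b, ∃ a, G b ≤ F a) : (⨆ a, F a) = ⨆ b, G b := by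
  have hub : ∀ {α β : Type} [Nonempty α] (F : α → ℝ) (G : β → ℝ), (∀ a, ∃ b, F a ≤ G b) →
      BddAbove (Set.range G) → BddAbove (Set.range F) ∧ (⨆ a, F a) ≤ ⨆ b, G b := by
    intro α β _ F G h hb
    have hpt : ∀ a, F a ≤ ⨆ b, G b := fun a => by
      obtain ⟨b, hab⟩ := h a
      exact hab.trans (le_ciSup hb b)
    exact ⟨⟨_, by rintro _ ⟨a, rfl⟩; exact hpt a⟩, ciSup_le hpt⟩
  by_cases hb : BddAbove (Set.range F)
  · have a1 := hub G F h2 hb
    have a2 := hub F G h1 a1.1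
    exact le_antisymm a2.2 a1.2
  · have hb' : ¬ BddAbove (Set.range G) := fun hb' => hb (hub F G h1 hb').1
    rw [Real.iSup_of_not_bddAbove hb, Real.iSup_of_not_bddAbove hb']

/-- the Cameron representative -/
theorem vregC_exists_cameron (R : Matrix V W ℝ) (ξ : W → ℝ) :
    ∃ u : V → ℝ, (R * R.transpose).mulVec u = R.mulVec ξ ∧ u ⬝ᵥ (R * R.transpose).mulVec u ≤ ξ ⬝ᵥ ξ := by
  classical
  have hle : LinearMap.range (R * R.transpose).mulVecLin ≤ LinearMap.range R.mulVecLin := by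
    rw [Matrix.mulVecLin_mul]
    exact LinearMap.range_comp_le_range _ _
  have hrk : Module.finrank ℝ (LinearMap.range (R * R.transpose).mulVecLin)
      = Module.finrank ℝ (LinearMap.range R.mulVecLin) := Matrix.rank_self_mul_transpose R
  have heq := Submodule.eq_of_le_of_finrank_eq hle hrk
  have hmem : R.mulVec ξ ∈ LinearMap.range (R * R.transpose).mulVecLin := by
    rw [heq]
    exact ⟨ξ, rfl⟩
  obtain ⟨u, hu⟩ := hmem
  rw [Matrix.mulVecLin_apply] at hu
  refine ⟨u, hu, ?_⟩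
  have h2 : R.transpose.mulVec u ⬝ᵥ R.transpose.mulVec u = u ⬝ᵥ R.mulVec ξ := by
    rw [quad_transpose_dot, Matrix.mulVec_mulVec, hu]
  have h3 : R.transpose.mulVec u ⬝ᵥ ξ = u ⬝ᵥ R.mulVec ξ := quad_transpose_dot _ _ _
  have h4 : 0 ≤ (ξ - R.transpose.mulVec u) ⬝ᵥ (ξ - R.transpose.mulVec u) := by
    rw [dotProduct]
    exact Finset.sum_nonneg fun i _ => mul_self_nonneg _
  rw [sub_dotProduct, dotProduct_sub, dotProduct_sub, h2, h3,
    dotProduct_comm ξ (R.transpose.mulVec u), h3] at h4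
  rw [hu]
  linarith

theorem vregC_eq (M : Matrix O O ℝ) (B : Matrix O V ℝ) (C : Matrix V V ℝ) (R : Matrix V W ℝ) (hR : R * R.transpose = C)
    (hs p1 : ℝ) (hp : 0 ≤ p1) (f : O → ℝ) :
    VregC M B C hs p1 f = Vreg M (Matrix.fromCols (B * R) (1 : Matrix O O ℝ)) hs p1 f := by
  have hdot : ∀ v : W ⊕ O → ℝ,
      v ⬝ᵥ v = (v ∘ Sum.inl) ⬝ᵥ (v ∘ Sum.inl) + (v ∘ Sum.inr) ⬝ᵥ (v ∘ Sum.inr) := by
    intro v
    simp [dotProduct, Fintype.sum_sum_type]
  unfold VregC Vreg
  congr 1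
  refine vregC_iSup_eq _ _ (fun x => ⟨Sum.elim (R.transpose.mulVec x.1) x.2, le_of_eq ?_⟩) (fun v => ?_)
  · have e1 : R.mulVec (R.transpose.mulVec x.1) = C.mulVec x.1 := by rw [Matrix.mulVec_mulVec, hR]
    rw [Matrix.fromCols_mulVec_sumElim, hdot, Sum.elim_comp_inl, Sum.elim_comp_inr, Matrix.one_mulVec,
      quad_transpose_dot, ← Matrix.mulVec_mulVec, e1, add_assoc]
  · obtain ⟨u, hu1, hu2⟩ := vregC_exists_cameron R (v ∘ Sum.inl)
    refine ⟨(u, v ∘ Sum.inr), ?_⟩
    rw [hR] at hu1 hu2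
    simp only
    have := mul_le_mul_of_nonneg_left hu2 (inv_nonneg.2 hp)
    rw [Matrix.fromCols_mulVec, hdot v, Matrix.one_mulVec, ← Matrix.mulVec_mulVec, ← hu1, add_assoc]
    linarith

open scoped MatrixOrder in
/-- a positive semidefinite matrix is `R Rᵀ` -/
theorem exists_factor [DecidableEq V] (C : Matrix V V ℝ) (hC : C.PosSemidef) : ∃ R : Matrix V V ℝ, R * R.transpose = C := by
  obtain ⟨B, rfl⟩ := CStarAlgebra.nonneg_iff_eq_star_mul_self.mp hC.nonneg
  refine ⟨B.transpose, ?_⟩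
  rw [Matrix.transpose_transpose, Matrix.star_eq_conjTranspose, Matrix.conjTranspose_eq_transpose_of_trivial]

end

end Claimed.Agent.R285.Entry
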