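import Claimed.Agent.R285.Entry.Quad
import Claimed.Agent.R285.Entry.VregC

/-!
# ROW 285, Entry toolkit, leaf L-B9-OBSE: observation energies ([B] (3.x) `an:comparison-energy`, (9.15), (9.24))
All but `obsE_quadratic` are one-liners from `ciInf_le` (bounded below by `0`) / `le_ciInf`.
`obsE_quadratic`: `T = A + Bᵀ B` may be singular.  PLAN: `T_ε = T + ε`, `M_ε = 1 - B T_ε⁻¹ Bᵀ` is the form of `inf_v {⟨v, (A + ε) v⟩ + |B v - y|²}`, antitone limit as `ε ↓ 0` entrywise (polarisation), and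
`inf_ε inf_v = inf_v inf_ε`.   Or: restrict `v` to the orthogonal complement of `ker T` (on `ker T`: `A v = 0`, `B v = 0`), where `T` is invertible.
-/

set_option autoImplicit false

namespace Claimed.Agent.R285.Entry

open scoped BigOperators ENNReal NNReal
open MeasureTheory ProbabilityTheory

noncomputable section

variable {O V : Type} [Fintype O] [Fintype V]

theorem obsE_val_nonneg (A : Matrix V V ℝ) (hA : A.PosSemidef) (B : Matrix O V ℝ) (y : O → ℝ) (v : V → ℝ) :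
    0 ≤ v ⬝ᵥ A.mulVec v + ∑ o, (B.mulVec v o - y o) ^ 2 :=
  add_nonneg (qf_nonneg A hA v) (Finset.sum_nonneg fun _ _ => sq_nonneg _)

theorem obsE_bddBelow (A : Matrix V V ℝ) (hA : A.PosSemidef) (B : Matrix O V ℝ) (y : O → ℝ) :
    BddBelow (Set.range fun v : V → ℝ => v ⬝ᵥ A.mulVec v + ∑ o, (B.mulVec v o - y o) ^ 2) :=
  ⟨0, by rintro _ ⟨v, rfl⟩; exact obsE_val_nonneg A hA B y v⟩

theorem obsE_le (A : Matrix V V ℝ) (hA : A.PosSemidef) (B : Matrix O V ℝ) (y : O → ℝ) (v : V → ℝ) :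
    obsE A B y ≤ v ⬝ᵥ A.mulVec v + ∑ o, (B.mulVec v o - y o) ^ 2 :=
  ciInf_le (obsE_bddBelow A hA B y) v

theorem obsE_nonneg (A : Matrix V V ℝ) (hA : A.PosSemidef) (B : Matrix O V ℝ) (y : O → ℝ) : 0 ≤ obsE A B y :=
  le_ciInf fun v => obsE_val_nonneg A hA B y v

/-- the normal equations are solvable, linearly in `y` -/
theorem obsE_exists_solver [DecidableEq O] (A : Matrix V V ℝ) (hA : A.PosSemidef) (B : Matrix O V ℝ) :
    ∃ G : Matrix V O ℝ, (A + B.transpose * B) * G = B.transpose := by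
  classical
  obtain ⟨R, hR⟩ := exists_factor A hA
  have hK : Matrix.fromCols R B.transpose * (Matrix.fromCols R B.transpose).transpose = A + B.transpose * B := by
    rw [Matrix.transpose_fromCols, Matrix.fromCols_mul_fromRows, hR, Matrix.transpose_transpose]
  have hsol : ∀ o : O, ∃ w : V → ℝ, (A + B.transpose * B).mulVec w = B.transpose.mulVec (Pi.single o 1) := by
    intro o
    obtain ⟨u, hu, -⟩ := vregC_exists_cameron (Matrix.fromCols R B.transpose) (Sum.elim 0 (Pi.single o 1))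
    refine ⟨u, ?_⟩
    rw [← hK, hu, Matrix.fromCols_mulVec_sumElim, Matrix.mulVec_zero, zero_add]
  choose w hw using hsol
  refine ⟨Matrix.of fun v o => w o v, ?_⟩
  ext v o
  have h1 := congrFun (hw o) v
  rw [Matrix.mulVec_single_one, Matrix.col_apply] at h1
  rw [← h1]
  rfl

/-- the energy is a positive semidefinite quadratic form, at most `|y|²` (`M = 1 - B T⁻¹ Bᵀ` when `T = A + BᵀB` is invertible) -/
theorem obsE_quadratic (A : Matrix V V ℝ) (hA : A.PosSemidef) (B : Matrix O V ℝ) :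
    ∃ M : Matrix O O ℝ, M.PosSemidef ∧ (∀ y, obsE A B y = qf M y) ∧ ∀ y, qf M y ≤ y ⬝ᵥ y := by
  classical
  obtain ⟨G, hG⟩ := obsE_exists_solver A hA B
  have hAT : A.transpose = A := by
    have := hA.isHermitian
    rwa [Matrix.IsHermitian, Matrix.conjTranspose_eq_transpose_of_trivial] at this
  obtain ⟨T, hT⟩ : ∃ T : Matrix V V ℝ, T = A + B.transpose * B := ⟨_, rfl⟩
  rw [← hT] at hG
  have hTT : T.transpose = T := by
    rw [hT, Matrix.transpose_add, Matrix.transpose_mul, Matrix.transpose_transpose, hAT]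
  have hTq : ∀ v : V → ℝ, v ⬝ᵥ T.mulVec v = v ⬝ᵥ A.mulVec v + B.mulVec v ⬝ᵥ B.mulVec v := by
    intro v
    rw [hT, Matrix.add_mulVec, dotProduct_add, ← Matrix.mulVec_mulVec, dotProduct_comm v (B.transpose.mulVec _),
      quad_transpose_dot]
  have hT0 : ∀ v : V → ℝ, 0 ≤ v ⬝ᵥ T.mulVec v := by
    intro v
    rw [hTq]
    exact add_nonneg (qf_nonneg A hA v) (Finset.sum_nonneg fun i _ => mul_self_nonneg _)
  have hval : ∀ (y : O → ℝ) (v : V → ℝ), v ⬝ᵥ A.mulVec v + ∑ o, (B.mulVec v o - y o) ^ 2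
      = v ⬝ᵥ T.mulVec v - 2 * (v ⬝ᵥ B.transpose.mulVec y) + y ⬝ᵥ y := by
    intro y v
    have e : ∑ o, (B.mulVec v o - y o) ^ 2 = (B.mulVec v - y) ⬝ᵥ (B.mulVec v - y) := by
      simp only [dotProduct, Pi.sub_apply, sq]
    rw [e, hTq, dotProduct_comm v (B.transpose.mulVec y), quad_transpose_dot, sub_dotProduct, dotProduct_sub,
      dotProduct_sub, dotProduct_comm (B.mulVec v) y]
    ring
  have hobs : ∀ y : O → ℝ, obsE A B y = y ⬝ᵥ y - y ⬝ᵥ (B * G).mulVec y := by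
    intro y
    obtain ⟨w, hw⟩ : ∃ w : V → ℝ, w = G.mulVec y := ⟨_, rfl⟩
    have hTw : T.mulVec w = B.transpose.mulVec y := by rw [hw, Matrix.mulVec_mulVec, hG]
    have hyw : y ⬝ᵥ (B * G).mulVec y = w ⬝ᵥ T.mulVec w := by
      rw [← Matrix.mulVec_mulVec, ← hw, hTw, dotProduct_comm w, quad_transpose_dot]
    rw [hyw]
    refine le_antisymm ?_ (le_ciInf fun v => ?_)
    · refine (obsE_le A hA B y w).trans (le_of_eq ?_)
      rw [hval, ← hTw]
      ring
    · rw [hval, ← hTw]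
      have h1 := hT0 (v - w)
      have h2 : w ⬝ᵥ T.mulVec v = v ⬝ᵥ T.mulVec w := by
        rw [← quad_transpose_dot, hTT, dotProduct_comm]
      rw [Matrix.mulVec_sub, sub_dotProduct, dotProduct_sub, dotProduct_sub, h2] at h1
      linarith
  obtain ⟨M, hM⟩ : ∃ M : Matrix O O ℝ, M = 1 - (1 / 2 : ℝ) • (B * G + (B * G).transpose) := ⟨_, rfl⟩
  have hMq : ∀ y : O → ℝ, qf M y = y ⬝ᵥ y - y ⬝ᵥ (B * G).mulVec y := by
    intro y
    have e : y ⬝ᵥ (B * G).transpose.mulVec y = y ⬝ᵥ (B * G).mulVec y := by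
      rw [dotProduct_comm, quad_transpose_dot]
    rw [qf, hM, Matrix.sub_mulVec, Matrix.one_mulVec, Matrix.smul_mulVec, Matrix.add_mulVec, dotProduct_sub,
      dotProduct_smul, dotProduct_add, e, smul_eq_mul]
    ring
  have hMo : ∀ y, obsE A B y = qf M y := fun y => by rw [hobs, hMq]
  refine ⟨M, Matrix.PosSemidef.of_dotProduct_mulVec_nonneg ?_ fun y => ?_, hMo, fun y => ?_⟩
  · rw [Matrix.IsHermitian, Matrix.conjTranspose_eq_transpose_of_trivial, hM]
    simp only [Matrix.transpose_sub, Matrix.transpose_one, Matrix.transpose_smul, Matrix.transpose_add,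
      Matrix.transpose_transpose, add_comm]
  · have h1 := obsE_nonneg A hA B y
    rw [hMo, qf] at h1
    simpa only [star_trivial] using h1
  · rw [← hMo]
    refine (obsE_le A hA B y 0).trans (le_of_eq ?_)
    simp [dotProduct, sq]

theorem obsE_mono (A A' : Matrix V V ℝ) (hA : A.PosSemidef) (hAA : (A' - A).PosSemidef) (B : Matrix O V ℝ) (y : O → ℝ) :
    obsE A B y ≤ obsE A' B y := by
  refine le_ciInf fun v => (obsE_le A hA B y v).trans ?_
  have h := qf_nonneg _ hAA v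
  rw [qf, Matrix.sub_mulVec, dotProduct_sub] at h
  linarith

/-- used in (9.24): `E^{(k)} ≥ min (1, a'/k) E^{(a')}` -/
theorem obsE_scale (A : Matrix V V ℝ) (hA : A.PosSemidef) (B : Matrix O V ℝ) (c : ℝ) (hc0 : 0 ≤ c) (hc1 : c ≤ 1)
    (y : O → ℝ) : c * obsE A B y ≤ obsE (c • A) B y := by
  refine le_ciInf fun v => (mul_le_mul_of_nonneg_left (obsE_le A hA B y v) hc0).trans ?_
  have h : 0 ≤ ∑ o, (B.mulVec v o - y o) ^ 2 := Finset.sum_nonneg fun o _ => sq_nonneg _
  rw [Matrix.smul_mulVec, dotProduct_smul, smul_eq_mul, mul_add]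
  nlinarith

/-- **(9.15)** in Cameron coordinates: `ζ = C x`, `‖ζ‖² = ⟨x, C x⟩`; hypothesis `A^{1/2} C A^{1/2} ≤ 1` in the form `C A C ≤ C` -/
theorem obsE_contr (A C : Matrix V V ℝ) (hA : A.PosSemidef)
    (hAC : ∀ x : V → ℝ, (C.mulVec x) ⬝ᵥ A.mulVec (C.mulVec x) ≤ x ⬝ᵥ C.mulVec x)
    (B : Matrix O V ℝ) (x : V → ℝ) (e : O → ℝ) :
    obsE A B (B.mulVec (C.mulVec x) + e) ≤ x ⬝ᵥ C.mulVec x + e ⬝ᵥ e := by
  refine (obsE_le A hA B _ (C.mulVec x)).trans (add_le_add (hAC x) (le_of_eq ?_))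
  simp only [Pi.add_apply, sub_add_cancel_left, dotProduct, sq, neg_mul_neg]

/-- fewer bonds and fewer observation rows: smaller energy (monotonicity in the support) -/
theorem obsE_restrict {O' : Type} [Fintype O'] (A A' : Matrix V V ℝ) (hA : A.PosSemidef) (hAA : (A' - A).PosSemidef)
    (B' : Matrix O' V ℝ) (i : O → O') (hi : Function.Injective i) (y' : O' → ℝ) :
    obsE A (B'.submatrix i id) (y' ∘ i) ≤ obsE A' B' y' := by
  refine le_ciInf fun v => (obsE_le A hA _ _ v).trans ?_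
  have h := qf_nonneg _ hAA v
  rw [qf, Matrix.sub_mulVec, dotProduct_sub] at h
  have h2 : ∑ o, ((B'.submatrix i id).mulVec v o - (y' ∘ i) o) ^ 2 ≤ ∑ o', (B'.mulVec v o' - y' o') ^ 2 := by
    have e : ∑ o, ((B'.submatrix i id).mulVec v o - (y' ∘ i) o) ^ 2
        = ∑ o' ∈ Finset.univ.map ⟨i, hi⟩, (B'.mulVec v o' - y' o') ^ 2 := by
      rw [Finset.sum_map]
      rfl
    rw [e]
    exact Finset.sum_le_univ_sum_of_nonneg fun o' => sq_nonneg _
  linarith

end

end Claimed.Agent.R285.Entry
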