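import Claimed.Agent.R285.Entry.Defs

/-!
# ROW 285, Entry toolkit, leaf L-B9-GROT: rotation invariance of the standard Gaussian, and Gaussian measures as images
PLAN: characteristic functions (`Measure.ext_of_charFun` on `EuclideanSpace`/`Ξ → ℝ`, `charFun_gaussianReal`, product measure: `charFun` of `Measure.pi` = product), or densities: `stdG` has the density
`(2π)^{-n/2} exp (-|ξ|²/2)` against `volume` and `U.mulVec` preserves `volume` (`|det U| = 1`: `Real.map_matrix_volume_pi_eq_smul_volume_pi`) and `|ξ|²`.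
-/

set_option autoImplicit false

namespace Claimed.Agent.R285.Entry

open scoped BigOperators ENNReal NNReal
open MeasureTheory ProbabilityTheory

noncomputable section

variable {Ξ : Type} [Fintype Ξ]

instance stdG_isProb : IsProbabilityMeasure (stdG Ξ) := by
  unfold stdG; infer_instance

/-- an orthogonal matrix as a linear isometry of the Euclidean space -/
def grotIso [DecidableEq Ξ] (U : Matrix Ξ Ξ ℝ) (hU : U * U.transpose = 1) :
    EuclideanSpace ℝ Ξ ≃ₗᵢ[ℝ] EuclideanSpace ℝ Ξ :=
  LinearIsometry.toLinearIsometryEquiv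
    { toLinearMap := Matrix.toEuclideanLin U
      norm_map' := by
        intro x
        have hU' : U.transpose * U = 1 := mul_eq_one_comm.1 hU
        have h : ‖Matrix.toEuclideanLin U x‖ ^ 2 = ‖x‖ ^ 2 := by
          rw [EuclideanSpace.real_norm_sq_eq, EuclideanSpace.real_norm_sq_eq]
          have h1 : ∑ i, (Matrix.toEuclideanLin U x) i ^ 2 = U.mulVec x.ofLp ⬝ᵥ U.mulVec x.ofLp := by
            simp [dotProduct, sq, Matrix.toEuclideanLin_apply]
          have h2 : ∑ i, x i ^ 2 = x.ofLp ⬝ᵥ x.ofLp := by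
            simp [dotProduct, sq]
          rw [h1, h2, Matrix.dotProduct_mulVec, ← Matrix.mulVec_transpose, Matrix.mulVec_mulVec, hU',
            Matrix.one_mulVec]
        exact (sq_eq_sq₀ (norm_nonneg _) (norm_nonneg _)).1 h } rfl

theorem grotIso_apply [DecidableEq Ξ] (U : Matrix Ξ Ξ ℝ) (hU : U * U.transpose = 1) (x : Ξ → ℝ) :
    grotIso U hU (WithLp.toLp 2 x) = WithLp.toLp 2 (U.mulVec x) := by
  simp [grotIso, Matrix.toEuclideanLin_apply]

/-- rotation invariance of the standard Gaussian -/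
theorem stdG_map_orthogonal [DecidableEq Ξ] (U : Matrix Ξ Ξ ℝ) (hU : U * U.transpose = 1) :
    (stdG Ξ).map U.mulVec = stdG Ξ := by
  have hm : Measurable (U.mulVec : (Ξ → ℝ) → Ξ → ℝ) :=
    (Matrix.mulVecLin U).continuous_of_finiteDimensional.measurable
  have hL : Measurable (WithLp.toLp 2 : (Ξ → ℝ) → EuclideanSpace ℝ Ξ) :=
    (MeasurableEquiv.toLp 2 (Ξ → ℝ)).measurable
  refine (MeasurableEquiv.toLp 2 (Ξ → ℝ)).map_measurableEquiv_injective ?_
  rw [MeasurableEquiv.coe_toLp, Measure.map_map hL hm]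
  have e : (WithLp.toLp 2 : (Ξ → ℝ) → EuclideanSpace ℝ Ξ) ∘ U.mulVec
      = (grotIso U hU) ∘ (WithLp.toLp 2 : (Ξ → ℝ) → EuclideanSpace ℝ Ξ) := by
    funext x
    simp only [Function.comp_apply, grotIso_apply]
  rw [e, ← Measure.map_map (grotIso U hU).continuous.measurable hL, stdG, map_pi_eq_stdGaussian,
    stdGaussian_map]

end

end Claimed.Agent.R285.Entry
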