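import Claimed.Agent.R285.Entry.Defs

/-!
# ROW 285, Entry toolkit, leaf L-B9-QUAD: elementary facts on quadratic forms
`qf_triangle`: Cauchy-Schwarz for the positive semidefinite bilinear form `(y, y') ↦ y ⬝ᵥ M y'` (discriminant of `t ↦ qf M (y + t y') ≥ 0`).
`qf_null`: `qf M g = 0 → M g = 0` (same Cauchy-Schwarz).   `trace_eq_integral`: `E ξ_i ξ_j = δ_ij` under the product measure.
`exists_preimage_le`: orthogonal decomposition `ξ = Lᵀ u + κ`, `L κ = 0`; take `ξ' = L'ᵀ u`.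
-/

set_option autoImplicit false

namespace Claimed.Agent.R285.Entry

open scoped BigOperators ENNReal NNReal
open MeasureTheory ProbabilityTheory

noncomputable section

variable {O Ξ Ξ' : Type} [Fintype O] [Fintype Ξ] [Fintype Ξ']

theorem qf_nonneg (M : Matrix O O ℝ) (hM : M.PosSemidef) (y : O → ℝ) : 0 ≤ qf M y := by
  have h := hM.dotProduct_mulVec_nonneg y
  simpa [qf] using h

/-- symmetry of the bilinear form -/
theorem qf_bil_symm (M : Matrix O O ℝ) (hM : M.PosSemidef) (y y' : O → ℝ) :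
    y' ⬝ᵥ M.mulVec y = y ⬝ᵥ M.mulVec y' := by
  have hT : M.transpose = M := by
    have := hM.isHermitian
    rwa [Matrix.IsHermitian, Matrix.conjTranspose_eq_transpose_of_trivial] at this
  rw [Matrix.dotProduct_mulVec, ← Matrix.mulVec_transpose, hT, dotProduct_comm]

theorem qf_add_smul (M : Matrix O O ℝ) (hM : M.PosSemidef) (y y' : O → ℝ) (t : ℝ) :
    qf M (y + t • y') = qf M y + 2 * t * (y ⬝ᵥ M.mulVec y') + t ^ 2 * qf M y' := by
  simp only [qf, Matrix.mulVec_add, Matrix.mulVec_smul, add_dotProduct, dotProduct_add,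
    smul_dotProduct, dotProduct_smul, smul_eq_mul, qf_bil_symm M hM y y']
  ring

theorem qf_add (M : Matrix O O ℝ) (hM : M.PosSemidef) (y y' : O → ℝ) :
    qf M (y + y') = qf M y + 2 * (y ⬝ᵥ M.mulVec y') + qf M y' := by
  have h := qf_add_smul M hM y y' 1
  simpa using h

/-- Cauchy-Schwarz -/
theorem qf_bil_sq_le (M : Matrix O O ℝ) (hM : M.PosSemidef) (y y' : O → ℝ) :
    (y ⬝ᵥ M.mulVec y') ^ 2 ≤ qf M y * qf M y' := by
  have h : ∀ t : ℝ, 0 ≤ qf M y' * (t * t) + 2 * (y ⬝ᵥ M.mulVec y') * t + qf M y := by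
    intro t
    have := qf_nonneg M hM (y + t • y')
    rw [qf_add_smul M hM] at this
    nlinarith
  have hd := discrim_le_zero h
  rw [discrim] at hd
  nlinarith

/-- `√(qf M)` is a seminorm -/
theorem qf_triangle (M : Matrix O O ℝ) (hM : M.PosSemidef) (y y' : O → ℝ) :
    Real.sqrt (qf M (y + y')) ≤ Real.sqrt (qf M y) + Real.sqrt (qf M y') := by
  have ha := qf_nonneg M hM y
  have hb := qf_nonneg M hM y'
  rw [Real.sqrt_le_iff]
  refine ⟨by positivity, ?_⟩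
  have h1 : y ⬝ᵥ M.mulVec y' ≤ Real.sqrt (qf M y) * Real.sqrt (qf M y') := by
    rw [← Real.sqrt_mul ha]
    exact Real.le_sqrt_of_sq_le (qf_bil_sq_le M hM y y')
  rw [qf_add M hM, add_sq, Real.sq_sqrt ha, Real.sq_sqrt hb]
  linarith

/-- weighted form: `(a + b)² ≤ (1 + ε) a² + (1 + ε⁻¹) b²` -/
theorem qf_add_le (M : Matrix O O ℝ) (hM : M.PosSemidef) (ε : ℝ) (hε : 0 < ε) (y y' : O → ℝ) :
    qf M (y + y') ≤ (1 + ε) * qf M y + (1 + ε⁻¹) * qf M y' := by
  have h := qf_nonneg M hM (y + (-ε⁻¹) • y')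
  rw [qf_add_smul M hM] at h
  rw [qf_add M hM]
  have h2 : 0 ≤ ε * (qf M y + 2 * -ε⁻¹ * (y ⬝ᵥ M.mulVec y') + (-ε⁻¹) ^ 2 * qf M y') :=
    mul_nonneg hε.le h
  have h3 : ε * (qf M y + 2 * -ε⁻¹ * (y ⬝ᵥ M.mulVec y') + (-ε⁻¹) ^ 2 * qf M y')
      = ε * qf M y - 2 * (y ⬝ᵥ M.mulVec y') + ε⁻¹ * qf M y' := by
    field_simp
    ring
  rw [h3] at h2
  linarith

theorem qf_null (M : Matrix O O ℝ) (hM : M.PosSemidef) (g : O → ℝ) (hg : qf M g = 0) (y : O → ℝ) :
    qf M (y + g) = qf M y := by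
  have h := qf_bil_sq_le M hM y g
  rw [hg, mul_zero] at h
  have h0 : y ⬝ᵥ M.mulVec g = 0 := by
    have := sq_nonneg (y ⬝ᵥ M.mulVec g)
    exact pow_eq_zero_iff (two_ne_zero) |>.1 (le_antisymm h this)
  rw [qf_add M hM, h0, hg]
  ring

theorem quad_integral_sq : ∫ t : ℝ, t ^ 2 ∂(gaussianReal 0 1) = 1 := by
  have h := variance_fun_id_gaussianReal (μ := 0) (v := 1)
  rw [variance_eq_integral measurable_id'.aemeasurable] at h
  simpa using h

/-- `E ξ_i ξ_j = δ_ij` -/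
theorem quad_integral_mul [DecidableEq Ξ] (i j : Ξ) :
    ∫ ξ : Ξ → ℝ, ξ i * ξ j ∂(stdG Ξ) = if i = j then 1 else 0 := by
  have e : ∀ ξ : Ξ → ℝ, ξ i * ξ j
      = ∏ k, ((if k = i then ξ k else 1) * (if k = j then ξ k else 1)) := by
    intro ξ
    rw [Finset.prod_mul_distrib, Finset.prod_ite_eq' Finset.univ i, Finset.prod_ite_eq' Finset.univ j]
    simp
  simp only [e, stdG]
  rw [integral_fintype_prod_eq_prod
    (f := fun k (t : ℝ) => (if k = i then t else 1) * (if k = j then t else 1))]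
  split_ifs with hij
  · subst hij
    refine Finset.prod_eq_one fun k _ => ?_
    by_cases hk : k = i
    · simp only [hk, if_true, ← sq]
      exact quad_integral_sq
    · simp [hk]
  · refine Finset.prod_eq_zero (Finset.mem_univ i) ?_
    simp [hij]

theorem quad_integrable_mul (i j : Ξ) : Integrable (fun ξ : Ξ → ℝ => ξ i * ξ j) (stdG Ξ) := by
  have h : ∀ k : Ξ, MemLp (fun ξ : Ξ → ℝ => ξ k) 2 (stdG Ξ) := by
    intro k
    have h1 : MemLp (id : ℝ → ℝ) 2 (gaussianReal 0 1) := memLp_id_gaussianReal 2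
    have h2 := (measurePreserving_eval (fun _ : Ξ => gaussianReal 0 1) k)
    exact h1.comp_measurePreserving h2
  exact (h i).integrable_mul (h j)

theorem quad_transpose_dot (A : Matrix O Ξ ℝ) (u : O → ℝ) (w : Ξ → ℝ) :
    A.transpose.mulVec u ⬝ᵥ w = u ⬝ᵥ A.mulVec w := by
  rw [Matrix.mulVec_transpose, ← Matrix.dotProduct_mulVec]

theorem quad_integral_form (S : Matrix Ξ Ξ ℝ) :
    ∫ ξ : Ξ → ℝ, ξ ⬝ᵥ S.mulVec ξ ∂(stdG Ξ) = S.trace := by
  classical
  have e : ∀ ξ : Ξ → ℝ, ξ ⬝ᵥ S.mulVec ξ = ∑ i, ∑ j, S i j * (ξ i * ξ j) := by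
    intro ξ
    simp only [dotProduct, Matrix.mulVec, Finset.mul_sum]
    refine Finset.sum_congr rfl fun i _ => Finset.sum_congr rfl fun j _ => ?_
    ring
  have hi : ∀ i j : Ξ, Integrable (fun ξ : Ξ → ℝ => S i j * (ξ i * ξ j)) (stdG Ξ) :=
    fun i j => (quad_integrable_mul i j).const_mul _
  have hi2 : ∀ i : Ξ, Integrable (fun ξ : Ξ → ℝ => ∑ j, S i j * (ξ i * ξ j)) (stdG Ξ) :=
    fun i => integrable_finsetSum _ fun j _ => hi i j
  simp only [e]
  rw [integral_finsetSum _ fun i _ => hi2 i]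
  simp only [Matrix.trace, Matrix.diag]
  refine Finset.sum_congr rfl fun i _ => ?_
  rw [integral_finsetSum _ fun j _ => hi i j]
  simp only [integral_const_mul, quad_integral_mul]
  simp

/-- the trace is the expectation of the form -/
theorem trace_eq_integral (Q : Matrix O O ℝ) (Lm : Matrix O Ξ ℝ) :
    (Lm.transpose * Q * Lm).trace = ∫ ξ, qf Q (Lm.mulVec ξ) ∂(stdG Ξ) := by
  rw [← quad_integral_form]
  refine integral_congr_ae (ae_of_all _ fun ξ => ?_)
  simp only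
  rw [qf, ← Matrix.mulVec_mulVec, ← Matrix.mulVec_mulVec, dotProduct_comm ξ, quad_transpose_dot,
    dotProduct_comm]

/-- the Cameron norm depends only on `L Lᵀ` -/
theorem exists_preimage_le (Lm : Matrix O Ξ ℝ) (Lm' : Matrix O Ξ' ℝ) (h : Lm * Lm.transpose = Lm' * Lm'.transpose)
    (ξ : Ξ → ℝ) : ∃ ξ' : Ξ' → ℝ, Lm'.mulVec ξ' = Lm.mulVec ξ ∧ ξ' ⬝ᵥ ξ' ≤ ξ ⬝ᵥ ξ := by
  classical
  have hle : LinearMap.range (Lm * Lm.transpose).mulVecLin ≤ LinearMap.range Lm.mulVecLin := by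
    rw [Matrix.mulVecLin_mul]
    exact LinearMap.range_comp_le_range _ _
  have hrk : Module.finrank ℝ (LinearMap.range (Lm * Lm.transpose).mulVecLin)
      = Module.finrank ℝ (LinearMap.range Lm.mulVecLin) := Matrix.rank_self_mul_transpose Lm
  have heq := Submodule.eq_of_le_of_finrank_eq hle hrk
  have hmem : Lm.mulVec ξ ∈ LinearMap.range (Lm * Lm.transpose).mulVecLin := by
    rw [heq]
    exact ⟨ξ, rfl⟩
  obtain ⟨u, hu⟩ := hmem
  rw [Matrix.mulVecLin_apply] at hu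
  refine ⟨Lm'.transpose.mulVec u, ?_, ?_⟩
  · rw [Matrix.mulVec_mulVec, ← h, hu]
  · have h1 : Lm'.transpose.mulVec u ⬝ᵥ Lm'.transpose.mulVec u = u ⬝ᵥ Lm.mulVec ξ := by
      rw [quad_transpose_dot, Matrix.mulVec_mulVec, ← h, hu]
    have h2 : Lm.transpose.mulVec u ⬝ᵥ Lm.transpose.mulVec u = u ⬝ᵥ Lm.mulVec ξ := by
      rw [quad_transpose_dot, Matrix.mulVec_mulVec, hu]
    have h3 : Lm.transpose.mulVec u ⬝ᵥ ξ = u ⬝ᵥ Lm.mulVec ξ := quad_transpose_dot _ _ _
    have h4 : 0 ≤ (ξ - Lm.transpose.mulVec u) ⬝ᵥ (ξ - Lm.transpose.mulVec u) := by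
      rw [dotProduct]
      exact Finset.sum_nonneg fun i _ => mul_self_nonneg _
    rw [sub_dotProduct, dotProduct_sub, dotProduct_sub, h2, h3,
      dotProduct_comm ξ (Lm.transpose.mulVec u), h3] at h4
    rw [h1]
    linarith

end

end Claimed.Agent.R285.Entry
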