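import Claimed.Agent.R285.Entry.Gauss1
import Claimed.Agent.R285.Entry.GaussRot
import Claimed.Agent.R285.Entry.Quad

/-!
# ROW 285, Entry toolkit, leaf L-B9-GAUSS: the ONE Gaussian lemma behind [B] (9.17), (9.26), (9.27)

`S = Lᵀ Q L` is symmetric, `0 ≤ S ≤ 1 - δ`.  `qf Q (f + L ξ) = q + 2 ⟨b, ξ⟩ + ⟨ξ, S ξ⟩`, `q = qf Q f`, `b = Lᵀ Q f`.
PLAN: diagonalise `S = U D Uᵀ` (`Matrix.IsHermitian.spectral_theorem`); `stdG` is invariant under `U` (`stdG_map_orthogonal`); the integral factorises (`lintegral_fintype_prod_eq_prod` /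
`MeasureTheory.lintegral_finset_prod...` for `Measure.pi`) into `gauss_exp_quad_one`, `0 ≤ λ_i ≤ 1 - δ`; `-log (1 - λ) ≤ λ / (1 - λ) ≤ λ / δ`, i.e. `(1 - λ)^{-1/2} ≤ exp (λ / (2 δ))`;
`sup_ξ (q + 2⟨b, ξ⟩ - ⟨ξ, (1 - S) ξ⟩) ≥ q + ∑ β_i² / (1 - λ_i)`: evaluate at `ξ = U ((1 - λ_i)⁻¹ β_i)`; `le_ciSup` needs boundedness above: `2⟨b, ξ⟩ - δ |ξ|² ≤ |b|² / δ`.   Empty `Ξ` is fine.
-/

set_option autoImplicit false

namespace Claimed.Agent.R285.Entry

open scoped BigOperators ENNReal NNReal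
open MeasureTheory ProbabilityTheory

noncomputable section

variable {O Ξ : Type} [Fintype O] [Fintype Ξ]

/-- real spectral theorem in the shape used below -/
theorem gauss_spectral [DecidableEq Ξ] (S : Matrix Ξ Ξ ℝ) (hS : S.IsHermitian) :
    ∃ (U : Matrix Ξ Ξ ℝ) (lam : Ξ → ℝ), U * U.transpose = 1 ∧ U.transpose * U = 1 ∧
      U.transpose * S * U = Matrix.diagonal lam := by
  refine ⟨(hS.eigenvectorUnitary : Matrix Ξ Ξ ℝ), hS.eigenvalues, ?_, ?_, ?_⟩
  · have h := Unitary.coe_mul_star_self hS.eigenvectorUnitary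
    rwa [Unitary.coe_star, Matrix.star_eq_conjTranspose, Matrix.conjTranspose_eq_transpose_of_trivial] at h
  · have h := Unitary.coe_star_mul_self hS.eigenvectorUnitary
    rwa [Matrix.star_eq_conjTranspose, Matrix.conjTranspose_eq_transpose_of_trivial] at h
  · have h := hS.conjStarAlgAut_star_eigenvectorUnitary
    rw [Unitary.conjStarAlgAut_star_apply] at h
    rw [Matrix.star_eq_conjTranspose, Matrix.conjTranspose_eq_transpose_of_trivial] at h
    simpa using h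

/-- the diagonal Gaussian integral -/
theorem gauss_diag_lintegral (β lam : Ξ → ℝ) (hl : ∀ i, lam i < 1) :
    ∫⁻ η, ENNReal.ofReal (Real.exp (∑ i, (β i * η i + lam i * η i ^ 2 / 2))) ∂(stdG Ξ)
      = ENNReal.ofReal (∏ i, ((Real.sqrt (1 - lam i))⁻¹ * Real.exp (β i ^ 2 / (2 * (1 - lam i))))) := by
  have hint : Integrable (fun η : Ξ → ℝ => ∏ i, Real.exp (β i * η i + lam i * η i ^ 2 / 2)) (stdG Ξ) :=
    Integrable.fintype_prod (f := fun i t => Real.exp (β i * t + lam i * t ^ 2 / 2))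
      (fun i => gauss_exp_quad_one_integrable (β i) (lam i) (hl i))
  simp only [Real.exp_sum]
  rw [← ofReal_integral_eq_lintegral_ofReal hint (ae_of_all _ fun η => Finset.prod_nonneg fun i _ => (Real.exp_pos _).le)]
  congr 1
  rw [stdG, integral_fintype_prod_eq_prod (fun i t => Real.exp (β i * t + lam i * t ^ 2 / 2))]
  exact Finset.prod_congr rfl fun i _ => gauss_exp_quad_one (β i) (lam i) (hl i)

/-- `(1 - λ)^{-1/2} ≤ exp (λ / (2 δ))` for `0 ≤ λ ≤ 1 - δ` -/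
theorem gauss_inv_sqrt_le (lam δ : ℝ) (hδ : 0 < δ) (h0 : 0 ≤ lam) (h1 : lam ≤ 1 - δ) :
    (Real.sqrt (1 - lam))⁻¹ ≤ Real.exp (lam / (2 * δ)) := by
  have ha : 0 < 1 - lam := by linarith
  have h2 : (1 - lam)⁻¹ ≤ Real.exp (lam / δ) := by
    have h3 : (1 - lam)⁻¹ = 1 + lam / (1 - lam) := by field_simp; ring
    have h4 : lam / (1 - lam) ≤ lam / δ := div_le_div_of_nonneg_left h0 hδ (by linarith)
    have h5 := Real.add_one_le_exp (lam / δ)
    rw [h3]; linarith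
  have h6 : Real.exp (lam / δ) = Real.exp (lam / (2 * δ)) ^ 2 := by
    rw [← Real.exp_nat_mul]; congr 1; push_cast; field_simp
  rw [← Real.sqrt_inv]
  rw [Real.sqrt_le_left (Real.exp_pos _).le]
  rw [← h6]; exact h2

/-- **the Gaussian lemma**: exact completion of the square, `-log det (1 - S) ≤ δ⁻¹ tr S`. -/
theorem gauss_exp_quad_le (Q : Matrix O O ℝ) (hQ : Q.PosSemidef) (Lm : Matrix O Ξ ℝ) (δ : ℝ) (hδ : 0 < δ)
    (hc : ∀ ξ : Ξ → ℝ, qf Q (Lm.mulVec ξ) ≤ (1 - δ) * (ξ ⬝ᵥ ξ)) (f : O → ℝ) :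
    ∫⁻ ξ, ENNReal.ofReal (Real.exp (qf Q (f + Lm.mulVec ξ) / 2)) ∂(stdG Ξ)
      ≤ ENNReal.ofReal (Real.exp ((Lm.transpose * Q * Lm).trace / (2 * δ)
          + (1 / 2) * ⨆ ξ : Ξ → ℝ, (qf Q (f + Lm.mulVec ξ) - ξ ⬝ᵥ ξ))) := by
  classical
  have hQT : Q.transpose = Q := by
    have := hQ.isHermitian
    rwa [Matrix.IsHermitian, Matrix.conjTranspose_eq_transpose_of_trivial] at this
  obtain ⟨S, hSdef⟩ : ∃ S : Matrix Ξ Ξ ℝ, S = Lm.transpose * Q * Lm := ⟨_, rfl⟩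
  have hSH : S.IsHermitian := by
    rw [Matrix.IsHermitian, Matrix.conjTranspose_eq_transpose_of_trivial, hSdef]
    simp only [Matrix.transpose_mul, Matrix.transpose_transpose, hQT, Matrix.mul_assoc]
  obtain ⟨U, lam, hU, hU', hD⟩ := gauss_spectral S hSH
  obtain ⟨β, hβ⟩ : ∃ β : Ξ → ℝ, β = U.transpose.mulVec (Lm.transpose.mulVec (Q.mulVec f)) := ⟨_, rfl⟩
  obtain ⟨q, hq⟩ : ∃ q : ℝ, q = qf Q f := ⟨_, rfl⟩
  have hquad : ∀ η : Ξ → ℝ, qf Q (Lm.mulVec (U.mulVec η)) = ∑ i, lam i * η i ^ 2 := by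
    intro η
    have h1 : qf Q (Lm.mulVec (U.mulVec η)) = η ⬝ᵥ (U.transpose * S * U).mulVec η := by
      rw [hSdef, qf, ← Matrix.mulVec_mulVec, ← Matrix.mulVec_mulVec, ← Matrix.mulVec_mulVec,
        ← Matrix.mulVec_mulVec, dotProduct_comm η, quad_transpose_dot, quad_transpose_dot, dotProduct_comm]
    rw [h1, hD]
    simp only [dotProduct, Matrix.mulVec_diagonal]
    exact Finset.sum_congr rfl fun i _ => by ring
  have hlin : ∀ η : Ξ → ℝ, f ⬝ᵥ Q.mulVec (Lm.mulVec (U.mulVec η)) = ∑ i, β i * η i := by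
    intro η
    rw [← quad_transpose_dot, ← quad_transpose_dot, ← quad_transpose_dot, hQT, ← hβ]
    rfl
  have hnorm : ∀ η : Ξ → ℝ, U.mulVec η ⬝ᵥ U.mulVec η = ∑ i, η i ^ 2 := by
    intro η
    rw [← quad_transpose_dot, Matrix.mulVec_mulVec, hU', Matrix.one_mulVec]
    simp only [dotProduct, sq]
  have key : ∀ η : Ξ → ℝ, qf Q (f + Lm.mulVec (U.mulVec η)) = q + ∑ i, (2 * (β i * η i) + lam i * η i ^ 2) := by
    intro η
    rw [qf_add Q hQ, hquad, hlin, Finset.sum_add_distrib, Finset.mul_sum, hq]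
    ring
  have hlam0 : ∀ i, 0 ≤ lam i := by
    intro i
    have h := qf_nonneg Q hQ (Lm.mulVec (U.mulVec (Pi.single i 1)))
    rw [hquad] at h
    simpa [Pi.single_apply] using h
  have hlam1 : ∀ i, lam i ≤ 1 - δ := by
    intro i
    have h := hc (U.mulVec (Pi.single i 1))
    rw [hquad, hnorm] at h
    simpa [Pi.single_apply] using h
  have hlt : ∀ i, lam i < 1 := fun i => by linarith [hlam1 i]
  have htr : S.trace = ∑ i, lam i := by
    have h1 : (U.transpose * S * U).trace = S.trace := by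
      rw [Matrix.trace_mul_comm, ← Matrix.mul_assoc, hU, Matrix.one_mul]
    rw [← h1, hD, Matrix.trace_diagonal]
  -- the integral
  have hmU : Measurable (U.mulVec : (Ξ → ℝ) → Ξ → ℝ) :=
    (Matrix.mulVecLin U).continuous_of_finiteDimensional.measurable
  have hmF : Measurable (fun ξ : Ξ → ℝ => ENNReal.ofReal (Real.exp (qf Q (f + Lm.mulVec ξ) / 2))) := by
    have h1 : Continuous fun ξ : Ξ → ℝ => f + Lm.mulVec ξ :=
      continuous_const.add (Matrix.mulVecLin Lm).continuous_of_finiteDimensional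
    have h2 : Continuous fun ξ : Ξ → ℝ => qf Q (f + Lm.mulVec ξ) := by
      unfold qf
      exact h1.dotProduct ((Matrix.mulVecLin Q).continuous_of_finiteDimensional.comp h1)
    exact (Real.continuous_exp.comp (h2.div_const 2)).measurable.ennreal_ofReal
  have hI : ∫⁻ ξ, ENNReal.ofReal (Real.exp (qf Q (f + Lm.mulVec ξ) / 2)) ∂(stdG Ξ)
      = ENNReal.ofReal (Real.exp (q / 2) * ∏ i, ((Real.sqrt (1 - lam i))⁻¹ * Real.exp (β i ^ 2 / (2 * (1 - lam i))))) := by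
    conv_lhs => rw [← stdG_map_orthogonal U hU]
    rw [lintegral_map hmF hmU]
    have e : ∀ η : Ξ → ℝ, ENNReal.ofReal (Real.exp (qf Q (f + Lm.mulVec (U.mulVec η)) / 2))
        = ENNReal.ofReal (Real.exp (q / 2)) * ENNReal.ofReal (Real.exp (∑ i, (β i * η i + lam i * η i ^ 2 / 2))) := by
      intro η
      rw [← ENNReal.ofReal_mul (Real.exp_pos _).le, ← Real.exp_add, key]
      congr 2
      rw [add_div, Finset.sum_div]
      congr 1
      exact Finset.sum_congr rfl fun i _ => by ring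
    simp only [e]
    rw [lintegral_const_mul' _ _ ENNReal.ofReal_ne_top, gauss_diag_lintegral β lam hlt,
      ← ENNReal.ofReal_mul (Real.exp_pos _).le]
  -- the supremum
  have hbdd : BddAbove (Set.range fun ξ : Ξ → ℝ => qf Q (f + Lm.mulVec ξ) - ξ ⬝ᵥ ξ) := by
    refine ⟨q + ∑ i, β i ^ 2 / (1 - lam i), ?_⟩
    rintro _ ⟨ξ, rfl⟩
    have hξ : U.mulVec (U.transpose.mulVec ξ) = ξ := by
      rw [Matrix.mulVec_mulVec, hU, Matrix.one_mulVec]
    obtain ⟨η, hη⟩ : ∃ η : Ξ → ℝ, η = U.transpose.mulVec ξ := ⟨_, rfl⟩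
    rw [← hη] at hξ
    simp only
    rw [← hξ, key, hnorm, add_sub_assoc, ← Finset.sum_sub_distrib]
    refine add_le_add le_rfl (Finset.sum_le_sum fun i _ => ?_)
    have ha : 0 < 1 - lam i := by linarith [hlt i]
    rw [le_div_iff₀ ha]
    nlinarith [sq_nonneg (β i - (1 - lam i) * η i)]
  have hsup : q + ∑ i, β i ^ 2 / (1 - lam i) ≤ ⨆ ξ : Ξ → ℝ, (qf Q (f + Lm.mulVec ξ) - ξ ⬝ᵥ ξ) := by
    refine le_trans (le_of_eq ?_) (le_ciSup hbdd (U.mulVec fun i => β i / (1 - lam i)))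
    rw [key, hnorm, add_sub_assoc, ← Finset.sum_sub_distrib]
    congr 1
    refine Finset.sum_congr rfl fun i _ => ?_
    have : 1 - lam i ≠ 0 := by linarith [hlt i]
    field_simp
    ring
  rw [hI, ← hSdef, htr]
  refine ENNReal.ofReal_le_ofReal ?_
  rw [Finset.prod_mul_distrib, ← Real.exp_sum]
  have hP : ∏ i, (Real.sqrt (1 - lam i))⁻¹ ≤ Real.exp ((∑ i, lam i) / (2 * δ)) := by
    rw [Finset.sum_div, Real.exp_sum]
    exact Finset.prod_le_prod (fun i _ => by positivity) fun i _ => gauss_inv_sqrt_le _ _ hδ (hlam0 i) (hlam1 i)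
  have hP0 : 0 ≤ ∏ i, (Real.sqrt (1 - lam i))⁻¹ := Finset.prod_nonneg fun i _ => by positivity
  calc Real.exp (q / 2) * ((∏ i, (Real.sqrt (1 - lam i))⁻¹) * Real.exp (∑ i, β i ^ 2 / (2 * (1 - lam i))))
      = (∏ i, (Real.sqrt (1 - lam i))⁻¹) * Real.exp ((1 / 2) * (q + ∑ i, β i ^ 2 / (1 - lam i))) := by
        rw [mul_left_comm, ← Real.exp_add]
        congr 2
        rw [mul_add, Finset.mul_sum]
        congr 1
        · ring
        · refine Finset.sum_congr rfl fun i _ => ?_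
          have : 1 - lam i ≠ 0 := by linarith [hlt i]
          field_simp
    _ ≤ Real.exp ((∑ i, lam i) / (2 * δ)) * Real.exp ((1 / 2) * ⨆ ξ : Ξ → ℝ, (qf Q (f + Lm.mulVec ξ) - ξ ⬝ᵥ ξ)) := by
        refine mul_le_mul hP (Real.exp_le_exp.2 (by linarith)) (Real.exp_pos _).le (Real.exp_pos _).le
    _ = _ := by rw [← Real.exp_add]

end

end Claimed.Agent.R285.Entry
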