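import Claimed.Agent.R285.Entry.VregA
import Claimed.Agent.R285.Entry.Gauss

/-!
# ROW 285, Entry toolkit, leaf L-B9-VREG-B: Gaussian averages of the regulator: [B] (9.17) + determinant bound, (9.26)-(9.27)
* `vreg_quadratic`: `2 V_L` is a positive semidefinite quadratic form.  PLAN: `S = h Lᵀ M L`, `p₁⁻¹ - S ≥ (p₁⁻¹ - h) > 0` is invertible; `H = h M + h² M L (p₁⁻¹ - S)⁻¹ Lᵀ M`; completion of the square.
  (Alternative: a function `q ≥ 0` with `q (t f) = t² q (f)` and the parallelogram law is a quadratic form; the parallelogram law for partial suprema of concave-in-`ξ` quadratic forms is not shorter.)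
* `vreg_compose`: `gauss_exp_quad_le` with `Q = p₁ H`, `L = T`, `δ = 1 - p₁ h_*` (`vreg_shell_le`), `vreg_iterate` for the supremum, `trace_eq_integral` + `vreg_bounds` for the trace.
* `vreg_average`: `gauss_exp_quad_le` with `δ = 1 - h₁`; if `h₁ < 0` then `qf Q = 0`.
-/

set_option autoImplicit false

namespace Claimed.Agent.R285.Entry

open scoped BigOperators ENNReal NNReal
open MeasureTheory ProbabilityTheory

noncomputable section

variable {O Ξ Ξ' : Type} [Fintype O] [Fintype Ξ] [Fintype Ξ']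
variable {M : Matrix O O ℝ} {Lm : Matrix O Ξ ℝ} {hs p1 : ℝ}

omit [Fintype O] in
theorem vreg_psd_transpose {Q : Matrix O O ℝ} (hQ : Q.PosSemidef) : Q.transpose = Q := by
  have := hQ.isHermitian
  rwa [Matrix.IsHermitian, Matrix.conjTranspose_eq_transpose_of_trivial] at this

/-- pull-back of a form -/
theorem vreg_qf_pull (Q : Matrix O O ℝ) (T : Matrix O Ξ ℝ) (ξ : Ξ → ℝ) :
    qf Q (T.mulVec ξ) = ξ ⬝ᵥ (T.transpose * Q * T).mulVec ξ := by
  rw [qf, ← Matrix.mulVec_mulVec, ← Matrix.mulVec_mulVec, dotProduct_comm ξ, quad_transpose_dot,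
    dotProduct_comm]

/-- the trace as a sum over the coordinate vectors -/
theorem vreg_trace_eq_sum [DecidableEq Ξ] (Q : Matrix O O ℝ) (T : Matrix O Ξ ℝ) :
    (T.transpose * Q * T).trace = ∑ j, qf Q (T.mulVec (Pi.single j 1)) := by
  simp only [Matrix.trace, Matrix.diag]
  refine Finset.sum_congr rfl fun j _ => ?_
  rw [vreg_qf_pull, Matrix.mulVec_single_one, single_one_dotProduct, Matrix.col_apply]

/-- completion of the square for a coercive symmetric matrix -/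
theorem vreg_complete_square [DecidableEq Ξ] (A : Matrix Ξ Ξ ℝ) (hAT : A.transpose = A) (c : ℝ) (hc : 0 < c)
    (hA : ∀ ξ : Ξ → ℝ, c * (ξ ⬝ᵥ ξ) ≤ ξ ⬝ᵥ A.mulVec ξ) :
    A⁻¹.transpose = A⁻¹ ∧ ∀ b : Ξ → ℝ, (∀ ξ : Ξ → ℝ, 2 * (b ⬝ᵥ ξ) - ξ ⬝ᵥ A.mulVec ξ ≤ b ⬝ᵥ A⁻¹.mulVec b) ∧
      2 * (b ⬝ᵥ A⁻¹.mulVec b) - A⁻¹.mulVec b ⬝ᵥ A.mulVec (A⁻¹.mulVec b) = b ⬝ᵥ A⁻¹.mulVec b := by
  have hinj : Function.Injective A.mulVec := by
    intro x y hxy
    have h0 : A.mulVec (x - y) = 0 := by rw [Matrix.mulVec_sub, hxy, sub_self]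
    have h1 := hA (x - y)
    rw [h0, dotProduct_zero] at h1
    have h2 : (x - y) ⬝ᵥ (x - y) = 0 := le_antisymm (by nlinarith [vreg_dot_nonneg (x - y)]) (vreg_dot_nonneg _)
    have h3 : x - y = 0 := dotProduct_self_eq_zero.1 h2
    exact sub_eq_zero.1 h3
  have hunit : IsUnit A := Matrix.mulVec_injective_iff_isUnit.1 hinj
  have hAA : A * A⁻¹ = 1 := Matrix.mul_nonsing_inv A ((Matrix.isUnit_iff_isUnit_det A).1 hunit)
  refine ⟨by rw [Matrix.transpose_nonsing_inv, hAT], fun b => ?_⟩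
  obtain ⟨w, hw⟩ : ∃ w : Ξ → ℝ, w = A⁻¹.mulVec b := ⟨_, rfl⟩
  have hAw : A.mulVec w = b := by rw [hw, Matrix.mulVec_mulVec, hAA, Matrix.one_mulVec]
  rw [← hw]
  refine ⟨fun ξ => ?_, ?_⟩
  · have h1 := hA (ξ - w)
    have h2 : 0 ≤ (ξ - w) ⬝ᵥ A.mulVec (ξ - w) := le_trans (mul_nonneg hc.le (vreg_dot_nonneg _)) h1
    have h3 : w ⬝ᵥ A.mulVec ξ = b ⬝ᵥ ξ := by
      rw [← quad_transpose_dot, hAT, hAw]
    rw [Matrix.mulVec_sub, hAw, sub_dotProduct, dotProduct_sub, dotProduct_sub, h3, dotProduct_comm ξ b,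
      dotProduct_comm w b] at h2
    linarith
  · rw [hAw, dotProduct_comm w b]
    ring

theorem vreg_quadratic (h : VHyp M Lm hs p1) : ∃ H : Matrix O O ℝ, H.PosSemidef ∧ ∀ f, 2 * Vreg M Lm hs p1 f = qf H f := by
  classical
  have hp : 0 < p1 := by linarith [h.p1_gt]
  have hMT := vreg_psd_transpose h.psd
  obtain ⟨A, hAdef⟩ : ∃ A : Matrix Ξ Ξ ℝ, A = p1⁻¹ • (1 : Matrix Ξ Ξ ℝ) - hs • (Lm.transpose * M * Lm) := ⟨_, rfl⟩
  have hAT : A.transpose = A := by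
    rw [hAdef]
    simp only [Matrix.transpose_sub, Matrix.transpose_smul, Matrix.transpose_one, Matrix.transpose_mul,
      Matrix.transpose_transpose, hMT, Matrix.mul_assoc]
  have hAq : ∀ ξ : Ξ → ℝ, ξ ⬝ᵥ A.mulVec ξ = p1⁻¹ * (ξ ⬝ᵥ ξ) - hs * qf M (Lm.mulVec ξ) := by
    intro ξ
    rw [vreg_qf_pull, hAdef, Matrix.sub_mulVec, Matrix.smul_mulVec, Matrix.smul_mulVec, Matrix.one_mulVec,
      dotProduct_sub, dotProduct_smul, dotProduct_smul, smul_eq_mul, smul_eq_mul]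
  have hc : 0 < p1⁻¹ - hs := by
    rw [sub_pos, lt_inv_comm₀ h.hs_pos hp, ← one_div, lt_div_iff₀ h.hs_pos]
    exact h.margin
  have hA : ∀ ξ : Ξ → ℝ, (p1⁻¹ - hs) * (ξ ⬝ᵥ ξ) ≤ ξ ⬝ᵥ A.mulVec ξ := by
    intro ξ
    rw [hAq]
    have := mul_le_mul_of_nonneg_left (h.contr ξ) h.hs_pos.le
    linarith
  obtain ⟨hAiT, hsq⟩ := vreg_complete_square A hAT _ hc hA
  obtain ⟨H, hH⟩ : ∃ H : Matrix O O ℝ, H = hs • M + hs ^ 2 • (M * Lm * A⁻¹ * Lm.transpose * M) := ⟨_, rfl⟩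
  have hHT : H.transpose = H := by
    rw [hH]
    simp only [Matrix.transpose_add, Matrix.transpose_smul, Matrix.transpose_mul,
      Matrix.transpose_transpose, hMT, hAiT, Matrix.mul_assoc]
  have key : ∀ f, 2 * Vreg M Lm hs p1 f = qf H f := by
    intro f
    obtain ⟨b, hb⟩ : ∃ b : Ξ → ℝ, b = hs • Lm.transpose.mulVec (M.mulVec f) := ⟨_, rfl⟩
    have hval : ∀ ξ : Ξ → ℝ, hs * qf M (f + Lm.mulVec ξ) - p1⁻¹ * (ξ ⬝ᵥ ξ)
        = hs * qf M f + (2 * (b ⬝ᵥ ξ) - ξ ⬝ᵥ A.mulVec ξ) := by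
      intro ξ
      have e1 : b ⬝ᵥ ξ = hs * (f ⬝ᵥ M.mulVec (Lm.mulVec ξ)) := by
        rw [hb, smul_dotProduct, smul_eq_mul, quad_transpose_dot, ← hMT, quad_transpose_dot, hMT]
      rw [qf_add M h.psd, hAq, e1]
      ring
    have hHf : qf H f = hs * qf M f + b ⬝ᵥ A⁻¹.mulVec b := by
      have e2 : f ⬝ᵥ (M * Lm * A⁻¹ * Lm.transpose * M).mulVec f
          = Lm.transpose.mulVec (M.mulVec f) ⬝ᵥ A⁻¹.mulVec (Lm.transpose.mulVec (M.mulVec f)) := by
        rw [← Matrix.mulVec_mulVec, ← Matrix.mulVec_mulVec, ← Matrix.mulVec_mulVec, ← Matrix.mulVec_mulVec,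
          quad_transpose_dot]
        conv_rhs => rw [← hMT, quad_transpose_dot, hMT]
      rw [hH, qf, Matrix.add_mulVec, Matrix.smul_mulVec, Matrix.smul_mulVec, dotProduct_add, dotProduct_smul,
        dotProduct_smul, e2, hb, Matrix.mulVec_smul, smul_dotProduct, dotProduct_smul, qf]
      simp only [smul_eq_mul]
      ring
    rw [vreg_two_mul, hHf]
    refine le_antisymm (ciSup_le fun ξ => ?_) ?_
    · rw [hval]
      linarith [(hsq b).1 ξ]
    · refine le_trans (le_of_eq ?_) (le_ciSup (vreg_bdd h f) (A⁻¹.mulVec b))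
      rw [hval, (hsq b).2]
  refine ⟨H, Matrix.PosSemidef.of_dotProduct_mulVec_nonneg ?_ fun x => ?_, key⟩
  · rw [Matrix.IsHermitian, Matrix.conjTranspose_eq_transpose_of_trivial, hHT]
  · have h1 := (vreg_bounds h x).1
    have h2 := qf_nonneg M h.psd x
    have h3 := key x
    have h4 : 0 ≤ hs / 2 * qf M x := mul_nonneg (by linarith [h.hs_pos]) h2
    simp only [star_trivial]
    rw [qf] at h3
    linarith

theorem vreg_qf_smul (c : ℝ) (Q : Matrix O O ℝ) (y : O → ℝ) : qf (c • Q) y = c * qf Q y := by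
  rw [qf, qf, Matrix.smul_mulVec, dotProduct_smul, smul_eq_mul]

/-- **(9.17) + determinant bound**: `L^{p₁}` shell average of `e^{V}`.  The margin is `1 - p₁ h_*` (JOINT contraction). -/
theorem vreg_compose (T : Matrix O Ξ' ℝ) (h : VHyp M (Matrix.fromCols Lm T) hs p1) (f : O → ℝ) :
    ∫⁻ z, ENNReal.ofReal (Real.exp (p1 * Vreg M Lm hs p1 (f + T.mulVec z))) ∂(stdG Ξ')
      ≤ ENNReal.ofReal (Real.exp (p1 * Vreg M (Matrix.fromCols Lm T) hs p1 f
          + p1 * hs / (2 * (1 - p1 * hs) ^ 2) * (T.transpose * M * T).trace)) := by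
  classical
  have hp : 0 < p1 := by linarith [h.p1_gt]
  have hm : 0 < 1 - p1 * hs := by linarith [h.margin]
  have hL := vhyp_left T h
  obtain ⟨H, hH, hHV⟩ := vreg_quadratic hL
  have hQ : (p1 • H).PosSemidef := hH.smul hp.le
  have hQV : ∀ y, qf (p1 • H) y = p1 * (2 * Vreg M Lm hs p1 y) := fun y => by rw [vreg_qf_smul, hHV]
  have hc : ∀ z : Ξ' → ℝ, qf (p1 • H) (T.mulVec z) ≤ (1 - (1 - p1 * hs)) * (z ⬝ᵥ z) := by
    intro z
    rw [hQV]
    have := mul_le_mul_of_nonneg_left (vreg_shell_le T h z) hp.le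
    linarith
  have hG := gauss_exp_quad_le (p1 • H) hQ T (1 - p1 * hs) hm hc f
  have e1 : ∀ z : Ξ' → ℝ, qf (p1 • H) (f + T.mulVec z) / 2 = p1 * Vreg M Lm hs p1 (f + T.mulVec z) := by
    intro z
    rw [hQV]
    ring
  simp only [e1] at hG
  refine hG.trans (ENNReal.ofReal_le_ofReal (Real.exp_le_exp.2 ?_))
  have hsup : (1 / 2) * (⨆ z : Ξ' → ℝ, (qf (p1 • H) (f + T.mulVec z) - z ⬝ᵥ z))
      = p1 * Vreg M (Matrix.fromCols Lm T) hs p1 f := by
    rw [← vreg_iterate T h f, mul_left_comm, Real.mul_iSup_of_nonneg hp.le]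
    congr 1
    refine iSup_congr fun z => ?_
    rw [hQV, mul_sub, ← mul_assoc p1 p1⁻¹, mul_inv_cancel₀ hp.ne', one_mul]
  have htr : (T.transpose * (p1 • H) * T).trace ≤ p1 * hs / (1 - p1 * hs) * (T.transpose * M * T).trace := by
    rw [vreg_trace_eq_sum, vreg_trace_eq_sum, Finset.mul_sum]
    refine Finset.sum_le_sum fun j _ => ?_
    rw [hQV]
    have h1 := (vreg_bounds hL (T.mulVec (Pi.single j 1))).2
    have h2 := mul_le_mul_of_nonneg_left h1 (by linarith : (0:ℝ) ≤ 2 * p1)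
    have e : 2 * p1 * (hs / (2 * (1 - p1 * hs)) * qf M (T.mulVec (Pi.single j 1)))
        = p1 * hs / (1 - p1 * hs) * qf M (T.mulVec (Pi.single j 1)) := by
      field_simp
    rw [e] at h2
    linarith
  rw [hsup]
  have h3 : (T.transpose * (p1 • H) * T).trace / (2 * (1 - p1 * hs))
      ≤ p1 * hs / (1 - p1 * hs) * (T.transpose * M * T).trace / (2 * (1 - p1 * hs)) :=
    div_le_div_of_nonneg_right htr (by positivity)
  have e2 : p1 * hs / (1 - p1 * hs) * (T.transpose * M * T).trace / (2 * (1 - p1 * hs))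
      = p1 * hs / (2 * (1 - p1 * hs) ^ 2) * (T.transpose * M * T).trace := by
    field_simp
  rw [e2] at h3
  linarith

/-- **(9.26)-(9.27)**: averaging a localised positive quadratic cost `Q ≤ h₁ E`; only the trace of `Q` is paid -/
theorem vreg_average (h : VHyp M Lm hs p1) (h1 : ℝ) (h1s : h1 ≤ hs) (Q : Matrix O O ℝ) (hQ : Q.PosSemidef)
    (hQM : ∀ y, qf Q y ≤ h1 * qf M y) (f : O → ℝ) :
    ∫⁻ ξ, ENNReal.ofReal (Real.exp (qf Q (f + Lm.mulVec ξ) / 2)) ∂(stdG Ξ)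
      ≤ ENNReal.ofReal (Real.exp ((Lm.transpose * Q * Lm).trace / (2 * (1 - h1)) + Vreg M Lm hs p1 f)) := by
  classical
  have hp : 0 < p1 := by linarith [h.p1_gt]
  have hs1 : hs < 1 := by nlinarith [h.margin, h.p1_gt, h.hs_pos]
  have hsup : (1 / 2) * (⨆ ξ : Ξ → ℝ, (qf Q (f + Lm.mulVec ξ) - ξ ⬝ᵥ ξ)) ≤ Vreg M Lm hs p1 f := by
    unfold Vreg
    refine mul_le_mul_of_nonneg_left (ciSup_mono (vreg_bdd h f) fun ξ => ?_) (by norm_num)
    have a1 := hQM (f + Lm.mulVec ξ)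
    have a2 := mul_le_mul_of_nonneg_right h1s (qf_nonneg M h.psd (f + Lm.mulVec ξ))
    have a3 : p1⁻¹ ≤ 1 := inv_le_one_of_one_le₀ h.p1_gt.le
    have a4 := mul_le_mul_of_nonneg_right a3 (vreg_dot_nonneg ξ)
    linarith
  by_cases h0 : 0 ≤ h1
  · have hc : ∀ ξ : Ξ → ℝ, qf Q (Lm.mulVec ξ) ≤ (1 - (1 - h1)) * (ξ ⬝ᵥ ξ) := by
      intro ξ
      have a1 := hQM (Lm.mulVec ξ)
      have a2 := mul_le_mul_of_nonneg_left (h.contr ξ) h0
      linarith
    refine (gauss_exp_quad_le Q hQ Lm (1 - h1) (by linarith) hc f).trans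
      (ENNReal.ofReal_le_ofReal (Real.exp_le_exp.2 ?_))
    linarith
  · have hz : ∀ y, qf Q y = 0 := by
      intro y
      refine le_antisymm ?_ (qf_nonneg Q hQ y)
      have a1 := hQM y
      have a2 := qf_nonneg M h.psd y
      nlinarith
    have hc : ∀ ξ : Ξ → ℝ, qf Q (Lm.mulVec ξ) ≤ (1 - 1) * (ξ ⬝ᵥ ξ) := by
      intro ξ
      rw [hz]
      simp
    have htr : (Lm.transpose * Q * Lm).trace = 0 := by
      rw [vreg_trace_eq_sum]
      exact Finset.sum_eq_zero fun j _ => hz _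
    refine (gauss_exp_quad_le Q hQ Lm 1 one_pos hc f).trans
      (ENNReal.ofReal_le_ofReal (Real.exp_le_exp.2 ?_))
    rw [htr, zero_div, zero_div]
    linarith

end

end Claimed.Agent.R285.Entry
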