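import Claimed.Agent.R285.Entry.AvgAbs
import Claimed.Agent.R285.F4a.EnA
import Claimed.Agent.R285.F4a.EnB
import Claimed.Agent.R285.F4a.EnC
import Claimed.Agent.R285.F4a.Flow
import Claimed.Agent.R285.F4a.Map

/-!
# ROW 285, post BP-ENT-AVG: [F] L4.7 part 3 "The local quadratic cost and Gaussian averaging", `cutoff-entry.tex` l.2011-2237      (architect helper176)

GEOMETRIC HALF, in the vocabulary of `R285/F4a/Defs.lean` (`Top c`, `Eobs`, `wf`, `noise`, `Cless`) and `Base/RG.lean` (`Vobs`, `openE`, `gauss`).  Abstract half: `Entry/AvgAbs.lean` (no own sorry).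

## K1 verdict of l.2011-2237: OK, no gap.  Simplifications adopted here
* **cost** `q_π` := `QCost` = (ONE cut topology `T` = disjoint union of all actual bad + compulsory graphs and tiles, ONE broad coefficient `hb`, face coefficients `κ_f ≥ 0`):
  `q.val a τ y = hb/2 · E_T^τ(y) + ∑_f κ_f w_f²`.   All other costs of the paper (good-box allowance `R⁻¹² 𝓔_b`, proxy `C e^{-cR} 𝓔_π`, seam `C (R/P) 𝓔_π`, links, threshold charge `ε₁ 𝓔_b`) are face squares.
  `union_En_le`: the sum of the energies of pairwise disjoint pieces is at most the energy of their union.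
* **(ent:dominating-open-energy)** = `Eobs_mono` (restriction of a trial field) + `face_poincare` (from `F4a.cell_flow`; bounded multiplicity = every cell has `≤ 4` faces): `2 q ≤ (hb + CP sup κ) E_D^0`.
* **(ent:entry-trace)**: `tr ≤ hb |cells T| + CP ∑_f κ_f` by `Entry.avg_trace_le_rank` (rank of the broad form `≤` number of cells; a face square has rank one and is `≤ CF E_D^0`).  No variance computation.
* **(ent:entry-completion)**: no Hölder (`W ≥ 1` is free in the real estimate), margin `1 - h₁`.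
* **(ent:real-translation)** is part of the same inequality (`lam`): cost `h₁ h_* / (2 (h_* - h₁)) E_D^0 (B_s α lam) ≤ .. bondE D lam`.
* **deterministic split**: `val_split` (quadratic Cauchy-Schwarz with `θ`), `det_le` (trial field `v`, cell flows).  The junction term never enters: `Eobs a τ` is kept whole and split as a quadratic form in `(w, y)`.
* class indicators, translates, positive choices: a FINITE SUM of terms `exp (A_k + q_k.val)` (`avg_pattern`).

## EXIT THEOREMS (consumers: ENT-CPLX real boundary + rough strip, ENT engine SUM)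
`avg_main` (centred), `avg_sector` (any integral connection `τ`, any background `v`), `avg_pattern` (finite sums).
INPUT expected from ENT-NORM + ENT-GOOD: for every real `y`:  `|pattern (y)| ≤ ∑_k exp (A_k + (q_k).val a τ y)`.
-/

set_option autoImplicit false

namespace Claimed.Agent.R285.Avg

open scoped BigOperators ENNReal NNReal
open MeasureTheory ProbabilityTheory
open Claimed.Agent.R285 Claimed.Agent.R285.RG Claimed.Agent.R285.B4 Claimed.Agent.R285.F4a Claimed.Agent.R285.Entry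

noncomputable section

variable {G : Geom}

/-! ## 0. Definitions -/

/-- a localized positive quadratic cost -/
structure QCost (c : Grid G) where
  /-- the union of the actual graphs which receive a broad energy bound -/
  T : Top c
  /-- the broad coefficient -/
  hb : ℝ
  /-- the face coefficients -/
  κ : Face c → ℝ

namespace QCost

variable {c : Grid G} (q : QCost c)

/-- the value of the cost in the sector `τ` -/
def val (a : ℝ) (τ : Face c → ℤ) (y : c.I → ℝ) : ℝ :=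
  q.hb / 2 * q.T.Eobs a τ y + ∑ f, q.κ f * wf c τ y f ^ 2

/-- admissible costs inside the open set of cells `O`; `ε` bounds the face coefficients -/
structure Ok (O : Finset c.I) (ε : ℝ) : Prop where
  top : q.T.Ok
  cells : q.T.cells ⊆ O
  hb0 : 0 ≤ q.hb
  κ0 : ∀ f, 0 ≤ q.κ f
  κε : ∀ f, q.κ f ≤ ε
  κs : ∀ f, q.κ f ≠ 0 → f ∈ (Top.opn c O).faces

/-- multiplication of all coefficients by `t` -/
def scale (t : ℝ) : QCost c := ⟨q.T, t * q.hb, fun f => t * q.κ f⟩

/-- the bound of the trace, (ent:entry-trace) -/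
def tr (CP : ℝ) : ℝ := q.hb * q.T.cells.card + CP * ∑ f, q.κ f

end QCost

/-- the observation matrix `B_s α` -/
def obsB (a : ℝ) (c : Grid G) : Matrix c.I G.V ℝ := fun i x =>
  if c.blk x = i then Real.sqrt a * ((c.sites {i}).card : ℝ)⁻¹ else 0

/-- the observation `y⁰ + B_s v`, `y⁰ = B_s α (ψ + ζ) + e` -/
def obsY (a : ℝ) (c : Grid G) (v ψ ζ : G.V → ℝ) (e : c.I → ℝ) : c.I → ℝ :=
  fun i => avg c (fun x => v x + Real.sqrt a * (ψ x + ζ x)) i + e i

open Classical in
/-- the union of a family of topologies -/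
def unionTop {c : Grid G} {ι : Type} (s : Finset ι) (Tb : ι → Top c) : Top c :=
  ⟨s.biUnion fun b => (Tb b).cells, s.biUnion fun b => (Tb b).faces⟩

/-! ## 1. Energies as quadratic forms -/

theorem cellAvg_add (c : Grid G) (u u' : G.V → ℝ) (i : c.I) :
    cellAvg c (fun x => u x + u' x) i = cellAvg c u i + cellAvg c u' i := by
  simp only [cellAvg, Finset.sum_add_distrib, add_div]

/-- `(x + x')² ≤ (1 + θ) x² + (1 + θ⁻¹) x'²` -/
theorem sq_add_le_theta (θ : ℝ) (hθ : 0 < θ) (x x' : ℝ) : (x + x') ^ 2 ≤ (1 + θ) * x ^ 2 + (1 + θ⁻¹) * x' ^ 2 := by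
  have h : 0 ≤ θ * (x - θ⁻¹ * x') ^ 2 := mul_nonneg hθ.le (sq_nonneg _)
  have e : θ * (x - θ⁻¹ * x') ^ 2 = θ * x ^ 2 - 2 * x * x' + θ⁻¹ * x' ^ 2 := by
    field_simp
    ring
  rw [e] at h
  nlinarith

theorem quad_nonneg {c : Grid G} (T : Top c) (a : ℝ) (ha : 0 < a) (w : Face c → ℝ) (y : c.I → ℝ) (u : G.V → ℝ) :
    0 ≤ T.quad a w y u := by
  unfold Top.quad
  have h1 : 0 ≤ a⁻¹ := (inv_pos.2 ha).le
  have h2 : 0 ≤ ∑ e : T.graph.E, (u (stp e.1.1 e.1.2) - u e.1.1 + T.econn w e) ^ 2 :=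
    Finset.sum_nonneg fun _ _ => sq_nonneg _
  have h3 : 0 ≤ ∑ i ∈ T.cells, (avg c u i - y i) ^ 2 := Finset.sum_nonneg fun _ _ => sq_nonneg _
  positivity

theorem En_le_quad {c : Grid G} (T : Top c) (a : ℝ) (ha : 0 < a) (w : Face c → ℝ) (y : c.I → ℝ) (u : G.V → ℝ) :
    T.En a w y ≤ T.quad a w y u :=
  ciInf_le ⟨0, by rintro _ ⟨u', rfl⟩; exact quad_nonneg T a ha w y u'⟩ u

theorem Eobs_zero {c : Grid G} (T : Top c) (a : ℝ) (y : c.I → ℝ) : T.Eobs a 0 y = T.En a 0 y := by
  simp only [Top.Eobs]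
  congr 1
  funext f
  simp

theorem obsB_mulVec (a : ℝ) (c : Grid G) (u : G.V → ℝ) :
    (obsB a c).mulVec u = fun i => avg c (fun x => Real.sqrt a * u x) i := by
  funext i
  simp only [Matrix.mulVec, dotProduct, obsB, cellAvg]
  rw [Finset.sum_div]
  simp only [Grid.sites, Finset.mem_singleton]
  rw [Finset.sum_filter]
  refine Finset.sum_congr rfl fun x _ => ?_
  split_ifs with h
  · rw [div_eq_mul_inv]
    ring
  · simp

/-- LEAF AVG-FORM: the centred energy of a topology is a positive semidefinite form of rank at most the number of cells -/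
theorem En_form {c : Grid G} (T : Top c) (a : ℝ) (ha : 0 < a) :
    ∃ Q : Matrix c.I c.I ℝ, Q.PosSemidef ∧ (∀ y, T.Eobs a 0 y = qf Q y) ∧ Q.rank ≤ T.cells.card := by
  classical
  obtain ⟨D, hD⟩ : ∃ D : c.I → T.Row → ℝ, D = fun i => T.dv a 0 (Pi.single i 1) := ⟨_, rfl⟩
  have hdv : ∀ y : c.I → ℝ, T.dv a 0 y = ∑ i, y i • D i := by
    intro y
    funext r
    rw [hD, Finset.sum_apply]
    cases r with
    | inl e => simp [Top.dv, Top.econn]
    | inr i => simp [Top.dv, Pi.single_apply]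
  have hE : ∀ y, T.Eobs a 0 y = ∑ i, ∑ j, lsqB (T.Lm a) (D i) (D j) * y i * y j := by
    intro y
    rw [Eobs_zero, En_eq_lsq T a ha, hdv, lsq_sum]
  obtain ⟨Q, hQ⟩ : ∃ Q : Matrix c.I c.I ℝ, ∀ i j, Q i j = lsqB (T.Lm a) (D i) (D j) :=
    ⟨Matrix.of fun i j => lsqB (T.Lm a) (D i) (D j), fun _ _ => rfl⟩
  have hq : ∀ y, T.Eobs a 0 y = qf Q y := by
    intro y
    rw [hE, qf]
    simp only [dotProduct, Matrix.mulVec, Finset.mul_sum, hQ]
    refine Finset.sum_congr rfl fun i _ => Finset.sum_congr rfl fun j _ => ?_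
    ring
  refine ⟨Q, ?_, hq, ?_⟩
  · refine Matrix.PosSemidef.of_dotProduct_mulVec_nonneg ?_ ?_
    · refine Matrix.ext fun i j => ?_
      simp only [Matrix.conjTranspose_apply, star_trivial, hQ]
      exact lsqB_comm _ _ _
    · intro x
      rw [star_trivial]
      have h := hq x
      rw [qf] at h
      rw [← h, Eobs_zero, En_eq_lsq T a ha]
      exact lsq_nonneg _ _
  · refine avg_rank_le_card _ T.cells fun i j hi => ?_
    have h0 : D i = 0 := by
      rw [hD]
      funext r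
      cases r with
      | inl e => simp [Top.dv, Top.econn]
      | inr k =>
        have hk : k.1 ≠ i := fun h => hi (h ▸ k.2)
        simp [Top.dv, hk]
    have h1 := lsqB_smul (T.Lm a) 0 (D i) (D j)
    rw [zero_smul, zero_mul] at h1
    rw [hQ, h0]
    exact h1

/-- LEAF AVG-SPLIT: quadratic Cauchy-Schwarz for the joint form in `(w, y)` -/
theorem En_split {c : Grid G} (T : Top c) (a : ℝ) (ha : 0 < a) (θ : ℝ) (hθ : 0 < θ) (w w' : Face c → ℝ) (y y' : c.I → ℝ) :
    T.En a (w + w') (y + y') ≤ (1 + θ) * T.En a w y + (1 + θ⁻¹) * T.En a w' y' := by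
  obtain ⟨u, hu⟩ := En_attained T a ha w y
  obtain ⟨u', hu'⟩ := En_attained T a ha w' y'
  have h1 := En_le_quad T a ha (w + w') (y + y') (u + u')
  have hai : 0 ≤ a⁻¹ := (inv_pos.2 ha).le
  have h2 : T.quad a (w + w') (y + y') (u + u') ≤ (1 + θ) * T.quad a w y u + (1 + θ⁻¹) * T.quad a w' y' u' := by
    unfold Top.quad
    have hA : ∑ e : T.graph.E, ((u + u') (stp e.1.1 e.1.2) - (u + u') e.1.1 + T.econn (w + w') e) ^ 2
        ≤ (1 + θ) * ∑ e : T.graph.E, (u (stp e.1.1 e.1.2) - u e.1.1 + T.econn w e) ^ 2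
          + (1 + θ⁻¹) * ∑ e : T.graph.E, (u' (stp e.1.1 e.1.2) - u' e.1.1 + T.econn w' e) ^ 2 := by
      rw [Finset.mul_sum, Finset.mul_sum, ← Finset.sum_add_distrib]
      refine Finset.sum_le_sum fun e _ => ?_
      have e1 : (u + u') (stp e.1.1 e.1.2) - (u + u') e.1.1 + T.econn (w + w') e
          = (u (stp e.1.1 e.1.2) - u e.1.1 + T.econn w e) + (u' (stp e.1.1 e.1.2) - u' e.1.1 + T.econn w' e) := by
        simp only [Top.econn, Pi.add_apply]
        split_ifs <;> ring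
      rw [e1]
      exact sq_add_le_theta θ hθ _ _
    have hB : ∑ i ∈ T.cells, (avg c (u + u') i - (y + y') i) ^ 2
        ≤ (1 + θ) * ∑ i ∈ T.cells, (avg c u i - y i) ^ 2 + (1 + θ⁻¹) * ∑ i ∈ T.cells, (avg c u' i - y' i) ^ 2 := by
      rw [Finset.mul_sum, Finset.mul_sum, ← Finset.sum_add_distrib]
      refine Finset.sum_le_sum fun i _ => ?_
      have e1 : avg c (u + u') i - (y + y') i = (avg c u i - y i) + (avg c u' i - y' i) := by
        have := cellAvg_add c u u' i
        simp only [Pi.add_apply]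
        have e2 : avg c (u + u') i = avg c u i + avg c u' i := this
        rw [e2]
        ring
      rw [e1]
      exact sq_add_le_theta θ hθ _ _
    have hA' := mul_le_mul_of_nonneg_left hA hai
    nlinarith
  rw [hu, hu']
  exact h1.trans h2

/-- the square of the covariant difference along a bond, as a function of the bare bond -/
def bsq (c : Grid G) (w : Face c → ℝ) (u : G.V → ℝ) (e : G.V × Bool) : ℝ :=
  (u (stp e.1 e.2) - u e.1 + (if c.blk (stp e.1 e.2) = c.blk e.1 then 0 else w (c.blk e.1, e.2))) ^ 2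

open Classical in
theorem quad_eq_filter {c : Grid G} (T : Top c) (a : ℝ) (w : Face c → ℝ) (y : c.I → ℝ) (u : G.V → ℝ) :
    T.quad a w y u = a⁻¹ * ∑ e ∈ Finset.univ.filter T.IsEdge, bsq c w u e + ∑ i ∈ T.cells, (avg c u i - y i) ^ 2 := by
  unfold Top.quad
  congr 2
  symm
  exact Finset.sum_subtype (p := T.IsEdge) _ (by simp) (fun e => bsq c w u e)

/-- LEAF AVG-UNION: restriction of one trial field to pairwise disjoint pieces -/
theorem union_En_le {c : Grid G} {ι : Type} (s : Finset ι) (Tb : ι → Top c)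
    (hd : ∀ b ∈ s, ∀ b' ∈ s, b ≠ b' → Disjoint (Tb b).cells (Tb b').cells) (hok : ∀ b ∈ s, (Tb b).Ok)
    (a : ℝ) (ha : 0 < a) (w : Face c → ℝ) (y : c.I → ℝ) :
    ∑ b ∈ s, (Tb b).En a w y ≤ (unionTop s Tb).En a w y := by
  classical
  obtain ⟨u, hu⟩ := En_attained (unionTop s Tb) a ha w y
  rw [hu]
  refine (Finset.sum_le_sum fun b _ => En_le_quad (Tb b) a ha w y u).trans ?_
  simp only [quad_eq_filter]
  rw [Finset.sum_add_distrib, ← Finset.mul_sum]
  have hai : 0 ≤ a⁻¹ := (inv_pos.2 ha).le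
  have hcells : ∑ b ∈ s, ∑ i ∈ (Tb b).cells, (avg c u i - y i) ^ 2
      = ∑ i ∈ (unionTop s Tb).cells, (avg c u i - y i) ^ 2 := by
    simp only [unionTop]
    rw [Finset.sum_biUnion]
    intro b hb b' hb' hne
    exact hd b hb b' hb' hne
  have hedges : ∑ b ∈ s, ∑ e ∈ Finset.univ.filter (Tb b).IsEdge, bsq c w u e
      ≤ ∑ e ∈ Finset.univ.filter (unionTop s Tb).IsEdge, bsq c w u e := by
    rw [← Finset.sum_biUnion]
    · refine Finset.sum_le_sum_of_subset_of_nonneg ?_ fun e _ _ => sq_nonneg _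
      intro e he
      obtain ⟨b, hb, he'⟩ := Finset.mem_biUnion.1 he
      have h := (Finset.mem_filter.1 he').2
      refine Finset.mem_filter.2 ⟨Finset.mem_univ _, h.1, ?_, ?_, ?_⟩
      · exact Finset.mem_biUnion.2 ⟨b, hb, h.2.1⟩
      · exact Finset.mem_biUnion.2 ⟨b, hb, h.2.2.1⟩
      · rcases h.2.2.2 with h' | h'
        · exact Or.inl h'
        · exact Or.inr (Finset.mem_biUnion.2 ⟨b, hb, h'⟩)
    · intro b hb b' hb' hne
      refine Finset.disjoint_left.2 fun e he he' => ?_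
      have h := (Finset.mem_filter.1 he).2
      have h' := (Finset.mem_filter.1 he').2
      exact Finset.disjoint_left.1 (hd b hb b' hb' hne) h.2.1 h'.2.1
  rw [hcells]
  have := mul_le_mul_of_nonneg_left hedges hai
  linarith

theorem union_ok {c : Grid G} {ι : Type} (s : Finset ι) (Tb : ι → Top c) (hok : ∀ b ∈ s, (Tb b).Ok) : (unionTop s Tb).Ok := by
  classical
  intro f hf
  obtain ⟨b, hb, hf'⟩ := Finset.mem_biUnion.1 hf
  obtain ⟨h1, h2, h3⟩ := hok b hb f hf'
  exact ⟨h1, Finset.mem_biUnion.2 ⟨b, hb, h2⟩, Finset.mem_biUnion.2 ⟨b, hb, h3⟩⟩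

theorem nx_injective {n : ℕ} : Function.Injective (nx : Fin n → Fin n) := by
  intro i j h
  have h1 : (i.1 + 1) % n = (j.1 + 1) % n := congrArg Fin.val h
  have h2 : i.1 ≡ j.1 [MOD n] := Nat.ModEq.add_right_cancel' 1 h1
  exact Fin.ext (Nat.ModEq.eq_of_lt_of_lt h2 i.2 j.2)

theorem fnb_injective (c : Grid G) : Function.Injective fun f : Face c => (fnb c f, f.2) := by
  rintro ⟨⟨i1, i2⟩, d⟩ ⟨⟨j1, j2⟩, d'⟩ h
  simp only [Prod.mk.injEq] at h
  obtain ⟨h1, rfl⟩ := h
  cases d with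
  | true =>
    simp only [fnb, if_true, Prod.mk.injEq] at h1
    rw [nx_injective h1.1, h1.2]
  | false =>
    simp only [fnb, Bool.false_eq_true, if_false, Prod.mk.injEq] at h1
    rw [nx_injective h1.2, h1.1]

/-- every cell is the source of at most two faces -/
theorem sum_faces_src_le {c : Grid G} (T : Top c) (hT : T.Ok) (φ : c.I → ℝ) (hφ : ∀ i, 0 ≤ φ i) :
    ∑ f ∈ T.faces, φ f.1 ≤ 2 * ∑ i ∈ T.cells, φ i := by
  have h1 : T.faces ⊆ T.cells ×ˢ (Finset.univ : Finset Bool) := by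
    intro f hf
    exact Finset.mem_product.2 ⟨(hT f hf).2.1, Finset.mem_univ _⟩
  refine (Finset.sum_le_sum_of_subset_of_nonneg h1 fun f _ _ => hφ f.1).trans ?_
  rw [Finset.sum_product]
  simp only [Finset.sum_const, Finset.card_univ, Fintype.card_bool, nsmul_eq_mul, Nat.cast_ofNat]
  rw [Finset.mul_sum]

/-- every cell is the target of at most two faces -/
theorem sum_faces_tgt_le {c : Grid G} (T : Top c) (hT : T.Ok) (φ : c.I → ℝ) (hφ : ∀ i, 0 ≤ φ i) :
    ∑ f ∈ T.faces, φ (fnb c f) ≤ 2 * ∑ i ∈ T.cells, φ i := by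
  classical
  have h0 : ∑ f ∈ T.faces, φ (fnb c f) = ∑ p ∈ T.faces.image (fun f : Face c => (fnb c f, f.2)), φ p.1 := by
    rw [Finset.sum_image fun x _ y _ h => fnb_injective c h]
  have h1 : T.faces.image (fun f : Face c => (fnb c f, f.2)) ⊆ T.cells ×ˢ (Finset.univ : Finset Bool) := by
    intro p hp
    obtain ⟨f, hf, rfl⟩ := Finset.mem_image.1 hp
    exact Finset.mem_product.2 ⟨(hT f hf).2.2, Finset.mem_univ _⟩
  rw [h0]
  refine (Finset.sum_le_sum_of_subset_of_nonneg h1 fun f _ _ => hφ f.1).trans ?_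
  rw [Finset.sum_product]
  simp only [Finset.sum_const, Finset.card_univ, Fintype.card_bool, nsmul_eq_mul, Nat.cast_ofNat]
  rw [Finset.mul_sum]

/-- LEAF AVG-POINCARE: cell Poincaré summed over the faces, every sector -/
theorem face_poincare (a : ℝ) (ha : 0 < a) : ∃ CF : ℝ, 0 < CF ∧ ∀ (G : Geom) (c : Grid G), Whole c → ∀ T : Top c, T.Ok →
    ∀ (w : Face c → ℝ) (y : c.I → ℝ), ∑ f ∈ T.faces, (y (fnb c f) - y f.1 + w f) ^ 2 ≤ CF * T.En a w y := by
  obtain ⟨C, hC⟩ := cell_flow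
  refine ⟨3 * |C| * a + 12, by positivity, ?_⟩
  intro G c hc T hT w y
  obtain ⟨Φ, hΦ1, -, hΦ3⟩ := hC G c hc T hT
  obtain ⟨u, hu⟩ := En_attained T a ha w y
  rw [hu]
  obtain ⟨gd, hgd⟩ : ∃ gd : T.graph.E → ℝ, gd = fun e => u (stp e.1.1 e.1.2) - u e.1.1 + T.econn w e := ⟨_, rfl⟩
  obtain ⟨t, ht⟩ : ∃ t : Face c → ℝ, t = fun f => avg c u (fnb c f) - avg c u f.1 + w f := ⟨_, rfl⟩
  obtain ⟨r, hr⟩ : ∃ r : c.I → ℝ, r = fun i => avg c u i - y i := ⟨_, rfl⟩
  obtain ⟨Nn, hNn⟩ : ∃ Nn : ℝ, Nn = ∑ e, gd e ^ 2 := ⟨_, rfl⟩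
  obtain ⟨St, hSt⟩ : ∃ St : ℝ, St = ∑ f ∈ T.faces, t f ^ 2 := ⟨_, rfl⟩
  obtain ⟨Sr, hSr⟩ : ∃ Sr : ℝ, Sr = ∑ i ∈ T.cells, r i ^ 2 := ⟨_, rfl⟩
  have hN0 : 0 ≤ Nn := by rw [hNn]; exact Finset.sum_nonneg fun _ _ => sq_nonneg _
  have hS0 : 0 ≤ St := by rw [hSt]; exact Finset.sum_nonneg fun _ _ => sq_nonneg _
  have hR0 : 0 ≤ Sr := by rw [hSr]; exact Finset.sum_nonneg fun _ _ => sq_nonneg _
  have hquad : T.quad a w y u = a⁻¹ * Nn + Sr := by
    rw [hNn, hSr, hgd, hr]
    rfl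
  -- the flow representation
  have h1 : St = ∑ e, (∑ f ∈ T.faces, t f * Φ f e) * gd e := by
    rw [hSt]
    have : ∀ f ∈ T.faces, t f ^ 2 = ∑ e, t f * Φ f e * gd e := by
      intro f hf
      have h : t f = ∑ e, Φ f e * gd e := by
        rw [ht, hgd]
        exact hΦ1 f hf u w
      calc t f ^ 2 = t f * t f := sq _
        _ = t f * ∑ e, Φ f e * gd e := congrArg (t f * ·) h
        _ = ∑ e, t f * Φ f e * gd e := by
          rw [Finset.mul_sum]
          exact Finset.sum_congr rfl fun e _ => (mul_assoc _ _ _).symm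
    rw [Finset.sum_congr rfl this, Finset.sum_comm]
    refine Finset.sum_congr rfl fun e _ => ?_
    rw [Finset.sum_mul]
  have h2 : St ^ 2 ≤ (|C| * St) * Nn := by
    rw [h1]
    refine (Finset.sum_mul_sq_le_sq_mul_sq _ _ _).trans ?_
    rw [← h1, ← hNn]
    refine mul_le_mul_of_nonneg_right ?_ hN0
    refine ((hΦ3 t).2).trans ?_
    rw [← hSt]
    exact mul_le_mul_of_nonneg_right (le_abs_self C) hS0
  have h3 : St ≤ |C| * Nn := by
    rcases hS0.eq_or_lt with h0 | h0
    · rw [← h0]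
      positivity
    · have : St * St ≤ St * (|C| * Nn) := by nlinarith
      exact le_of_mul_le_mul_left this h0
  -- the residuals
  have h4 : ∑ f ∈ T.faces, (y (fnb c f) - y f.1 + w f) ^ 2
      ≤ 3 * St + 3 * ∑ f ∈ T.faces, r (fnb c f) ^ 2 + 3 * ∑ f ∈ T.faces, r f.1 ^ 2 := by
    rw [hSt, Finset.mul_sum, Finset.mul_sum, Finset.mul_sum, ← Finset.sum_add_distrib, ← Finset.sum_add_distrib]
    refine Finset.sum_le_sum fun f _ => ?_
    have e : y (fnb c f) - y f.1 + w f = t f - r (fnb c f) + r f.1 := by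
      rw [ht, hr]
      ring
    rw [e]
    nlinarith [sq_nonneg (t f + r (fnb c f)), sq_nonneg (t f - r f.1), sq_nonneg (r (fnb c f) + r f.1)]
  have h5 := sum_faces_tgt_le T hT (fun i => r i ^ 2) fun i => sq_nonneg _
  have h6 := sum_faces_src_le T hT (fun i => r i ^ 2) fun i => sq_nonneg _
  simp only [← hSr] at h5 h6
  rw [hquad]
  have hai : 0 < a⁻¹ := inv_pos.2 ha
  have e1 : (3 * |C| * a + 12) * (a⁻¹ * Nn + Sr) = 3 * |C| * Nn + 12 * (a⁻¹ * Nn) + 3 * |C| * a * Sr + 12 * Sr := by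
    field_simp
    ring
  rw [e1]
  have p1 : 0 ≤ 12 * (a⁻¹ * Nn) := by positivity
  have p2 : 0 ≤ 3 * |C| * a * Sr := by positivity
  linarith

/-! ## 2. The open energy and the regulator -/

/-- `D_m (X)` is a union of whole cells -/
theorem Dm_cells {c g : Grid G} (N : Nest c g) (X : Finset g.I) : g.Dm X = c.sites (cellsIn c (g.Dm X)) := by
  classical
  have hblk : ∀ v : G.V, g.blk v = N.up (c.blk v) := by
    intro v
    simp only [Grid.blk, Nest.up, N.comm]
  ext v
  simp only [Grid.Dm, Grid.sites, cellsIn, Finset.mem_filter, Finset.mem_univ, true_and, Finset.mem_singleton]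
  constructor
  · intro hv v' hv'
    simp only [Finset.mem_filter, Finset.mem_univ, true_and] at hv' ⊢
    rw [hblk, hv', ← hblk]
    exact hv
  · intro h
    have := h (Finset.mem_filter.2 ⟨Finset.mem_univ v, rfl⟩)
    simpa using this

theorem openE_opn (a : ℝ) {c g : Grid G} (hc : Whole c) (N : Nest c g) (X : Finset g.I) (y : c.I → ℝ) :
    openE a c (g.Dm X) y = (Top.opn c (cellsIn c (g.Dm X))).Eobs a 0 y := by
  conv_lhs => rw [Dm_cells N X]
  exact openE_eq a hc _ y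

theorem opn_ok (c : Grid G) (O : Finset c.I) : (Top.opn c O).Ok := by
  classical
  intro f hf
  simp only [Top.opn, Top.restr, Top.full, Finset.mem_filter, Finset.mem_univ, true_and, Finset.mem_inter] at hf ⊢
  exact ⟨hf.1, hf.2.1, hf.2.2⟩

/-- the direction energy of (ent:real-translation) -/
theorem openE_le_bondE (a : ℝ) (ha : 0 < a) (c : Grid G) (D : Finset G.V) (lam : G.V → ℝ) :
    openE a c D (fun i => avg c (fun x => Real.sqrt a * lam x) i) ≤ bondE D lam := by
  have hb0 : ∀ u : G.V → ℝ, 0 ≤ bondE D u := by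
    intro u
    unfold bondE
    refine mul_nonneg (by norm_num) (Finset.sum_nonneg fun v _ => Finset.sum_nonneg fun e _ => ?_)
    split_ifs
    · exact sq_nonneg _
    · exact le_rfl
  have hbdd : BddBelow (Set.range fun u : G.V → ℝ => a⁻¹ * bondE D u
      + ∑ i ∈ cellsIn c D, (cellAvg c u i - avg c (fun x => Real.sqrt a * lam x) i) ^ 2) := by
    refine ⟨0, ?_⟩
    rintro _ ⟨u, rfl⟩
    have h1 : 0 ≤ a⁻¹ := (inv_pos.2 ha).le
    have h2 := hb0 u
    have h3 : 0 ≤ ∑ i ∈ cellsIn c D, (cellAvg c u i - avg c (fun x => Real.sqrt a * lam x) i) ^ 2 :=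
      Finset.sum_nonneg fun _ _ => sq_nonneg _
    positivity
  refine (ciInf_le hbdd fun x => Real.sqrt a * lam x).trans ?_
  have e1 : bondE D (fun x => Real.sqrt a * lam x) = a * bondE D lam := by
    unfold bondE
    rw [mul_left_comm]
    congr 1
    rw [Finset.mul_sum]
    refine Finset.sum_congr rfl fun v _ => ?_
    rw [Finset.mul_sum]
    refine Finset.sum_congr rfl fun e _ => ?_
    split_ifs
    · simp only [dif, Geom.lift]
      rw [← mul_sub, mul_pow, Real.sq_sqrt ha.le]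
    · simp
  simp only [sub_self, ne_eq, OfNat.ofNat_ne_zero, not_false_eq_true, zero_pow, Finset.sum_const_zero, add_zero]
  rw [e1, ← mul_assoc, inv_mul_cancel₀ ha.ne', one_mul]

/-- `RG.Vobs` in the shape of the toolkit -/
theorem Vobs_eq (a hs p1 : ℝ) (c g : Grid G) (C : Matrix G.V G.V ℝ) (X : Finset g.I) (M : Matrix c.I c.I ℝ)
    (hM : ∀ y, openE a c (g.Dm X) y = qf M y) (ψ : G.V → ℝ) :
    Vobs a hs p1 c g C X ψ = VregC M (obsB a c) C hs p1 ((obsB a c).mulVec ψ) := by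
  unfold Vobs VregC
  congr 1
  refine congrArg _ (funext fun x => ?_)
  rw [hM]
  have e1 : (fun i => cellAvg c (fun v => Real.sqrt a * (ψ v + C.mulVec x.1 v)) i + x.2 i)
      = (obsB a c).mulVec ψ + (obsB a c).mulVec (C.mulVec x.1) + x.2 := by
    funext i
    simp only [obsB_mulVec, Pi.add_apply, mul_add, cellAvg_add]
  have e2 : ∑ i, x.2 i ^ 2 = x.2 ⬝ᵥ x.2 := by
    simp only [dotProduct, sq]
  rw [e1, e2]

/-! ## 3. Exit theorems -/

theorem qf_vecMulVec {O : Type} [Fintype O] (d y : O → ℝ) : qf (Matrix.vecMulVec d d) y = (d ⬝ᵥ y) ^ 2 := by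
  rw [qf, Matrix.vecMulVec_mulVec]
  simp only [dotProduct_smul, MulOpposite.smul_eq_mul_unop, MulOpposite.unop_op]
  rw [dotProduct_comm y d]
  ring

theorem psd_vecMulVec {O : Type} [Fintype O] (d : O → ℝ) : (Matrix.vecMulVec d d).PosSemidef := by
  have h := Matrix.posSemidef_vecMulVec_self_star d
  rwa [star_trivial] at h

open Classical in
/-- the contrast of a face -/
def dF (c : Grid G) (f : Face c) : c.I → ℝ := Pi.single (fnb c f) 1 - Pi.single f.1 1

theorem dF_dot (c : Grid G) (f : Face c) (y : c.I → ℝ) : dF c f ⬝ᵥ y = y (fnb c f) - y f.1 := by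
  classical
  simp [dF, sub_dotProduct]

theorem wf_zero (c : Grid G) (y : c.I → ℝ) (f : Face c) : wf c 0 y f = y (fnb c f) - y f.1 := by
  simp [wf]

theorem avg_add (c : Grid G) (u u' : G.V → ℝ) (i : c.I) : avg c (fun x => u x + u' x) i = avg c u i + avg c u' i := by
  simp only [cellAvg, Finset.sum_add_distrib, add_div]

theorem obsY_eq (a : ℝ) (c : Grid G) (v ψ lam ζ : G.V → ℝ) (e : c.I → ℝ) :
    obsY a c v (ψ + lam) ζ e
      = ((obsB a c).mulVec ψ + (obsB a c).mulVec lam + ((obsB a c).mulVec ζ + e)) + avg c v := by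
  funext i
  simp only [obsY, obsB_mulVec, Pi.add_apply, mul_add, avg_add]
  ring

theorem obsY_zero (a : ℝ) (c : Grid G) (ψ lam ζ : G.V → ℝ) (e : c.I → ℝ) :
    obsY a c 0 (ψ + lam) ζ e = (obsB a c).mulVec ψ + (obsB a c).mulVec lam + ((obsB a c).mulVec ζ + e) := by
  rw [obsY_eq]
  funext i
  simp [cellAvg]

/-- the centred cost through its pieces -/
theorem val_zero_eq {c : Grid G} (q : QCost c) (a : ℝ) (O : Finset c.I) (ε : ℝ) (hq : q.Ok O ε) (QT : Matrix c.I c.I ℝ)
    (hQT : ∀ y, q.T.Eobs a 0 y = qf QT y) (y : c.I → ℝ) :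
    q.val a 0 y = (∑ k ∈ Finset.insertNone (Top.opn c O).faces,
      (k.elim q.hb fun f => 2 * q.κ f) * qf (k.elim QT fun f => Matrix.vecMulVec (dF c f) (dF c f)) y) / 2 := by
  rw [Finset.sum_insertNone]
  simp only [Option.elim_none, Option.elim_some, qf_vecMulVec, dF_dot, QCost.val, wf_zero, hQT]
  have h : ∑ f, q.κ f * (y (fnb c f) - y f.1) ^ 2 = ∑ f ∈ (Top.opn c O).faces, q.κ f * (y (fnb c f) - y f.1) ^ 2 := by
    symm
    refine Finset.sum_subset (Finset.subset_univ _) fun f _ hf => ?_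
    have : q.κ f = 0 := by
      by_contra h0
      exact hf (hq.κs f h0)
    rw [this, zero_mul]
  rw [h, add_div, Finset.sum_div]
  congr 1
  · ring
  · refine Finset.sum_congr rfl fun f _ => ?_
    ring

theorem top_le_opn {c : Grid G} (T : Top c) (hT : T.Ok) (O : Finset c.I) (hO : T.cells ⊆ O) :
    T.cells ⊆ (Top.opn c O).cells ∧ T.faces ⊆ (Top.opn c O).faces := by
  classical
  constructor
  · intro i hi
    simp only [Top.opn, Top.restr, Top.full, Finset.mem_inter, Finset.mem_univ, true_and]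
    exact hO hi
  · intro f hf
    obtain ⟨h1, h2, h3⟩ := hT f hf
    simp only [Top.opn, Top.restr, Top.full, Finset.mem_filter, Finset.mem_univ, true_and]
    exact ⟨h1, hO h2, hO h3⟩

/-- **(ent:dominating-open-energy) + (ent:entry-completion) + (ent:entry-trace) + (ent:real-translation)**, centred sector. -/
theorem avg_main (o : ObsPar) : ∃ CP : ℝ, 0 < CP ∧ ∀ (G : Geom) (c g : Grid G), Whole c → Nonempty (Nest c g) → 1 ≤ g.m →
    ∀ (X : Finset g.I) (q : QCost c) (ε h1 : ℝ), q.Ok (cellsIn c (g.Dm X)) ε → q.hb + CP * ε ≤ h1 → 0 < h1 → h1 < o.hstar →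
    ∀ ψ lam : G.V → ℝ,
      ∫⁻ ζ, ∫⁻ e, ENNReal.ofReal (Real.exp (q.val o.a 0 (obsY o.a c 0 (ψ + lam) ζ e))) ∂(noise c) ∂(gauss G (Cless G g.m))
        ≤ ENNReal.ofReal (Real.exp (q.tr CP / (2 * (1 - h1)) + Vobs o.a o.hstar o.p1 c g (Cless G g.m) X ψ
            + h1 * o.hstar / (2 * (o.hstar - h1)) * bondE (g.Dm X) lam)) := by
  obtain ⟨CF, hCF, hP⟩ := face_poincare o.a o.a_pos
  refine ⟨2 * CF, by positivity, ?_⟩
  intro G c g hc hN hm X q ε h1 hq hgap h10 h1s ψ lam
  obtain ⟨N⟩ := hN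
  obtain ⟨O, hO⟩ : ∃ O, O = cellsIn c (g.Dm X) := ⟨_, rfl⟩
  rw [← hO] at hq
  obtain ⟨M, hMpsd, hM, -⟩ := En_form (Top.opn c O) o.a o.a_pos
  obtain ⟨QT, hQTpsd, hQT, hQTrk⟩ := En_form q.T o.a o.a_pos
  have hMo : ∀ y, openE o.a c (g.Dm X) y = qf M y := fun y => by rw [openE_opn o.a hc N X y, ← hO, hM]
  have hok := opn_ok c O
  have hmar : o.p1 * o.hstar < 1 := by
    have h1 := o.h_lt
    have h2 : 0 < o.p2 := by linarith [o.one_lt, o.p_lt]
    rw [lt_div_iff₀ h2] at h1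
    nlinarith [o.h_pos, o.p_lt]
  have hcontr : ∀ (x : G.V → ℝ) (e : c.I → ℝ),
      qf M ((obsB o.a c).mulVec ((Cless G g.m).mulVec x) + e) ≤ x ⬝ᵥ (Cless G g.m).mulVec x + e ⬝ᵥ e := by
    intro x e
    have h := energy_contraction o.a o.a_pos hc (Top.opn c O) hok g.m hm x e
    rw [hM] at h
    have e1 : (fun i => avg c (fun x_1 => Real.sqrt o.a * (Cless G g.m).mulVec x x_1) i + e i)
        = (obsB o.a c).mulVec ((Cless G g.m).mulVec x) + e := by
      funext i
      simp only [obsB_mulVec, Pi.add_apply]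
    have e2 : ∑ i, e i ^ 2 = e ⬝ᵥ e := by
      simp only [dotProduct, sq]
    rw [e1, e2] at h
    exact h
  have hface : ∀ y, ∑ f ∈ (Top.opn c O).faces, (y (fnb c f) - y f.1) ^ 2 ≤ CF * qf M y := by
    intro y
    have h := hP G c hc (Top.opn c O) hok 0 y
    have e0 : (Top.opn c O).En o.a 0 y = (Top.opn c O).Eobs o.a 0 y := by
      simp only [Top.Eobs]
      congr 1
      funext f
      simp
    rw [e0, hM] at h
    simpa using h
  have hMnn : ∀ y, 0 ≤ qf M y := qf_nonneg M hMpsd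
  have hsub := top_le_opn q.T hq.top O hq.cells
  have hTM : ∀ y, qf QT y ≤ qf M y := by
    intro y
    rw [← hQT, ← hM]
    exact Eobs_mono q.T (Top.opn c O) hsub.1 hsub.2 o.a o.a_pos _ y
  have hε : 0 ≤ ε := by
    have i0 : c.I := ⟨⟨0, by have := hc.two; omega⟩, ⟨0, by have := hc.two; omega⟩⟩
    exact (hq.κ0 (i0, true)).trans (hq.κε (i0, true))
  have key := avg_cameron M hMpsd (obsB o.a c) (Cless G g.m) (low_psd G Fam.entry entry_adm g.m hm) hcontr
    o.hstar o.p1 h1 o.one_lt hmar h10 h1s (Finset.insertNone (Top.opn c O).faces)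
    (fun k => k.elim q.hb fun f => 2 * q.κ f)
    (fun k => k.elim QT fun f => Matrix.vecMulVec (dF c f) (dF c f))
    (fun k => k.elim 1 fun _ => CF) (fun k => k.elim q.T.cells.card fun _ => 1)
    (by
      intro k _
      cases k with
      | none => exact hq.hb0
      | some f => simpa using hq.κ0 f)
    (by
      intro k _
      cases k with
      | none => exact hQTpsd
      | some f => exact psd_vecMulVec _)
    (by
      intro k _
      cases k with
      | none => exact zero_le_one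
      | some f => exact hCF.le)
    (by
      intro k hk y
      cases k with
      | none => simpa using hTM y
      | some f =>
        have hf : f ∈ (Top.opn c O).faces := by simpa using hk
        simp only [Option.elim_some, qf_vecMulVec, dF_dot]
        refine le_trans ?_ (hface y)
        exact Finset.single_le_sum (f := fun f => (y (fnb c f) - y f.1) ^ 2) (fun f _ => sq_nonneg _) hf)
    (by
      intro k _
      cases k with
      | none => exact hQTrk
      | some f => exact Matrix.rank_vecMulVec_le _ _)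
    (by
      intro y
      rw [Finset.sum_insertNone]
      simp only [Option.elim_none, Option.elim_some, qf_vecMulVec, dF_dot]
      have h1' : q.hb * qf QT y ≤ q.hb * qf M y := mul_le_mul_of_nonneg_left (hTM y) hq.hb0
      have h2' : ∑ f ∈ (Top.opn c O).faces, 2 * q.κ f * (y (fnb c f) - y f.1) ^ 2
          ≤ 2 * ε * ∑ f ∈ (Top.opn c O).faces, (y (fnb c f) - y f.1) ^ 2 := by
        rw [Finset.mul_sum]
        refine Finset.sum_le_sum fun f _ => ?_
        exact mul_le_mul_of_nonneg_right (by linarith [hq.κε f]) (sq_nonneg _)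
      have h3' : 2 * ε * ∑ f ∈ (Top.opn c O).faces, (y (fnb c f) - y f.1) ^ 2 ≤ 2 * ε * (CF * qf M y) :=
        mul_le_mul_of_nonneg_left (hface y) (by positivity)
      have h4' : (q.hb + 2 * CF * ε) * qf M y ≤ h1 * qf M y := mul_le_mul_of_nonneg_right hgap (hMnn y)
      nlinarith)
    ((obsB o.a c).mulVec ψ) ((obsB o.a c).mulVec lam)
  have hL : ∀ (ζ : G.V → ℝ) (e : c.I → ℝ), q.val o.a 0 (obsY o.a c 0 (ψ + lam) ζ e)
      = (∑ k ∈ Finset.insertNone (Top.opn c O).faces, (k.elim q.hb fun f => 2 * q.κ f)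
          * qf (k.elim QT fun f => Matrix.vecMulVec (dF c f) (dF c f))
            ((obsB o.a c).mulVec ψ + (obsB o.a c).mulVec lam + ((obsB o.a c).mulVec ζ + e))) / 2 := by
    intro ζ e
    rw [val_zero_eq q o.a O ε hq QT hQT, obsY_zero]
  simp only [hL]
  refine le_trans key (ENNReal.ofReal_le_ofReal (Real.exp_le_exp.2 ?_))
  rw [← Vobs_eq o.a o.hstar o.p1 c g (Cless G g.m) X M hMo ψ, Finset.sum_insertNone]
  simp only [Option.elim_none, Option.elim_some]
  have hlam : qf M ((obsB o.a c).mulVec lam) ≤ bondE (g.Dm X) lam := by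
    rw [← hMo, obsB_mulVec]
    exact openE_le_bondE o.a o.a_pos c (g.Dm X) lam
  have hcoef : 0 ≤ h1 * o.hstar / (2 * (o.hstar - h1)) := by
    have : 0 < o.hstar - h1 := by linarith
    have := o.h_pos
    positivity
  have h5 := mul_le_mul_of_nonneg_left hlam hcoef
  have htr : q.hb * (1 * (q.T.cells.card : ℝ)) + ∑ f ∈ (Top.opn c O).faces, 2 * q.κ f * (CF * ((1 : ℕ) : ℝ))
      ≤ q.tr (2 * CF) := by
    have h6 : ∑ f ∈ (Top.opn c O).faces, 2 * q.κ f * (CF * ((1 : ℕ) : ℝ)) ≤ ∑ f, 2 * q.κ f * (CF * ((1 : ℕ) : ℝ)) :=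
      Finset.sum_le_sum_of_subset_of_nonneg (Finset.subset_univ _) fun f _ _ => by
        have := hq.κ0 f
        positivity
    have h7 : ∑ f, 2 * q.κ f * (CF * ((1 : ℕ) : ℝ)) = 2 * CF * ∑ f, q.κ f := by
      rw [Finset.mul_sum]
      refine Finset.sum_congr rfl fun f _ => ?_
      push_cast
      ring
    rw [QCost.tr]
    linarith
  have h1lt : h1 < 1 := by
    nlinarith [o.one_lt, o.h_pos]
  have hpos : 0 < 2 * (1 - h1) := by linarith
  have h8 := div_le_div_of_nonneg_right htr hpos.le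
  linarith

/-- the deterministic split -/
theorem val_split {c : Grid G} (q : QCost c) (a : ℝ) (ha : 0 < a) (hb0 : 0 ≤ q.hb) (hκ : ∀ f, 0 ≤ q.κ f) (θ : ℝ) (hθ : 0 < θ)
    (τ : Face c → ℤ) (y y' : c.I → ℝ) :
    q.val a τ (y + y') ≤ (q.scale (1 + θ)).val a 0 y + (1 + θ⁻¹) * q.val a τ y' := by
  have hE : q.T.Eobs a τ (y + y') ≤ (1 + θ) * q.T.Eobs a 0 y + (1 + θ⁻¹) * q.T.Eobs a τ y' := by
    have h := En_split q.T a ha θ hθ 0 (fun f => 2 * Real.pi * τ f) y y'
    rw [zero_add] at h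
    rw [Eobs_zero]
    exact h
  have hF : ∑ f, q.κ f * wf c τ (y + y') f ^ 2
      ≤ ∑ f, (1 + θ) * q.κ f * wf c 0 y f ^ 2 + (1 + θ⁻¹) * ∑ f, q.κ f * wf c τ y' f ^ 2 := by
    rw [Finset.mul_sum, ← Finset.sum_add_distrib]
    refine Finset.sum_le_sum fun f _ => ?_
    have e1 : wf c τ (y + y') f = wf c 0 y f + wf c τ y' f := by
      simp only [wf, Pi.add_apply, Pi.zero_apply, Int.cast_zero, mul_zero]
      ring
    rw [e1]
    have := mul_le_mul_of_nonneg_left (sq_add_le_theta θ hθ (wf c 0 y f) (wf c τ y' f)) (hκ f)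
    nlinarith
  simp only [QCost.val, QCost.scale]
  have hE' := mul_le_mul_of_nonneg_left hE (by linarith : 0 ≤ q.hb / 2)
  nlinarith

theorem scale_ok {c : Grid G} (q : QCost c) (O : Finset c.I) (ε t : ℝ) (ht : 0 < t) (hq : q.Ok O ε) :
    (q.scale t).Ok O (t * ε) where
  top := hq.top
  cells := hq.cells
  hb0 := mul_nonneg ht.le hq.hb0
  κ0 := fun f => mul_nonneg ht.le (hq.κ0 f)
  κε := fun f => mul_le_mul_of_nonneg_left (hq.κε f) ht.le
  κs := fun f hf => hq.κs f fun h0 => hf (by simp [QCost.scale, h0])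

theorem scale_tr {c : Grid G} (q : QCost c) (t CP : ℝ) : (q.scale t).tr CP = t * q.tr CP := by
  simp only [QCost.tr, QCost.scale, ← Finset.mul_sum]
  ring

theorem obsY_split (a : ℝ) (c : Grid G) (v φ ζ : G.V → ℝ) (e : c.I → ℝ) :
    obsY a c v φ ζ e = obsY a c 0 φ ζ e + avg c v := by
  funext i
  simp only [obsY, Pi.add_apply, avg_add, Pi.zero_apply]
  have h0 : avg c (fun _ : G.V => (0 : ℝ)) i = 0 := by simp [cellAvg]
  rw [h0]
  ring

/-- pointwise form of the deterministic split along the observation -/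
theorem val_obsY_le {c : Grid G} (q : QCost c) (a : ℝ) (ha : 0 < a) (O : Finset c.I) (ε : ℝ) (hq : q.Ok O ε) (θ : ℝ) (hθ : 0 < θ)
    (τ : Face c → ℤ) (v φ ζ : G.V → ℝ) (e : c.I → ℝ) :
    q.val a τ (obsY a c v φ ζ e) ≤ (q.scale (1 + θ)).val a 0 (obsY a c 0 φ ζ e) + (1 + θ⁻¹) * q.val a τ (avg c v) := by
  rw [obsY_split]
  exact val_split q a ha hq.hb0 hq.κ0 θ hθ τ _ _

/-- **the averaging theorem in a sector**: any integral connection `τ`, any deterministic background `v`. -/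
theorem avg_sector (o : ObsPar) : ∃ CP : ℝ, 0 < CP ∧ ∀ (G : Geom) (c g : Grid G), Whole c → Nonempty (Nest c g) → 1 ≤ g.m →
    ∀ (X : Finset g.I) (q : QCost c) (ε h1 θ : ℝ), q.Ok (cellsIn c (g.Dm X)) ε → 0 < θ → (1 + θ) * (q.hb + CP * ε) ≤ h1 →
    0 < h1 → h1 < o.hstar → ∀ (τ : Face c → ℤ) (v ψ lam : G.V → ℝ),
      ∫⁻ ζ, ∫⁻ e, ENNReal.ofReal (Real.exp (q.val o.a τ (obsY o.a c v (ψ + lam) ζ e))) ∂(noise c) ∂(gauss G (Cless G g.m))
        ≤ ENNReal.ofReal (Real.exp ((1 + θ) * q.tr CP / (2 * (1 - h1)) + (1 + θ⁻¹) * q.val o.a τ (avg c v)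
            + Vobs o.a o.hstar o.p1 c g (Cless G g.m) X ψ
            + h1 * o.hstar / (2 * (o.hstar - h1)) * bondE (g.Dm X) lam)) := by
  obtain ⟨CP, hCP, hmain⟩ := avg_main o
  refine ⟨CP, hCP, ?_⟩
  intro G c g hc hN hm X q ε h1 θ hq hθ hgap h10 h1s τ v ψ lam
  have hθ1 : 0 < 1 + θ := by linarith
  have hq' := scale_ok q _ ε (1 + θ) hθ1 hq
  have hm' := hmain G c g hc hN hm X (q.scale (1 + θ)) ((1 + θ) * ε) h1 hq'
    (by simp only [QCost.scale]; linarith) h10 h1s ψ lam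
  have hpt : ∀ (ζ : G.V → ℝ) (e : c.I → ℝ), ENNReal.ofReal (Real.exp (q.val o.a τ (obsY o.a c v (ψ + lam) ζ e)))
      ≤ ENNReal.ofReal (Real.exp ((1 + θ⁻¹) * q.val o.a τ (avg c v)))
        * ENNReal.ofReal (Real.exp ((q.scale (1 + θ)).val o.a 0 (obsY o.a c 0 (ψ + lam) ζ e))) := by
    intro ζ e
    rw [← ENNReal.ofReal_mul (Real.exp_pos _).le, ← Real.exp_add]
    refine ENNReal.ofReal_le_ofReal (Real.exp_le_exp.2 ?_)
    have := val_obsY_le q o.a o.a_pos _ ε hq θ hθ τ v (ψ + lam) ζ e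
    linarith
  refine (lintegral_mono fun ζ => lintegral_mono fun e => hpt ζ e).trans ?_
  simp only [lintegral_const_mul' _ _ ENNReal.ofReal_ne_top]
  refine (mul_le_mul_right hm' _).trans ?_
  rw [← ENNReal.ofReal_mul (Real.exp_pos _).le, ← Real.exp_add, scale_tr]
  refine ENNReal.ofReal_le_ofReal (Real.exp_le_exp.2 ?_)
  linarith

theorem val_zero_continuous {c : Grid G} (q : QCost c) (a : ℝ) (ha : 0 < a) : Continuous fun y : c.I → ℝ => q.val a 0 y := by
  obtain ⟨QT, -, hQT, -⟩ := En_form q.T a ha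
  simp only [QCost.val, hQT, wf_zero]
  unfold qf
  fun_prop

theorem obsY_continuous (a : ℝ) (c : Grid G) (φ : G.V → ℝ) :
    Continuous fun p : (G.V → ℝ) × (c.I → ℝ) => obsY a c 0 φ p.1 p.2 := by
  have h : ∀ p : (G.V → ℝ) × (c.I → ℝ), obsY a c 0 φ p.1 p.2
      = (obsB a c).mulVec φ + (obsB a c).mulVec 0 + ((obsB a c).mulVec p.1 + p.2) := by
    intro p
    rw [← obsY_zero, add_zero]
  simp only [h]
  fun_prop

/-- **finite sums** (positive choices, box translates, good/bad classes: indicators already replaced by one).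
`Φ` = any pointwise bound of the unaveraged normalized pattern as a function of the TOTAL real observation `y = B_s (v + α (ψ + ζ)) + e`. -/
theorem avg_pattern (o : ObsPar) : ∃ CP : ℝ, 0 < CP ∧ ∀ (G : Geom) (c g : Grid G), Whole c → Nonempty (Nest c g) → 1 ≤ g.m →
    ∀ (X : Finset g.I) (ε h1 θ : ℝ), 0 < θ → 0 < h1 → h1 < o.hstar → ∀ (τ : Face c → ℤ) (v : G.V → ℝ)
      {K : Type} (s : Finset K) (A : K → ℝ) (q : K → QCost c),
      (∀ k ∈ s, (q k).Ok (cellsIn c (g.Dm X)) ε ∧ (1 + θ) * ((q k).hb + CP * ε) ≤ h1) →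
      ∀ Φ : (c.I → ℝ) → ℝ≥0∞, (∀ y, Φ y ≤ ∑ k ∈ s, ENNReal.ofReal (Real.exp (A k + (q k).val o.a τ y))) →
      ∀ ψ lam : G.V → ℝ,
        ∫⁻ ζ, ∫⁻ e, Φ (obsY o.a c v (ψ + lam) ζ e) ∂(noise c) ∂(gauss G (Cless G g.m))
          ≤ (∑ k ∈ s, ENNReal.ofReal (Real.exp (A k + (1 + θ) * (q k).tr CP / (2 * (1 - h1))
                + (1 + θ⁻¹) * (q k).val o.a τ (avg c v))))
            * ENNReal.ofReal (Real.exp (Vobs o.a o.hstar o.p1 c g (Cless G g.m) X ψ
                + h1 * o.hstar / (2 * (o.hstar - h1)) * bondE (g.Dm X) lam)) := by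
  obtain ⟨CP, hCP, hmain⟩ := avg_main o
  refine ⟨CP, hCP, ?_⟩
  intro G c g hc hN hm X ε h1 θ hθ h10 h1s τ v K s A q hq Φ hΦ ψ lam
  have hθ1 : 0 < 1 + θ := by linarith
  obtain ⟨Dk, hDk⟩ : ∃ Dk : K → ℝ≥0∞, Dk = fun k =>
      ENNReal.ofReal (Real.exp (A k + (1 + θ⁻¹) * (q k).val o.a τ (avg c v))) := ⟨_, rfl⟩
  obtain ⟨Fk, hFk⟩ : ∃ Fk : K → (G.V → ℝ) × (c.I → ℝ) → ℝ≥0∞, Fk = fun k p =>
      ENNReal.ofReal (Real.exp (((q k).scale (1 + θ)).val o.a 0 (obsY o.a c 0 (ψ + lam) p.1 p.2))) := ⟨_, rfl⟩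
  have hDtop : ∀ k, Dk k ≠ ⊤ := fun k => by rw [hDk]; exact ENNReal.ofReal_ne_top
  have hpt : ∀ (ζ : G.V → ℝ) (e : c.I → ℝ), Φ (obsY o.a c v (ψ + lam) ζ e) ≤ ∑ k ∈ s, Dk k * Fk k (ζ, e) := by
    intro ζ e
    refine (hΦ _).trans (Finset.sum_le_sum fun k hk => ?_)
    rw [hDk, hFk]
    simp only
    rw [← ENNReal.ofReal_mul (Real.exp_pos _).le, ← Real.exp_add]
    refine ENNReal.ofReal_le_ofReal (Real.exp_le_exp.2 ?_)
    have := val_obsY_le (q k) o.a o.a_pos _ ε (hq k hk).1 θ hθ τ v (ψ + lam) ζ e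
    linarith
  have hmeas : ∀ k, Measurable (Fk k) := by
    intro k
    rw [hFk]
    exact ENNReal.measurable_ofReal.comp (Real.measurable_exp.comp
      ((val_zero_continuous _ o.a o.a_pos).comp (obsY_continuous o.a c (ψ + lam))).measurable)
  have hm1 : ∀ k, Measurable fun p : (G.V → ℝ) × (c.I → ℝ) => Dk k * Fk k p := fun k => (hmeas k).const_mul _
  have hnoise : SFinite (noise c) := by unfold noise; infer_instance
  refine (lintegral_mono fun ζ => lintegral_mono fun e => hpt ζ e).trans ?_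
  have e1 : ∀ ζ : G.V → ℝ, ∫⁻ e, ∑ k ∈ s, Dk k * Fk k (ζ, e) ∂(noise c) = ∑ k ∈ s, ∫⁻ e, Dk k * Fk k (ζ, e) ∂(noise c) :=
    fun ζ => lintegral_finsetSum _ fun k _ => (hm1 k).comp measurable_prodMk_left
  simp only [e1]
  rw [lintegral_finsetSum _ fun k _ => (hm1 k).lintegral_prod_right', Finset.sum_mul]
  refine Finset.sum_le_sum fun k hk => ?_
  simp only [lintegral_const_mul' _ _ (hDtop k)]
  have hq' := scale_ok (q k) _ ε (1 + θ) hθ1 (hq k hk).1
  have hm' := hmain G c g hc hN hm X ((q k).scale (1 + θ)) ((1 + θ) * ε) h1 hq'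
    (by simp only [QCost.scale]; linarith [(hq k hk).2]) h10 h1s ψ lam
  have e2 : ∫⁻ ζ, ∫⁻ e, Fk k (ζ, e) ∂(noise c) ∂(gauss G (Cless G g.m))
      = ∫⁻ ζ, ∫⁻ e, ENNReal.ofReal (Real.exp (((q k).scale (1 + θ)).val o.a 0 (obsY o.a c 0 (ψ + lam) ζ e)))
          ∂(noise c) ∂(gauss G (Cless G g.m)) := by
    rw [hFk]
  rw [e2]
  refine (mul_le_mul_right hm' _).trans ?_
  rw [hDk]
  simp only
  rw [← ENNReal.ofReal_mul (Real.exp_pos _).le, ← Real.exp_add, ← ENNReal.ofReal_mul (Real.exp_pos _).le,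
    ← Real.exp_add, scale_tr]
  refine ENNReal.ofReal_le_ofReal (Real.exp_le_exp.2 ?_)
  linarith

theorem full_ok (c : Grid G) : (Top.full c).Ok := by
  classical
  intro f hf
  simp only [Top.full, Finset.mem_filter, Finset.mem_univ, true_and] at hf ⊢
  exact ⟨hf, trivial⟩

theorem eta_eq {c : Grid G} (T : Top c) (τ : Face c → ℤ) (v : G.V → ℝ) (e : T.graph.E) :
    v (stp e.1.1 e.1.2) - v e.1.1 + T.econn (fun f => 2 * Real.pi * (τ f : ℝ)) e = T.eta τ v e := by
  simp only [Top.eta, Top.econn]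
  split_ifs <;> simp

/-- trial field `v` in a cut energy -/
theorem Eobs_avg_le {c : Grid G} (T : Top c) (a : ℝ) (ha : 0 < a) (τ : Face c → ℤ) (v : G.V → ℝ) :
    T.Eobs a τ (avg c v) ≤ a⁻¹ * ∑ e : T.graph.E, T.eta τ v e ^ 2 := by
  refine (En_le_quad T a ha _ _ v).trans (le_of_eq ?_)
  unfold Top.quad
  simp only [eta_eq, sub_self, ne_eq, OfNat.ofNat_ne_zero, not_false_eq_true, zero_pow, Finset.sum_const_zero, add_zero]

/-- LEAF AVG-DET: the deterministic cost: trial field `v` in the cut energies, cell flows for the face data; `η = ∇ v + 2π τ` -/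
theorem det_le (a : ℝ) (ha : 0 < a) : ∃ C : ℝ, 0 < C ∧ ∀ (G : Geom) (c : Grid G), Whole c → ∀ (q : QCost c) (O : Finset c.I) (ε : ℝ),
    q.Ok O ε → ∀ (τ : Face c → ℤ) (v : G.V → ℝ),
      q.val a τ (avg c v) ≤ q.hb / (2 * a) * ∑ e : q.T.graph.E, q.T.eta τ v e ^ 2
        + C * ∑ f, q.κ f * ∑ e : (Top.full c).graph.E,
            if c.blk e.1.1 = f.1 ∨ c.blk e.1.1 = fnb c f then (Top.full c).eta τ v e ^ 2 else 0 := by
  classical
  obtain ⟨C, hC⟩ := cell_flow
  refine ⟨|C| + 1, by positivity, ?_⟩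
  intro G c hc q O ε hq τ v
  obtain ⟨Φ, hΦ1, hΦ2, hΦ3⟩ := hC G c hc (Top.full c) (full_ok c)
  have h1 : q.hb / 2 * q.T.Eobs a τ (avg c v) ≤ q.hb / (2 * a) * ∑ e : q.T.graph.E, q.T.eta τ v e ^ 2 := by
    have h := mul_le_mul_of_nonneg_left (Eobs_avg_le q.T a ha τ v) (by linarith [hq.hb0] : 0 ≤ q.hb / 2)
    refine h.trans (le_of_eq ?_)
    field_simp
  have h2 : ∑ f, q.κ f * wf c τ (avg c v) f ^ 2 ≤ (|C| + 1) * ∑ f, q.κ f * ∑ e : (Top.full c).graph.E,
      if c.blk e.1.1 = f.1 ∨ c.blk e.1.1 = fnb c f then (Top.full c).eta τ v e ^ 2 else 0 := by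
    rw [Finset.mul_sum]
    refine Finset.sum_le_sum fun f _ => ?_
    by_cases hκ : q.κ f = 0
    · simp [hκ]
    have hf : f ∈ (Top.full c).faces := by
      have := hq.κs f hκ
      simp only [Top.opn, Top.restr, Finset.mem_filter] at this
      exact this.1
    have e1 : wf c τ (avg c v) f = ∑ e, Φ f e * (Top.full c).eta τ v e := by
      have h := hΦ1 f hf v (fun f => 2 * Real.pi * (τ f : ℝ))
      simp only [eta_eq] at h
      rw [← h, wf]
    have e2 : ∑ e, Φ f e * (Top.full c).eta τ v e = ∑ e, Φ f e *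
        (if c.blk e.1.1 = f.1 ∨ c.blk e.1.1 = fnb c f then (Top.full c).eta τ v e else 0) := by
      refine Finset.sum_congr rfl fun e _ => ?_
      split_ifs with hc'
      · rfl
      · have : Φ f e = 0 := by
          by_contra h0
          exact hc' (hΦ2 f hf e h0)
        rw [this, zero_mul, zero_mul]
    have e3 : ∑ e, Φ f e ^ 2 ≤ |C| + 1 := by
      have h := (hΦ3 (Pi.single f 1)).2
      have s1 : ∀ e, ∑ f' ∈ (Top.full c).faces, (Pi.single f 1 : Face c → ℝ) f' * Φ f' e = Φ f e := by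
        intro e
        rw [Finset.sum_eq_single f]
        · simp
        · intro f' _ hne
          simp [hne]
        · intro hn
          exact absurd hf hn
      have s2 : ∑ f' ∈ (Top.full c).faces, (Pi.single f 1 : Face c → ℝ) f' ^ 2 = 1 := by
        rw [Finset.sum_eq_single f]
        · simp
        · intro f' _ hne
          simp [hne]
        · intro hn
          exact absurd hf hn
      simp only [s1, s2, mul_one] at h
      linarith [le_abs_self C]
    have e4 : wf c τ (avg c v) f ^ 2 ≤ (|C| + 1) * ∑ e : (Top.full c).graph.E,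
        if c.blk e.1.1 = f.1 ∨ c.blk e.1.1 = fnb c f then (Top.full c).eta τ v e ^ 2 else 0 := by
      rw [e1, e2]
      refine (Finset.sum_mul_sq_le_sq_mul_sq _ _ _).trans ?_
      have e5 : ∑ e : (Top.full c).graph.E,
          (if c.blk e.1.1 = f.1 ∨ c.blk e.1.1 = fnb c f then (Top.full c).eta τ v e else 0) ^ 2
          = ∑ e : (Top.full c).graph.E,
            if c.blk e.1.1 = f.1 ∨ c.blk e.1.1 = fnb c f then (Top.full c).eta τ v e ^ 2 else 0 := by
        refine Finset.sum_congr rfl fun e _ => ?_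
        split_ifs <;> simp
      rw [e5]
      refine mul_le_mul_of_nonneg_right e3 (Finset.sum_nonneg fun e _ => ?_)
      split_ifs
      · exact sq_nonneg _
      · exact le_rfl
    have := mul_le_mul_of_nonneg_left e4 (hq.κ0 f)
    linarith
  rw [QCost.val]
  linarith

end

end Claimed.Agent.R285.Avg
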