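import Claimed.Agent.R285.Entry.NtPar

/-!
# ROW 285, ENTRY, post NORM (#13340, architect helper229), STEP (D4): THE NUMERICAL CONDITIONS `NNum`.   Prefix `nn_`.   Paper-free, no geometry: real inequalities only.
`R = 2^kR`, `P = R⁵`; order of the choices (= `Ent.NormGenStmt`, `Ent/PhysIf.lean`):  `lam`, `K`, first `kR`;  `kR`, `γ`;  `U`;  `nZ`;  `CR`;  then `Ds, cz, x ≤ x0, ea ≤ R^{-12}, bg ≥ 1`.
LEAVES: L-NN-EE (`nn_ee`), L-NN-U (`nn_exp_small`, `nn_U`), L-NN-A1 (`nn_A1`), L-NN-ALL (`nn_num`).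
-/

set_option autoImplicit false

namespace Claimed.Agent.R285.Entry

open scoped BigOperators
open Claimed.Agent.R285 Claimed.Agent.R285.RG Claimed.Agent.R285.F4a Claimed.Agent.R285.Ent

noncomputable section

/-- the parameters of the reduction at `R = 2^kR`, `P = R⁵` -/
def nnP (a cstar cb θ Cp Cq cq C0 lam K : ℝ) (kR : ℕ) (γ U : ℝ) (nZ : ℕ) (CR Ds cz x ea bg : ℝ) : NPar where
  a := a
  cb := cb
  θ := θ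
  Cq := Cq
  cc := cq
  Ds := Ds
  Cp := Cp
  x := x
  cstar := cstar
  U := U
  γ := γ
  C0 := C0
  ea := ea
  bg := bg
  lam := lam
  cz := cz
  P := (2 ^ kR) ^ 5
  nZ := nZ
  gm := K * ((2 : ℝ) ^ kR) ^ 8 * Real.sqrt γ
  big := CR * bg ^ 4 * Real.exp (Ds * cz / 2)
  CR := CR

open Filter Topology in
/-- **L-NN-EE.**  `e1 Cq cq R = A e^{-cq (R/32)}` with `A = Cq Cg Cm / 2` and `(2^kR / 32 : ℕ) = 2^(kR-5)` for `kR ≥ 5`, so `e1 R² = 1024 A m² e^{-cq m}`, `m = 2^(kR-5) ≥ kR - 5`, and `m² e^{-cq m} ≤ 6 / (cq³ m)` (`Real.pow_div_factorial_le_exp`);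
`e2 Cq cq R R⁵ = B R / R⁵`, so `e2 R² = B / R²`;  `R ≥ kR` (`Nat.lt_two_pow_self`). -/
theorem nn_ee (Cq cq ε : ℝ) (hCq : 0 ≤ Cq) (hcq : 0 < cq) (hε : 0 < ε) : ∃ k1 : ℕ, ∀ kR ≥ k1,
    (e1 Cq cq (2 ^ kR) + e2 Cq cq (2 ^ kR) ((2 ^ kR) ^ 5)) * ((2 : ℝ) ^ kR) ^ 2 ≤ ε ∧ 1 / ((2 : ℝ) ^ kR) ^ 12 ≤ ε := by
  have hx : Tendsto (fun k : ℕ => (2 : ℝ) ^ k) atTop atTop := tendsto_pow_atTop_atTop_of_one_lt (by norm_num)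
  have hc : 0 < cq / 32 := by positivity
  have h1 : Tendsto (fun x : ℝ => (cq / 32 * x) ^ 2 * Real.exp (-(cq / 32 * x))) atTop (𝓝 0) :=
    (Real.tendsto_pow_mul_exp_neg_atTop_nhds_zero 2).comp (tendsto_id.const_mul_atTop hc)
  have t1 : Tendsto (fun k : ℕ => (Cq * Cg cq * Cm (cq / 2) / 2) * ((cq / 32) ^ 2)⁻¹
      * ((cq / 32 * 2 ^ k) ^ 2 * Real.exp (-(cq / 32 * 2 ^ k)))) atTop (𝓝 0) := by
    have := (h1.comp hx).const_mul ((Cq * Cg cq * Cm (cq / 2) / 2) * ((cq / 32) ^ 2)⁻¹)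
    simpa using this
  have t2 : Tendsto (fun k : ℕ => (Cq * Cg (cq / 2) * (16 * Cs (cq / 4)) / 2) * (((2 : ℝ) ^ k) ^ 2)⁻¹) atTop (𝓝 0) := by
    have := (tendsto_inv_atTop_zero.comp ((tendsto_pow_atTop (α := ℝ) (n := 2) (by norm_num)).comp hx)).const_mul
      (Cq * Cg (cq / 2) * (16 * Cs (cq / 4)) / 2)
    simpa using this
  have t3 : Tendsto (fun k : ℕ => (((2 : ℝ) ^ k) ^ 12)⁻¹) atTop (𝓝 0) :=
    tendsto_inv_atTop_zero.comp ((tendsto_pow_atTop (α := ℝ) (n := 12) (by norm_num)).comp hx)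
  obtain ⟨k1, hk1⟩ := eventually_atTop.1 ((eventually_ge_atTop 5).and ((t1.eventually_le_const (half_pos hε)).and
    ((t2.eventually_le_const (half_pos hε)).and (t3.eventually_le_const hε))))
  refine ⟨k1, fun kR hkR => ?_⟩
  obtain ⟨h5, b1, b2, b3⟩ := hk1 kR hkR
  refine ⟨?_, by rw [one_div]; exact b3⟩
  have hp : (0 : ℝ) < 2 ^ kR := by positivity
  have hdiv : ((2 ^ kR / 32 : ℕ) : ℝ) = 2 ^ kR / 32 := by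
    obtain ⟨m, rfl⟩ := Nat.exists_eq_add_of_le h5
    have : (2 ^ (5 + m) / 32 : ℕ) = 2 ^ m := by
      rw [pow_add]
      norm_num
    rw [this, pow_add]
    push_cast
    norm_num
  have q1 : e1 Cq cq (2 ^ kR) * ((2 : ℝ) ^ kR) ^ 2 = (Cq * Cg cq * Cm (cq / 2) / 2) * ((cq / 32) ^ 2)⁻¹
      * ((cq / 32 * 2 ^ kR) ^ 2 * Real.exp (-(cq / 32 * 2 ^ kR))) := by
    unfold e1
    rw [hdiv, show -cq * ((2 : ℝ) ^ kR / 32) = -(cq / 32 * 2 ^ kR) by ring]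
    field_simp
  have q2 : e2 Cq cq (2 ^ kR) ((2 ^ kR) ^ 5) * ((2 : ℝ) ^ kR) ^ 2
      = (Cq * Cg (cq / 2) * (16 * Cs (cq / 4)) / 2) * (((2 : ℝ) ^ kR) ^ 2)⁻¹ := by
    unfold e2
    push_cast
    field_simp
  rw [add_mul, q1, q2]
  linarith

/-- `U² = log (A / ε) / lam` if `A > ε`, else `U = 0`; monotone in `U` -/
theorem nn_exp_small (lam A ε : ℝ) (hl : 0 < lam) (hA : 0 ≤ A) (hε : 0 < ε) : ∃ U0 : ℝ, 0 ≤ U0 ∧ ∀ U ≥ U0, Real.exp (-lam * U ^ 2) * A ≤ ε := by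
  refine ⟨Real.sqrt (A / (ε * lam)), Real.sqrt_nonneg _, fun U hU => ?_⟩
  have h0 : 0 ≤ A / (ε * lam) := div_nonneg hA (mul_pos hε hl).le
  have h1 : A / (ε * lam) ≤ U ^ 2 := by
    have := pow_le_pow_left₀ (Real.sqrt_nonneg _) hU 2
    rwa [Real.sq_sqrt h0] at this
  have h2 : A ≤ ε * (lam * U ^ 2) := by
    rw [div_le_iff₀ (mul_pos hε hl)] at h1
    linarith
  have h3 : lam * U ^ 2 + 1 ≤ Real.exp (lam * U ^ 2) := Real.add_one_le_exp _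
  have h4 : A ≤ ε * Real.exp (lam * U ^ 2) := by
    have := mul_le_mul_of_nonneg_left h3 hε.le
    linarith
  have h5 : Real.exp (-lam * U ^ 2) * Real.exp (lam * U ^ 2) = 1 := by
    rw [← Real.exp_add]
    simp
  calc Real.exp (-lam * U ^ 2) * A ≤ Real.exp (-lam * U ^ 2) * (ε * Real.exp (lam * U ^ 2)) :=
        mul_le_mul_of_nonneg_left h4 (Real.exp_pos _).le
    _ = ε * (Real.exp (-lam * U ^ 2) * Real.exp (lam * U ^ 2)) := by ring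
    _ = ε := by rw [h5, mul_one]

/-- **L-NN-U.**  `nn_exp_small` twice (`Real.exp_add`), `U = max` -/
theorem nn_U (lam θ Cp x0 γ : ℝ) (R P : ℕ) (hl : 0 < lam) (hx0 : 1 ≤ x0) (hγ : 0 < γ) : ∃ U : ℝ, 0 ≤ U ∧
    Real.exp (-lam * U ^ 2 + θ * (32 * lam * Cp * (P : ℝ) ^ 2 + 4 * (P : ℝ) ^ 2)) ≤ γ ^ (4 * P ^ 2) ∧
    Real.exp (-lam * U ^ 2) * (x0 * Real.exp (θ * ((R : ℝ) ^ 2 + 8 * lam * Cp * (R : ℝ) ^ 2)) + Real.exp (θ * (8 * lam * Cp * (R : ℝ) ^ 2))) ≤ Real.sqrt γ := by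
  have hx00 : 0 ≤ x0 := by linarith
  obtain ⟨U1, hU1, h1⟩ := nn_exp_small lam (Real.exp (θ * (32 * lam * Cp * (P : ℝ) ^ 2 + 4 * (P : ℝ) ^ 2))) (γ ^ (4 * P ^ 2)) hl
    (Real.exp_pos _).le (pow_pos hγ _)
  obtain ⟨U2, hU2, h2⟩ := nn_exp_small lam
    (x0 * Real.exp (θ * ((R : ℝ) ^ 2 + 8 * lam * Cp * (R : ℝ) ^ 2)) + Real.exp (θ * (8 * lam * Cp * (R : ℝ) ^ 2))) (Real.sqrt γ) hl
    (by positivity) (Real.sqrt_pos.2 hγ)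
  refine ⟨max U1 U2, hU1.trans (le_max_left _ _), ?_, h2 _ (le_max_right _ _)⟩
  rw [Real.exp_add]
  exact h1 _ (le_max_left _ _)

/-- the bound of `A1` -/
def nnK (θ Cp x0 C0 : ℝ) : ℝ := 2 * x0 ^ 43 * Real.exp (θ * (256 * Cp)) * (C0 * Real.exp (θ * (32 * Cp)) + 1) ^ 128

/-- the bound of `CP` -/
def nnC (θ Cp x0 : ℝ) (R : ℕ) : ℝ := 2 * x0 ^ 42 * Real.exp (θ * (256 * Cp + 32 * (R : ℝ) ^ 2))

/-- **L-NN-A1.**  monotonicity (`gcongr`): `x ≤ x0`, `256 ee Cp R² = 256 Cp (ee R²) ≤ 256 Cp`, `32 ea Cp P² ≤ 32 Cp`, `e1 ≤ ee` -/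
theorem nn_A1 (p : NPar) (R : ℕ) (x0 : ℝ) (hθ : 0 ≤ p.θ) (hCp : 0 ≤ p.Cp) (hx : 0 ≤ p.x) (hx0 : p.x ≤ x0) (hC0 : 0 ≤ p.C0)
    (he1 : 0 ≤ e1 p.Cq p.cc R) (he2 : 0 ≤ e2 p.Cq p.cc R p.P) (hee : p.ee R * (R : ℝ) ^ 2 ≤ 1) (hea : p.ea * (p.P : ℝ) ^ 2 ≤ 1) :
    p.A1 R ≤ nnK p.θ p.Cp x0 p.C0 ∧ p.CP R ≤ nnC p.θ p.Cp x0 R := by
  have hx00 : 0 ≤ x0 := hx.trans hx0
  have hR2 : (0 : ℝ) ≤ (R : ℝ) ^ 2 := by positivity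
  have k1 : 256 * p.ee R * p.Cp * (R : ℝ) ^ 2 ≤ 256 * p.Cp := by
    have := mul_le_mul_of_nonneg_left hee (by positivity : 0 ≤ 256 * p.Cp)
    linarith
  have k2 : 32 * p.ea * p.Cp * (p.P : ℝ) ^ 2 ≤ 32 * p.Cp := by
    have := mul_le_mul_of_nonneg_left hea (by positivity : 0 ≤ 32 * p.Cp)
    linarith
  have k3 : 256 * e1 p.Cq p.cc R * p.Cp * (R : ℝ) ^ 2 ≤ 256 * p.Cp := by
    have h1 : e1 p.Cq p.cc R * (R : ℝ) ^ 2 ≤ 1 := by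
      refine le_trans (mul_le_mul_of_nonneg_right ?_ hR2) hee
      unfold NPar.ee
      linarith
    have := mul_le_mul_of_nonneg_left h1 (by positivity : 0 ≤ 256 * p.Cp)
    linarith
  have e1' : Real.exp (p.θ * (256 * p.ee R * p.Cp * (R : ℝ) ^ 2)) ≤ Real.exp (p.θ * (256 * p.Cp)) :=
    Real.exp_le_exp.2 (mul_le_mul_of_nonneg_left k1 hθ)
  have e2' : Real.exp (p.θ * (32 * p.ea * p.Cp * (p.P : ℝ) ^ 2)) ≤ Real.exp (p.θ * (32 * p.Cp)) :=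
    Real.exp_le_exp.2 (mul_le_mul_of_nonneg_left k2 hθ)
  have e3' : Real.exp (p.θ * (256 * e1 p.Cq p.cc R * p.Cp * (R : ℝ) ^ 2 + 32 * (R : ℝ) ^ 2)) ≤ Real.exp (p.θ * (256 * p.Cp + 32 * (R : ℝ) ^ 2)) :=
    Real.exp_le_exp.2 (mul_le_mul_of_nonneg_left (by linarith) hθ)
  have hA0 : p.A0 ≤ p.C0 * Real.exp (p.θ * (32 * p.Cp)) + 1 := by
    unfold NPar.A0
    have := mul_le_mul_of_nonneg_left e2' hC0
    linarith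
  have hA00 : 0 ≤ p.A0 := by
    unfold NPar.A0
    positivity
  constructor
  · unfold NPar.A1 nnK
    have q1 : p.x ^ 43 ≤ x0 ^ 43 := pow_le_pow_left₀ hx hx0 43
    have q2 : p.A0 ^ 128 ≤ (p.C0 * Real.exp (p.θ * (32 * p.Cp)) + 1) ^ 128 := pow_le_pow_left₀ hA00 hA0 128
    have q3 : 2 * p.x ^ 43 ≤ 2 * x0 ^ 43 := by linarith
    exact mul_le_mul (mul_le_mul q3 e1' (Real.exp_pos _).le (by positivity)) q2 (pow_nonneg hA00 _) (by positivity)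
  · unfold NPar.CP nnC
    have q1 : p.x ^ 42 ≤ x0 ^ 42 := pow_le_pow_left₀ hx hx0 42
    have q3 : 2 * p.x ^ 42 ≤ 2 * x0 ^ 42 := by linarith
    exact mul_le_mul q3 e3' (Real.exp_pos _).le (by positivity)

theorem nn_A1_nonneg (p : NPar) (R : ℕ) (hx : 0 ≤ p.x) : 0 ≤ p.A1 R := by
  unfold NPar.A1
  exact mul_nonneg (mul_nonneg (mul_nonneg zero_le_two (pow_nonneg hx _)) (Real.exp_pos _).le) (Even.pow_nonneg ⟨64, rfl⟩ _)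

theorem nn_CP_nonneg (p : NPar) (R : ℕ) (hx : 0 ≤ p.x) : 0 ≤ p.CP R := by
  unfold NPar.CP
  exact mul_nonneg (mul_nonneg zero_le_two (pow_nonneg hx _)) (Real.exp_pos _).le

theorem nn_K_nonneg (θ Cp x0 C0 : ℝ) (hx : 0 ≤ x0) : 0 ≤ nnK θ Cp x0 C0 := by
  unfold nnK
  exact mul_nonneg (mul_nonneg (mul_nonneg zero_le_two (pow_nonneg hx _)) (Real.exp_pos _).le) (Even.pow_nonneg ⟨64, rfl⟩ _)

theorem nn_C_nonneg (θ Cp x0 : ℝ) (R : ℕ) (hx : 0 ≤ x0) : 0 ≤ nnC θ Cp x0 R := by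
  unfold nnC
  exact mul_nonneg (mul_nonneg zero_le_two (pow_nonneg hx _)) (Real.exp_pos _).le

/-- **L-NN-ALL.**  `gap = cb - (1 - cstar)`, `ε = min 1 (gap / (32 (Cp + 1)))`, `lam = ε`, `K = nnK θ Cp x0 C0 + 2`, `k1` from `nn_ee .. ε`; `U` from `nn_U` (`R = 2^kR`, `P = R⁵`);
`CR = K^nZ R⁸ (e^{4 θ P²})⁴ + x0 e^{θ R²} + nnC + nnC^nZ + 1`.      Fields (`simp only [nnP, NPar.hbox, ..]`; write `p` for the record):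
`load`: `8 (lam + ea) Cp + 8 ee Cp ≤ 24 ε Cp ≤ gap` (`ee ≤ ee R²` as `R ≥ 1`);   `bad`, `tile`: `nn_U` (`x ≤ x0`, `γ ≤ √γ`, `2 ≤ K`, `1 ≤ R⁸`);   `halo`: `nn_A1`, `((2^kR)^5 / 2^kR : ℕ) = (2^kR)^4`;
`haloZ`: `A1^nZ ≤ K^nZ`, `wsrc⁴ = bg⁴ (e^{4 θ P²})⁴`;   `tileZ`, `posZ`: `bg ≤ bg⁴`, `1 ≤ e^{Ds cz / 2}`;   `pos`, `posT`, `big1`: direct.   `ea P² ≤ R^{-12} R^{10} ≤ 1`;  `0 ≤ e1, e2`: products of nonnegative numbers (`Cs` is a square). -/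
theorem nn_num (a cstar cb θ Cp Cq cq x0 C0 : ℝ) (hcs0 : 0 < cstar) (hcs1 : cstar < 1) (hcb : 1 - cstar < cb) (hθ : 0 ≤ θ) (hCp : 0 ≤ Cp)
    (hCq : 0 ≤ Cq) (hcq : 0 < cq) (hx0 : 1 ≤ x0) (hC0 : 1 ≤ C0) :
    ∃ (lam K : ℝ) (k1 : ℕ), 0 < lam ∧ 1 ≤ K ∧ ∀ kR ≥ k1, ∀ γ : ℝ, 0 < γ → γ ≤ 1 → ∃ U : ℝ, 0 ≤ U ∧ ∀ nZ : ℕ, ∃ CR : ℝ, 1 ≤ CR ∧
      ∀ (Ds cz x ea bg : ℝ), 0 ≤ Ds → 0 ≤ cz → 1 ≤ x → x ≤ x0 → 0 ≤ ea → ea ≤ 1 / ((2 : ℝ) ^ kR) ^ 12 → 1 ≤ bg →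
        NNum (nnP a cstar cb θ Cp Cq cq C0 lam K kR γ U nZ CR Ds cz x ea bg) (2 ^ kR) := by
  have hx00 : 0 ≤ x0 := by linarith
  have hC00 : 0 ≤ C0 := by linarith
  obtain ⟨gap, hgap⟩ : ∃ gap, gap = cb - (1 - cstar) := ⟨_, rfl⟩
  have hgap0 : 0 < gap := by rw [hgap]; linarith
  obtain ⟨ε, hε⟩ : ∃ ε, ε = min 1 (gap / (32 * (Cp + 1))) := ⟨_, rfl⟩
  have hε0 : 0 < ε := by
    rw [hε]
    exact lt_min one_pos (div_pos hgap0 (by positivity))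
  have hε1 : ε ≤ 1 := by rw [hε]; exact min_le_left _ _
  have hε2 : ε * (32 * (Cp + 1)) ≤ gap := by
    have h : ε ≤ gap / (32 * (Cp + 1)) := by rw [hε]; exact min_le_right _ _
    rwa [le_div_iff₀ (by positivity)] at h
  obtain ⟨k1, hk1⟩ := nn_ee Cq cq ε hCq hcq hε0
  have hK0 : 0 ≤ nnK θ Cp x0 C0 := nn_K_nonneg θ Cp x0 C0 hx00
  obtain ⟨K, hK⟩ : ∃ K, K = nnK θ Cp x0 C0 + 2 := ⟨_, rfl⟩
  have hK2 : 2 ≤ K := by rw [hK]; linarith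
  refine ⟨ε, K, k1, hε0, by linarith, ?_⟩
  intro kR hkR γ hγ0 hγ1
  obtain ⟨hee, hR12⟩ := hk1 kR hkR
  obtain ⟨U, hU0, hU1, hU2⟩ := nn_U ε θ Cp x0 γ (2 ^ kR) ((2 ^ kR) ^ 5) hε0 hx0 hγ0
  refine ⟨U, hU0, fun nZ => ?_⟩
  obtain ⟨Rr, hRr⟩ : ∃ Rr : ℝ, Rr = (2 : ℝ) ^ kR := ⟨_, rfl⟩
  have hR1 : 1 ≤ Rr := by rw [hRr]; exact one_le_pow₀ (by norm_num)
  have hR0 : 0 < Rr := by linarith
  have cR : ((2 ^ kR : ℕ) : ℝ) = Rr := by rw [hRr]; push_cast; rfl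
  have cP : (((2 ^ kR) ^ 5 : ℕ) : ℝ) = Rr ^ 5 := by rw [hRr]; push_cast; rfl
  rw [← hRr] at hee hR12
  obtain ⟨CC, hCC⟩ : ∃ CC, CC = nnC θ Cp x0 (2 ^ kR) := ⟨_, rfl⟩
  have hCC0 : 0 ≤ CC := by rw [hCC]; exact nn_C_nonneg θ Cp x0 _ hx00
  obtain ⟨W, hW⟩ : ∃ W, W = Real.exp (θ * (4 * (Rr ^ 5) ^ 2)) := ⟨_, rfl⟩
  have hW0 : 0 < W := by rw [hW]; exact Real.exp_pos _
  obtain ⟨T, hT⟩ : ∃ T, T = Real.exp (θ * Rr ^ 2) := ⟨_, rfl⟩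
  have hT0 : 0 < T := by rw [hT]; exact Real.exp_pos _
  have hK0' : 0 ≤ K := by linarith
  have n1 : 0 ≤ K ^ nZ * Rr ^ 8 * W ^ 4 := by positivity
  have n2 : 0 ≤ x0 * T := by positivity
  have n3 : 0 ≤ CC ^ nZ := by positivity
  obtain ⟨CRv, hCRv⟩ : ∃ CRv, CRv = K ^ nZ * Rr ^ 8 * W ^ 4 + x0 * T + CC + CC ^ nZ + 1 := ⟨_, rfl⟩
  have hCR1 : 1 ≤ CRv := by rw [hCRv]; linarith only [n1, n2, n3, hCC0]
  refine ⟨CRv, hCR1, ?_⟩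
  intro Ds cz x ea bg hDs hcz hx1 hxx0 hea0 hea hbg
  rw [← hRr] at hea
  have hx0' : 0 ≤ x := by linarith only [hx1]
  have hbg0 : 0 ≤ bg := by linarith only [hbg]
  have he1 : 0 ≤ e1 Cq cq (2 ^ kR) := by unfold e1 Cg Cm Cs; positivity
  have he2 : 0 ≤ e2 Cq cq (2 ^ kR) ((2 ^ kR) ^ 5) := by unfold e2 Cg Cs; positivity
  have hR2 : 1 ≤ Rr ^ 2 := one_le_pow₀ hR1
  have hR8 : 1 ≤ Rr ^ 8 := one_le_pow₀ hR1
  have hee' : e1 Cq cq (2 ^ kR) + e2 Cq cq (2 ^ kR) ((2 ^ kR) ^ 5) ≤ ε := by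
    refine le_trans ?_ hee
    have := mul_le_mul_of_nonneg_left hR2 (add_nonneg he1 he2)
    linarith only [this]
  have hdiv : ((2 ^ kR) ^ 5 / 2 ^ kR : ℕ) = (2 ^ kR) ^ 4 := by
    rw [pow_succ (2 ^ kR) 4]
    exact Nat.mul_div_cancel _ (by positivity)
  have cD : ((((2 ^ kR) ^ 5 / 2 ^ kR : ℕ) : ℕ) : ℝ) ^ 2 = Rr ^ 8 := by
    rw [hdiv, Nat.cast_pow, cR]
    ring
  have hea1 : ea * (Rr ^ 5) ^ 2 ≤ 1 := by
    have h12 : 0 < Rr ^ 12 := by positivity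
    rw [le_div_iff₀ h12] at hea
    have h10 : (Rr ^ 5) ^ 2 ≤ Rr ^ 12 := by
      rw [← pow_mul]
      exact pow_le_pow_right₀ hR1 (by norm_num)
    exact (mul_le_mul_of_nonneg_left h10 hea0).trans hea
  obtain ⟨X, hX⟩ : ∃ X, X = Real.exp (Ds * cz / 2) := ⟨_, rfl⟩
  have hX1 : 1 ≤ X := by
    rw [hX]
    exact Real.one_le_exp (by positivity)
  have hb4 : bg ≤ bg ^ 4 := by
    have h3 : 1 ≤ bg ^ 3 := one_le_pow₀ hbg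
    have := mul_le_mul_of_nonneg_left h3 hbg0
    calc bg = bg * 1 := (mul_one _).symm
      _ ≤ bg * bg ^ 3 := this
      _ = bg ^ 4 := by ring
  have hbX : bg ≤ bg ^ 4 * X := by
    have h4 : 0 ≤ bg ^ 4 := by positivity
    have := mul_le_mul_of_nonneg_left hX1 h4
    linarith only [this, hb4]
  have hgen : ∀ t : ℝ, 0 ≤ t → t ≤ CRv → t * bg ≤ CRv * bg ^ 4 * X := by
    intro t ht0 ht
    calc t * bg ≤ CRv * (bg ^ 4 * X) := mul_le_mul ht hbX hbg0 (by linarith only [hCR1])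
      _ = CRv * bg ^ 4 * X := by ring
  obtain ⟨hA1, hCP⟩ := nn_A1 (nnP a cstar cb θ Cp Cq cq C0 ε K kR γ U nZ CRv Ds cz x ea bg) (2 ^ kR) x0 hθ hCp hx0' hxx0 hC00 he1 he2
    (by
      show (e1 Cq cq (2 ^ kR) + e2 Cq cq (2 ^ kR) ((2 ^ kR) ^ 5)) * ((2 ^ kR : ℕ) : ℝ) ^ 2 ≤ 1
      rw [cR]
      linarith only [hee, hε1])
    (by
      show ea * (((2 ^ kR) ^ 5 : ℕ) : ℝ) ^ 2 ≤ 1
      rw [cP]
      exact hea1)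
  have hA1' : (nnP a cstar cb θ Cp Cq cq C0 ε K kR γ U nZ CRv Ds cz x ea bg).A1 (2 ^ kR) ≤ K := by
    refine hA1.trans ?_
    show nnK θ Cp x0 C0 ≤ K
    rw [hK]
    exact le_add_of_nonneg_right zero_le_two
  have hCP' : (nnP a cstar cb θ Cp Cq cq C0 ε K kR γ U nZ CRv Ds cz x ea bg).CP (2 ^ kR) ≤ CC := by
    refine hCP.trans ?_
    show nnC θ Cp x0 (2 ^ kR) ≤ CC
    rw [hCC]
  have hA10 : 0 ≤ (nnP a cstar cb θ Cp Cq cq C0 ε K kR γ U nZ CRv Ds cz x ea bg).A1 (2 ^ kR) := nn_A1_nonneg _ _ hx0'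
  have hCP0 : 0 ≤ (nnP a cstar cb θ Cp Cq cq C0 ε K kR γ U nZ CRv Ds cz x ea bg).CP (2 ^ kR) := nn_CP_nonneg _ _ hx0'
  have hsq : γ ≤ Real.sqrt γ := by
    rw [Real.le_sqrt' hγ0]
    calc γ ^ 2 = γ * γ := sq γ
      _ ≤ γ * 1 := mul_le_mul_of_nonneg_left hγ1 hγ0.le
      _ = γ := mul_one γ
  have hsq0 : 0 ≤ Real.sqrt γ := Real.sqrt_nonneg _
  have hxT : x * T ≤ CRv := by
    have := mul_le_mul_of_nonneg_right hxx0 hT0.le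
    rw [hCRv]
    linarith only [this, n1, hCC0, n3]
  refine ⟨?_, hU1, ?_, ?_, ?_, ?_, ?_, ?_, ?_, ?_⟩
  · -- load
    show 1 - cstar + 8 * (ε + ea) * Cp + 8 * (e1 Cq cq (2 ^ kR) + e2 Cq cq (2 ^ kR) ((2 ^ kR) ^ 5)) * Cp ≤ cb
    have t1 : ea * Cp ≤ ε * Cp := mul_le_mul_of_nonneg_right (hea.trans hR12) hCp
    have t2 := mul_le_mul_of_nonneg_right hee' hCp
    have t3 : 0 ≤ ε * Cp := mul_nonneg hε0.le hCp
    rw [hgap] at hε2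
    linarith only [t1, t2, t3, hε2, hε0]
  · -- halo
    show (nnP a cstar cb θ Cp Cq cq C0 ε K kR γ U nZ CRv Ds cz x ea bg).A1 (2 ^ kR) * ((((2 ^ kR) ^ 5 / 2 ^ kR : ℕ) : ℕ) : ℝ) ^ 2 * Real.sqrt γ
      ≤ K * ((2 : ℝ) ^ kR) ^ 8 * Real.sqrt γ
    rw [cD, ← hRr]
    exact mul_le_mul_of_nonneg_right (mul_le_mul_of_nonneg_right hA1' (by positivity)) hsq0
  · -- haloZ
    show (nnP a cstar cb θ Cp Cq cq C0 ε K kR γ U nZ CRv Ds cz x ea bg).A1 (2 ^ kR) ^ nZ * ((((2 ^ kR) ^ 5 / 2 ^ kR : ℕ) : ℕ) : ℝ) ^ 2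
        * Real.exp (Ds * cz / 2) * (bg * Real.exp (θ * (4 * (((2 ^ kR) ^ 5 : ℕ) : ℝ) ^ 2))) ^ 4 ≤ CRv * bg ^ 4 * Real.exp (Ds * cz / 2)
    rw [cD, cP, ← hW, ← hX]
    have q1 : (nnP a cstar cb θ Cp Cq cq C0 ε K kR γ U nZ CRv Ds cz x ea bg).A1 (2 ^ kR) ^ nZ ≤ K ^ nZ := pow_le_pow_left₀ hA10 hA1' nZ
    have q2 : (nnP a cstar cb θ Cp Cq cq C0 ε K kR γ U nZ CRv Ds cz x ea bg).A1 (2 ^ kR) ^ nZ * Rr ^ 8 * W ^ 4 ≤ CRv := by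
      have := mul_le_mul_of_nonneg_right (mul_le_mul_of_nonneg_right q1 (by positivity : 0 ≤ Rr ^ 8)) (by positivity : 0 ≤ W ^ 4)
      refine this.trans ?_
      rw [hCRv]
      linarith only [n2, hCC0, n3]
    calc _ = ((nnP a cstar cb θ Cp Cq cq C0 ε K kR γ U nZ CRv Ds cz x ea bg).A1 (2 ^ kR) ^ nZ * Rr ^ 8 * W ^ 4) * (bg ^ 4 * X) := by ring
      _ ≤ CRv * (bg ^ 4 * X) := mul_le_mul_of_nonneg_right q2 (by positivity)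
      _ = _ := by ring
  · -- tile
    show γ + Real.exp (-ε * U ^ 2) * (x * Real.exp (θ * (((2 ^ kR : ℕ) : ℝ) ^ 2 + 8 * ε * Cp * ((2 ^ kR : ℕ) : ℝ) ^ 2))
      + Real.exp (θ * (8 * ε * Cp * ((2 ^ kR : ℕ) : ℝ) ^ 2))) ≤ K * ((2 : ℝ) ^ kR) ^ 8 * Real.sqrt γ
    rw [← hRr]
    have q1 : Real.exp (-ε * U ^ 2) * (x * Real.exp (θ * (((2 ^ kR : ℕ) : ℝ) ^ 2 + 8 * ε * Cp * ((2 ^ kR : ℕ) : ℝ) ^ 2))
        + Real.exp (θ * (8 * ε * Cp * ((2 ^ kR : ℕ) : ℝ) ^ 2))) ≤ Real.sqrt γ := by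
      refine le_trans (mul_le_mul_of_nonneg_left ?_ (Real.exp_pos _).le) hU2
      have := mul_le_mul_of_nonneg_right hxx0 (Real.exp_pos (θ * (((2 ^ kR : ℕ) : ℝ) ^ 2 + 8 * ε * Cp * ((2 ^ kR : ℕ) : ℝ) ^ 2))).le
      linarith only [this]
    have q2 : 2 ≤ K * Rr ^ 8 := by
      have := mul_le_mul hK2 hR8 zero_le_one hK0'
      linarith only [this]
    have q3 := mul_le_mul_of_nonneg_right q2 hsq0
    linarith only [q1, q3, hsq]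
  · -- tileZ
    show x * bg * Real.exp (θ * ((2 ^ kR : ℕ) : ℝ) ^ 2) ≤ CRv * bg ^ 4 * Real.exp (Ds * cz / 2)
    rw [cR, ← hT, ← hX]
    have := hgen (x * T) (mul_nonneg hx0' hT0.le) hxT
    linarith only [this]
  · -- pos
    show (nnP a cstar cb θ Cp Cq cq C0 ε K kR γ U nZ CRv Ds cz x ea bg).CP (2 ^ kR) ≤ CRv
    refine hCP'.trans ?_
    rw [hCRv]
    linarith only [n1, n2, n3]
  · -- posZ
    show (nnP a cstar cb θ Cp Cq cq C0 ε K kR γ U nZ CRv Ds cz x ea bg).CP (2 ^ kR) ^ nZ * bg ≤ CRv * bg ^ 4 * Real.exp (Ds * cz / 2)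
    rw [← hX]
    refine hgen _ (pow_nonneg hCP0 _) ?_
    refine (pow_le_pow_left₀ hCP0 hCP' nZ).trans ?_
    rw [hCRv]
    linarith only [n1, n2, hCC0]
  · -- posT
    show x * Real.exp (θ * ((2 ^ kR : ℕ) : ℝ) ^ 2) ≤ CRv
    rw [cR, ← hT]
    exact hxT
  · -- big1
    show 1 ≤ CRv * bg ^ 4 * Real.exp (Ds * cz / 2)
    rw [← hX]
    have := hgen 1 zero_le_one hCR1
    linarith only [this, hbg]

end

end Claimed.Agent.R285.Entry
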