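import Claimed.Agent.R285.Entry.NtSeam

/-!
# ROW 285, ENTRY, post NORM (#13340, architect helper229): THE `P`-GRIDS AND THE CHOICE OF THE OFFSET.   Prefixes `pc1_` (one coordinate), `pc_`, `nt_`.   Paper-free.
[F] cutoff-entry.tex l.1596-1630 ("Averaging the finitely many translates loses at most C (R/P) j₁ marks ... The simultaneous Markov bound").
Definitions `pshift`, `plab`, `pcut`, `pcuts` : `Entry/PhyDefs.lean` s3.   ALL statements of s1, s2 were tested by brute force (both boundary conditions, `n < 40`, all `R ∣ P ≤ n`).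
One coordinate: the removed faces of the grid with offset `t < P` are the steps `x → x + 1` with `x + 1 ≡ t + j P`, `0 ≤ j < n / P` (torus: `t + j P < n`, cyclic gaps `≥ P`; free square: all `j`).
LEAVES: L-PC-1A (`pc1_unique`, `pc1_dvd`), L-PC-1B (`pc1_const`, `pc1_mult`, `pc1_bad`), L-PC-1C (`pc1_labs`, `pc1_fibre`), L-PC-2D (`pc_ok`, `pc_card`, `pc_lost`, `pc_smC`, `pc_labs`, `pc_box_card`),
        L-PC-MARKOV (`pc_markov`), L-NT-OFFSET (`nt_swt_sum`, `nt_offset`), L-NT-CUTLE (`nt_cut_le`).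
-/

set_option autoImplicit false

namespace Claimed.Agent.R285.Entry

open scoped BigOperators
open Claimed.Agent.R285 Claimed.Agent.R285.RG Claimed.Agent.R285.F4a Claimed.Agent.R285.Ent

noncomputable section

variable {G : Geom} {c : Grid G}

/-! ## 1. One coordinate -/

/-- the step from `x` to `nx x` is removed by the grid with offset `t` -/
def cut1 (c : Grid G) (P t : ℕ) (x : Fin c.n) : Prop :=
  (G.bc = BC.per ∨ (x : ℕ) + 1 < c.n) ∧ (plab c P t (nx x) ≠ plab c P t x ∨ (G.bc = BC.per ∧ pshift c P t x + 1 = c.n))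

/-- explicit value of a shifted residue -/
theorem pc1_n_mod {n a : ℕ} (h : a < 2 * n) : (a < n ∧ a % n = a) ∨ (n ≤ a ∧ a % n = a - n) := by
  rcases lt_or_ge a n with h1 | h1
  · exact Or.inl ⟨h1, Nat.mod_eq_of_lt h1⟩
  · refine Or.inr ⟨h1, ?_⟩
    rw [Nat.mod_eq_sub_mod h1, Nat.mod_eq_of_lt (by omega)]

theorem pc1_n_le {R a b : ℕ} (h : R * a < R * b + R) : a ≤ b := by
  have h1 : R * a < R * (b + 1) := by rw [Nat.mul_succ]; exact h
  exact Nat.lt_succ_iff.1 (Nat.lt_of_mul_lt_mul_left h1)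

/-- a jump of the quotient -/
theorem pc1_n_jump {P s : ℕ} (h : (s + 1) / P ≠ s / P) : P ∣ s + 1 ∧ (s + 1) / P = s / P + 1 := by
  rw [Nat.succ_div] at h ⊢
  by_cases hd : P ∣ s + 1
  · exact ⟨hd, by rw [if_pos hd]⟩
  · rw [if_neg hd] at h
    exact absurd rfl h

/-- torus: a removed step -/
theorem pc1_n_per {n P s : ℕ} (h : min ((s + 1) / P) (n / P - 1) ≠ min (s / P) (n / P - 1)) :
    P ∣ s + 1 ∧ s + 1 + P ≤ n := by
  have hne : (s + 1) / P ≠ s / P := fun e => h (by rw [e])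
  obtain ⟨hd, hj⟩ := pc1_n_jump hne
  refine ⟨hd, ?_⟩
  have h1 : P * ((s + 1) / P) = s + 1 := Nat.mul_div_cancel' hd
  have h3 : P * (n / P) ≤ n := Nat.mul_div_le n P
  generalize (s + 1) / P = A at *
  generalize s / P = B at *
  generalize n / P = Q at *
  have hq : A + 1 ≤ Q := by omega
  have h2 : P * (A + 1) ≤ P * Q := Nat.mul_le_mul_left P hq
  rw [Nat.mul_succ] at h2
  omega

/-- torus: uniqueness of the offset -/
theorem pc1_n_uniq {n P t t' x σ σ' : ℕ} (ht : t < P) (ht' : t' < P) (hPn : P ≤ n) (hx : x < n)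
    (hσ : (t ≤ x ∧ σ = x + 1 - t) ∨ (x < t ∧ σ = x + 1 + n - t))
    (hσ' : (t' ≤ x ∧ σ' = x + 1 - t') ∨ (x < t' ∧ σ' = x + 1 + n - t'))
    (h : σ = n ∨ (P ∣ σ ∧ σ + P ≤ n)) (h' : σ' = n ∨ (P ∣ σ' ∧ σ' + P ≤ n)) : t = t' := by
  have hpos : 0 < σ := by omega
  have hpos' : 0 < σ' := by omega
  rcases h with h | ⟨hd, hb⟩ <;> rcases h' with h' | ⟨hd', hb'⟩
  · omega
  · have := Nat.le_of_dvd hpos' hd'
    omega
  · have := Nat.le_of_dvd hpos hd
    omega
  · have h1 := Nat.le_of_dvd hpos hd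
    have h2 := Nat.le_of_dvd hpos' hd'
    rcases lt_trichotomy σ σ' with hlt | heq | hgt
    · have := Nat.le_of_dvd (by omega) (Nat.dvd_sub hd' hd)
      omega
    · omega
    · have := Nat.le_of_dvd (by omega) (Nat.dvd_sub hd hd')
      omega

/-- free square: uniqueness of the offset -/
theorem pc1_n_uniq_free {P t t' x : ℕ} (ht : t < P) (ht' : t' < P) (h : P ∣ x + 1 + P - t) (h' : P ∣ x + 1 + P - t') : t = t' := by
  rcases lt_trichotomy t t' with hlt | heq | hgt
  · have := Nat.le_of_dvd (by omega) (Nat.dvd_sub h h')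
    omega
  · exact heq
  · have := Nat.le_of_dvd (by omega) (Nat.dvd_sub h' h)
    omega

theorem pc1_n_off {R P u : ℕ} (hR : 0 < R) (hu : u < P / R) : R * u < P :=
  lt_of_lt_of_le ((Nat.mul_lt_mul_left hR).2 hu) (Nat.mul_div_le P R)

theorem pc1_bc (G : Geom) : G.bc = BC.per ∨ G.bc = BC.free := by
  cases G.bc
  · exact Or.inl rfl
  · exact Or.inr rfl

theorem pc1_pshift_per (h : G.bc = BC.per) (P t : ℕ) (x : Fin c.n) : pshift c P t x = ((x : ℕ) + c.n - t) % c.n := by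
  delta pshift
  rw [h]

theorem pc1_pshift_free (h : G.bc = BC.free) (P t : ℕ) (x : Fin c.n) : pshift c P t x = (x : ℕ) + P - t := by
  delta pshift
  rw [h]

theorem pc1_plab_per (h : G.bc = BC.per) (P t : ℕ) (x : Fin c.n) :
    plab c P t x = min (((x : ℕ) + c.n - t) % c.n / P) (c.n / P - 1) := by
  delta plab
  rw [h]
  show min (pshift c P t x / P) (c.n / P - 1) = _
  rw [pc1_pshift_per h]

theorem pc1_plab_free (h : G.bc = BC.free) (P t : ℕ) (x : Fin c.n) : plab c P t x = ((x : ℕ) + P - t) / P := by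
  delta plab
  rw [h]
  show pshift c P t x / P = _
  rw [pc1_pshift_free h]

/-- the shifted coordinate on the torus, explicitly -/
theorem pc1_shift_val {n t x : ℕ} (ht : t ≤ n) (hx : x < n) :
    (t ≤ x ∧ (x + n - t) % n = x - t) ∨ (x < t ∧ (x + n - t) % n = x + n - t) := by
  rcases pc1_n_mod (n := n) (a := x + n - t) (by omega) with ⟨h1, h2⟩ | ⟨h1, h2⟩
  · exact Or.inr ⟨by omega, h2⟩
  · exact Or.inl ⟨by omega, by omega⟩

/-- torus: the shifted coordinate of the next point -/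
theorem pc1_shift_nx {n t x : ℕ} (ht : t ≤ n) (hx : x < n) (hs : (x + n - t) % n + 1 ≠ n) :
    ((x + 1) % n + n - t) % n = (x + n - t) % n + 1 := by
  rcases pc1_n_mod (n := n) (a := x + 1) (by omega) with ⟨h1, h2⟩ | ⟨h1, h2⟩
  · rw [h2]
    rcases pc1_shift_val ht hx with ⟨a1, a2⟩ | ⟨a1, a2⟩ <;> rcases pc1_shift_val ht h1 with ⟨b1, b2⟩ | ⟨b1, b2⟩ <;> omega
  · rw [h2]
    have h0 : 0 < n := by omega
    rcases pc1_shift_val ht hx with ⟨a1, a2⟩ | ⟨a1, a2⟩ <;> rcases pc1_shift_val (x := x + 1 - n) ht (by omega) with ⟨b1, b2⟩ | ⟨b1, b2⟩ <;> omega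

/-- **the removed steps of the torus** -/
theorem pc1_cut_per (h : G.bc = BC.per) {P t : ℕ} (ht : t ≤ c.n) {x : Fin c.n} (hc : cut1 c P t x) :
    ((x : ℕ) + c.n - t) % c.n + 1 = c.n ∨ (P ∣ ((x : ℕ) + c.n - t) % c.n + 1 ∧ ((x : ℕ) + c.n - t) % c.n + 1 + P ≤ c.n) := by
  by_cases hs : ((x : ℕ) + c.n - t) % c.n + 1 = c.n
  · exact Or.inl hs
  refine Or.inr ?_
  have h2 := hc.2
  rw [pc1_plab_per h, pc1_plab_per h, pc1_pshift_per h] at h2
  have h3 := h2.resolve_right (fun e => hs e.2)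
  have e : ((nx x : Fin c.n) : ℕ) = ((x : ℕ) + 1) % c.n := rfl
  rw [e, pc1_shift_nx ht x.2 hs] at h3
  exact pc1_n_per h3

/-- **the removed steps of the free square** -/
theorem pc1_cut_free (h : G.bc = BC.free) {P t : ℕ} (ht : t ≤ P) {x : Fin c.n} (hc : cut1 c P t x) : P ∣ (x : ℕ) + 1 + P - t := by
  have h1 : (x : ℕ) + 1 < c.n := hc.1.resolve_left (by rw [h]; exact fun e => by cases e)
  have h2 := hc.2.resolve_right (fun e => by rw [h] at e; cases e.1)
  rw [pc1_plab_free h, pc1_plab_free h] at h2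
  have e : ((nx x : Fin c.n) : ℕ) = (x : ℕ) + 1 := Nat.mod_eq_of_lt h1
  rw [e, show (x : ℕ) + 1 + P - t = ((x : ℕ) + P - t) + 1 by omega] at h2
  rw [show (x : ℕ) + 1 + P - t = ((x : ℕ) + P - t) + 1 by omega]
  exact (pc1_n_jump h2).1

open Classical in
/-- a step is removed for at most one offset -/
theorem pc1_unique {R P : ℕ} (hR : 0 < R) (hRP : R ∣ P) (hPn : P ≤ c.n) (x : Fin c.n) :
    ((Finset.range (P / R)).filter fun u => cut1 c P (R * u) x).card ≤ 1 := by
  rw [Finset.card_le_one]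
  intro u hu u' hu'
  rw [Finset.mem_filter, Finset.mem_range] at hu hu'
  have ht := pc1_n_off hR hu.1
  have ht' := pc1_n_off hR hu'.1
  have key : R * u = R * u' := by
    rcases pc1_bc G with hbc | hbc
    · have h1 := pc1_cut_per hbc (by omega) hu.2
      have h2 := pc1_cut_per hbc (by omega) hu'.2
      have hx := x.2
      refine pc1_n_uniq ht ht' hPn hx (σ := ((x : ℕ) + c.n - R * u) % c.n + 1) (σ' := ((x : ℕ) + c.n - R * u') % c.n + 1) ?_ ?_ h1 h2
      · rcases pc1_shift_val (t := R * u) (by omega) hx with ⟨a1, a2⟩ | ⟨a1, a2⟩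
        · exact Or.inl ⟨a1, by omega⟩
        · exact Or.inr ⟨a1, by omega⟩
      · rcases pc1_shift_val (t := R * u') (by omega) hx with ⟨a1, a2⟩ | ⟨a1, a2⟩
        · exact Or.inl ⟨a1, by omega⟩
        · exact Or.inr ⟨a1, by omega⟩
    · exact pc1_n_uniq_free ht ht' (pc1_cut_free hbc ht.le hu.2) (pc1_cut_free hbc ht'.le hu'.2)
  exact Nat.eq_of_mul_eq_mul_left hR key

/-- the removed steps sit on the `R`-grid -/
theorem pc1_dvd {R P : ℕ} (hR : 0 < R) (hRP : R ∣ P) (hRn : R ∣ c.n) (hPn : P ≤ c.n) {u : ℕ} (hu : u < P / R) {x : Fin c.n} (h : cut1 c P (R * u) x) :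
    R ∣ (x : ℕ) + 1 := by
  have ht := pc1_n_off hR hu
  have hRt : R ∣ R * u := Dvd.intro _ rfl
  have hx := x.2
  rcases pc1_bc G with hbc | hbc
  · have h1 := pc1_cut_per hbc (by omega) h
    have hσ : R ∣ ((x : ℕ) + c.n - R * u) % c.n + 1 := by
      rcases h1 with h1 | h1
      · rw [h1]; exact hRn
      · exact hRP.trans h1.1
    rcases pc1_shift_val (t := R * u) (by omega) hx with ⟨a1, a2⟩ | ⟨a1, a2⟩
    · have e : (x : ℕ) + 1 = (((x : ℕ) + c.n - R * u) % c.n + 1) + R * u := by omega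
      rw [e]
      exact dvd_add hσ hRt
    · have e : (x : ℕ) + 1 + c.n = (((x : ℕ) + c.n - R * u) % c.n + 1) + R * u := by omega
      have h2 : R ∣ (x : ℕ) + 1 + c.n := by rw [e]; exact dvd_add hσ hRt
      exact (Nat.dvd_add_left hRn).1 h2
  · have h1 := hRP.trans (pc1_cut_free hbc ht.le h)
    have e : (x : ℕ) + 1 + P = ((x : ℕ) + 1 + P - R * u) + R * u := by omega
    have h2 : R ∣ (x : ℕ) + 1 + P := by rw [e]; exact dvd_add h1 hRt
    exact (Nat.dvd_add_left hRP).1 h2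

theorem pc1_b_idist_per (h : G.bc = BC.per) (a b : Fin c.n) :
    c.idist1 a b = min ((a : ℤ) - b).natAbs (c.n - ((a : ℤ) - b).natAbs) := by
  delta Grid.idist1
  rw [h]

theorem pc1_b_idist_free (h : G.bc = BC.free) (a b : Fin c.n) : c.idist1 a b = ((a : ℤ) - b).natAbs := by
  delta Grid.idist1
  rw [h]

theorem pc1_b_nx_val (x : Fin c.n) :
    ((x : ℕ) + 1 < c.n ∧ ((nx x : Fin c.n) : ℕ) = x + 1) ∨ ((x : ℕ) + 1 = c.n ∧ ((nx x : Fin c.n) : ℕ) = 0) := by
  have hx := x.2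
  rcases Nat.lt_or_ge ((x : ℕ) + 1) c.n with h | h
  · exact Or.inl ⟨h, Nat.mod_eq_of_lt h⟩
  · have e : (x : ℕ) + 1 = c.n := by omega
    refine Or.inr ⟨e, ?_⟩
    show ((x : ℕ) + 1) % c.n = 0
    rw [e, Nat.mod_self]

theorem pc1_b_pred (x : Fin c.n) : ∃ x' : Fin c.n, x = nx x' ∧
    ((0 < (x : ℕ) ∧ (x' : ℕ) + 1 = x) ∨ ((x : ℕ) = 0 ∧ (x' : ℕ) + 1 = c.n)) := by
  have hx := x.2
  by_cases h : 0 < (x : ℕ)
  · refine ⟨⟨x - 1, by omega⟩, Fin.ext ?_, Or.inl ⟨h, by simp only; omega⟩⟩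
    show (x : ℕ) = ((x : ℕ) - 1 + 1) % c.n
    rw [show (x : ℕ) - 1 + 1 = x by omega, Nat.mod_eq_of_lt hx]
  · refine ⟨⟨c.n - 1, by omega⟩, Fin.ext ?_, Or.inr ⟨by omega, by simp only; omega⟩⟩
    show (x : ℕ) = (c.n - 1 + 1) % c.n
    rw [show c.n - 1 + 1 = c.n by omega, Nat.mod_self]
    omega

/-- a point of an arc has a neighbour which is closer to the centre; the step is a face -/
theorem pc1_b_closer {x0 x : Fin c.n} (hne : x ≠ x0) :
    ∃ x' : Fin c.n, c.idist1 x0 x' + 1 ≤ c.idist1 x0 x ∧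
      ((x = nx x' ∧ (G.bc = BC.per ∨ (x' : ℕ) + 1 < c.n)) ∨ (x' = nx x ∧ (G.bc = BC.per ∨ (x : ℕ) + 1 < c.n))) := by
  have hx := x.2
  have hx0 := x0.2
  have hne' : (x : ℕ) ≠ x0 := fun e => hne (Fin.ext e)
  rcases pc1_bc G with hbc | hbc
  · by_cases up : ((x : ℕ) < x0 ∧ 2 * ((x0 : ℕ) - x) ≤ c.n) ∨ ((x0 : ℕ) < x ∧ c.n < 2 * ((x : ℕ) - x0))
    · refine ⟨nx x, ?_, Or.inr ⟨rfl, Or.inl hbc⟩⟩
      rw [pc1_b_idist_per hbc, pc1_b_idist_per hbc]
      rcases pc1_b_nx_val x with ⟨h1, h2⟩ | ⟨h1, h2⟩ <;> omega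
    · obtain ⟨x', hx', hv⟩ := pc1_b_pred x
      refine ⟨x', ?_, Or.inl ⟨hx', Or.inl hbc⟩⟩
      rw [pc1_b_idist_per hbc, pc1_b_idist_per hbc]
      have := x'.2
      rcases hv with ⟨h1, h2⟩ | ⟨h1, h2⟩ <;> omega
  · by_cases up : (x : ℕ) < x0
    · refine ⟨nx x, ?_, Or.inr ⟨rfl, Or.inr (by omega)⟩⟩
      rw [pc1_b_idist_free hbc, pc1_b_idist_free hbc]
      rcases pc1_b_nx_val x with ⟨h1, h2⟩ | ⟨h1, h2⟩ <;> omega
    · obtain ⟨x', hx', hv⟩ := pc1_b_pred x
      have := x'.2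
      refine ⟨x', ?_, Or.inl ⟨hx', Or.inr (by omega)⟩⟩
      rw [pc1_b_idist_free hbc, pc1_b_idist_free hbc]
      rcases hv with ⟨h1, h2⟩ | ⟨h1, h2⟩ <;> omega

/-- no removed step inside an arc: the label is constant.  PLAN: induction on `idist1 x0 x`; a point `x ≠ x0` of the arc has a neighbour in the arc which is closer to `x0` (`x = nx x'` or `x' = nx x`, the step is a face). -/
theorem pc1_const {P t : ℕ} (x0 : Fin c.n) (r : ℕ) (h : ∀ x, c.idist1 x0 x ≤ r → c.idist1 x0 (nx x) ≤ r → ¬ cut1 c P t x) :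
    ∀ x, c.idist1 x0 x ≤ r → plab c P t x = plab c P t x0 := by
  have key : ∀ (d : ℕ) (x : Fin c.n), c.idist1 x0 x = d → d ≤ r → plab c P t x = plab c P t x0 := by
    intro d
    induction d using Nat.strong_induction_on with
    | _ d ih =>
      intro x hx hd
      by_cases hxx : x = x0
      · rw [hxx]
      · obtain ⟨x', h1, h2⟩ := pc1_b_closer hxx
        rw [← ih (c.idist1 x0 x') (by omega) x' rfl (by omega)]
        rcases h2 with ⟨e, hf⟩ | ⟨e, hf⟩
        · have hn := h x' (by omega) (by rw [← e]; omega)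
          by_contra hcon
          exact hn ⟨hf, Or.inl (by rw [← e]; exact hcon)⟩
        · have hn := h x (by omega) (by rw [← e]; omega)
          by_contra hcon
          exact hn ⟨hf, Or.inl (by rw [← e]; exact fun e' => hcon e'.symm)⟩
  exact fun x hx => key _ x rfl hx

/-- the multiples of `R` in an arc of radius `R` -/
theorem pc1_n_mult {n R x0 x m : ℕ} (hR : 0 < R) (hx0 : x0 < n) (hx : x < n) (hm : x + 1 = R * m)
    (hd : (x ≤ x0 + R ∧ x0 ≤ x + R) ∨ x0 + n ≤ x + R ∨ x + n ≤ x0 + R) :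
    m = (x0 + 1) / R - 1 ∨ m = (x0 + 1) / R ∨ m = (x0 + 1) / R + 1 ∨ m = (if x0 < R then n / R else 1) := by
  have a1 : R * ((x0 + 1) / R) ≤ x0 + 1 := Nat.mul_div_le _ _
  have a2 : x0 + 1 < R * ((x0 + 1) / R + 1) := Nat.lt_mul_div_succ _ hR
  have b1 : R * (n / R) ≤ n := Nat.mul_div_le _ _
  have b2 : n < R * (n / R + 1) := Nat.lt_mul_div_succ _ hR
  generalize (x0 + 1) / R = k0 at *
  generalize n / R = k1 at *
  rw [Nat.mul_succ] at a2 b2
  have e1 : R * 1 = R := Nat.mul_one R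
  rcases hd with hd | hd | hd
  · have e : R * (k0 + 1) = R * k0 + R := Nat.mul_succ _ _
    have e' : R * (m + 1) = R * m + R := Nat.mul_succ _ _
    have c1 : m ≤ k0 + 1 := pc1_n_le (R := R) (by omega)
    have c2 : k0 ≤ m + 1 := pc1_n_le (R := R) (by omega)
    omega
  · have c1 : m ≤ k1 := pc1_n_le (R := R) (by omega)
    have c2 : k1 ≤ m := pc1_n_le (R := R) (by omega)
    rw [if_pos (by omega)]
    omega
  · have c1 : m ≤ 1 := pc1_n_le (R := R) (by omega)
    have c2 : m ≠ 0 := by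
      rintro rfl
      omega
    have hm1 : m = 1 := by omega
    subst hm1
    split_ifs with hlt
    · have c3 : k1 ≤ 1 := pc1_n_le (R := R) (by omega)
      have c4 : 1 ≤ k1 := pc1_n_le (R := R) (by omega)
      omega
    · omega

open Classical in
/-- an arc of radius `R` contains at most four steps on the `R`-grid -/
theorem pc1_mult {R : ℕ} (hR : 0 < R) (x0 : Fin c.n) : (Finset.univ.filter fun x : Fin c.n => c.idist1 x0 x ≤ R ∧ R ∣ (x : ℕ) + 1).card ≤ 4 := by
  have hcard : ({((x0 : ℕ) + 1) / R - 1, ((x0 : ℕ) + 1) / R, ((x0 : ℕ) + 1) / R + 1,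
      (if (x0 : ℕ) < R then c.n / R else 1)} : Finset ℕ).card ≤ 4 := Finset.card_le_four
  refine le_trans (Finset.card_le_card_of_injOn (fun x : Fin c.n => ((x : ℕ) + 1) / R) ?_ ?_) hcard
  · intro x hx
    have hx' := (Finset.mem_filter.1 (Finset.mem_coe.1 hx)).2
    have hm : (x : ℕ) + 1 = R * (((x : ℕ) + 1) / R) := (Nat.mul_div_cancel' hx'.2).symm
    have h1 := x.2
    have h0 := x0.2
    have hd : ((x : ℕ) ≤ x0 + R ∧ (x0 : ℕ) ≤ x + R) ∨ (x0 : ℕ) + c.n ≤ x + R ∨ (x : ℕ) + c.n ≤ x0 + R := by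
      have h2 := hx'.1
      rcases pc1_bc G with hbc | hbc
      · rw [pc1_b_idist_per hbc] at h2
        omega
      · rw [pc1_b_idist_free hbc] at h2
        omega
    have := pc1_n_mult hR h0 h1 hm hd
    simp only [Finset.coe_insert, Finset.coe_singleton, Set.mem_insert_iff, Set.mem_singleton_iff]
    exact this
  · intro x hx y hy e
    have hx' := (Finset.mem_filter.1 (Finset.mem_coe.1 hx)).2.2
    have hy' := (Finset.mem_filter.1 (Finset.mem_coe.1 hy)).2.2
    have e' : ((x : ℕ) + 1) / R = ((y : ℕ) + 1) / R := e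
    have h1 : (x : ℕ) + 1 = (y : ℕ) + 1 := by
      rw [← Nat.mul_div_cancel' hx', ← Nat.mul_div_cancel' hy', e']
    exact Fin.ext (by omega)

open Classical in
/-- at most four offsets remove a step inside an arc of radius `R`  (`pc1_unique`, `pc1_dvd`, `pc1_mult`: the bad offsets inject into pairs) -/
theorem pc1_bad {R P : ℕ} (hR : 0 < R) (hRP : R ∣ P) (hRn : R ∣ c.n) (hPn : P ≤ c.n) (x0 : Fin c.n) :
    ((Finset.range (P / R)).filter fun u => ∃ x, c.idist1 x0 x ≤ R ∧ c.idist1 x0 (nx x) ≤ R ∧ cut1 c P (R * u) x).card ≤ 4 := by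
  refine le_trans ?_ (pc1_mult hR x0)
  have : Nonempty (Fin c.n) := ⟨x0⟩
  have hch : ∀ u ∈ (Finset.range (P / R)).filter fun u => ∃ x, c.idist1 x0 x ≤ R ∧ c.idist1 x0 (nx x) ≤ R ∧ cut1 c P (R * u) x,
      ∃ x, c.idist1 x0 x ≤ R ∧ c.idist1 x0 (nx x) ≤ R ∧ cut1 c P (R * u) x := fun u hu => (Finset.mem_filter.1 hu).2
  choose! f hf using hch
  refine Finset.card_le_card_of_injOn f ?_ ?_
  · intro u hu
    have hu' := Finset.mem_coe.1 hu
    have h1 := hf u hu'
    exact Finset.mem_coe.2 (Finset.mem_filter.2 ⟨Finset.mem_univ _, h1.1,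
      pc1_dvd hR hRP hRn hPn (Finset.mem_range.1 (Finset.mem_filter.1 hu').1) h1.2.2⟩)
  · intro u hu u' hu' e
    have hu1 := Finset.mem_coe.1 hu
    have hu2 := Finset.mem_coe.1 hu'
    have h1 := (hf u hu1).2.2
    have h2 := (hf u' hu2).2.2
    rw [← e] at h2
    exact Finset.card_le_one.1 (pc1_unique hR hRP hPn (f u)) u
      (Finset.mem_filter.2 ⟨(Finset.mem_filter.1 hu1).1, h1⟩) u' (Finset.mem_filter.2 ⟨(Finset.mem_filter.1 hu2).1, h2⟩)

/-- the shifted coordinate on the torus, without `%` -/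
theorem pc1_shift_per (hG : G.bc = BC.per) {P t : ℕ} (ht : t ≤ c.n) (x : Fin c.n) :
    pshift c P t x = if t ≤ (x : ℕ) then (x : ℕ) - t else (x : ℕ) + c.n - t := by
  have hx := x.2
  unfold pshift
  rw [hG]
  show ((x : ℕ) + c.n - t) % c.n = _
  split_ifs with h
  · have e : (x : ℕ) + c.n - t = ((x : ℕ) - t) + c.n := by omega
    rw [e, Nat.add_mod_right, Nat.mod_eq_of_lt (by omega)]
  · rw [Nat.mod_eq_of_lt (by omega)]

theorem pc1_shift_free (hG : G.bc = BC.free) {P t : ℕ} (x : Fin c.n) : pshift c P t x = (x : ℕ) + P - t := by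
  unfold pshift
  rw [hG]

theorem pc1_lab_per (hG : G.bc = BC.per) {P t : ℕ} (x : Fin c.n) : plab c P t x = min (pshift c P t x / P) (c.n / P - 1) := by
  unfold plab
  rw [hG]

theorem pc1_lab_free (hG : G.bc = BC.free) {P t : ℕ} (x : Fin c.n) : plab c P t x = pshift c P t x / P := by
  unfold plab
  rw [hG]

theorem pc1_idist_per (hG : G.bc = BC.per) (a b : Fin c.n) :
    c.idist1 a b = min ((a : ℤ) - b).natAbs (c.n - ((a : ℤ) - b).natAbs) := by
  unfold Grid.idist1
  rw [hG]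

theorem pc1_idist_free (hG : G.bc = BC.free) (a b : Fin c.n) : c.idist1 a b = ((a : ℤ) - b).natAbs := by
  unfold Grid.idist1
  rw [hG]

theorem pc1_div_two {P a s : ℕ} (h1 : a ≤ s) (h2 : s < a + P) : s / P = a / P ∨ s / P = a / P + 1 := by
  rcases Nat.eq_zero_or_pos P with rfl | hP
  · omega
  have h3 : a / P ≤ s / P := Nat.div_le_div_right h1
  have h4 : s / P ≤ (a + P) / P := Nat.div_le_div_right h2.le
  rw [Nat.add_div_right _ hP] at h4
  omega

open Classical in
/-- an arc of length `≤ P` meets at most two intervals -/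
theorem pc1_labs {P t : ℕ} (ht : t < P) (hPn : P ≤ c.n) (x0 : Fin c.n) (r : ℕ) (hr : 2 * r + 1 ≤ P) :
    ((Finset.univ.filter fun x : Fin c.n => c.idist1 x0 x ≤ r).image (plab c P t)).card ≤ 2 := by
  have hP : 0 < P := by omega
  suffices h : ∃ l1 l2 : ℕ, ∀ x : Fin c.n, c.idist1 x0 x ≤ r → plab c P t x = l1 ∨ plab c P t x = l2 by
    obtain ⟨l1, l2, h⟩ := h
    refine le_trans (Finset.card_le_card ?_) (Finset.card_le_two (a := l1) (b := l2))
    intro l hl
    obtain ⟨x, hx, rfl⟩ := Finset.mem_image.1 hl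
    rcases h x (Finset.mem_filter.1 hx).2 with e | e
    · rw [e]; simp
    · rw [e]; simp
  have hx0 := x0.2
  rcases hG : G.bc with _ | _
  · -- the torus
    have hNP : c.n / P * P ≤ c.n := Nat.div_mul_le_self _ _
    have hN1 : 1 ≤ c.n / P := (Nat.one_le_div_iff hP).2 hPn
    have hhigh : ∀ s : ℕ, c.n - P ≤ s → c.n / P - 1 ≤ s / P := by
      intro s hs
      rw [Nat.le_div_iff_mul_le hP, Nat.sub_mul, one_mul]
      omega
    have e0 := pc1_shift_per (c := c) (P := P) hG (by omega : t ≤ c.n) x0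
    by_cases hA : r ≤ pshift c P t x0 ∧ pshift c P t x0 + r < c.n
    · refine ⟨min ((pshift c P t x0 - r) / P) (c.n / P - 1), min ((pshift c P t x0 - r) / P + 1) (c.n / P - 1), fun x hx => ?_⟩
      have hx' := x.2
      rw [pc1_idist_per hG] at hx
      have e1 := pc1_shift_per (c := c) (P := P) hG (by omega : t ≤ c.n) x
      rw [pc1_lab_per hG]
      have h1 : pshift c P t x0 - r ≤ pshift c P t x := by
        split_ifs at e0 e1 <;> omega
      have h2 : pshift c P t x < pshift c P t x0 - r + P := by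
        split_ifs at e0 e1 <;> omega
      rcases pc1_div_two h1 h2 with e | e
      · left; rw [e]
      · right; rw [e]
    · refine ⟨0, c.n / P - 1, fun x hx => ?_⟩
      have hx' := x.2
      rw [pc1_idist_per hG] at hx
      have e1 := pc1_shift_per (c := c) (P := P) hG (by omega : t ≤ c.n) x
      rw [pc1_lab_per hG]
      have h1 : pshift c P t x < P ∨ c.n - P ≤ pshift c P t x := by
        split_ifs at e0 e1 <;> omega
      rcases h1 with h1 | h1
      · left
        rw [Nat.div_eq_of_lt h1]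
        simp
      · right
        exact min_eq_right (hhigh _ h1)
  · -- the free square
    refine ⟨((x0 : ℕ) - r + P - t) / P, ((x0 : ℕ) - r + P - t) / P + 1, fun x hx => ?_⟩
    have hx' := x.2
    rw [pc1_idist_free hG] at hx
    rw [pc1_lab_free hG, pc1_shift_free hG]
    exact pc1_div_two (by omega) (by omega)

theorem pc1_shift_inj {P t : ℕ} (ht : t < P) (hPn : P ≤ c.n) : Function.Injective (pshift c P t) := by
  intro x y h
  have hx := x.2
  have hy := y.2
  apply Fin.ext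
  rcases hG : G.bc with _ | _
  · rw [pc1_shift_per hG (by omega), pc1_shift_per hG (by omega)] at h
    split_ifs at h <;> omega
  · rw [pc1_shift_free hG, pc1_shift_free hG] at h
    omega

open Classical in
/-- an interval has at most `2 P` cells -/
theorem pc1_fibre {P t : ℕ} (ht : t < P) (hPn : P ≤ c.n) (q : ℕ) : (Finset.univ.filter fun x : Fin c.n => plab c P t x = q).card ≤ 2 * P := by
  have hP : 0 < P := by omega
  have key : ∀ x : Fin c.n, plab c P t x = q → pshift c P t x ∈ Finset.Ico (q * P) (q * P + 2 * P) := by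
    intro x hx
    have hx' := x.2
    rw [Finset.mem_Ico]
    have hd1 : pshift c P t x / P * P ≤ pshift c P t x := Nat.div_mul_le_self _ _
    have hd2 : pshift c P t x < (pshift c P t x / P + 1) * P := by rw [mul_comm]; exact Nat.lt_mul_div_succ _ hP
    rcases hG : G.bc with _ | _
    · rw [pc1_lab_per hG] at hx
      have e1 := pc1_shift_per (c := c) (P := P) hG (by omega : t ≤ c.n) x
      have hlt : pshift c P t x < c.n := by split_ifs at e1 <;> omega
      have hN1 : 1 ≤ c.n / P := (Nat.one_le_div_iff hP).2 hPn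
      have hn2 : c.n < (c.n / P + 1) * P := by rw [mul_comm]; exact Nat.lt_mul_div_succ _ hP
      rcases le_total (pshift c P t x / P) (c.n / P - 1) with h | h
      · rw [min_eq_left h] at hx
        rw [hx] at hd1 hd2
        rw [add_mul, one_mul] at hd2
        omega
      · rw [min_eq_right h] at hx
        have h3 : q * P ≤ pshift c P t x / P * P := Nat.mul_le_mul_right _ (hx ▸ h)
        have h4 : c.n / P = q + 1 := by omega
        rw [h4, add_mul, add_mul, one_mul] at hn2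
        omega
    · rw [pc1_lab_free hG] at hx
      rw [hx] at hd1 hd2
      rw [add_mul, one_mul] at hd2
      omega
  calc (Finset.univ.filter fun x : Fin c.n => plab c P t x = q).card
      = ((Finset.univ.filter fun x : Fin c.n => plab c P t x = q).image (pshift c P t)).card :=
        (Finset.card_image_of_injective _ (pc1_shift_inj ht hPn)).symm
    _ ≤ (Finset.Ico (q * P) (q * P + 2 * P)).card := Finset.card_le_card (by
        intro s hs
        obtain ⟨x, hx, rfl⟩ := Finset.mem_image.1 hs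
        exact key x (Finset.mem_filter.1 hx).2)
    _ = 2 * P := by rw [Nat.card_Ico]; omega

/-! ## 2. Two coordinates -/

theorem pc_nx_inj {n : ℕ} : Function.Injective (nx : Fin n → Fin n) := by
  intro i j h
  have h1 : ((i : ℕ) + 1) % n = ((j : ℕ) + 1) % n := congrArg Fin.val h
  have hi := i.2
  have hj := j.2
  apply Fin.ext
  by_cases a : (i : ℕ) + 1 = n
  · by_cases b : (j : ℕ) + 1 = n
    · omega
    · rw [a, Nat.mod_self, Nat.mod_eq_of_lt (by omega)] at h1
      omega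
  · by_cases b : (j : ℕ) + 1 = n
    · rw [b, Nat.mod_self, Nat.mod_eq_of_lt (by omega)] at h1
      omega
    · rw [Nat.mod_eq_of_lt (by omega), Nat.mod_eq_of_lt (by omega)] at h1
      omega

theorem pc_mem_sm0 {P : ℕ} {t : ℕ × ℕ} {f : Face c} :
    f ∈ (pcut c P t).sm ↔ IsFace c f ∧
      ((plab c P t.1 (fnb c f).1, plab c P t.2 (fnb c f).2) ≠ (plab c P t.1 f.1.1, plab c P t.2 f.1.2) ∨
        (G.bc = BC.per ∧ (if f.2 then pshift c P t.1 f.1.1 else pshift c P t.2 f.1.2) + 1 = c.n)) := by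
  classical
  exact Finset.mem_filter.trans (and_iff_right (Finset.mem_univ _))

/-- the removed faces, coordinate by coordinate -/
theorem pc_mem_sm {P : ℕ} {t : ℕ × ℕ} {f : Face c} :
    f ∈ (pcut c P t).sm ↔ if f.2 then cut1 c P t.1 f.1.1 else cut1 c P t.2 f.1.2 := by
  rw [pc_mem_sm0]
  obtain ⟨⟨a, b⟩, d⟩ := f
  cases d
  · show (G.bc = BC.per ∨ (b : ℕ) + 1 < c.n) ∧ ((plab c P t.1 a, plab c P t.2 (nx b)) ≠ (plab c P t.1 a, plab c P t.2 b) ∨
      (G.bc = BC.per ∧ pshift c P t.2 b + 1 = c.n)) ↔ cut1 c P t.2 b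
    unfold cut1
    refine and_congr_right fun _ => or_congr_left (not_congr ?_)
    rw [Prod.mk.injEq]
    exact and_iff_right rfl
  · show (G.bc = BC.per ∨ (a : ℕ) + 1 < c.n) ∧ ((plab c P t.1 (nx a), plab c P t.2 b) ≠ (plab c P t.1 a, plab c P t.2 b) ∨
      (G.bc = BC.per ∧ pshift c P t.1 a + 1 = c.n)) ↔ cut1 c P t.1 a
    unfold cut1
    refine and_congr_right fun _ => or_congr_left (not_congr ?_)
    rw [Prod.mk.injEq]
    exact and_iff_left rfl

theorem pc_mem_nbh {r : ℕ} {i0 i : c.I} : i ∈ nbh c r {i0} ↔ c.idist1 i0.1 i.1 ≤ r ∧ c.idist1 i0.2 i.2 ≤ r := by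
  simp [nbh, Grid.idist]

theorem pc_ok (P : ℕ) (t : ℕ × ℕ) : (pcut c P t).Ok := by
  intro f hf hn
  by_contra hne
  exact hn (pc_mem_sm0.2 ⟨hf, Or.inl hne⟩)

theorem pc_card {R P : ℕ} (hR : 0 < R) : (pcuts R P).card = (P / R) ^ 2 := by
  unfold pcuts
  rw [Finset.card_image_of_injective, Finset.card_product, Finset.card_range, sq]
  intro u v h
  have h1 := (Prod.mk.inj h).1
  have h2 := (Prod.mk.inj h).2
  exact Prod.ext (Nat.eq_of_mul_eq_mul_left hR h1) (Nat.eq_of_mul_eq_mul_left hR h2)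

theorem pc_lt {R P : ℕ} (hR : 0 < R) (hRP : R ∣ P) {t : ℕ × ℕ} (ht : t ∈ pcuts R P) : t.1 < P ∧ t.2 < P := by
  obtain ⟨u, hu, rfl⟩ := Finset.mem_image.1 ht
  rw [Finset.mem_product, Finset.mem_range, Finset.mem_range] at hu
  have e : R * (P / R) = P := Nat.mul_div_cancel' hRP
  constructor
  · calc R * u.1 < R * (P / R) := Nat.mul_lt_mul_of_pos_left hu.1 hR
      _ = P := e
  · calc R * u.2 < R * (P / R) := Nat.mul_lt_mul_of_pos_left hu.2 hR
      _ = P := e

/-- counting offsets: a property which forces `u₁ ∈ A` or `u₂ ∈ B` -/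
theorem pc_count {R P : ℕ} (p : ℕ × ℕ → Prop) [DecidablePred p] (A B : Finset ℕ)
    (h : ∀ u1 u2 : ℕ, u1 < P / R → u2 < P / R → p (R * u1, R * u2) → u1 ∈ A ∨ u2 ∈ B) :
    ((pcuts R P).filter p).card ≤ (A.card + B.card) * (P / R) := by
  have hsub : (pcuts R P).filter p ⊆ (A ×ˢ Finset.range (P / R) ∪ Finset.range (P / R) ×ˢ B).image fun u => (R * u.1, R * u.2) := by
    intro t ht
    obtain ⟨ht1, ht2⟩ := Finset.mem_filter.1 ht
    obtain ⟨u, hu, rfl⟩ := Finset.mem_image.1 ht1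
    rw [Finset.mem_product, Finset.mem_range, Finset.mem_range] at hu
    refine Finset.mem_image.2 ⟨u, ?_, rfl⟩
    rcases h u.1 u.2 hu.1 hu.2 ht2 with h' | h'
    · exact Finset.mem_union_left _ (Finset.mem_product.2 ⟨h', Finset.mem_range.2 hu.2⟩)
    · exact Finset.mem_union_right _ (Finset.mem_product.2 ⟨Finset.mem_range.2 hu.1, h'⟩)
  calc ((pcuts R P).filter p).card ≤ _ := Finset.card_le_card hsub
    _ ≤ (A ×ˢ Finset.range (P / R) ∪ Finset.range (P / R) ×ˢ B).card := Finset.card_image_le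
    _ ≤ (A ×ˢ Finset.range (P / R)).card + (Finset.range (P / R) ×ˢ B).card := Finset.card_union_le _ _
    _ = (A.card + B.card) * (P / R) := by
        rw [Finset.card_product, Finset.card_product, Finset.card_range]; ring

open Classical in
/-- **a neighbourhood of radius `R` is deep in a box for all but `8 P / R` offsets** -/
theorem pc_lost {R P : ℕ} (hR : 0 < R) (hRP : R ∣ P) (hRn : R ∣ c.n) (hPn : P ≤ c.n) (i0 : c.I) :
    ((pcuts R P).filter fun t => ¬ ∃ b, (∀ i ∈ nbh c R {i0}, (pcut c P t).lab i = b) ∧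
      ∀ f ∈ (pcut c P t).sm, f.1 ∉ nbh c R {i0} ∨ fnb c f ∉ nbh c R {i0}).card ≤ 8 * (P / R) := by
  have hb1 := pc1_bad hR hRP hRn hPn i0.1
  have hb2 := pc1_bad hR hRP hRn hPn i0.2
  refine le_trans (pc_count _
    ((Finset.range (P / R)).filter fun u => ∃ x, c.idist1 i0.1 x ≤ R ∧ c.idist1 i0.1 (nx x) ≤ R ∧ cut1 c P (R * u) x)
    ((Finset.range (P / R)).filter fun u => ∃ x, c.idist1 i0.2 x ≤ R ∧ c.idist1 i0.2 (nx x) ≤ R ∧ cut1 c P (R * u) x)
    fun u1 u2 h1 h2 hp => ?_) (Nat.mul_le_mul_right _ (Nat.add_le_add hb1 hb2))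
  by_contra hcon
  rw [not_or, Finset.mem_filter, Finset.mem_filter, Finset.mem_range, Finset.mem_range] at hcon
  obtain ⟨n1, n2⟩ := hcon
  have n1' : ∀ x, c.idist1 i0.1 x ≤ R → c.idist1 i0.1 (nx x) ≤ R → ¬ cut1 c P (R * u1) x :=
    fun x a b d => n1 ⟨h1, x, a, b, d⟩
  have n2' : ∀ x, c.idist1 i0.2 x ≤ R → c.idist1 i0.2 (nx x) ≤ R → ¬ cut1 c P (R * u2) x :=
    fun x a b d => n2 ⟨h2, x, a, b, d⟩
  refine hp ⟨(plab c P (R * u1) i0.1, plab c P (R * u2) i0.2), fun i hi => ?_, fun f hf => ?_⟩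
  · rw [pc_mem_nbh] at hi
    exact Prod.ext (pc1_const i0.1 R n1' i.1 hi.1) (pc1_const i0.2 R n2' i.2 hi.2)
  · by_contra hcon
    rw [not_or, not_not, not_not, pc_mem_nbh, pc_mem_nbh] at hcon
    obtain ⟨⟨a1, a2⟩, b1, b2⟩ := hcon
    rw [pc_mem_sm] at hf
    obtain ⟨⟨a, b⟩, d⟩ := f
    cases d
    · exact n2' b a2 b2 hf
    · exact n1' a a1 b1 hf

open Classical in
/-- offsets which remove the step INTO `x` -/
theorem pc1_unique' {R P : ℕ} (hR : 0 < R) (hRP : R ∣ P) (hPn : P ≤ c.n) (x : Fin c.n) :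
    ((Finset.range (P / R)).filter fun u => ∃ x', nx x' = x ∧ cut1 c P (R * u) x').card ≤ 1 := by
  by_cases hx : ∃ x', nx x' = x
  · obtain ⟨x', rfl⟩ := hx
    refine le_trans (Finset.card_le_card ?_) (pc1_unique hR hRP hPn x')
    intro u hu
    obtain ⟨hu1, y, hy, hc⟩ := Finset.mem_filter.1 hu
    rw [pc_nx_inj hy] at hc
    exact Finset.mem_filter.2 ⟨hu1, hc⟩
  · rw [Finset.filter_false_of_mem]
    · simp
    · rintro u _ ⟨x', h, _⟩
      exact hx ⟨x', h⟩

/-- **a cell is at a removed face for at most `4 P / R` offsets** -/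
theorem pc_smC {R P : ℕ} (hR : 0 < R) (hRP : R ∣ P) (hPn : P ≤ c.n) (j : c.I) :
    ((pcuts R P).filter fun t => j ∈ (pcut c P t).smC).card ≤ 4 * (P / R) := by
  classical
  have a1 := pc1_unique hR hRP hPn j.1
  have a2 := pc1_unique' hR hRP hPn j.1
  have b1 := pc1_unique hR hRP hPn j.2
  have b2 := pc1_unique' hR hRP hPn j.2
  have key := pc_count (R := R) (P := P) (fun t => j ∈ (pcut c P t).smC)
    (((Finset.range (P / R)).filter fun u => cut1 c P (R * u) j.1) ∪ ((Finset.range (P / R)).filter fun u => ∃ x', nx x' = j.1 ∧ cut1 c P (R * u) x'))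
    (((Finset.range (P / R)).filter fun u => cut1 c P (R * u) j.2) ∪ ((Finset.range (P / R)).filter fun u => ∃ x', nx x' = j.2 ∧ cut1 c P (R * u) x'))
    (fun u1 u2 h1 h2 hp => by
      have h1' := Finset.mem_range.2 h1
      have h2' := Finset.mem_range.2 h2
      rcases Finset.mem_union.1 hp with hp | hp
      · obtain ⟨f, hf, rfl⟩ := Finset.mem_image.1 hp
        rw [pc_mem_sm] at hf
        obtain ⟨⟨a, b⟩, d⟩ := f
        cases d
        · exact Or.inr (Finset.mem_union_left _ (Finset.mem_filter.2 ⟨h2', hf⟩))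
        · exact Or.inl (Finset.mem_union_left _ (Finset.mem_filter.2 ⟨h1', hf⟩))
      · obtain ⟨f, hf, rfl⟩ := Finset.mem_image.1 hp
        rw [pc_mem_sm] at hf
        obtain ⟨⟨a, b⟩, d⟩ := f
        cases d
        · exact Or.inr (Finset.mem_union_right _ (Finset.mem_filter.2 ⟨h2', b, rfl, hf⟩))
        · exact Or.inl (Finset.mem_union_right _ (Finset.mem_filter.2 ⟨h1', a, rfl, hf⟩)))
  have c1 := Finset.card_union_le ((Finset.range (P / R)).filter fun u => cut1 c P (R * u) j.1) ((Finset.range (P / R)).filter fun u => ∃ x', nx x' = j.1 ∧ cut1 c P (R * u) x')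
  have c2 := Finset.card_union_le ((Finset.range (P / R)).filter fun u => cut1 c P (R * u) j.2) ((Finset.range (P / R)).filter fun u => ∃ x', nx x' = j.2 ∧ cut1 c P (R * u) x')
  exact le_trans key (Nat.mul_le_mul_right _ (by omega))

/-- a neighbourhood of radius `r`, `2 r + 1 ≤ P`, meets at most four boxes -/
theorem pc_labs {P : ℕ} {t : ℕ × ℕ} (ht : t.1 < P ∧ t.2 < P) (hPn : P ≤ c.n) (i0 : c.I) (r : ℕ) (hr : 2 * r + 1 ≤ P) :
    ((nbh c r {i0}).image (pcut c P t).lab).card ≤ 4 := by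
  classical
  have h1 := pc1_labs ht.1 hPn i0.1 r hr
  have h2 := pc1_labs ht.2 hPn i0.2 r hr
  calc ((nbh c r {i0}).image (pcut c P t).lab).card
      ≤ (((Finset.univ.filter fun x : Fin c.n => c.idist1 i0.1 x ≤ r).image (plab c P t.1)) ×ˢ
          ((Finset.univ.filter fun x : Fin c.n => c.idist1 i0.2 x ≤ r).image (plab c P t.2))).card := Finset.card_le_card (by
        intro l hl
        obtain ⟨i, hi, rfl⟩ := Finset.mem_image.1 hl
        rw [pc_mem_nbh] at hi
        exact Finset.mem_product.2 ⟨Finset.mem_image.2 ⟨i.1, Finset.mem_filter.2 ⟨Finset.mem_univ _, hi.1⟩, rfl⟩,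
          Finset.mem_image.2 ⟨i.2, Finset.mem_filter.2 ⟨Finset.mem_univ _, hi.2⟩, rfl⟩⟩)
    _ ≤ 2 * 2 := by rw [Finset.card_product]; exact Nat.mul_le_mul h1 h2

theorem pc_box_card {P : ℕ} {t : ℕ × ℕ} (ht : t.1 < P ∧ t.2 < P) (hPn : P ≤ c.n) (b : ℕ × ℕ) : ((pcut c P t).box b).card ≤ (2 * P) ^ 2 := by
  classical
  have h1 := pc1_fibre ht.1 hPn b.1
  have h2 := pc1_fibre ht.2 hPn b.2
  calc ((pcut c P t).box b).card
      ≤ ((Finset.univ.filter fun x : Fin c.n => plab c P t.1 x = b.1) ×ˢ (Finset.univ.filter fun x : Fin c.n => plab c P t.2 x = b.2)).card :=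
        Finset.card_le_card (by
          intro i hi
          have hi' : (pcut c P t).lab i = b := (Finset.mem_filter.1 hi).2
          exact Finset.mem_product.2 ⟨Finset.mem_filter.2 ⟨Finset.mem_univ _, congrArg Prod.fst hi'⟩,
            Finset.mem_filter.2 ⟨Finset.mem_univ _, congrArg Prod.snd hi'⟩⟩)
    _ ≤ (2 * P) * (2 * P) := by rw [Finset.card_product]; exact Nat.mul_le_mul h1 h2
    _ = (2 * P) ^ 2 := (sq _).symm

/-! ## 3. The simultaneous Markov bound -/

open Classical in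
/-- PLAN: `∑_t |lost t| = ∑_{k ∈ S'} #{t : k ∈ lost t} ≤ |S'| |T| / 8`, so `#{t : |S'| < 2 |lost t|} ≤ |T| / 4` (trivial if `S' = ∅`); `#{t : 4 B < cost t} < |T| / 4` if `0 < B`, and all costs vanish if `B = 0`.  The two bad sets do not exhaust `T`. -/
theorem pc_markov {ι κ : Type} [DecidableEq κ] (T : Finset ι) (hT : T.Nonempty) (S' : Finset κ) (lost : ι → Finset κ) (hl : ∀ t ∈ T, lost t ⊆ S')
    (cost : ι → ℝ) (hc : ∀ t ∈ T, 0 ≤ cost t) (B : ℝ)
    (h1 : ∀ k ∈ S', 8 * (T.filter fun t => k ∈ lost t).card ≤ T.card) (h2 : ∑ t ∈ T, cost t ≤ T.card * B) :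
    ∃ t ∈ T, 2 * (lost t).card ≤ S'.card ∧ cost t ≤ 4 * B := by
  by_contra hcon
  push Not at hcon
  have hTpos : 0 < T.card := hT.card_pos
  -- the two bad sets
  have hcov : T ⊆ (T.filter fun t => S'.card < 2 * (lost t).card) ∪ (T.filter fun t => 4 * B < cost t) := by
    intro t ht
    by_cases h : 2 * (lost t).card ≤ S'.card
    · exact Finset.mem_union_right _ (Finset.mem_filter.2 ⟨ht, hcon t ht h⟩)
    · exact Finset.mem_union_left _ (Finset.mem_filter.2 ⟨ht, not_le.1 h⟩)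
  have hcard : T.card ≤ (T.filter fun t => S'.card < 2 * (lost t).card).card + (T.filter fun t => 4 * B < cost t).card :=
    (Finset.card_le_card hcov).trans (Finset.card_union_le _ _)
  -- double counting
  have hdc : ∑ t ∈ T, (lost t).card = ∑ k ∈ S', (T.filter fun t => k ∈ lost t).card := by
    have e1 : ∀ t ∈ T, (lost t).card = ∑ k ∈ S', if k ∈ lost t then 1 else 0 := by
      intro t ht
      rw [Finset.sum_ite_mem, Finset.inter_eq_right.2 (hl t ht)]
      simp
    rw [Finset.sum_congr rfl e1, Finset.sum_comm]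
    refine Finset.sum_congr rfl fun k _ => ?_
    rw [Finset.card_filter]
  have h8 : 8 * ∑ t ∈ T, (lost t).card ≤ S'.card * T.card := by
    rw [hdc, Finset.mul_sum]
    calc ∑ k ∈ S', 8 * (T.filter fun t => k ∈ lost t).card ≤ ∑ _k ∈ S', T.card := Finset.sum_le_sum h1
      _ = S'.card * T.card := by rw [Finset.sum_const, smul_eq_mul]
  have hA : 4 * (T.filter fun t => S'.card < 2 * (lost t).card).card ≤ T.card := by
    have hs : (T.filter fun t => S'.card < 2 * (lost t).card).card * (S'.card + 1)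
        ≤ ∑ t ∈ T.filter (fun t => S'.card < 2 * (lost t).card), 2 * (lost t).card := by
      rw [← smul_eq_mul, ← Finset.sum_const]
      exact Finset.sum_le_sum fun t ht => (Finset.mem_filter.1 ht).2
    have hs2 : ∑ t ∈ T.filter (fun t => S'.card < 2 * (lost t).card), 2 * (lost t).card ≤ ∑ t ∈ T, 2 * (lost t).card :=
      Finset.sum_le_sum_of_subset (Finset.filter_subset _ _)
    have hs3 : ∑ t ∈ T, 2 * (lost t).card = 2 * ∑ t ∈ T, (lost t).card := (Finset.mul_sum _ _ _).symm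
    have h3 : (4 * (T.filter fun t => S'.card < 2 * (lost t).card).card) * (S'.card + 1) ≤ T.card * (S'.card + 1) := by
      have h6 := hs.trans hs2
      rw [hs3] at h6
      calc (4 * (T.filter fun t => S'.card < 2 * (lost t).card).card) * (S'.card + 1)
          = 4 * ((T.filter fun t => S'.card < 2 * (lost t).card).card * (S'.card + 1)) := by ring
        _ ≤ 4 * (2 * ∑ t ∈ T, (lost t).card) := Nat.mul_le_mul_left _ h6
        _ = 8 * ∑ t ∈ T, (lost t).card := by ring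
        _ ≤ S'.card * T.card := h8
        _ ≤ T.card * (S'.card + 1) := by rw [mul_comm]; exact Nat.mul_le_mul_left _ (Nat.le_succ _)
    exact Nat.le_of_mul_le_mul_right h3 (Nat.succ_pos _)
  have hB : 4 * (T.filter fun t => 4 * B < cost t).card < T.card := by
    rcases (T.filter fun t => 4 * B < cost t).eq_empty_or_nonempty with he | hne
    · rw [he]; simpa using hTpos
    · have hs : ((T.filter fun t => 4 * B < cost t).card : ℝ) * (4 * B) < ∑ t ∈ T.filter (fun t => 4 * B < cost t), cost t := by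
        rw [← nsmul_eq_mul, ← Finset.sum_const]
        exact Finset.sum_lt_sum_of_nonempty hne fun t ht => (Finset.mem_filter.1 ht).2
      have hs2 : ∑ t ∈ T.filter (fun t => 4 * B < cost t), cost t ≤ ∑ t ∈ T, cost t :=
        Finset.sum_le_sum_of_subset_of_nonneg (Finset.filter_subset _ _) fun t ht _ => hc t ht
      have hB0 : 0 ≤ B := by
        have h0 : 0 ≤ ∑ t ∈ T, cost t := Finset.sum_nonneg hc
        have hTr : (0 : ℝ) < T.card := by exact_mod_cast hTpos
        by_contra hneg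
        push Not at hneg
        nlinarith
      have h4 : ((4 * (T.filter fun t => 4 * B < cost t).card : ℕ) : ℝ) * B < (T.card : ℝ) * B := by
        push_cast
        nlinarith
      have h5 : ((4 * (T.filter fun t => 4 * B < cost t).card : ℕ) : ℝ) < (T.card : ℝ) := lt_of_mul_lt_mul_right h4 hB0
      exact_mod_cast h5
  omega

/-- exchange the sums, `pc_smC`, `sh_cwt_le`-type row sum (`F4a.sum_exp_idist`) -/
theorem nt_swt_sum {R P : ℕ} (hR : 0 < R) (hRP : R ∣ P) (hPn : P ≤ c.n) {κ : ℝ} (hκ : 0 < κ) (i : c.I) :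
    ∑ t ∈ pcuts R P, (pcut c P t).swt κ i ≤ 4 * (P / R : ℕ) * Cs κ := by
  unfold Cut.swt
  have h1 : ∀ t : ℕ × ℕ, ∑ j ∈ (pcut c P t).smC, Real.exp (-κ * c.idist j i)
      = ∑ j, if j ∈ (pcut c P t).smC then Real.exp (-κ * c.idist j i) else 0 := by
    intro t
    rw [Finset.sum_ite_mem, Finset.univ_inter]
  simp only [h1]
  rw [Finset.sum_comm]
  have h2 : ∀ j : c.I, ∑ t ∈ pcuts R P, (if j ∈ (pcut c P t).smC then Real.exp (-κ * c.idist j i) else 0)
      = (((pcuts R P).filter fun t => j ∈ (pcut c P t).smC).card : ℝ) * Real.exp (-κ * c.idist j i) := by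
    intro j
    rw [← Finset.sum_filter, Finset.sum_const, nsmul_eq_mul]
  simp only [h2]
  calc ∑ j : c.I, (((pcuts R P).filter fun t => j ∈ (pcut c P t).smC).card : ℝ) * Real.exp (-κ * c.idist j i)
      ≤ ∑ j : c.I, (4 * ((P / R : ℕ) : ℝ)) * Real.exp (-κ * c.idist j i) := by
        refine Finset.sum_le_sum fun j _ => mul_le_mul_of_nonneg_right ?_ (Real.exp_pos _).le
        exact_mod_cast pc_smC hR hRP hPn j
    _ = 4 * ((P / R : ℕ) : ℝ) * cwt c κ Finset.univ i := by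
        rw [← Finset.mul_sum]
        rfl
    _ ≤ 4 * ((P / R : ℕ) : ℝ) * Cs κ := mul_le_mul_of_nonneg_left (sh_cwt_le hκ _ i) (by positivity)

/-- **the choice of the offset.**  PLAN: `pc_markov` with `T = pcuts R P` (`pc_card`), `lost t = S' \ kept_t S'`, `cost t = ∑_{f ∈ F} swt_t κ f.1 * v f`, `B = 4 Cs κ (R/P) ∑_F v`.
`h1`: `hg.tp_small` gives `tpatch k ⊆ nbh c R {i0}`; if the neighbourhood is deep in a box, so is the testing patch; `pc_lost`; `8 * (8 P/R) ≤ (P/R)²` as `64 ≤ P/R`.   `h2`: `nt_swt_sum`, `((P/R : ℕ) : ℝ) = P/R`. -/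
theorem nt_offset {R P : ℕ} (hg : NGeo c R) (hRP : R ∣ P) (h64 : 64 * R ≤ P) (hRn : R ∣ c.n) (hPn : P ≤ c.n) {κ : ℝ} (hκ : 0 < κ)
    (S' : Finset EvId) (hS' : S' ⊆ events c R) (F : Finset (Face c)) (v : Face c → ℝ) (hv : ∀ f, 0 ≤ v f) :
    ∃ t ∈ pcuts R P, S'.card ≤ 2 * ((pcut c P t).kept R S').card ∧
      ∑ f ∈ F, (pcut c P t).swt κ f.1 * v f ≤ 16 * Cs κ * ((R : ℝ) / P) * ∑ f ∈ F, v f := by
  classical
  have hR : 0 < R := hg.pos
  obtain ⟨N, hN⟩ : ∃ N : ℕ, N = P / R := ⟨_, rfl⟩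
  have hN64 : 64 ≤ N := by
    rw [hN]
    exact (Nat.le_div_iff_mul_le hR).2 h64
  have hcard : (pcuts R P).card = N ^ 2 := by rw [pc_card hR, hN]
  have hT : (pcuts R P).Nonempty := by
    rw [← Finset.card_pos, hcard]
    positivity
  have hPpos : 0 < P := lt_of_lt_of_le (by positivity) h64
  have hNr : (N : ℝ) = (P : ℝ) / R := by
    rw [hN, Nat.cast_div hRP (by exact_mod_cast hR.ne')]
  have hswt0 : ∀ (t : ℕ × ℕ) (i : c.I), 0 ≤ (pcut c P t).swt κ i := fun t i =>
    Finset.sum_nonneg fun _ _ => (Real.exp_pos _).le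
  have hCs : 0 ≤ Cs κ := by
    unfold Cs
    positivity
  have hm1 : ∀ k ∈ S', 8 * ((pcuts R P).filter fun t => k ∈ S' \ (pcut c P t).kept R S').card ≤ (pcuts R P).card := by
    intro k hk
    obtain ⟨i0, hi0⟩ := hg.tp_small k (hS' hk)
    have hsub : ((pcuts R P).filter fun t => k ∈ S' \ (pcut c P t).kept R S')
        ⊆ (pcuts R P).filter fun t => ¬ ∃ b, (∀ i ∈ nbh c R {i0}, (pcut c P t).lab i = b) ∧
          ∀ f ∈ (pcut c P t).sm, f.1 ∉ nbh c R {i0} ∨ fnb c f ∉ nbh c R {i0} := by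
      intro t ht
      rw [Finset.mem_filter] at ht ⊢
      refine ⟨ht.1, ?_⟩
      rintro ⟨b, hb1, hb2⟩
      apply (Finset.mem_sdiff.1 ht.2).2
      unfold Cut.kept
      rw [Finset.mem_filter]
      refine ⟨hk, b, fun i hi => hb1 i (hi0 hi), fun f hf => ?_⟩
      rcases hb2 f hf with h | h
      · exact Or.inl fun h' => h (hi0 h')
      · exact Or.inr fun h' => h (hi0 h')
    have h3 := (Finset.card_le_card hsub).trans (pc_lost hR hRP hRn hPn i0)
    rw [hcard]
    rw [← hN] at h3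
    nlinarith
  have hm2 : ∑ t ∈ pcuts R P, ∑ f ∈ F, (pcut c P t).swt κ f.1 * v f
      ≤ ((pcuts R P).card : ℝ) * (4 * Cs κ * ((R : ℝ) / P) * ∑ f ∈ F, v f) := by
    rw [Finset.sum_comm]
    have h3 : ∀ f ∈ F, ∑ t ∈ pcuts R P, (pcut c P t).swt κ f.1 * v f ≤ 4 * (N : ℝ) * Cs κ * v f := by
      intro f _
      rw [← Finset.sum_mul]
      refine mul_le_mul_of_nonneg_right ?_ (hv f)
      rw [hN]
      exact nt_swt_sum hR hRP hPn hκ f.1
    refine (Finset.sum_le_sum h3).trans (le_of_eq ?_)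
    rw [← Finset.mul_sum, hcard]
    have hRr : (R : ℝ) ≠ 0 := by exact_mod_cast hR.ne'
    have hPr : (P : ℝ) ≠ 0 := by exact_mod_cast hPpos.ne'
    push_cast
    rw [hNr]
    field_simp
  obtain ⟨t, ht, h1, h2⟩ := pc_markov (pcuts R P) hT S' (fun t => S' \ (pcut c P t).kept R S') (fun t _ => Finset.sdiff_subset)
    (fun t => ∑ f ∈ F, (pcut c P t).swt κ f.1 * v f) (fun t _ => Finset.sum_nonneg fun f _ => mul_nonneg (hswt0 t f.1) (hv f))
    (4 * Cs κ * ((R : ℝ) / P) * ∑ f ∈ F, v f) hm1 hm2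
  refine ⟨t, ht, ?_, ?_⟩
  · have h3 : (S' \ (pcut c P t).kept R S').card + ((pcut c P t).kept R S').card = S'.card :=
      Finset.card_sdiff_add_card_eq_card (Finset.filter_subset _ _)
    have h1' : 2 * (S' \ (pcut c P t).kept R S').card ≤ S'.card := h1
    omega
  · refine h2.trans (le_of_eq ?_)
    ring

/-! ## 4. The positive topology is bounded by a sum over offsets of products over boxes -/

/-- the coefficient of the seam cost `e2 * halE` -/
def e2 (C cc : ℝ) (R P : ℕ) : ℝ := C * Cg (cc / 2) * (16 * Cs (cc / 4) * ((R : ℝ) / P)) / 2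

open Classical in
/-- the offsets which keep half of the marks of `S'` -/
def goodT (c : Grid G) (R P : ℕ) (S' : Finset EvId) : Finset (ℕ × ℕ) := (pcuts R P).filter fun t => S'.card ≤ 2 * ((pcut c P t).kept R S').card

variable (Y : Phy c)

open Classical in
/-- **STEPS (C) + offset.**  PLAN: fix `y`; `nt_offset` with `F = Y.halF S`, `v f = (Y.w y f)²`, `κ = cc/4` gives `t ∈ goodT`; `nt_seam` with `θ = pcut c P t` (`pc_ok`); `nt_seam_E` (`G.faces ⊆ halF S`: `nt_faces_sub`; `swt ≥ 0`); `hsrc` for `T = G` (`G.cells = halC S`);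
`x^|kept| ≤ x^|S|` (`hP.one`); all other terms of the sum over `goodT` are nonnegative (`nt_QT_mem`): `Finset.single_le_sum`. -/
theorem nt_cut_le (hY : Y.Ok) (hW : Y.W.Str) (hg : NGeo c Y.R) {C cc Ds : ℝ} (hQ : QLoc Y.W C cc Ds) {x : ℝ} (hP : Y.Pins x) {Zs : Finset c.I} {cz : ℝ}
    (hsrc : Src Y Zs cz) {P : ℕ} (hRP : Y.R ∣ P) (h64 : 64 * Y.R ≤ P) (hRn : Y.R ∣ c.n) (hPn : P ≤ c.n)
    {S O S' : Finset EvId} (hS : Valid c Y.R S) (hO : O ⊆ S) (hS' : S' ⊆ S) (y : c.I → ℝ) :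
    Y.AT (halTop c Y.R S O) y * Y.ET (halTop c Y.R S O) S y
      ≤ ∑ t ∈ goodT c Y.R P S', x ^ S.card * Real.exp (e2 C cc Y.R P * Y.halE S y + Ds / 2 * (if Disjoint (halC c Y.R S) Zs then 0 else cz))
          * ∏ b ∈ (pcut c P t).labs (halTop c Y.R S O), Y.QT ((pcut c P t).piece (halTop c Y.R S O) b) ((pcut c P t).keptB Y.R S b) y := by
  have hN : ∀ T, 0 < Y.W.N T := hW.N_pos
  have hcc := hQ.cc_pos
  have hx0 : 0 ≤ x := zero_le_one.trans hP.one
  set T := halTop c Y.R S O with hTdef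
  have hT : T.Ok := nt_ok_halTop _ _ _
  have hcells : T.cells = halC c Y.R S := by
    show (Finset.univ ∩ halC c Y.R S : Finset c.I) = halC c Y.R S
    exact Finset.univ_inter _
  -- nonnegativity of the products
  have hprod : ∀ t : ℕ × ℕ, 0 ≤ ∏ b ∈ (pcut c P t).labs T, Y.QT ((pcut c P t).piece T b) ((pcut c P t).keptB Y.R S b) y := by
    intro t
    refine Finset.prod_nonneg fun b _ => ?_
    exact (nt_QT_mem Y hY hN _ (nt_ok_restr _ (nt_ok_cut T hT _) _) _ y).1
  -- the offset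
  obtain ⟨t, ht, hk, hcost⟩ := nt_offset hg hRP h64 hRn hPn (κ := cc / 4) (by positivity) S' (hS'.trans hS.1) (Y.halF S)
    (fun f => Y.w y f ^ 2) (fun f => sq_nonneg _)
  have htg : t ∈ goodT c Y.R P S' := Finset.mem_filter.2 ⟨ht, hk⟩
  refine le_trans ?_ (Finset.single_le_sum (f := fun t => x ^ S.card * Real.exp (e2 C cc Y.R P * Y.halE S y + Ds / 2 * (if Disjoint (halC c Y.R S) Zs then 0 else cz))
          * ∏ b ∈ (pcut c P t).labs T, Y.QT ((pcut c P t).piece T b) ((pcut c P t).keptB Y.R S b) y)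
    (fun t _ => mul_nonneg (mul_nonneg (pow_nonneg hx0 _) (Real.exp_pos _).le) (hprod t)) htg)
  set θ := pcut c P t with hθdef
  have hθ : θ.Ok := pc_ok P t
  have h1 := nt_seam Y hY hW hg hP hS hO θ hθ y
  rw [← hTdef] at h1
  refine h1.trans (mul_le_mul_of_nonneg_right ?_ (hprod t))
  have hKS : θ.kept Y.R S ⊆ S := by
    intro k hk
    unfold Cut.kept at hk
    exact (Finset.mem_filter.1 hk).1
  have hpow : x ^ (θ.kept Y.R S).card ≤ x ^ S.card := pow_le_pow_right₀ hP.one (Finset.card_le_card hKS)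
  refine mul_le_mul hpow (Real.exp_le_exp.2 ?_) (Real.exp_pos _).le (pow_nonneg hx0 _)
  have h2 := nt_seam_E Y hW hQ T hT θ y
  have hsw : ∀ f : Face c, 0 ≤ θ.swt (cc / 4) f.1 * Y.w y f ^ 2 := fun f =>
    mul_nonneg (Finset.sum_nonneg fun j _ => (Real.exp_pos _).le) (sq_nonneg _)
  have h3 : ∑ f ∈ T.faces, θ.swt (cc / 4) f.1 * Y.w y f ^ 2 ≤ ∑ f ∈ Y.halF S, θ.swt (cc / 4) f.1 * Y.w y f ^ 2 :=
    Finset.sum_le_sum_of_subset_of_nonneg (nt_faces_sub _ _ _) fun f _ _ => hsw f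
  have h4 := hsrc.2 T hT y
  rw [hcells] at h4
  have hCg : 0 ≤ C * Cg (cc / 2) := by
    refine mul_nonneg hQ.C_nn ?_
    unfold Cg Cs
    positivity
  have h5 : C * Cg (cc / 2) * ∑ f ∈ T.faces, θ.swt (cc / 4) f.1 * Y.w y f ^ 2
      ≤ C * Cg (cc / 2) * (16 * Cs (cc / 4) * ((Y.R : ℝ) / P) * Y.halE S y) :=
    mul_le_mul_of_nonneg_left (h3.trans hcost) hCg
  have h6 := mul_le_mul_of_nonneg_left h4 hQ.Ds_nn
  unfold e2
  linarith

end

end Claimed.Agent.R285.Entry
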