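import Claimed.Agent.R285.Entry.Fac
import Claimed.Agent.R285.Base.Height
import Claimed.Agent.R285.Rsd.BesMono
import Claimed.Agent.R285.Rsd.GauMono

/-!
# ROW 285, ENTRY, package BP-ENT-NORM (#13340, architect helper229), file 2: THE KIT OF FACTOR MODELS.   Paper-free.  Prefix `fk_`.

Everything here is an EXACT statement on absolutely convergent sums over `ℤ^A`.   Definitions: `Entry/Fac.lean` (KEEP).   Rules of `Base/Height.lean` may be cited (`lsys_*`).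
LEAVES (one prover per block; edit only your block, put your auxiliary lemmas directly above your theorem, prefix them with the name of the block, e.g. `fk_sys_aux1`):
  L-ENT-FK-SYS   block [SYS]   bridge to `LSys`: bijection `sup A ≃ L`, weights, `M.sys.Ok`, summability, positivity          (~300 l.)
  L-ENT-FK-ALG   block [ALG]   linearity, monotonicity, `|Z Ψ| ≤ Z |Ψ|`, finite sums, `add` as a functional, gauge                 (~200 l.)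
  L-ENT-FK-OK    block [OK]    `Ok` and `Le` are inherited by `pin, add, loc, res`                                                 (~200 l.)
  L-ENT-FK-CMP   block [CMP]   `fk_ratio`, `fk_P_mono` from `lsys_ratio_mono`, `lsys_event_mono`                                   (~300 l.)
  L-ENT-FK-BES   block [BES]   the new rule `lsys_bes_mono` (free bonds + `lsys_event_mono`)                                       (~300 l.)
  L-ENT-FK-GAU   block [GAU]   the new rule `lsys_gau_mono` (Fourier representation of the Gaussian weight + `lsys_phi_mono`)       (~250 l.)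
  L-ENT-FK-T     block [T]     `fk_T_mono` from `lsys_bes_mono`, `lsys_gau_mono`                                                   (~250 l.)
  L-ENT-FK-FIB   block [FIB]   fibres over the heights in `B ⊆ A`                                                                  (~250 l.)
  L-ENT-FK-SPL   block [SPL]   factorisation over two / finitely many separated pieces                                             (~350 l.)
  L-ENT-FK-MKV   block [MKV]   the Markov property (one interior), boundedness and locality of `cE`                                (~300 l.)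
-/

set_option autoImplicit false

namespace Claimed.Agent.R285.Entry

open scoped BigOperators
open Claimed.Agent.R285 Fac

noncomputable section

variable {𝔉 : Fac}

/-! ## [SYS] bridge to `LSys` -/

/-- the coordinates of a fluctuation -/
def Fac.Msk.toL (M : 𝔉.Msk) : 𝔉.sup M.A →+ M.sys.L where
  toFun g := ⟨M.coord g, AddSubgroup.mem_map.2 ⟨g, g.2, rfl⟩⟩
  map_zero' := Subtype.ext (map_zero M.coord)
  map_add' g g' := Subtype.ext (map_add M.coord (g : 𝔉.Ht) (g' : 𝔉.Ht))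

theorem fk_sys_dv_cast (e : 𝔉.E) (g : 𝔉.Ht) : ∑ v, (𝔉.d e v : ℝ) * ((g v : ℤ) : ℝ) = ((𝔉.dv e g : ℤ) : ℝ) := by
  unfold Fac.dv
  push_cast
  rfl

theorem fk_sys_rv_cast (o : 𝔉.O) (g : 𝔉.Ht) : 𝔉.rv o g = 2 * Real.pi * ∑ v, 𝔉.r o v * ((g v : ℤ) : ℝ) := by
  unfold Fac.rv
  rw [Finset.mul_sum]
  refine Finset.sum_congr rfl fun v _ => ?_
  ring

theorem fk_sys_coord_inj (M : 𝔉.Msk) (hM : M.Ok) (g : 𝔉.Ht) (hg : g ∈ 𝔉.sup M.A) (h0 : M.coord g = 0) : g = 0 := by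
  have hu := hM.2 (fun v => ((g v : ℤ) : ℝ)) (fun v hv => by simp [hg v hv]) ?_ ?_
  · funext v
    have h1 : ((g v : ℤ) : ℝ) = 0 := congrFun hu v
    exact_mod_cast h1
  · intro e he
    rw [fk_sys_dv_cast]
    have : 𝔉.dv e g = 0 := congrFun (congrArg Prod.fst h0) ⟨e, he⟩
    simp [this]
  · intro o ho
    have h1 : 𝔉.rv o g = 0 := congrFun (congrArg Prod.snd h0) ⟨o, ho⟩
    rw [fk_sys_rv_cast] at h1
    have h2 : (2 * Real.pi) ≠ 0 := by positivity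
    exact (mul_eq_zero.1 h1).resolve_left h2

/-- PLAN: surjective by definition of `map`; injective: cast `g` to a real field and use the second clause of `Ok`. -/
theorem fk_toL_bij (M : 𝔉.Msk) (hM : M.Ok) : Function.Bijective M.toL := by
  constructor
  · rw [injective_iff_map_eq_zero]
    intro g hg
    apply Subtype.ext
    exact fk_sys_coord_inj M hM g g.2 (congrArg Subtype.val hg)
  · rintro ⟨z, hz⟩
    obtain ⟨g, hg, rfl⟩ := AddSubgroup.mem_map.1 hz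
    exact ⟨⟨g, hg⟩, rfl⟩

theorem fk_sys_dv_add (e : 𝔉.E) (h h' : 𝔉.Ht) : 𝔉.dv e (h + h') = 𝔉.dv e h + 𝔉.dv e h' := by
  simp [Fac.dv, mul_add, Finset.sum_add_distrib]

theorem fk_sys_rv_add (o : 𝔉.O) (h h' : 𝔉.Ht) : 𝔉.rv o (h + h') = 𝔉.rv o h + 𝔉.rv o h' := by
  simp [Fac.rv, mul_add, Finset.sum_add_distrib]

/-- the weight of `M` is the weight of `M.sys`.  PLAN: `Finset.prod_coe_sort`, `Finset.sum_coe_sort`; `(r_o h - c_o)² = (r_o h + (-c_o))²`. -/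
theorem fk_wt_eq (M : 𝔉.Msk) (D : 𝔉.Dat) (g : 𝔉.Ht) :
    M.wt D (D.x + g) = M.sys.W ((show M.sys.Amb from M.coord g) + M.amb D) := by
  unfold Fac.Msk.wt Fac.rw Fac.rwE LSys.W
  have h1 : ∏ e : M.sys.E, bes (M.sys.b e) (((show M.sys.Amb from M.coord g) + M.amb D).1 e)
      = ∏ e ∈ M.E, bes (𝔉.b e) (𝔉.dv e (D.x + g) + D.τ e) := by
    rw [← Finset.prod_coe_sort M.E fun e => bes (𝔉.b e) (𝔉.dv e (D.x + g) + D.τ e)]
    refine Finset.prod_congr rfl fun e _ => ?_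
    show bes (𝔉.b e.1) (𝔉.dv e.1 g + (𝔉.dv e.1 D.x + D.τ e.1)) = _
    rw [fk_sys_dv_add]
    congr 1
    ring
  have h2 : ∑ o : M.sys.O, ((show M.sys.Amb from M.coord g) + M.amb D).2 o ^ 2
      = ∑ o ∈ M.O, (𝔉.rv o (D.x + g) - D.c o) ^ 2 := by
    rw [← Finset.sum_coe_sort M.O fun o => (𝔉.rv o (D.x + g) - D.c o) ^ 2]
    refine Finset.sum_congr rfl fun o _ => ?_
    show (𝔉.rv o.1 g + (𝔉.rv o.1 D.x + -D.c o.1)) ^ 2 = _
    rw [fk_sys_rv_add]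
    ring
  rw [h1, h2]

/-- the real coordinate map -/
def fk_sys_T (M : 𝔉.Msk) : (𝔉.V → ℝ) →ₗ[ℝ] (M.sys.E → ℝ) × (M.sys.O → ℝ) where
  toFun u := (fun e => ∑ v, (𝔉.d e.1 v : ℝ) * u v, fun o => 2 * Real.pi * ∑ v, 𝔉.r o.1 v * u v)
  map_add' u u' := by
    refine Prod.ext (funext fun e => ?_) (funext fun o => ?_)
    · simp [mul_add, Finset.sum_add_distrib]
    · simp [mul_add, Finset.sum_add_distrib]
  map_smul' a u := by
    refine Prod.ext (funext fun e => ?_) (funext fun o => ?_)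
    · simp only [Pi.smul_apply, smul_eq_mul, RingHom.id_apply, Prod.smul_fst, Finset.mul_sum]
      refine Finset.sum_congr rfl fun v _ => ?_
      ring
    · simp only [Pi.smul_apply, smul_eq_mul, RingHom.id_apply, Prod.smul_snd, Finset.mul_sum]
      refine Finset.sum_congr rfl fun v _ => ?_
      ring

/-- PLAN: a `ℤ`-basis of `sup A` is `Pi.single v 1`, `v ∈ A`; its image is a basis of `L`; real linear independence = second clause of `Ok`. -/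
theorem fk_sys_ok (M : 𝔉.Msk) (hM : M.Ok) : M.sys.Ok := by
  refine Rsd.kit_ok_of_map M.sys (fun e => hM.1 e.1 e.2) (𝔉.sup M.A) M.coord (fk_sys_T M) ?_ ?_ rfl
  · intro c
    refine Prod.ext (funext fun e => ?_) (funext fun o => ?_)
    · exact (fk_sys_dv_cast e.1 c).symm
    · exact fk_sys_rv_cast o.1 c
  · intro x hx hT
    have hoff : ∀ v, v ∉ M.A → x v = 0 := by
      intro v hv
      refine Submodule.span_induction (p := fun y _ => y v = 0) ?_ rfl ?_ ?_ hx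
      · rintro _ ⟨c, hc, rfl⟩
        show ((c v : ℤ) : ℝ) = 0
        simp [hc v hv]
      · intro y y' _ _ h h'
        simp [h, h']
      · intro a y _ h
        simp [h]
    refine hM.2 x hoff ?_ ?_
    · intro e he
      exact congrFun (congrArg Prod.fst hT) ⟨e, he⟩
    · intro o ho
      have h1 : 2 * Real.pi * ∑ v, 𝔉.r o v * x v = 0 := congrFun (congrArg Prod.snd hT) ⟨o, ho⟩
      have h2 : (2 * Real.pi) ≠ 0 := by positivity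
      exact (mul_eq_zero.1 h1).resolve_left h2

/-- sums over `L` are sums over the fluctuations.  PLAN: `Equiv.ofBijective _ (fk_toL_bij ..)`, `Equiv.tsum_eq`, `fk_wt_eq`. -/
theorem fk_Zf_eq (M : 𝔉.Msk) (hM : M.Ok) (D : 𝔉.Dat) (Φ : M.sys.L → ℝ) :
    M.sys.Zf (M.amb D) Φ = ∑' g : 𝔉.sup M.A, Φ (M.toL g) * M.wt D (D.x + (g : 𝔉.Ht)) := by
  unfold LSys.Zf
  rw [← (Equiv.ofBijective _ (fk_toL_bij M hM)).tsum_eq]
  refine tsum_congr fun g => ?_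
  rw [fk_wt_eq]
  rfl

theorem fk_Z1_eq_w (M : 𝔉.Msk) (hM : M.Ok) (D : 𝔉.Dat) : M.Z1 D = M.sys.w (M.amb D) := by
  unfold LSys.w
  rw [fk_Zf_eq M hM]
  rfl

theorem fk_amb_zero (M : 𝔉.Msk) : M.amb 0 = 0 := by
  unfold Fac.Msk.amb
  have h1 : (0 : 𝔉.Dat).x = 0 := rfl
  rw [h1, map_zero]
  refine Prod.ext (funext fun e => ?_) (funext fun o => ?_)
  · show (0 : ℤ) + 0 = 0
    simp
  · show (0 : ℝ) + -0 = 0
    simp

theorem fk_sys_rw_pos (F : Finset 𝔉.E) (hF : ∀ e ∈ F, 0 < 𝔉.b e) (D : 𝔉.Dat) (h : 𝔉.Ht) : 0 < rwE F D h :=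
  Finset.prod_pos fun e he => bes_pos _ (hF e he) _

theorem fk_wt_pos (M : 𝔉.Msk) (hM : ∀ e ∈ M.E, 0 < 𝔉.b e) (D : 𝔉.Dat) (h : 𝔉.Ht) : 0 < M.wt D h :=
  mul_pos (fk_sys_rw_pos M.E hM D h) (Real.exp_pos _)

/-- `0 < p_b(k) ≤ 1`.  PLAN: `bes_hasSum_exp b 0` (sum `= 1`), all terms nonnegative. -/
theorem fk_bes_le_one (b : ℝ) (hb : 0 < b) (k : ℤ) : bes b k ≤ 1 := by
  have h : HasSum (fun k : ℤ => bes b k) 1 := by
    simpa using bes_hasSum_exp b 0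
  exact le_hasSum h k fun j _ => bes_nonneg b hb.le j

theorem fk_rwE_mem (F : Finset 𝔉.E) (hF : ∀ e ∈ F, 0 < 𝔉.b e) (D : 𝔉.Dat) (h : 𝔉.Ht) : 0 < rwE F D h ∧ rwE F D h ≤ 1 :=
  ⟨fk_sys_rw_pos F hF D h, Finset.prod_le_one (fun e he => bes_nonneg _ (hF e he).le _) fun e he => fk_bes_le_one _ (hF e he) _⟩

theorem fk_rw_mem (F : 𝔉.Fs) (hF : F.Pos) (D : 𝔉.Dat) (h : 𝔉.Ht) : 0 < rw F D h ∧ rw F D h ≤ 1 := by
  obtain ⟨h1, h2⟩ := fk_rwE_mem F.1 hF D h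
  have h3 : Real.exp (-(∑ o ∈ F.2, (𝔉.rv o h - D.c o) ^ 2) / 2) ≤ 1 := by
    rw [Real.exp_le_one_iff]
    have : 0 ≤ ∑ o ∈ F.2, (𝔉.rv o h - D.c o) ^ 2 := Finset.sum_nonneg fun _ _ => sq_nonneg _
    linarith
  exact ⟨mul_pos h1 (Real.exp_pos _), mul_le_one₀ h2 (Real.exp_pos _).le h3⟩

theorem fk_sys_summable_wt (M : 𝔉.Msk) (hM : M.Ok) (D : 𝔉.Dat) : Summable fun g : 𝔉.sup M.A => M.wt D (D.x + (g : 𝔉.Ht)) := by
  have h := lsys_summable M.sys (fk_sys_ok M hM) (M.amb D) 0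
  have h2 := (Equiv.ofBijective _ (fk_toL_bij M hM)).summable_iff.2 h
  refine h2.congr fun g => ?_
  rw [fk_wt_eq]
  simp only [Function.comp, AddMonoidHom.zero_apply, Real.exp_zero, one_mul]
  rfl

/-- PLAN: `lsys_summable` with `Y = 0` through the bijection; comparison with `C * wt`. -/
theorem fk_summable (M : 𝔉.Msk) (hM : M.Ok) (D : 𝔉.Dat) (Ψ : 𝔉.Ht → ℝ) (hΨ : 𝔉.Bdd Ψ) :
    Summable fun g : 𝔉.sup M.A => Ψ (D.x + (g : 𝔉.Ht)) * M.wt D (D.x + (g : 𝔉.Ht)) := by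
  obtain ⟨C, hC⟩ := hΨ
  refine Summable.of_norm_bounded ((fk_sys_summable_wt M hM D).mul_left C) fun g => ?_
  rw [Real.norm_eq_abs, abs_mul, abs_of_pos (fk_wt_pos M hM.1 D _)]
  exact mul_le_mul_of_nonneg_right (hC _) (fk_wt_pos M hM.1 D _).le

theorem fk_Z1_pos (M : 𝔉.Msk) (hM : M.Ok) (D : 𝔉.Dat) : 0 < M.Z1 D := by
  rw [fk_Z1_eq_w M hM]
  have := lsys_pos M.sys (fk_sys_ok M hM) (M.amb D) 0
  unfold LSys.wT at this
  unfold LSys.w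
  simpa using this

/-! ## [ALG] algebra of `Z` -/

theorem fk_Z_add (M : 𝔉.Msk) (hM : M.Ok) (D : 𝔉.Dat) (Ψ Ψ' : 𝔉.Ht → ℝ) (h : 𝔉.Bdd Ψ) (h' : 𝔉.Bdd Ψ') :
    M.Z D (fun x => Ψ x + Ψ' x) = M.Z D Ψ + M.Z D Ψ' := by
  unfold Fac.Msk.Z
  rw [← (fk_summable M hM D Ψ h).tsum_add (fk_summable M hM D Ψ' h')]
  refine tsum_congr fun g => ?_
  ring

theorem fk_Z_smul (M : 𝔉.Msk) (D : 𝔉.Dat) (a : ℝ) (Ψ : 𝔉.Ht → ℝ) : M.Z D (fun x => a * Ψ x) = a * M.Z D Ψ := by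
  unfold Fac.Msk.Z
  rw [← tsum_mul_left]
  refine tsum_congr fun g => ?_
  ring

theorem fk_Z_sum (M : 𝔉.Msk) (hM : M.Ok) (D : 𝔉.Dat) {κ : Type} (s : Finset κ) (Ψ : κ → 𝔉.Ht → ℝ) (h : ∀ k ∈ s, 𝔉.Bdd (Ψ k)) :
    M.Z D (fun x => ∑ k ∈ s, Ψ k x) = ∑ k ∈ s, M.Z D (Ψ k) := by
  unfold Fac.Msk.Z
  rw [← Summable.tsum_finsetSum fun k hk => fk_summable M hM D (Ψ k) (h k hk)]
  refine tsum_congr fun g => ?_
  rw [Finset.sum_mul]

theorem fk_Z_mono (M : 𝔉.Msk) (hM : M.Ok) (D : 𝔉.Dat) (Ψ Ψ' : 𝔉.Ht → ℝ) (h : 𝔉.Bdd Ψ) (h' : 𝔉.Bdd Ψ') (hle : ∀ x, Ψ x ≤ Ψ' x) :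
    M.Z D Ψ ≤ M.Z D Ψ' := by
  unfold Fac.Msk.Z
  refine (fk_summable M hM D Ψ h).tsum_le_tsum (fun g => ?_) (fk_summable M hM D Ψ' h')
  exact mul_le_mul_of_nonneg_right (hle _) (fk_wt_pos M hM.1 D _).le

theorem fk_alg_bdd_abs (Ψ : 𝔉.Ht → ℝ) (h : 𝔉.Bdd Ψ) : 𝔉.Bdd fun x => |Ψ x| := by
  obtain ⟨C, hC⟩ := h
  exact ⟨C, fun x => by rw [abs_abs]; exact hC x⟩

theorem fk_Z_abs (M : 𝔉.Msk) (hM : M.Ok) (D : 𝔉.Dat) (Ψ : 𝔉.Ht → ℝ) (h : 𝔉.Bdd Ψ) : |M.Z D Ψ| ≤ M.Z D fun x => |Ψ x| := by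
  unfold Fac.Msk.Z
  have hs := fk_summable M hM D (fun x => |Ψ x|) (fk_alg_bdd_abs Ψ h)
  have e : ∀ g : 𝔉.sup M.A, ‖Ψ (D.x + (g : 𝔉.Ht)) * M.wt D (D.x + (g : 𝔉.Ht))‖ = |Ψ (D.x + (g : 𝔉.Ht))| * M.wt D (D.x + (g : 𝔉.Ht)) := by
    intro g
    rw [Real.norm_eq_abs, abs_mul, abs_of_pos (fk_wt_pos M hM.1 D _)]
  have h1 := norm_tsum_le_tsum_norm (f := fun g : 𝔉.sup M.A => Ψ (D.x + (g : 𝔉.Ht)) * M.wt D (D.x + (g : 𝔉.Ht))) (by simp_rw [e]; exact hs)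
  simp_rw [e] at h1
  exact h1

theorem fk_Z_nonneg (M : 𝔉.Msk) (hM : ∀ e ∈ M.E, 0 < 𝔉.b e) (D : 𝔉.Dat) (Ψ : 𝔉.Ht → ℝ) (h : ∀ x, 0 ≤ Ψ x) : 0 ≤ M.Z D Ψ :=
  tsum_nonneg fun _ => mul_nonneg (h _) (fk_wt_pos M hM D _).le

/-- only the values on `x + sup A` matter -/
theorem fk_Z_congr (M : 𝔉.Msk) (D : 𝔉.Dat) (Ψ Ψ' : 𝔉.Ht → ℝ) (h : ∀ g ∈ 𝔉.sup M.A, Ψ (D.x + g) = Ψ' (D.x + g)) :
    M.Z D Ψ = M.Z D Ψ' := by
  unfold Fac.Msk.Z
  refine tsum_congr fun g => ?_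
  rw [h g g.2]

/-- restored factors as a functional (`Finset.prod_union`, `Finset.sum_union`, `Real.exp_add`) -/
theorem fk_add_eq (M : 𝔉.Msk) (F : 𝔉.Fs) (hd : M.New F) (D : 𝔉.Dat) (Ψ : 𝔉.Ht → ℝ) :
    (M.add F).Z D Ψ = M.Z D fun h => Ψ h * rw F D h := by
  unfold Fac.Msk.Z
  refine tsum_congr fun g => ?_
  have : (M.add F).wt D (D.x + (g : 𝔉.Ht)) = rw F D (D.x + (g : 𝔉.Ht)) * M.wt D (D.x + (g : 𝔉.Ht)) := by
    unfold Fac.Msk.wt Fac.rw Fac.rwE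
    show (∏ e ∈ M.E ∪ F.1, _) * Real.exp (-(∑ o ∈ M.O ∪ F.2, _) / 2) = _
    rw [Finset.prod_union hd.1.symm, Finset.sum_union hd.2.symm, neg_add, add_div, Real.exp_add]
    ring
  show Ψ _ * (M.add F).wt D (D.x + (g : 𝔉.Ht)) = _
  rw [this]
  ring

/-- reindexing (`Equiv.addRight` on the subgroup) -/
theorem fk_gauge (M : 𝔉.Msk) (D : 𝔉.Dat) (g : 𝔉.Ht) (hg : g ∈ 𝔉.sup M.A) (Ψ : 𝔉.Ht → ℝ) : M.Z (D.shift g) Ψ = M.Z D Ψ := by
  unfold Fac.Msk.Z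
  rw [← (Equiv.addLeft (⟨g, hg⟩ : 𝔉.sup M.A)).tsum_eq fun g' : 𝔉.sup M.A => Ψ (D.x + (g' : 𝔉.Ht)) * M.wt D (D.x + (g' : 𝔉.Ht))]
  refine tsum_congr fun g' => ?_
  show Ψ (D.x + g + (g' : 𝔉.Ht)) * M.wt D (D.x + g + (g' : 𝔉.Ht)) = Ψ (D.x + (g + (g' : 𝔉.Ht))) * M.wt D (D.x + (g + (g' : 𝔉.Ht)))
  rw [add_assoc]

/-- the background matters only off the free sites -/
theorem fk_bk_congr (M : 𝔉.Msk) (D : 𝔉.Dat) (x x' : 𝔉.Ht) (h : ∀ v, v ∉ M.A → x v = x' v) (Ψ : 𝔉.Ht → ℝ) :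
    M.Z (D.bk x) Ψ = M.Z (D.bk x') Ψ := by
  have hg : x' - x ∈ 𝔉.sup M.A := by
    intro v hv
    simp [h v hv]
  have e : D.bk x' = (D.bk x).shift (x' - x) := by
    unfold Fac.Dat.bk Fac.Dat.shift
    simp
  rw [e, fk_gauge M (D.bk x) _ hg]

/-! ## [OK] inheritance -/

theorem fk_ok_pin (M : 𝔉.Msk) (hM : M.Ok) (B : Finset 𝔉.V) : (M.pin B).Ok := by
  refine ⟨hM.1, fun u hu hE hO => hM.2 u (fun v hv => hu v ?_) hE hO⟩
  intro hv'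
  exact hv (Finset.mem_sdiff.1 hv').1

theorem fk_ok_add (M : 𝔉.Msk) (hM : M.Ok) (F : 𝔉.Fs) (hF : F.Pos) : (M.add F).Ok := by
  refine ⟨fun e he => ?_, fun u hu hE hO => hM.2 u hu (fun e he => hE e (Finset.mem_union_left _ he))
    fun o ho => hO o (Finset.mem_union_left _ ho)⟩
  rcases Finset.mem_union.1 he with h | h
  · exact hM.1 e h
  · exact hF e h

/-- factors of `M` which do not touch `I` vanish on fields supported on `I` -/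
theorem fk_ok_loc (M : 𝔉.Msk) (hM : M.Ok) (I : Finset 𝔉.V) (hI : I ⊆ M.A) : (M.loc I).Ok := by
  classical
  refine ⟨fun e he => hM.1 e (Finset.mem_filter.1 he).1, fun u hu hE hO => hM.2 u (fun v hv => hu v fun h => hv (hI h)) ?_ ?_⟩
  · intro e he
    by_cases ht : ∃ v ∈ I, 𝔉.d e v ≠ 0
    · exact hE e (Finset.mem_filter.2 ⟨he, ht⟩)
    · push Not at ht
      refine Finset.sum_eq_zero fun v _ => ?_
      by_cases hv : v ∈ I
      · simp [ht v hv]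
      · simp [hu v hv]
  · intro o ho
    by_cases ht : ∃ v ∈ I, 𝔉.r o v ≠ 0
    · exact hO o (Finset.mem_filter.2 ⟨ho, ht⟩)
    · push Not at ht
      refine Finset.sum_eq_zero fun v _ => ?_
      by_cases hv : v ∈ I
      · simp [ht v hv]
      · simp [hu v hv]

theorem fk_le_refl (M : 𝔉.Msk) : M.Le M :=
  ⟨Finset.Subset.refl _, Finset.Subset.refl _, fun _ _ _ hv hv' => absurd hv hv', fun _ _ _ hv hv' => absurd hv hv'⟩

theorem fk_le_trans {M M' M'' : 𝔉.Msk} (h : M.Le M') (h' : M'.Le M'') : M.Le M'' := by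
  refine ⟨h.E.trans h'.E, h.O.trans h'.O, fun e he v hv hv' => ?_, fun o ho v hv hv' => ?_⟩
  · by_cases h1 : v ∈ M'.A
    · exact h.dE e he v h1 hv'
    · exact h'.dE e (h.E he) v hv h1
  · by_cases h1 : v ∈ M'.A
    · exact h.dO o ho v h1 hv'
    · exact h'.dO o (h.O ho) v hv h1

theorem fk_le_pin (M : 𝔉.Msk) (B : Finset 𝔉.V) : M.Le (M.pin B) :=
  ⟨Finset.Subset.refl _, Finset.Subset.refl _, fun _ _ _ hv hv' => absurd (Finset.mem_sdiff.1 hv).1 hv',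
    fun _ _ _ hv hv' => absurd (Finset.mem_sdiff.1 hv).1 hv'⟩

theorem fk_le_add (M : 𝔉.Msk) (F : 𝔉.Fs) : M.Le (M.add F) :=
  ⟨Finset.subset_union_left, Finset.subset_union_left, fun _ _ _ hv hv' => absurd hv hv', fun _ _ _ hv hv' => absurd hv hv'⟩

theorem fk_le_del (M : 𝔉.Msk) (F : Finset 𝔉.E) (F' : Finset 𝔉.O) : (M.del F F').Le M :=
  ⟨Finset.sdiff_subset, Finset.sdiff_subset, fun _ _ _ hv hv' => absurd hv hv', fun _ _ _ hv hv' => absurd hv hv'⟩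

theorem fk_le_res (M : 𝔉.Msk) (U : Finset 𝔉.V) : (M.res U).Le M := by
  classical
  refine ⟨Finset.filter_subset _ _, Finset.filter_subset _ _, fun e he v hv hv' => ?_, fun o ho v hv hv' => ?_⟩
  · by_contra hne
    exact hv' (Finset.mem_inter.2 ⟨hv, (Finset.mem_filter.1 he).2 v hv hne⟩)
  · by_contra hne
    exact hv' (Finset.mem_inter.2 ⟨hv, (Finset.mem_filter.1 ho).2 v hv hne⟩)

theorem fk_le_pin_pin {M M' : 𝔉.Msk} (h : M.Le M') (B : Finset 𝔉.V) : (M.pin B).Le (M'.pin B) := by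
  refine ⟨h.E, h.O, fun e he v hv hv' => ?_, fun o ho v hv hv' => ?_⟩
  · obtain ⟨h1, h2⟩ := Finset.mem_sdiff.1 hv
    exact h.dE e he v h1 fun h3 => hv' (Finset.mem_sdiff.2 ⟨h3, h2⟩)
  · obtain ⟨h1, h2⟩ := Finset.mem_sdiff.1 hv
    exact h.dO o ho v h1 fun h3 => hv' (Finset.mem_sdiff.2 ⟨h3, h2⟩)

theorem fk_le_add_add {M M' : 𝔉.Msk} (h : M.Le M') (F : 𝔉.Fs) (hF : F.Off (M'.A \ M.A)) :
    (M.add F).Le (M'.add F) := by
  refine ⟨Finset.union_subset_union h.E (Finset.Subset.refl _), Finset.union_subset_union h.O (Finset.Subset.refl _),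
    fun e he v hv hv' => ?_, fun o ho v hv hv' => ?_⟩
  · rcases Finset.mem_union.1 he with h1 | h1
    · exact h.dE e h1 v hv hv'
    · exact hF.1 e h1 v (Finset.mem_sdiff.2 ⟨hv, hv'⟩)
  · rcases Finset.mem_union.1 ho with h1 | h1
    · exact h.dO o h1 v hv hv'
    · exact hF.2 o h1 v (Finset.mem_sdiff.2 ⟨hv, hv'⟩)

theorem fk_pin_pin (M : 𝔉.Msk) (B B' : Finset 𝔉.V) : (M.pin B).pin B' = M.pin (B ∪ B') := by
  unfold Fac.Msk.pin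
  simp only [sdiff_sdiff_left, Finset.sup_eq_union]

theorem fk_add_pin (M : 𝔉.Msk) (F : 𝔉.Fs) (B : Finset 𝔉.V) : (M.add F).pin B = (M.pin B).add F := rfl

/-- restoring in two steps -/
theorem fk_add_add (M : 𝔉.Msk) (F : 𝔉.Fs) : (M.add (F.1, ∅)).add (∅, F.2) = M.add F := by
  unfold Fac.Msk.add
  simp

theorem fk_pin_loc (M : 𝔉.Msk) (B I : Finset 𝔉.V) : (M.pin B).loc I = M.loc I := rfl

/-! ## [CMP] comparison -/

/-- cut-off of a height to the free sites of `M` -/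
def fk_cmp_cut (M : 𝔉.Msk) (g : 𝔉.Ht) : 𝔉.Ht := fun v => if v ∈ M.A then g v else 0

theorem fk_cmp_cut_mem (M : 𝔉.Msk) (g : 𝔉.Ht) : fk_cmp_cut M g ∈ 𝔉.sup M.A := by
  intro v hv
  simp [fk_cmp_cut, hv]

theorem fk_cmp_dv (M M' : 𝔉.Msk) (e : 𝔉.E) (hd : ∀ v ∈ M'.A, v ∉ M.A → 𝔉.d e v = 0) (g : 𝔉.Ht) (hg : g ∈ 𝔉.sup M'.A) :
    𝔉.dv e (fk_cmp_cut M g) = 𝔉.dv e g := by
  unfold Fac.dv
  refine Finset.sum_congr rfl fun v _ => ?_
  by_cases hv : v ∈ M.A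
  · simp [fk_cmp_cut, hv]
  · by_cases hv' : v ∈ M'.A
    · simp [fk_cmp_cut, hv, hd v hv' hv]
    · simp [fk_cmp_cut, hv, hg v hv']

theorem fk_cmp_rv (M M' : 𝔉.Msk) (o : 𝔉.O) (hd : ∀ v ∈ M'.A, v ∉ M.A → 𝔉.r o v = 0) (g : 𝔉.Ht) (hg : g ∈ 𝔉.sup M'.A) :
    𝔉.rv o (fk_cmp_cut M g) = 𝔉.rv o g := by
  unfold Fac.rv
  refine Finset.sum_congr rfl fun v _ => ?_
  by_cases hv : v ∈ M.A
  · simp [fk_cmp_cut, hv]
  · by_cases hv' : v ∈ M'.A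
    · simp [fk_cmp_cut, hv, hd v hv' hv]
    · simp [fk_cmp_cut, hv, hg v hv']

/-- the restricted coordinates of `coord' g` are the coordinates of the cut-off -/
theorem fk_cmp_coord {M M' : 𝔉.Msk} (h : M.Le M') (g : 𝔉.Ht) (hg : g ∈ 𝔉.sup M'.A) :
    ((fun e : M.E => (M'.coord g).1 ⟨e.1, h.E e.2⟩, fun o : M.O => (M'.coord g).2 ⟨o.1, h.O o.2⟩) : (M.E → ℤ) × (M.O → ℝ))
      = M.coord (fk_cmp_cut M g) := by
  refine Prod.ext (funext fun e => ?_) (funext fun o => ?_)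
  · exact (fk_cmp_dv M M' e.1 (h.dE e.1 e.2) g hg).symm
  · exact (fk_cmp_rv M M' o.1 (h.dO o.1 o.2) g hg).symm

/-- restriction of the coordinates maps `L'` into `L`.  PLAN: `z = coord' g'`; witness `g = g'` on `M.A`, `0` elsewhere; a site of `M'.A \ M.A` is not seen by the factors of `M`. -/
theorem fk_ref_mem {M M' : 𝔉.Msk} (h : M.Le M') : ∀ z ∈ M'.sys.L,
    ((fun e : M.E => z.1 ⟨e.1, h.E e.2⟩, fun o : M.O => z.2 ⟨o.1, h.O o.2⟩) : M.sys.Amb) ∈ M.sys.L := by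
  intro z hz
  obtain ⟨g, hg, rfl⟩ := AddSubgroup.mem_map.1 hz
  exact AddSubgroup.mem_map.2 ⟨fk_cmp_cut M g, fk_cmp_cut_mem M g, (fk_cmp_coord h g hg).symm⟩

/-- more precision -/
def Fac.Msk.ref {M M' : 𝔉.Msk} (h : M.Le M') : LSys.Ref M.sys M'.sys where
  iE := ⟨fun e => ⟨e.1, h.E e.2⟩, fun e e' hh => Subtype.ext (by simpa using congrArg Subtype.val hh)⟩
  iO := ⟨fun o => ⟨o.1, h.O o.2⟩, fun o o' hh => Subtype.ext (by simpa using congrArg Subtype.val hh)⟩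
  hb := fun _ => rfl
  map_mem := fk_ref_mem h

theorem fk_cmp_Z0 (M : 𝔉.Msk) (hM : M.Ok) : M.Z0 = M.sys.w 0 := by
  unfold Fac.Msk.Z0
  rw [fk_Z1_eq_w M hM, fk_amb_zero]

theorem fk_cmp_wT_zero (S : LSys) (α : S.Amb) : S.wT α 0 = S.w α := by
  unfold LSys.wT LSys.w
  simp

/-- **ratio monotonicity**: a data-to-centred ratio decreases when precision is added.  PLAN: `lsys_ratio_mono (Msk.ref h) .. (M'.amb D) 0`, `(Msk.ref h).res (M'.amb D) = M.amb D`, `fk_Z1_eq_w`, `wT α 0 = w α`. -/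
theorem fk_ratio {M M' : 𝔉.Msk} (h : M.Le M') (hM : M.Ok) (hM' : M'.Ok) (D : 𝔉.Dat) : M'.Z1 D / M'.Z0 ≤ M.Z1 D / M.Z0 := by
  have key := lsys_ratio_mono (Msk.ref h) (fk_sys_ok M hM) (fk_sys_ok M' hM') (M'.amb D) 0
  rw [AddMonoidHom.zero_comp, fk_cmp_wT_zero, fk_cmp_wT_zero] at key
  have e : (Msk.ref h).res (M'.amb D) = M.amb D := rfl
  rw [e] at key
  rw [fk_Z1_eq_w M hM, fk_Z1_eq_w M' hM', fk_cmp_Z0 M hM, fk_cmp_Z0 M' hM']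
  exact key

theorem fk_cmp_sup_mono {B B' : Finset 𝔉.V} (h : B ⊆ B') : 𝔉.sup B ≤ 𝔉.sup B' :=
  fun _ hg v hv => hg v fun hv' => hv (h hv')

/-- a system with another description of its lattice -/
theorem fk_cmp_w_congr (S : LSys) (N N' : AddSubgroup S.Amb) (h : S.L ⊓ N = N') :
    (S.sub N).w 0 = (LSys.w { E := S.E, O := S.O, b := S.b, L := N' } 0) := by
  subst h
  rfl

/-- **zero pins are more likely at higher precision.**  PLAN: `lsys_event_mono (Msk.ref h)` with the subgroup `N = ((M.pin B).sys-lattice) = (sup (M.A \ B)).map M.coord`: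
`M.sys.L ⊓ N = N`; `M'.sys.L ⊓ N.comap res` = image of `sup (M'.A \ B)` (uses injectivity of `M.coord` on `sup M.A` and `B ⊆ M.A`).  The systems `S.sub N` have the coordinates of `S`, so their `w 0` are `(M.pin B).Z0`, `(M'.pin B).Z0`. -/
theorem fk_P_mono {M M' : 𝔉.Msk} (h : M.Le M') (hM : M.Ok) (hM' : M'.Ok) (B : Finset 𝔉.V) (hB : B ⊆ M.A) : M.P B ≤ M'.P B := by
  set N : AddSubgroup M.sys.Amb := (𝔉.sup (M.A \ B)).map M.coord with hN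
  have key := lsys_event_mono (Msk.ref h) (fk_sys_ok M hM) (fk_sys_ok M' hM') N
  have h1 : M.sys.L ⊓ N = (M.pin B).sys.L := by
    refine inf_eq_right.2 ?_
    exact AddSubgroup.map_mono (fk_cmp_sup_mono Finset.sdiff_subset)
  have h2 : M'.sys.L ⊓ N.comap (Msk.ref h).res = (M'.pin B).sys.L := by
    apply le_antisymm
    · rintro z ⟨hz, hzN⟩
      obtain ⟨g, hg, rfl⟩ := AddSubgroup.mem_map.1 hz
      obtain ⟨g₁, hg₁, hc⟩ := AddSubgroup.mem_map.1 hzN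
      have hc' : M.coord g₁ = M.coord (fk_cmp_cut M g) := hc.trans (fk_cmp_coord h g hg)
      have hsub : g₁ - fk_cmp_cut M g = 0 := by
        refine fk_sys_coord_inj M hM _ (sub_mem (fk_cmp_sup_mono Finset.sdiff_subset hg₁) (fk_cmp_cut_mem M g)) ?_
        rw [map_sub, hc', sub_self]
      have heq : g₁ = fk_cmp_cut M g := sub_eq_zero.1 hsub
      refine AddSubgroup.mem_map.2 ⟨g, ?_, rfl⟩
      intro v hv
      by_cases hvB : v ∈ B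
      · have h3 : g₁ v = 0 := hg₁ v fun hh => (Finset.mem_sdiff.1 hh).2 hvB
        rw [heq] at h3
        simpa [fk_cmp_cut, hB hvB] using h3
      · exact hg v fun hh => hv (Finset.mem_sdiff.2 ⟨hh, hvB⟩)
    · intro z hz
      obtain ⟨g, hg, rfl⟩ := AddSubgroup.mem_map.1 hz
      have hg' : g ∈ 𝔉.sup M'.A := fk_cmp_sup_mono Finset.sdiff_subset hg
      refine ⟨AddSubgroup.mem_map.2 ⟨g, hg', rfl⟩, ?_⟩
      refine AddSubgroup.mem_map.2 ⟨fk_cmp_cut M g, ?_, (fk_cmp_coord h g hg').symm⟩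
      intro v hv
      by_cases hvA : v ∈ M.A
      · have hvB : v ∈ B := by
          by_contra hvB
          exact hv (Finset.mem_sdiff.2 ⟨hvA, hvB⟩)
        have : g v = 0 := hg v fun hh => (Finset.mem_sdiff.1 hh).2 hvB
        simp [fk_cmp_cut, hvA, this]
      · simp [fk_cmp_cut, hvA]
  rw [fk_cmp_w_congr M.sys N _ h1, fk_cmp_w_congr M'.sys _ _ h2] at key
  unfold Fac.Msk.P
  rw [fk_cmp_Z0 M hM, fk_cmp_Z0 M' hM', fk_cmp_Z0 _ (fk_ok_pin M hM B), fk_cmp_Z0 _ (fk_ok_pin M' hM' B)]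
  exact key

/-! ## [BES] a new rule -/

/-- **the centred expectation of a product of Bessel weights of integer statistics increases with precision.**
PLAN (free bonds): `S⁺ := { E := S.E ⊕ F, O := S.O, b := Sum.elim S.b bF, L := {z | (z.1 ∘ inl, z.2) ∈ S.L} }`; `S⁺.Ok`; `S⁺.w 0 = S.w 0` because `∑_j p_b(j) = 1` (`bes_hasSum_exp b 0`; Fubini for nonnegative terms);
`N := {z | (z.1 ∘ inl, z.2) ∈ S.L ∧ z.1 ∘ inr = d (..)}` (the graph): `(S⁺.sub N).w 0 = S.Zf 0 (∏ bes)`.  The same for `S'`; `Ref S⁺ S'⁺` by `Sum.map r.iE id`; `S'⁺.L ⊓ N.comap res` = the graph of `d ∘ ψ`.  `lsys_event_mono`. -/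
theorem lsys_bes_mono {S S' : LSys} (r : LSys.Ref S S') (hS : S.Ok) (hS' : S'.Ok) {F : Type} [Fintype F] (bF : F → ℝ)
    (hb : ∀ e, 0 < bF e) (d : F → S.L →+ ℤ) :
    S.E0 (fun z => ∏ e, bes (bF e) (d e z)) ≤ S'.E0 fun z => ∏ e, bes (bF e) (d e (r.psi z)) :=
  Rsd.lsys_bes_mono r hS hS' bF hb d

/-! ## [GAU] a second new rule -/

/-- **the centred expectation of a centred Gaussian weight of real statistics increases with precision.**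
PLAN: `exp(-x²/2) = ∫ cos(k x) dγ(k)`, `γ = gaussianReal 0 1` (real part of `charFun_gaussianReal`); for several rows `exp(-∑ x_o²/2) = ∫ cos(∑ k_o x_o) d(Measure.pi γ)(k)` (imaginary parts cancel by symmetry, or induction on the rows);
`S.E0 (cos ∘ X) = S.phi X` for the additive test `X = ∑ k_o ℓ_o`; Fubini (`|cos| ≤ 1`, `lsys_summable`); `lsys_phi_mono r` pointwise in `k` (`X ∘ ψ` is the test of `S'`); monotonicity of the integral. -/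
theorem lsys_gau_mono {S S' : LSys} (r : LSys.Ref S S') (hS : S.Ok) (hS' : S'.Ok) {F : Type} [Fintype F] (ℓ : F → S.L →+ ℝ) :
    S.E0 (fun z => Real.exp (-(∑ o, ℓ o z ^ 2) / 2)) ≤ S'.E0 fun z => Real.exp (-(∑ o, ℓ o (r.psi z) ^ 2) / 2) :=
  Rsd.lsys_gau_mono r hS hS' ℓ

/-! ## [T] restoration ratios -/

/-- `dv e` as an additive map -/
def fk_T_dvHom (e : 𝔉.E) : 𝔉.Ht →+ ℤ where
  toFun := 𝔉.dv e
  map_zero' := by simp [Fac.dv]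
  map_add' := fk_sys_dv_add e

/-- `rv o` as an additive map -/
def fk_T_rvHom (o : 𝔉.O) : 𝔉.Ht →+ ℝ where
  toFun := 𝔉.rv o
  map_zero' := by simp [Fac.rv]
  map_add' := fk_sys_rv_add o

/-- the integer form `e` read on the image lattice -/
def fk_T_stat (M : 𝔉.Msk) (hM : M.Ok) (e : 𝔉.E) : M.sys.L →+ ℤ :=
  ((fk_T_dvHom e).comp (𝔉.sup M.A).subtype).comp (AddEquiv.ofBijective M.toL (fk_toL_bij M hM)).symm.toAddMonoidHom

/-- the real form `o` read on the image lattice -/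
def fk_T_statO (M : 𝔉.Msk) (hM : M.Ok) (o : 𝔉.O) : M.sys.L →+ ℝ :=
  ((fk_T_rvHom o).comp (𝔉.sup M.A).subtype).comp (AddEquiv.ofBijective M.toL (fk_toL_bij M hM)).symm.toAddMonoidHom

theorem fk_T_stat_toL (M : 𝔉.Msk) (hM : M.Ok) (e : 𝔉.E) (g : 𝔉.sup M.A) : fk_T_stat M hM e (M.toL g) = 𝔉.dv e g := by
  have : (AddEquiv.ofBijective M.toL (fk_toL_bij M hM)).symm (M.toL g) = g :=
    (AddEquiv.ofBijective M.toL (fk_toL_bij M hM)).symm_apply_apply g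
  show 𝔉.dv e ((AddEquiv.ofBijective M.toL (fk_toL_bij M hM)).symm (M.toL g) : 𝔉.sup M.A) = _
  rw [this]

theorem fk_T_statO_toL (M : 𝔉.Msk) (hM : M.Ok) (o : 𝔉.O) (g : 𝔉.sup M.A) : fk_T_statO M hM o (M.toL g) = 𝔉.rv o g := by
  have : (AddEquiv.ofBijective M.toL (fk_toL_bij M hM)).symm (M.toL g) = g :=
    (AddEquiv.ofBijective M.toL (fk_toL_bij M hM)).symm_apply_apply g
  show 𝔉.rv o ((AddEquiv.ofBijective M.toL (fk_toL_bij M hM)).symm (M.toL g) : 𝔉.sup M.A) = _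
  rw [this]

/-- a restoration ratio is a centred expectation -/
theorem fk_T_eq0 (M : 𝔉.Msk) (hM : M.Ok) (F : 𝔉.Fs) (hd : M.New F) (Φ : M.sys.L → ℝ)
    (hΦ : ∀ g : 𝔉.sup M.A, Φ (M.toL g) = rw F 0 (g : 𝔉.Ht)) : M.T F = M.sys.E0 Φ := by
  rw [rd_E0_eq]
  unfold Fac.Msk.T
  rw [fk_cmp_Z0 M hM]
  congr 1
  show (M.add F).Z 0 (fun _ => 1) = _
  rw [fk_add_eq M F hd, ← fk_amb_zero M, fk_Zf_eq M hM]
  unfold Fac.Msk.Z
  refine tsum_congr fun g => ?_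
  congr 1
  show 1 * rw F 0 ((0 : 𝔉.Ht) + (g : 𝔉.Ht)) = _
  rw [one_mul, zero_add, hΦ g]

theorem fk_T_eq (M : 𝔉.Msk) (hM : M.Ok) (F : Finset 𝔉.E) (hd : Disjoint F M.E) (δ : F → M.sys.L →+ ℤ)
    (hδ : ∀ (e : F) (g : 𝔉.sup M.A), δ e (M.toL g) = 𝔉.dv e.1 g) :
    M.T (F, ∅) = M.sys.E0 fun z => ∏ e : F, bes (𝔉.b e.1) (δ e z) := by
  refine fk_T_eq0 M hM (F, ∅) ⟨hd, Finset.disjoint_empty_left _⟩ _ fun g => ?_
  unfold Fac.rw Fac.rwE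
  simp only [Finset.sum_empty, neg_zero, zero_div, Real.exp_zero, mul_one]
  rw [← Finset.prod_coe_sort F fun e => bes (𝔉.b e) (𝔉.dv e (g : 𝔉.Ht) + (0 : 𝔉.Dat).τ e)]
  refine Finset.prod_congr rfl fun e _ => ?_
  rw [hδ e g]
  congr 1
  show _ = 𝔉.dv e.1 (g : 𝔉.Ht) + 0
  rw [add_zero]

theorem fk_T_eqO (M : 𝔉.Msk) (hM : M.Ok) (F : Finset 𝔉.O) (hd : Disjoint F M.O) (ℓ : F → M.sys.L →+ ℝ)
    (hℓ : ∀ (o : F) (g : 𝔉.sup M.A), ℓ o (M.toL g) = 𝔉.rv o.1 g) :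
    M.T (∅, F) = M.sys.E0 fun z => Real.exp (-(∑ o : F, ℓ o z ^ 2) / 2) := by
  refine fk_T_eq0 M hM (∅, F) ⟨Finset.disjoint_empty_left _, hd⟩ _ fun g => ?_
  unfold Fac.rw Fac.rwE
  simp only [Finset.prod_empty, one_mul]
  rw [← Finset.sum_coe_sort F fun o => (𝔉.rv o (g : 𝔉.Ht) - (0 : 𝔉.Dat).c o) ^ 2]
  congr 3
  refine Finset.sum_congr rfl fun o _ => ?_
  rw [hℓ o g]
  show _ = (𝔉.rv o.1 (g : 𝔉.Ht) - 0) ^ 2
  rw [sub_zero]

theorem fk_T_psi {M M' : 𝔉.Msk} (h : M.Le M') (g : 𝔉.sup M'.A) :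
    (Msk.ref h).psi (M'.toL g) = M.toL ⟨fk_cmp_cut M g, fk_cmp_cut_mem M g⟩ :=
  Subtype.ext (fk_cmp_coord h g g.2)

/-- Bessel factors only.  PLAN: `M.T (F, ∅) = M.sys.E0 (∏_{e ∈ F} bes (b e) (d_e z))` by `fk_add_eq`, `fk_Zf_eq` (`d_e` := `dv e` transported by `fk_toL_bij`); `lsys_bes_mono (Msk.ref h)`;
`d_e (ψ z') = dv e g'` because the sites of `M'.A \ M.A` are not seen by `e`. -/
theorem fk_TE_mono {M M' : 𝔉.Msk} (h : M.Le M') (hM : M.Ok) (hM' : M'.Ok) (F : Finset 𝔉.E) (hb : ∀ e ∈ F, 0 < 𝔉.b e)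
    (hd : Disjoint F M'.E) (hF : ∀ e ∈ F, ∀ v ∈ M'.A, v ∉ M.A → 𝔉.d e v = 0) : M.T (F, ∅) ≤ M'.T (F, ∅) := by
  have hd0 : Disjoint F M.E := Finset.disjoint_of_subset_right h.E hd
  rw [fk_T_eq M hM F hd0 (fun e => fk_T_stat M hM e.1) fun e g => fk_T_stat_toL M hM e.1 g,
    fk_T_eq M' hM' F hd (fun e => (fk_T_stat M hM e.1).comp (Msk.ref h).psi) ?_]
  · exact lsys_bes_mono (Msk.ref h) (fk_sys_ok M hM) (fk_sys_ok M' hM') (fun e : F => 𝔉.b e.1) (fun e => hb e.1 e.2)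
      fun e => fk_T_stat M hM e.1
  · intro e g
    show fk_T_stat M hM e.1 ((Msk.ref h).psi (M'.toL g)) = _
    rw [fk_T_psi h g, fk_T_stat_toL]
    exact fk_cmp_dv M M' e.1 (hF e.1 e.2) g g.2

/-- Gaussian factors only.  PLAN: the same with `lsys_gau_mono`, `ℓ_o` := `rv o` transported (at the datum `0` the centres vanish). -/
theorem fk_TO_mono {M M' : 𝔉.Msk} (h : M.Le M') (hM : M.Ok) (hM' : M'.Ok) (F : Finset 𝔉.O)
    (hd : Disjoint F M'.O) (hF : ∀ o ∈ F, ∀ v ∈ M'.A, v ∉ M.A → 𝔉.r o v = 0) : M.T (∅, F) ≤ M'.T (∅, F) := by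
  have hd0 : Disjoint F M.O := Finset.disjoint_of_subset_right h.O hd
  rw [fk_T_eqO M hM F hd0 (fun o => fk_T_statO M hM o.1) fun o g => fk_T_statO_toL M hM o.1 g,
    fk_T_eqO M' hM' F hd (fun o => (fk_T_statO M hM o.1).comp (Msk.ref h).psi) ?_]
  · exact lsys_gau_mono (Msk.ref h) (fk_sys_ok M hM) (fk_sys_ok M' hM') fun o : F => fk_T_statO M hM o.1
  · intro o g
    show fk_T_statO M hM o.1 ((Msk.ref h).psi (M'.toL g)) = _
    rw [fk_T_psi h g, fk_T_statO_toL]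
    exact fk_cmp_rv M M' o.1 (hF o.1 o.2) g g.2

theorem fk_T_pos (M : 𝔉.Msk) (hM : M.Ok) (F : 𝔉.Fs) (hb : F.Pos) : 0 < M.T F :=
  div_pos (fk_Z1_pos _ (fk_ok_add M hM F hb) 0) (fk_Z1_pos M hM 0)

/-- restoring in two steps -/
theorem fk_T_mul (M : 𝔉.Msk) (hM : M.Ok) (F : 𝔉.Fs) (hb : F.Pos) : M.T F = M.T (F.1, ∅) * (M.add (F.1, ∅)).T (∅, F.2) := by
  unfold Fac.Msk.T
  rw [fk_add_add]
  have h1 : (M.add (F.1, ∅)).Z0 ≠ 0 := (fk_Z1_pos _ (fk_ok_add M hM (F.1, ∅) hb) 0).ne'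
  have h2 : M.Z0 ≠ 0 := (fk_Z1_pos M hM 0).ne'
  field_simp

/-- **restoration ratios increase with precision.**  PLAN: `M.T F = M.T (F.1, ∅) * (M.add (F.1, ∅)).T (∅, F.2)` (`fk_add_add`, `fk_Z1_pos`); `fk_TE_mono`; `fk_TO_mono` for `fk_le_add_add h (F.1, ∅)`; all factors are positive. -/
theorem fk_T_mono {M M' : 𝔉.Msk} (h : M.Le M') (hM : M.Ok) (hM' : M'.Ok) (F : 𝔉.Fs) (hb : F.Pos)
    (hd : M'.New F) (hF : F.Off (M'.A \ M.A)) : M.T F ≤ M'.T F := by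
  have hb1 : Fs.Pos ((F.1, ∅) : 𝔉.Fs) := hb
  have hoff : Fs.Off ((F.1, ∅) : 𝔉.Fs) (M'.A \ M.A) := ⟨hF.1, fun o ho => absurd ho (Finset.notMem_empty o)⟩
  rw [fk_T_mul M hM F hb, fk_T_mul M' hM' F hb]
  refine mul_le_mul ?_ ?_ (fk_T_pos _ (fk_ok_add M hM _ hb1) _ fun e he => absurd he (Finset.notMem_empty e)).le
    (fk_T_pos M' hM' _ hb1).le
  · exact fk_TE_mono h hM hM' F.1 hb hd.1 fun e he v hv hv' => hF.1 e he v (Finset.mem_sdiff.2 ⟨hv, hv'⟩)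
  · refine fk_TO_mono (fk_le_add_add h (F.1, ∅) hoff) (fk_ok_add M hM _ hb1) (fk_ok_add M' hM' _ hb1) F.2 ?_
      fun o ho v hv hv' => hF.2 o ho v (Finset.mem_sdiff.2 ⟨hv, hv'⟩)
    show Disjoint F.2 (M'.O ∪ ∅)
    rw [Finset.union_empty]
    exact hd.2

/-! ## [FIB] fibres -/

/-- `sup B × sup (A \ B) ≃ sup A` -/
def fk_fib_equiv (A B : Finset 𝔉.V) (hB : B ⊆ A) : 𝔉.sup B × 𝔉.sup (A \ B) ≃ 𝔉.sup A where
  toFun p := ⟨(p.1 : 𝔉.Ht) + (p.2 : 𝔉.Ht), fun v hv => by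
    have h1 : (p.1 : 𝔉.Ht) v = 0 := p.1.2 v fun h => hv (hB h)
    have h2 : (p.2 : 𝔉.Ht) v = 0 := p.2.2 v fun h => hv (Finset.mem_sdiff.1 h).1
    simp [h1, h2]⟩
  invFun h := (⟨fun v => if v ∈ B then (h : 𝔉.Ht) v else 0, fun v hv => by simp [hv]⟩,
    ⟨fun v => if v ∈ B then 0 else (h : 𝔉.Ht) v, fun v hv => by
      by_cases hb : v ∈ B
      · simp [hb]
      · have : v ∉ A := fun ha => hv (Finset.mem_sdiff.2 ⟨ha, hb⟩)
        simp [hb, h.2 v this]⟩)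
  left_inv p := by
    refine Prod.ext (Subtype.ext (funext fun v => ?_)) (Subtype.ext (funext fun v => ?_))
    · by_cases hb : v ∈ B
      · have h2 : (p.2 : 𝔉.Ht) v = 0 := p.2.2 v fun h => (Finset.mem_sdiff.1 h).2 hb
        simp [hb, h2]
      · have h1 : (p.1 : 𝔉.Ht) v = 0 := p.1.2 v hb
        simp [hb, h1]
    · by_cases hb : v ∈ B
      · have h2 : (p.2 : 𝔉.Ht) v = 0 := p.2.2 v fun h => (Finset.mem_sdiff.1 h).2 hb
        simp [hb, h2]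
      · have h1 : (p.1 : 𝔉.Ht) v = 0 := p.1.2 v hb
        simp [hb, h1]
  right_inv h := by
    refine Subtype.ext (funext fun v => ?_)
    by_cases hb : v ∈ B <;> simp [hb]

/-- PLAN: `sup A ≃ sup B × sup (A \ B)` (`g ↦ (g 1_B, g 1_{A\B})`), `Summable.tsum_prod` with `fk_summable`. -/
theorem fk_fibre (M : 𝔉.Msk) (hM : M.Ok) (B : Finset 𝔉.V) (hB : B ⊆ M.A) (D : 𝔉.Dat) (Ψ : 𝔉.Ht → ℝ) (hΨ : 𝔉.Bdd Ψ) :
    HasSum (fun γ : 𝔉.sup B => (M.pin B).Z (D.shift (γ : 𝔉.Ht)) Ψ) (M.Z D Ψ) := by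
  have hs := fk_summable M hM D Ψ hΨ
  have h1 : HasSum (fun p : 𝔉.sup B × 𝔉.sup (M.A \ B) =>
      Ψ (D.x + ((fk_fib_equiv M.A B hB p : 𝔉.sup M.A) : 𝔉.Ht)) * M.wt D (D.x + ((fk_fib_equiv M.A B hB p : 𝔉.sup M.A) : 𝔉.Ht)))
      (M.Z D Ψ) := (fk_fib_equiv M.A B hB).hasSum_iff.2 hs.hasSum
  refine h1.prod_fiberwise fun γ => ?_
  have h2 := (h1.summable.prod_factor γ).hasSum
  have e : (M.pin B).Z (D.shift (γ : 𝔉.Ht)) Ψ = ∑' g : 𝔉.sup (M.A \ B),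
      Ψ (D.x + ((fk_fib_equiv M.A B hB (γ, g) : 𝔉.sup M.A) : 𝔉.Ht)) *
        M.wt D (D.x + ((fk_fib_equiv M.A B hB (γ, g) : 𝔉.sup M.A) : 𝔉.Ht)) := by
    unfold Fac.Msk.Z
    refine tsum_congr fun g => ?_
    show Ψ (D.x + (γ : 𝔉.Ht) + (g : 𝔉.Ht)) * M.wt D (D.x + (γ : 𝔉.Ht) + (g : 𝔉.Ht)) =
      Ψ (D.x + ((γ : 𝔉.Ht) + (g : 𝔉.Ht))) * M.wt D (D.x + ((γ : 𝔉.Ht) + (g : 𝔉.Ht)))
    rw [add_assoc]
  rw [e]
  exact h2

/-- on a fibre a functional which does not depend on the free sites is a constant -/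
theorem fk_Z_inv (M : 𝔉.Msk) (D : 𝔉.Dat) (Φ Ψ : 𝔉.Ht → ℝ) (hΦ : 𝔉.Inv M.A Φ) : M.Z D (fun h => Φ h * Ψ h) = Φ D.x * M.Z D Ψ := by
  unfold Fac.Msk.Z
  rw [← tsum_mul_left]
  refine tsum_congr fun g => ?_
  show Φ (D.x + (g : 𝔉.Ht)) * Ψ (D.x + (g : 𝔉.Ht)) * M.wt D (D.x + (g : 𝔉.Ht)) = _
  rw [hΦ D.x g g.2]
  ring

/-! ## [SPL] factorisation -/

/-- `M` is the disjoint union of the separated pieces `P i` -/
structure Fac.Msk.Split {ι : Type} [Fintype ι] (M : 𝔉.Msk) (P : ι → 𝔉.Msk) : Prop where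
  A : M.A = Finset.univ.biUnion fun i => (P i).A
  E : M.E = Finset.univ.biUnion fun i => (P i).E
  O : M.O = Finset.univ.biUnion fun i => (P i).O
  dA : ∀ i j, i ≠ j → Disjoint (P i).A (P j).A
  dE : ∀ i j, i ≠ j → Disjoint (P i).E (P j).E
  dO : ∀ i j, i ≠ j → Disjoint (P i).O (P j).O
  sE : ∀ i j, i ≠ j → ∀ e ∈ (P i).E, ∀ v ∈ (P j).A, 𝔉.d e v = 0
  sO : ∀ i j, i ≠ j → ∀ o ∈ (P i).O, ∀ v ∈ (P j).A, 𝔉.r o v = 0

/-- a sub-mask whose free sites are not seen by the other factors is proper -/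
theorem fk_spl_ok_sub (M M' : 𝔉.Msk) (hM : M.Ok) (hA : M'.A ⊆ M.A) (hE : M'.E ⊆ M.E)
    (sE : ∀ e ∈ M.E, e ∉ M'.E → ∀ v ∈ M'.A, 𝔉.d e v = 0) (sO : ∀ o ∈ M.O, o ∉ M'.O → ∀ v ∈ M'.A, 𝔉.r o v = 0) : M'.Ok := by
  refine ⟨fun e he => hM.1 e (hE he), fun u hu h1 h2 => hM.2 u (fun v hv => hu v fun h => hv (hA h)) (fun e he => ?_) fun o ho => ?_⟩
  · by_cases h : e ∈ M'.E
    · exact h1 e h
    · refine Finset.sum_eq_zero fun v _ => ?_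
      by_cases hv : v ∈ M'.A
      · rw [sE e he h v hv]; simp
      · rw [hu v hv]; simp
  · by_cases h : o ∈ M'.O
    · exact h2 o h
    · refine Finset.sum_eq_zero fun v _ => ?_
      by_cases hv : v ∈ M'.A
      · rw [sO o ho h v hv]; simp
      · rw [hu v hv]; simp

open Classical in
/-- the union of the pieces in `s` -/
def fk_spl_Q {ι : Type} (P : ι → 𝔉.Msk) (s : Finset ι) : 𝔉.Msk :=
  ⟨s.biUnion fun i => (P i).A, s.biUnion fun i => (P i).E, s.biUnion fun i => (P i).O⟩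

theorem fk_spl_Q_ok {ι : Type} [Fintype ι] (M : 𝔉.Msk) (P : ι → 𝔉.Msk) (hP : M.Split P) (hM : M.Ok) (s : Finset ι) :
    (fk_spl_Q P s).Ok := by
  classical
  refine fk_spl_ok_sub M _ hM ?_ ?_ ?_ ?_
  · rw [hP.A]; exact Finset.biUnion_subset_biUnion_of_subset_left _ (Finset.subset_univ s)
  · rw [hP.E]; exact Finset.biUnion_subset_biUnion_of_subset_left _ (Finset.subset_univ s)
  · intro e he hne v hv
    rw [hP.E] at he
    obtain ⟨j, -, hj⟩ := Finset.mem_biUnion.1 he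
    obtain ⟨i, hi, hiv⟩ := Finset.mem_biUnion.1 hv
    have hji : j ≠ i := by
      rintro rfl
      exact hne (Finset.mem_biUnion.2 ⟨j, hi, hj⟩)
    exact hP.sE j i hji e hj v hiv
  · intro o ho hne v hv
    rw [hP.O] at ho
    obtain ⟨j, -, hj⟩ := Finset.mem_biUnion.1 ho
    obtain ⟨i, hi, hiv⟩ := Finset.mem_biUnion.1 hv
    have hji : j ≠ i := by
      rintro rfl
      exact hne (Finset.mem_biUnion.2 ⟨j, hi, hj⟩)
    exact hP.sO j i hji o hj v hiv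

theorem fk_split_ok {ι : Type} [Fintype ι] (M : 𝔉.Msk) (P : ι → 𝔉.Msk) (hP : M.Split P) (hM : M.Ok) (i : ι) : (P i).Ok := by
  classical
  have h := fk_spl_Q_ok M P hP hM {i}
  have e : fk_spl_Q P {i} = P i := by
    unfold fk_spl_Q
    simp only [Finset.singleton_biUnion]
  rwa [e] at h

/-- `sup A₁ × sup A₂ ≃ sup (A₁ ∪ A₂)` for disjoint sets -/
def fk_spl_equiv (A₁ A₂ : Finset 𝔉.V) (hd : Disjoint A₁ A₂) : 𝔉.sup A₁ × 𝔉.sup A₂ ≃ 𝔉.sup (A₁ ∪ A₂) where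
  toFun p := ⟨(p.1 : 𝔉.Ht) + (p.2 : 𝔉.Ht), fun v hv => by
    have h1 : (p.1 : 𝔉.Ht) v = 0 := p.1.2 v fun h => hv (Finset.mem_union_left _ h)
    have h2 : (p.2 : 𝔉.Ht) v = 0 := p.2.2 v fun h => hv (Finset.mem_union_right _ h)
    simp [h1, h2]⟩
  invFun h := (⟨fun v => if v ∈ A₁ then (h : 𝔉.Ht) v else 0, fun v hv => by simp [hv]⟩,
    ⟨fun v => if v ∈ A₁ then 0 else (h : 𝔉.Ht) v, fun v hv => by
      by_cases hb : v ∈ A₁
      · simp [hb]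
      · have : v ∉ A₁ ∪ A₂ := fun ha => (Finset.mem_union.1 ha).elim hb hv
        simp [hb, h.2 v this]⟩)
  left_inv p := by
    refine Prod.ext (Subtype.ext (funext fun v => ?_)) (Subtype.ext (funext fun v => ?_))
    · by_cases hb : v ∈ A₁
      · have h2 : (p.2 : 𝔉.Ht) v = 0 := p.2.2 v fun h => Finset.disjoint_left.1 hd hb h
        simp [hb, h2]
      · have h1 : (p.1 : 𝔉.Ht) v = 0 := p.1.2 v hb
        simp [hb, h1]
    · by_cases hb : v ∈ A₁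
      · have h2 : (p.2 : 𝔉.Ht) v = 0 := p.2.2 v fun h => Finset.disjoint_left.1 hd hb h
        simp [hb, h2]
      · have h1 : (p.1 : 𝔉.Ht) v = 0 := p.1.2 v hb
        simp [hb, h1]
  right_inv h := by
    refine Subtype.ext (funext fun v => ?_)
    by_cases hb : v ∈ A₁ <;> simp [hb]

/-- the weight does not depend on the sites which its factors do not see -/
theorem fk_spl_wt_inv (M : 𝔉.Msk) (J : Finset 𝔉.V) (hE : ∀ e ∈ M.E, ∀ v ∈ J, 𝔉.d e v = 0)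
    (hO : ∀ o ∈ M.O, ∀ v ∈ J, 𝔉.r o v = 0) (D : 𝔉.Dat) : 𝔉.Inv J (M.wt D) := by
  intro h n hn
  have h1 : ∀ e ∈ M.E, 𝔉.dv e (h + n) = 𝔉.dv e h := by
    intro e he
    rw [fk_sys_dv_add]
    have : 𝔉.dv e n = 0 := by
      refine Finset.sum_eq_zero fun v _ => ?_
      by_cases hv : v ∈ J
      · rw [hE e he v hv]; simp
      · rw [hn v hv]; simp
    rw [this, add_zero]
  have h2 : ∀ o ∈ M.O, 𝔉.rv o (h + n) = 𝔉.rv o h := by
    intro o ho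
    rw [fk_sys_rv_add]
    have : 𝔉.rv o n = 0 := by
      refine Finset.sum_eq_zero fun v _ => ?_
      by_cases hv : v ∈ J
      · rw [hO o ho v hv]; simp
      · rw [hn v hv]; simp
    rw [this, add_zero]
  unfold Fac.Msk.wt Fac.rw Fac.rwE
  rw [Finset.prod_congr rfl fun e he => by rw [h1 e he], Finset.sum_congr rfl fun o ho => by rw [h2 o ho]]

/-- the weight of a disjoint union of factors -/
theorem fk_spl_wt_union (A A₁ A₂ : Finset 𝔉.V) (E₁ E₂ : Finset 𝔉.E) (O₁ O₂ : Finset 𝔉.O) (dE : Disjoint E₁ E₂) (dO : Disjoint O₁ O₂)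
    (D : 𝔉.Dat) (h : 𝔉.Ht) :
    (⟨A, E₁ ∪ E₂, O₁ ∪ O₂⟩ : 𝔉.Msk).wt D h = (⟨A₁, E₁, O₁⟩ : 𝔉.Msk).wt D h * (⟨A₂, E₂, O₂⟩ : 𝔉.Msk).wt D h := by
  unfold Fac.Msk.wt Fac.rw Fac.rwE
  show (∏ e ∈ E₁ ∪ E₂, _) * Real.exp (-(∑ o ∈ O₁ ∪ O₂, _) / 2) =
    (∏ e ∈ E₁, _) * Real.exp (-(∑ o ∈ O₁, _) / 2) * ((∏ e ∈ E₂, _) * Real.exp (-(∑ o ∈ O₂, _) / 2))
  rw [Finset.prod_union dE, Finset.sum_union dO, neg_add, add_div, Real.exp_add]
  ring

/-- **two separated pieces** -/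
theorem fk_spl_two (M₁ M₂ : 𝔉.Msk) (h₁ : M₁.Ok) (h₂ : M₂.Ok) (dA : Disjoint M₁.A M₂.A) (dE : Disjoint M₁.E M₂.E)
    (dO : Disjoint M₁.O M₂.O) (sE₁ : ∀ e ∈ M₁.E, ∀ v ∈ M₂.A, 𝔉.d e v = 0) (sE₂ : ∀ e ∈ M₂.E, ∀ v ∈ M₁.A, 𝔉.d e v = 0)
    (sO₁ : ∀ o ∈ M₁.O, ∀ v ∈ M₂.A, 𝔉.r o v = 0) (sO₂ : ∀ o ∈ M₂.O, ∀ v ∈ M₁.A, 𝔉.r o v = 0) (D : 𝔉.Dat)
    (Ψ₁ Ψ₂ : 𝔉.Ht → ℝ) (hb₁ : 𝔉.Bdd Ψ₁) (hb₂ : 𝔉.Bdd Ψ₂) (hΨ₁ : 𝔉.Inv M₂.A Ψ₁) (hΨ₂ : 𝔉.Inv M₁.A Ψ₂) :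
    (⟨M₁.A ∪ M₂.A, M₁.E ∪ M₂.E, M₁.O ∪ M₂.O⟩ : 𝔉.Msk).Z D (fun h => Ψ₁ h * Ψ₂ h) = M₁.Z D Ψ₁ * M₂.Z D Ψ₂ := by
  have s₁ := (fk_summable M₁ h₁ D Ψ₁ hb₁).norm
  have s₂ := (fk_summable M₂ h₂ D Ψ₂ hb₂).norm
  unfold Fac.Msk.Z
  rw [tsum_mul_tsum_of_summable_norm s₁ s₂, ← (fk_spl_equiv M₁.A M₂.A dA).tsum_eq]
  refine tsum_congr fun p => ?_
  obtain ⟨g₁, g₂⟩ := p
  show Ψ₁ (D.x + ((g₁ : 𝔉.Ht) + (g₂ : 𝔉.Ht))) * Ψ₂ (D.x + ((g₁ : 𝔉.Ht) + (g₂ : 𝔉.Ht))) *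
      (⟨M₁.A ∪ M₂.A, M₁.E ∪ M₂.E, M₁.O ∪ M₂.O⟩ : 𝔉.Msk).wt D (D.x + ((g₁ : 𝔉.Ht) + (g₂ : 𝔉.Ht))) =
    Ψ₁ (D.x + (g₁ : 𝔉.Ht)) * M₁.wt D (D.x + (g₁ : 𝔉.Ht)) * (Ψ₂ (D.x + (g₂ : 𝔉.Ht)) * M₂.wt D (D.x + (g₂ : 𝔉.Ht)))
  rw [fk_spl_wt_union _ M₁.A M₂.A M₁.E M₂.E M₁.O M₂.O dE dO]
  have e₁ : D.x + ((g₁ : 𝔉.Ht) + (g₂ : 𝔉.Ht)) = D.x + (g₁ : 𝔉.Ht) + (g₂ : 𝔉.Ht) := by abel
  have e₂ : D.x + ((g₁ : 𝔉.Ht) + (g₂ : 𝔉.Ht)) = D.x + (g₂ : 𝔉.Ht) + (g₁ : 𝔉.Ht) := by abel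
  have a₁ : Ψ₁ (D.x + ((g₁ : 𝔉.Ht) + (g₂ : 𝔉.Ht))) = Ψ₁ (D.x + (g₁ : 𝔉.Ht)) := by rw [e₁]; exact hΨ₁ _ _ g₂.2
  have a₂ : Ψ₂ (D.x + ((g₁ : 𝔉.Ht) + (g₂ : 𝔉.Ht))) = Ψ₂ (D.x + (g₂ : 𝔉.Ht)) := by rw [e₂]; exact hΨ₂ _ _ g₁.2
  have a₃ : (⟨M₁.A, M₁.E, M₁.O⟩ : 𝔉.Msk).wt D (D.x + ((g₁ : 𝔉.Ht) + (g₂ : 𝔉.Ht))) = M₁.wt D (D.x + (g₁ : 𝔉.Ht)) := by
    rw [e₁]; exact fk_spl_wt_inv M₁ M₂.A sE₁ sO₁ D _ _ g₂.2
  have a₄ : (⟨M₂.A, M₂.E, M₂.O⟩ : 𝔉.Msk).wt D (D.x + ((g₁ : 𝔉.Ht) + (g₂ : 𝔉.Ht))) = M₂.wt D (D.x + (g₂ : 𝔉.Ht)) := by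
    rw [e₂]; exact fk_spl_wt_inv M₂ M₁.A sE₂ sO₂ D _ _ g₁.2
  rw [a₁, a₂, a₃, a₄]
  ring

theorem fk_spl_inv_empty (Ψ : 𝔉.Ht → ℝ) : 𝔉.Inv ∅ Ψ := by
  intro h n hn
  have : n = 0 := funext fun v => hn v (Finset.notMem_empty v)
  rw [this, add_zero]

theorem fk_spl_inv_union (B B' : Finset 𝔉.V) (Ψ : 𝔉.Ht → ℝ) (h : 𝔉.Inv B Ψ) (h' : 𝔉.Inv B' Ψ) : 𝔉.Inv (B ∪ B') Ψ := by
  intro x n hn
  have e : n = (fun v => if v ∈ B then n v else 0) + fun v => if v ∈ B then 0 else n v := by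
    funext v
    by_cases hv : v ∈ B <;> simp [hv]
  have m₁ : (fun v => if v ∈ B then n v else 0) ∈ 𝔉.sup B := fun v hv => by simp [hv]
  have m₂ : (fun v => if v ∈ B then 0 else n v) ∈ 𝔉.sup B' := fun v hv => by
    by_cases hb : v ∈ B
    · simp [hb]
    · have : v ∉ B ∪ B' := fun ha => (Finset.mem_union.1 ha).elim hb hv
      simp [hb, hn v this]
  rw [e, ← add_assoc, h' _ _ m₂, h _ _ m₁]

theorem fk_spl_inv_biUnion {ι : Type} [DecidableEq ι] (s : Finset ι) (B : ι → Finset 𝔉.V) (Ψ : 𝔉.Ht → ℝ) (h : ∀ i ∈ s, 𝔉.Inv (B i) Ψ) :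
    𝔉.Inv (s.biUnion B) Ψ := by
  induction s using Finset.induction_on with
  | empty => exact fk_spl_inv_empty Ψ
  | insert a t ha ih =>
    rw [Finset.biUnion_insert]
    exact fk_spl_inv_union _ _ Ψ (h a (Finset.mem_insert_self a t)) (ih fun i hi => h i (Finset.mem_insert_of_mem hi))

theorem fk_spl_inv_prod {ι : Type} (s : Finset ι) (B : Finset 𝔉.V) (Ψ : ι → 𝔉.Ht → ℝ) (h : ∀ i ∈ s, 𝔉.Inv B (Ψ i)) :
    𝔉.Inv B fun x => ∏ i ∈ s, Ψ i x := by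
  intro x n hn
  exact Finset.prod_congr rfl fun i hi => h i hi x n hn

theorem fk_spl_bdd_prod {ι : Type} (s : Finset ι) (Ψ : ι → 𝔉.Ht → ℝ) (h : ∀ i ∈ s, 𝔉.Bdd (Ψ i)) : 𝔉.Bdd fun x => ∏ i ∈ s, Ψ i x := by
  choose! C hC using h
  refine ⟨∏ i ∈ s, C i, fun x => ?_⟩
  rw [Finset.abs_prod]
  exact Finset.prod_le_prod (fun i _ => abs_nonneg _) fun i hi => hC i hi x

theorem fk_spl_Z_empty (D : 𝔉.Dat) (Ψ : 𝔉.Ht → ℝ) : (⟨∅, ∅, ∅⟩ : 𝔉.Msk).Z D Ψ = Ψ D.x := by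
  unfold Fac.Msk.Z
  have hu : ∀ g : 𝔉.sup (∅ : Finset 𝔉.V), g = 0 := fun g => Subtype.ext (funext fun v => g.2 v (Finset.notMem_empty v))
  rw [tsum_eq_single (0 : 𝔉.sup (∅ : Finset 𝔉.V)) fun g hg => absurd (hu g) hg]
  simp [Fac.Msk.wt, Fac.rw, Fac.rwE]

theorem fk_spl_ind {ι : Type} [Fintype ι] (M : 𝔉.Msk) (P : ι → 𝔉.Msk) (hP : M.Split P) (hM : M.Ok) (D : 𝔉.Dat)
    (Ψ : ι → 𝔉.Ht → ℝ) (hb : ∀ i, 𝔉.Bdd (Ψ i)) (hΨ : ∀ i j, i ≠ j → 𝔉.Inv (P j).A (Ψ i)) (s : Finset ι) :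
    (fk_spl_Q P s).Z D (fun h => ∏ i ∈ s, Ψ i h) = ∏ i ∈ s, (P i).Z D (Ψ i) := by
  classical
  induction s using Finset.induction_on with
  | empty =>
    have e : fk_spl_Q P ∅ = ⟨∅, ∅, ∅⟩ := by
      unfold fk_spl_Q
      simp only [Finset.biUnion_empty]
    rw [e, fk_spl_Z_empty]
    simp
  | insert a t ha ih =>
    have e : fk_spl_Q P (insert a t) = ⟨(P a).A ∪ (fk_spl_Q P t).A, (P a).E ∪ (fk_spl_Q P t).E, (P a).O ∪ (fk_spl_Q P t).O⟩ := by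
      unfold fk_spl_Q
      simp only [Finset.biUnion_insert]
    have ne : ∀ i ∈ t, a ≠ i := fun i hi h => ha (h ▸ hi)
    rw [e, Finset.prod_insert ha, ← ih]
    have e2 : (fun h => ∏ i ∈ insert a t, Ψ i h) = fun h => Ψ a h * ∏ i ∈ t, Ψ i h := by
      funext h
      rw [Finset.prod_insert ha]
    rw [e2]
    refine fk_spl_two (P a) (fk_spl_Q P t) (fk_split_ok M P hP hM a) (fk_spl_Q_ok M P hP hM t) ?_ ?_ ?_ ?_ ?_ ?_ ?_ D _ _ (hb a)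
      (fk_spl_bdd_prod t Ψ fun i _ => hb i) ?_ ?_
    · exact (Finset.disjoint_biUnion_right _ _ _).2 fun i hi => hP.dA a i (ne i hi)
    · exact (Finset.disjoint_biUnion_right _ _ _).2 fun i hi => hP.dE a i (ne i hi)
    · exact (Finset.disjoint_biUnion_right _ _ _).2 fun i hi => hP.dO a i (ne i hi)
    · intro e he v hv
      obtain ⟨i, hi, hiv⟩ := Finset.mem_biUnion.1 hv
      exact hP.sE a i (ne i hi) e he v hiv
    · intro e he v hv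
      obtain ⟨i, hi, hie⟩ := Finset.mem_biUnion.1 he
      exact hP.sE i a (ne i hi).symm e hie v hv
    · intro o ho v hv
      obtain ⟨i, hi, hiv⟩ := Finset.mem_biUnion.1 hv
      exact hP.sO a i (ne i hi) o ho v hiv
    · intro o ho v hv
      obtain ⟨i, hi, hio⟩ := Finset.mem_biUnion.1 ho
      exact hP.sO i a (ne i hi).symm o hio v hv
    · exact fk_spl_inv_biUnion t _ _ fun i hi => hΨ a i (ne i hi)
    · exact fk_spl_inv_prod t _ Ψ fun i hi => hΨ i a (ne i hi).symm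

/-- **factorisation.**  PLAN: induction on the number of pieces, or directly `sup A ≃ ∀ i, sup (P i).A`; the weight of `P i` at `x + ∑ g_j` equals its weight at `x + g_i`; product of absolutely convergent series. -/
theorem fk_split {ι : Type} [Fintype ι] (M : 𝔉.Msk) (P : ι → 𝔉.Msk) (hP : M.Split P) (hM : M.Ok) (D : 𝔉.Dat)
    (Ψ : ι → 𝔉.Ht → ℝ) (hb : ∀ i, 𝔉.Bdd (Ψ i)) (hΨ : ∀ i j, i ≠ j → 𝔉.Inv (P j).A (Ψ i)) :
    M.Z D (fun h => ∏ i, Ψ i h) = ∏ i, (P i).Z D (Ψ i) := by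
  classical
  have e : M = fk_spl_Q P Finset.univ := by
    unfold fk_spl_Q
    rw [← hP.A, ← hP.E, ← hP.O]
  have h := fk_spl_ind M P hP hM D Ψ hb hΨ Finset.univ
  rw [← e] at h
  exact h

/-- the complement of an interior -/
def Fac.Msk.out (M : 𝔉.Msk) (J : Finset 𝔉.V) : 𝔉.Msk := ⟨M.A \ J, M.E \ M.EI J, M.O \ M.OI J⟩

/-- a separated interior splits off (pieces indexed by `Bool`: `true ↦ loc J`, `false ↦ out J`) -/
theorem fk_split_loc (M : 𝔉.Msk) (J : Finset 𝔉.V) (hJ : J ⊆ M.A) (hsep : M.Sep J (M.A \ J)) :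
    M.Split fun t : Bool => if t then M.loc J else M.out J := by
  classical
  have hEI : M.EI J ⊆ M.E := Finset.filter_subset _ _
  have hOI : M.OI J ⊆ M.O := Finset.filter_subset _ _
  have mE : ∀ e, e ∈ M.EI J ↔ e ∈ M.E ∧ ∃ v ∈ J, 𝔉.d e v ≠ 0 := fun e => by
    unfold Fac.Msk.EI
    rw [Finset.mem_filter]
  have mO : ∀ o, o ∈ M.OI J ↔ o ∈ M.O ∧ ∃ v ∈ J, 𝔉.r o v ≠ 0 := fun o => by
    unfold Fac.Msk.OI
    rw [Finset.mem_filter]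
  refine ⟨?_, ?_, ?_, ?_, ?_, ?_, ?_, ?_⟩
  · show M.A = _
    rw [Fintype.univ_bool, Finset.biUnion_insert, Finset.singleton_biUnion]
    exact (Finset.union_sdiff_of_subset hJ).symm
  · show M.E = _
    rw [Fintype.univ_bool, Finset.biUnion_insert, Finset.singleton_biUnion]
    exact (Finset.union_sdiff_of_subset hEI).symm
  · show M.O = _
    rw [Fintype.univ_bool, Finset.biUnion_insert, Finset.singleton_biUnion]
    exact (Finset.union_sdiff_of_subset hOI).symm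
  · intro i j hij
    cases i <;> cases j
    · exact absurd rfl hij
    · exact Finset.sdiff_disjoint
    · exact Finset.disjoint_sdiff
    · exact absurd rfl hij
  · intro i j hij
    cases i <;> cases j
    · exact absurd rfl hij
    · exact Finset.sdiff_disjoint
    · exact Finset.disjoint_sdiff
    · exact absurd rfl hij
  · intro i j hij
    cases i <;> cases j
    · exact absurd rfl hij
    · exact Finset.sdiff_disjoint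
    · exact Finset.disjoint_sdiff
    · exact absurd rfl hij
  · intro i j hij
    cases i <;> cases j
    · exact absurd rfl hij
    · intro e he v hv
      obtain ⟨h1, h2⟩ := Finset.mem_sdiff.1 (show e ∈ M.E \ M.EI J from he)
      by_contra h0
      exact h2 ((mE e).2 ⟨h1, v, hv, h0⟩)
    · intro e he v hv
      obtain ⟨h1, h2⟩ := (mE e).1 (show e ∈ M.EI J from he)
      exact hsep.1 e h1 h2 v hv
    · exact absurd rfl hij
  · intro i j hij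
    cases i <;> cases j
    · exact absurd rfl hij
    · intro o ho v hv
      obtain ⟨h1, h2⟩ := Finset.mem_sdiff.1 (show o ∈ M.O \ M.OI J from ho)
      by_contra h0
      exact h2 ((mO o).2 ⟨h1, v, hv, h0⟩)
    · intro o ho v hv
      obtain ⟨h1, h2⟩ := (mO o).1 (show o ∈ M.OI J from ho)
      exact hsep.2 o h1 h2 v hv
    · exact absurd rfl hij

/-! ## [MKV] the Markov property -/

theorem fk_mkv_dv_zero (e : 𝔉.E) (J : Finset 𝔉.V) (he : ∀ v ∈ J, 𝔉.d e v = 0) (n : 𝔉.Ht) (hn : n ∈ 𝔉.sup J) : 𝔉.dv e n = 0 := by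
  unfold Fac.dv
  refine Finset.sum_eq_zero fun v _ => ?_
  by_cases hv : v ∈ J
  · simp [he v hv]
  · simp [hn v hv]

theorem fk_mkv_rv_zero (o : 𝔉.O) (J : Finset 𝔉.V) (ho : ∀ v ∈ J, 𝔉.r o v = 0) (n : 𝔉.Ht) (hn : n ∈ 𝔉.sup J) : 𝔉.rv o n = 0 := by
  unfold Fac.rv
  refine Finset.sum_eq_zero fun v _ => ?_
  by_cases hv : v ∈ J
  · simp [ho v hv]
  · simp [hn v hv]

/-- factors which do not see `J` do not depend on the heights in `J` -/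
theorem fk_mkv_rw_inv (F : 𝔉.Fs) (J : Finset 𝔉.V) (hF : F.Off J) (D : 𝔉.Dat) : 𝔉.Inv J (rw F D) := by
  intro h n hn
  unfold Fac.rw Fac.rwE
  have h1 : ∏ e ∈ F.1, bes (𝔉.b e) (𝔉.dv e (h + n) + D.τ e) = ∏ e ∈ F.1, bes (𝔉.b e) (𝔉.dv e h + D.τ e) := by
    refine Finset.prod_congr rfl fun e he => ?_
    rw [fk_sys_dv_add, fk_mkv_dv_zero e J (hF.1 e he) n hn, add_zero]
  have h2 : ∑ o ∈ F.2, (𝔉.rv o (h + n) - D.c o) ^ 2 = ∑ o ∈ F.2, (𝔉.rv o h - D.c o) ^ 2 := by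
    refine Finset.sum_congr rfl fun o ho => ?_
    rw [fk_sys_rv_add, fk_mkv_rv_zero o J (hF.2 o ho) n hn, add_zero]
  rw [h1, h2]

theorem fk_cE_bdd (M : 𝔉.Msk) (hM : M.Ok) (I : Finset 𝔉.V) (hI : I ⊆ M.A) (D : 𝔉.Dat) (g : 𝔉.Ht → ℝ) (C : ℝ) (hg : ∀ h, |g h| ≤ C) (h : 𝔉.Ht) :
    |M.cE I D g h| ≤ C := by
  have hL := fk_ok_loc M hM I hI
  have hp := fk_Z1_pos (M.loc I) hL (D.bk h)
  have hb : 𝔉.Bdd g := ⟨C, hg⟩
  unfold Fac.Msk.cE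
  rw [abs_div, abs_of_pos hp, div_le_iff₀ hp]
  calc |(M.loc I).Z (D.bk h) g| ≤ (M.loc I).Z (D.bk h) fun x => |g x| := fk_Z_abs _ hL _ g hb
    _ ≤ (M.loc I).Z (D.bk h) fun _ => C * 1 :=
        fk_Z_mono _ hL _ _ _ (fk_alg_bdd_abs g hb) ⟨|C|, fun _ => by simp⟩ (fun x => by simpa using hg x)
    _ = C * (M.loc I).Z1 (D.bk h) := fk_Z_smul _ _ C (fun _ => 1)

theorem fk_cE_nonneg (M : 𝔉.Msk) (hM : M.Ok) (I : Finset 𝔉.V) (hI : I ⊆ M.A) (D : 𝔉.Dat) (g : 𝔉.Ht → ℝ) (hg : ∀ h, 0 ≤ g h) (h : 𝔉.Ht) :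
    0 ≤ M.cE I D g h := by
  have hL := fk_ok_loc M hM I hI
  exact div_nonneg (fk_Z_nonneg _ hL.1 _ g hg) (fk_Z1_pos (M.loc I) hL (D.bk h)).le

/-- `cE` does not depend on the heights in `I` (`fk_bk_congr`) -/
theorem fk_cE_inv_self (M : 𝔉.Msk) (I : Finset 𝔉.V) (D : 𝔉.Dat) (g : 𝔉.Ht → ℝ) : 𝔉.Inv I (M.cE I D g) := by
  intro h n hn
  have hx : ∀ v, v ∉ (M.loc I).A → (h + n) v = h v := by
    intro v hv
    have : n v = 0 := hn v hv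
    simp [this]
  unfold Fac.Msk.cE Fac.Msk.Z1
  rw [fk_bk_congr (M.loc I) D (h + n) h hx g, fk_bk_congr (M.loc I) D (h + n) h hx fun _ => 1]

theorem fk_mkv_loc_off (M : 𝔉.Msk) (I J : Finset 𝔉.V) (hsep : M.Sep I J) : Fs.Off ((M.loc I).E, (M.loc I).O) J := by
  classical
  refine ⟨fun e he => ?_, fun o ho => ?_⟩
  · obtain ⟨h1, h2⟩ := Finset.mem_filter.1 he
    exact hsep.1 e h1 h2
  · obtain ⟨h1, h2⟩ := Finset.mem_filter.1 ho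
    exact hsep.2 o h1 h2

theorem fk_mkv_Z_inv (M : 𝔉.Msk) (I J : Finset 𝔉.V) (hsep : M.Sep I J) (D : 𝔉.Dat) (g : 𝔉.Ht → ℝ) (hg : 𝔉.Inv J g)
    (h n : 𝔉.Ht) (hn : n ∈ 𝔉.sup J) : (M.loc I).Z (D.bk (h + n)) g = (M.loc I).Z (D.bk h) g := by
  unfold Fac.Msk.Z
  refine tsum_congr fun γ => ?_
  have hw := fk_mkv_rw_inv ((M.loc I).E, (M.loc I).O) J (fk_mkv_loc_off M I J hsep) D (h + (γ : 𝔉.Ht)) n hn
  show g (h + n + (γ : 𝔉.Ht)) * rw ((M.loc I).E, (M.loc I).O) D (h + n + (γ : 𝔉.Ht)) =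
    g (h + (γ : 𝔉.Ht)) * rw ((M.loc I).E, (M.loc I).O) D (h + (γ : 𝔉.Ht))
  rw [add_right_comm h n, hg _ n hn, hw]

/-- `cE` does not depend on the heights in `J` if no factor touching `I` touches `J` and `g` does not depend on them -/
theorem fk_cE_inv (M : 𝔉.Msk) (I J : Finset 𝔉.V) (hsep : M.Sep I J) (D : 𝔉.Dat) (g : 𝔉.Ht → ℝ) (hg : 𝔉.Inv J g) : 𝔉.Inv J (M.cE I D g) := by
  intro h n hn
  unfold Fac.Msk.cE Fac.Msk.Z1
  rw [fk_mkv_Z_inv M I J hsep D g hg h n hn, fk_mkv_Z_inv M I J hsep D (fun _ => 1) (fun _ _ _ => rfl) h n hn]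

/-- the factors which do not touch `I` -/
def fk_mkv_rest (M : 𝔉.Msk) (I : Finset 𝔉.V) : 𝔉.Fs := (M.E \ M.EI I, M.O \ M.OI I)

theorem fk_mkv_rest_off (M : 𝔉.Msk) (I : Finset 𝔉.V) : (fk_mkv_rest M I).Off I := by
  classical
  refine ⟨fun e he v hv => ?_, fun o ho v hv => ?_⟩
  · obtain ⟨h1, h2⟩ := Finset.mem_sdiff.1 he
    by_contra hne
    exact h2 (Finset.mem_filter.2 ⟨h1, v, hv, hne⟩)
  · obtain ⟨h1, h2⟩ := Finset.mem_sdiff.1 ho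
    by_contra hne
    exact h2 (Finset.mem_filter.2 ⟨h1, v, hv, hne⟩)

theorem fk_mkv_pin_eq (M : 𝔉.Msk) (I : Finset 𝔉.V) (hI : I ⊆ M.A) : M.pin (M.A \ I) = (M.loc I).add (fk_mkv_rest M I) := by
  classical
  have hE : M.EI I ∪ (M.E \ M.EI I) = M.E := Finset.union_sdiff_of_subset (Finset.filter_subset _ _)
  have hO : M.OI I ∪ (M.O \ M.OI I) = M.O := Finset.union_sdiff_of_subset (Finset.filter_subset _ _)
  unfold Fac.Msk.pin Fac.Msk.add Fac.Msk.loc fk_mkv_rest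
  simp only [hE, hO, Finset.sdiff_sdiff_eq_self hI]

theorem fk_mkv_new (M : 𝔉.Msk) (I : Finset 𝔉.V) : (M.loc I).New (fk_mkv_rest M I) :=
  ⟨Finset.sdiff_disjoint, Finset.sdiff_disjoint⟩

/-- the sum over one fibre -/
theorem fk_mkv_fib (M : 𝔉.Msk) (I : Finset 𝔉.V) (hI : I ⊆ M.A) (D : 𝔉.Dat) (Φ g : 𝔉.Ht → ℝ) (hΦ : 𝔉.Inv I Φ) :
    (M.pin (M.A \ I)).Z D (fun h => Φ h * g h) = Φ D.x * rw (fk_mkv_rest M I) D D.x * (M.loc I).Z D g := by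
  rw [fk_mkv_pin_eq M I hI, fk_add_eq (M.loc I) _ (fk_mkv_new M I)]
  have hinv : 𝔉.Inv (M.loc I).A fun h => Φ h * rw (fk_mkv_rest M I) D h := by
    intro h n hn
    show Φ (h + n) * rw (fk_mkv_rest M I) D (h + n) = Φ h * rw (fk_mkv_rest M I) D h
    rw [hΦ h n hn, fk_mkv_rw_inv _ I (fk_mkv_rest_off M I) D h n hn]
  rw [← fk_Z_inv (M.loc I) D (fun h => Φ h * rw (fk_mkv_rest M I) D h) g hinv]
  refine congrArg _ (funext fun h => ?_)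
  ring

/-- **Markov property.**  PLAN: `fk_fibre` with `B = M.A \ I` for both sides.  On the fibre (`M.pin (A \ I)` has the free sites `I`): `wt M = wt (loc I) * (weight of the factors which do not touch I)`, the second factor and `Φ`
are constant on the fibre; so the fibre sum is `Φ * const * (loc I).Z (D.bk (x+γ)) g`, and `cE I D g` is constant on the fibre with value `(loc I).Z .. g / (loc I).Z1 ..`. -/
theorem fk_markov (M : 𝔉.Msk) (hM : M.Ok) (I : Finset 𝔉.V) (hI : I ⊆ M.A) (D : 𝔉.Dat) (Φ g : 𝔉.Ht → ℝ) (hΦb : 𝔉.Bdd Φ) (hgb : 𝔉.Bdd g)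
    (hΦ : 𝔉.Inv I Φ) : M.Z D (fun h => Φ h * g h) = M.Z D fun h => Φ h * M.cE I D g h := by
  obtain ⟨C, hC⟩ := hΦb
  obtain ⟨C', hC'⟩ := hgb
  have hC0 : 0 ≤ C := (abs_nonneg _).trans (hC 0)
  have hb1 : 𝔉.Bdd fun h => Φ h * g h :=
    ⟨C * C', fun h => by rw [abs_mul]; exact mul_le_mul (hC h) (hC' h) (abs_nonneg _) hC0⟩
  have hb2 : 𝔉.Bdd fun h => Φ h * M.cE I D g h :=
    ⟨C * C', fun h => by rw [abs_mul]; exact mul_le_mul (hC h) (fk_cE_bdd M hM I hI D g C' hC' h) (abs_nonneg _) hC0⟩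
  have h1 := fk_fibre M hM (M.A \ I) Finset.sdiff_subset D _ hb1
  have h2 := fk_fibre M hM (M.A \ I) Finset.sdiff_subset D _ hb2
  refine h1.unique ?_
  convert h2 using 2 with γ
  have hL := fk_ok_loc M hM I hI
  have hp := fk_Z1_pos (M.loc I) hL (D.shift (γ : 𝔉.Ht))
  rw [fk_mkv_fib M I hI _ Φ g hΦ]
  have hinv : 𝔉.Inv I fun h => Φ h * M.cE I D g h := by
    intro h n hn
    show Φ (h + n) * M.cE I D g (h + n) = Φ h * M.cE I D g h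
    rw [hΦ h n hn, fk_cE_inv_self M I D g h n hn]
  have e : (fun h => Φ h * M.cE I D g h) = fun h => (Φ h * M.cE I D g h) * (fun _ => (1 : ℝ)) h := by
    funext h
    simp
  rw [e, fk_mkv_fib M I hI _ (fun h => Φ h * M.cE I D g h) (fun _ => 1) hinv]
  have hc : M.cE I D g (D.shift (γ : 𝔉.Ht)).x = (M.loc I).Z (D.shift (γ : 𝔉.Ht)) g / (M.loc I).Z1 (D.shift (γ : 𝔉.Ht)) := rfl
  show _ = Φ (D.shift (γ : 𝔉.Ht)).x * M.cE I D g (D.shift (γ : 𝔉.Ht)).x * _ * (M.loc I).Z1 (D.shift (γ : 𝔉.Ht))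
  rw [hc]
  field_simp

end

end Claimed.Agent.R285.Entry
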