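-- KEEP
import Claimed.Agent.R285.Entry.FacKit
import Claimed.Agent.R285.Ent.Defs

/-!
# ROW 285, ENTRY, posts NORM (#13340), GOOD (#13341), C5-ENTRY: THE OBJECTS OF THE REAL BOUND AND THE INTERFACE `BoxOK`.   DEFINITIONS ONLY (nothing is proved or sorried here).   Owner helper229.

Vocabulary below: `Ent/Defs.lean` (helper56: tiles, events, `topU`, `halTop`, `Wt`, `xyWt`), `Entry/Fac.lean` (factor models).   Paper: [F] cutoff-entry.tex l.1463-2010.

## GENERIC PART (XY, [E], [C] s5)
* `Y : Phy c`  = engine weights `Y.W : Wt c`, isolation scale `Y.R`, and a FACTOR MODEL which represents `W.Zh` at REAL observations:  `Y.Fc : Fac`, `Y.blk` (cell of a site), `Y.M T : Msk` (mask of a cut topology),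
                 `Y.D y : Dat`, `Y.FF f : Fs` (the factors through the face `f`), `Y.Xf y f` (the cutoff factor of the face `f`).
* `Y.Ok`       = the EXACT structural properties of the representation (`Zh_eq`, free sites, properness, monotonicity, locality, separation, glueing = `add`, splitting).  Everything in `NormTop.lean` uses only these.
* event data   : `Y.evF k` restored factors, `Y.evI k` interior (sites of `inner`), `Y.evG k` guard, `Y.evH k` core, `Y.evJ k` / `Y.evQ k` inside / sites of the OUTER guard in the testing patch, `Y.chiE k y`, `Y.prox k y` (real proxy, normalisers `W.N`).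
* `Y.dl k y`   : **`δ_k (y, ·)`**, a function of the heights; it depends only on the guard heights (`nt_dl_inv`) and is the same in every ambient topology which agrees with `topC k` inside the guard (`nm_dlt_congr`).
* `Y.AT T y`   : `𝒜_T^τ (y) = e^{E_T/2} \hat Z_T (y) / Z_T^0 (0)` (ent:positive-factor), SELF-normalised: `Z_T^0(0) = (Y.M T).Z0` at the current parameter (`W.N` = base point enters only through `prox`, `tdiv`, `Pins.nrm*`).
* `Y.QT T K y` : **`Q_b^τ (y)`** (ent:box-factor) for the piece `T` and the marks `K` deep in it.        `Y.JT T p y γ` : (ent:joint-density).        `Y.hterm S O y` = `Wt.haloTerm` at real `y`.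
* `Cut c`      : a cut of the volume into labelled boxes; `θ.piece T b`, `θ.kept`, `θ.keptB`, `θ.swt`.        `pcut c P t` : the `P`-grid with offset `t`, `pcuts c R P` = the `(P/R)²` offsets (both boundary conditions).
* `QLoc W C cc Ds` : (ent:face-matrix-bounds) line 2 + (ent:guarded-face-error) for the matrices `W.Q`.
* `Y.Pins x`   : the centred pin interactions of the finitely many shapes and the ratios base point / current parameter.
* **`BoxOK`**  : what GOOD delivers and NORM consumes (`Ent/Phys.lean`: `Phys ⟸ BoxOK`).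
## XY INSTANCE
* `facT c b`, `mskT b T`, `connT`, `datT`, `bondsF`, `xyPhy c R a b0 b τ`.        `T.Zobs b τ y = (mskT b T).Z1 (datT c b τ y)`.
-/

set_option autoImplicit false

namespace Claimed.Agent.R285.Entry

open scoped BigOperators
open Claimed.Agent.R285 Claimed.Agent.R285.RG Claimed.Agent.R285.F4a Claimed.Agent.R285.Ent

noncomputable section

variable {G : Geom}

/-! ## 1. Factor models which represent engine weights -/

/-- engine weights, isolation scale, and a factor model for `W.Zh` at real observations -/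
structure Phy (c : Grid G) where
  W : Wt c
  R : ℕ
  Fc : Fac
  /-- the cell of a site -/
  blk : Fc.V → c.I
  /-- the mask of a cut topology -/
  M : Top c → Fc.Msk
  /-- the datum of a real observation -/
  D : (c.I → ℝ) → Fc.Dat
  /-- the factors through a face -/
  FF : Face c → Fc.Fs
  /-- the cutoff factor of a face -/
  Xf : (c.I → ℝ) → Face c → ℝ

/-- the testing patch before / after the event, on the path without marks -/
def tstO (c : Grid G) (R : ℕ) (k : EvId) : Top c := (topU c R (pre c R k)).restr (tpatch c R k)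
def tstC (c : Grid G) (R : ℕ) (k : EvId) : Top c := (topU c R (pre c R k \ {k})).restr (tpatch c R k)

namespace Phy

variable {c : Grid G} (Y : Phy c)

/-- the sites of a set of cells -/
def st (A : Finset c.I) : Finset Y.Fc.V := Finset.univ.filter fun v => Y.blk v ∈ A

/-- real face data -/
def w (y : c.I → ℝ) (f : Face c) : ℝ := wf c Y.W.τ y f

/-- `E_T^τ (y)` at real `y` (`= Wt.En`) -/
def E (T : Top c) (y : c.I → ℝ) : ℝ := ∑ f, ∑ f', Y.W.Q T f f' * Y.w y f * Y.w y f'

/-- `Ξ_T^τ (y)` -/
def Xi (T : Top c) (y : c.I → ℝ) : ℝ := ∏ f ∈ T.faces, Y.Xf y f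

/-- `\hat Z_T^τ (y)` -/
def Zh (T : Top c) (y : c.I → ℝ) : ℝ := Y.Xi T y * (Y.M T).Z1 (Y.D y)

/-- **`𝒜_T^τ (y)`** (ent:positive-factor) -/
def AT (T : Top c) (y : c.I → ℝ) : ℝ := Real.exp (Y.E T y / 2) * Y.Zh T y / (Y.M T).Z0

/-- the factors through a set of faces -/
def FFs (E : Finset (Face c)) : Y.Fc.Fs := Fac.Fs.bU E Y.FF

/-! ### events -/

/-- the factors restored at the event `k` -/
def evF (k : EvId) : Y.Fc.Fs := Y.FFs (cutF c Y.R k)

/-- the interior of the guard -/
def evI (k : EvId) : Finset Y.Fc.V := Y.st (inner c Y.R k)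

/-- the full primary guard -/
def evG (k : EvId) : Finset Y.Fc.V := Y.st (guard c Y.R k)

/-- the full primary core (contains the supports of the restored factors) -/
def evH (k : EvId) : Finset Y.Fc.V := Y.st (core c Y.R k)

/-- the cells inside the OUTER guard: radius `3R/64` (contains the patch, radius `R/32`), inside the tiles at the cut faces (GEOMETRY v2: as `patch`, `tpatch`) -/
def cJ (k : EvId) : Finset c.I := nbh c (3 * (Y.R / 64)) (core c Y.R k) ∩ ctl c Y.R k

/-- the inside of the outer guard -/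
def evJ (k : EvId) : Finset Y.Fc.V := Y.st (Y.cJ k)

/-- the outer guard: the rest of the testing patch (radius `R/16`) -/
def evQ (k : EvId) : Finset Y.Fc.V := Y.st (tpatch c Y.R k \ Y.cJ k)

/-- the retained cutoffs of the core faces -/
def chiE (k : EvId) (y : c.I → ℝ) : ℝ := ∏ f ∈ cutF c Y.R k, Y.Xf y f

/-- the centred scalar `C_k` of the proxy (base point) -/
def Ck (k : EvId) : ℝ := Y.W.N (topO c Y.R k) / Y.W.N (topC c Y.R k)

/-- the real proxy `𝓑_k^τ (y)` (ent:proxy) -/
def prox (k : EvId) (y : c.I → ℝ) : ℝ := Y.Ck k * Real.exp (-(Y.E (topO c Y.R k) y - Y.E (topC c Y.R k) y) / 2)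

/-- `Z_t^0 (0) e^{-E_t (y) / 2}` (base point) -/
def tdiv (t : Tile) (y : c.I → ℝ) : ℝ := Y.W.N (tileTop c Y.R t) * Real.exp (-Y.E (tileTop c Y.R t) y / 2)

/-- `T_Q^τ (y)` at real `y` -/
def tfac (t : Tile) (y : c.I → ℝ) : ℝ := Y.Zh (tileTop c Y.R t) y / Y.tdiv t y

/-- **`δ_k (y, ·)`** -/
def dl (k : EvId) (y : c.I → ℝ) : Y.Fc.Ht → ℝ :=
  dlt (Y.M (topC c Y.R k)) (Y.evI k) (Y.evF k) (Y.chiE k y) (Y.prox k y) (Y.D y)

/-- the product of the `δ_k`, `k ∈ K` -/
def dls (K : Finset EvId) (y : c.I → ℝ) : Y.Fc.Ht → ℝ := fun h => ∏ k ∈ K, Y.dl k y h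

/-- `𝔼_{T, τ, y} ∏_{k ∈ K} δ_k` -/
def ET (T : Top c) (K : Finset EvId) (y : c.I → ℝ) : ℝ := (Y.M T).Ex (Y.D y) (Y.dls K y)

/-- **`Q_b^τ (y)`** (ent:box-factor): `T` = the piece, `K` = the marks deep in it -/
def QT (T : Top c) (K : Finset EvId) (y : c.I → ℝ) : ℝ := Y.AT T y * Y.ET T K y

/-- (ent:joint-density) `𝒥_T^τ (y, γ)`, `γ` supported on the guards `p` -/
def JT (T : Top c) (p : Finset Y.Fc.V) (y : c.I → ℝ) (γ : Y.Fc.Ht) : ℝ := ((Y.M T).pin p).Z1 ((Y.D y).shift γ)

/-- one positive term of the halo factor (`= Wt.haloTerm` at real `y`) -/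
def hterm (S O : Finset EvId) (y : c.I → ℝ) : ℝ :=
  Y.Zh (halTop c Y.R S O) y / ((∏ k ∈ skp c Y.R S ∪ O, Y.prox k y) * ∏ t ∈ halT c Y.R S, Y.tdiv t y)

/-- the original faces of the halos -/
def halF (S : Finset EvId) : Finset (Face c) := ((Top.full c).restr (halC c Y.R S)).faces

/-- `𝓔_π (w)`: the sum of `w_f²` over the original faces of the halos -/
def halE (S : Finset EvId) (y : c.I → ℝ) : ℝ := ∑ f ∈ Y.halF S, Y.w y f ^ 2

/-- the total squared circulation (it does not depend on `y`: `F4a.sig_wf`); zero in the centred sector, `(2π)²` in the unit sector -/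
def circ (y : c.I → ℝ) : ℝ := ∑ z ∈ (Top.full c).V4, sig c z (Y.w y) ^ 2

/-- **the exact structural properties of a representation** -/
structure Ok : Prop where
  /-- representation at real observations -/
  Zh_eq : ∀ T : Top c, T.Ok → ∀ y : c.I → ℝ, Y.W.Zh T (fun i => (y i : ℂ)) = ((Y.Zh T y : ℝ) : ℂ)
  Xf_pos : ∀ y f, 0 < Y.Xf y f
  Xf_le : ∀ y f, Y.Xf y f ≤ 1
  x0 : ∀ y, (Y.D y).x = 0
  /-- free sites -/
  A_eq : ∀ T : Top c, (Y.M T).A = Y.st T.cells
  ok : ∀ T : Top c, T.Ok → (Y.M T).Ok
  /-- more cells and faces = more precision -/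
  le : ∀ T T' : Top c, T.Ok → T'.Ok → T.cells ⊆ T'.cells → T.faces ⊆ T'.faces → (Y.M T).Le (Y.M T')
  /-- the factors which touch the cells of `J` are determined by the topology at `J` -/
  loc : ∀ (T T' : Top c) (J : Finset c.I), T.Ok → T'.Ok → Disjoint J (T.disc T') → (Y.M T).loc (Y.st J) = (Y.M T').loc (Y.st J)
  /-- a factor touches two different cells only through a retained face -/
  sep : ∀ (T : Top c) (J J' : Finset c.I), T.Ok → Disjoint J J' →
    (∀ f ∈ T.faces, ¬ (f.1 ∈ J ∧ fnb c f ∈ J') ∧ ¬ (f.1 ∈ J' ∧ fnb c f ∈ J)) → (Y.M T).Sep (Y.st J) (Y.st J')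
  /-- glueing faces = restoring the factors through them -/
  glue : ∀ (T : Top c) (E : Finset (Face c)), T.Ok → (⟨T.cells, T.faces ∪ E⟩ : Top c).Ok → Disjoint E T.faces →
    Y.M ⟨T.cells, T.faces ∪ E⟩ = (Y.M T).add (Y.FFs E)
  FF_new : ∀ (T : Top c) (f : Face c), T.Ok → f ∉ T.faces → (Y.M T).New (Y.FF f)
  FF_dis : ∀ f f' : Face c, f ≠ f' → Disjoint (Y.FF f).1 (Y.FF f').1 ∧ Disjoint (Y.FF f).2 (Y.FF f').2
  FF_pos : ∀ f, (Y.FF f).Pos
  FF_sup : ∀ f, (Y.FF f).In Finset.univ (Y.st {f.1, fnb c f})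
  /-- splitting over labelled regions -/
  split : ∀ (T : Top c), T.Ok → ∀ {ι : Type} [Fintype ι] (O : ι → Finset c.I), (∀ i j, i ≠ j → Disjoint (O i) (O j)) →
    (T.cells ⊆ Finset.univ.biUnion O) → (∀ f ∈ T.faces, ∃ i, f.1 ∈ O i ∧ fnb c f ∈ O i) → (Y.M T).Split fun i => Y.M (T.restr (O i))

/-- **the centred pin interactions of the finitely many shapes are bounded; the normalisers at the base point are close to those at the current parameter** -/
structure Pins (x : ℝ) : Prop where
  one : 1 ≤ x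
  /-- `e^{D(H, p)}` in the cut open patch -/
  core : ∀ k ∈ events c Y.R, (Y.M (topC c Y.R k)).xPin (Y.evH k) (Y.evG k) ≤ x
  /-- `e^{D(p, q)}`, `q` = outer guard, in the two testing patches -/
  tstO : ∀ k ∈ events c Y.R, (Y.M (tstO c Y.R k)).xPin (Y.evG k) (Y.evQ k) ≤ x
  tstC : ∀ k ∈ events c Y.R, (Y.M (tstC c Y.R k)).xPin (Y.evG k) (Y.evQ k) ≤ x
  /-- base point against current parameter -/
  nrmE : ∀ k ∈ events c Y.R, (Y.M (topO c Y.R k)).Z0 / (Y.M (topC c Y.R k)).Z0 ≤ x * Y.Ck k
  nrmT : ∀ t ∈ tiles c Y.R, (Y.M (tileTop c Y.R t)).Z0 ≤ x * Y.W.N (tileTop c Y.R t)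

end Phy

/-! ## 2. The Gaussian shapes -/

open Classical in
/-- the regular part of the matrix of `E_T`: the junction terms `D_s σ_z²` are removed (`= Top.Hm` for `W.Q = Qmat a`) -/
def Hr {c : Grid G} (W : Wt c) (Ds : ℝ) (T : Top c) (f f' : Face c) : ℝ :=
  W.Q T f f' - Ds * ∑ z ∈ T.V4, sig c z (Pi.single f 1) * sig c z (Pi.single f' 1)

/-- (ent:face-matrix-bounds), second line, and (ent:guarded-face-error) for the matrices of `W` -/
structure QLoc {c : Grid G} (W : Wt c) (C cc Ds : ℝ) : Prop where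
  cc_pos : 0 < cc
  C_nn : 0 ≤ C
  Ds_nn : 0 ≤ Ds
  df : ∀ T T' : Top c, T.Ok → T'.Ok → ∀ (f f' : Face c) (D : ℕ), (∀ i ∈ T.disc T', D ≤ c.idist i f.1 ∧ D ≤ c.idist i f'.1) →
    |Hr W Ds T f f' - Hr W Ds T' f f'| ≤ C * min (Real.exp (-cc * c.idist f.1 f'.1)) (Real.exp (-cc * D))
  ge : ∀ G0 G1 : Top c, G0.Ok → G1.Ok → ∀ (O : Finset c.I) (r : ℕ), (∀ i ∈ G0.disc G1, ∀ j, j ∉ O → r ≤ c.idist i j) →
    ∀ (f f' : Face c) (D : ℕ), (∀ i ∈ G0.disc G1, D ≤ c.idist i f.1 ∧ D ≤ c.idist i f'.1) →
      |(Hr W Ds G0 f f' - Hr W Ds G1 f f') - (Hr W Ds (G0.restr O) f f' - Hr W Ds (G1.restr O) f f')|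
        ≤ C * Real.exp (-cc * r - cc * c.idist f.1 f'.1 - cc * D)

/-- the two-cell open topology of a face -/
def twoT (c : Grid G) (f : Face c) : Top c := Top.opn c {f.1, fnb c f}

/-- cell Poincaré: a face datum is controlled by the reference energy of its two cells -/
def FaceCo (c : Grid G) (a Cp : ℝ) : Prop := ∀ (τ : Face c → ℤ) (y : c.I → ℝ) (f : Face c), IsFace c f → wf c τ y f ^ 2 ≤ Cp * (twoT c f).Eobs a τ y

/-! ## 3. Cuts into boxes -/

/-- a cut of the volume: labels of the boxes and the removed faces -/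
structure Cut (c : Grid G) where
  lab : c.I → ℕ × ℕ
  sm : Finset (Face c)

namespace Cut

variable {c : Grid G} (θ : Cut c)

/-- every face which is not removed stays in one box -/
def Ok : Prop := ∀ f, IsFace c f → f ∉ θ.sm → θ.lab (fnb c f) = θ.lab f.1

/-- the cells of a box -/
def box (b : ℕ × ℕ) : Finset c.I := Finset.univ.filter fun i => θ.lab i = b

/-- the clipped piece of a topology -/
def piece (T : Top c) (b : ℕ × ℕ) : Top c := (T.cut θ.sm).restr (θ.box b)

/-- the boxes met by a topology -/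
def labs (T : Top c) : Finset (ℕ × ℕ) := T.cells.image θ.lab

/-- the testing patch of the event `k` lies in the box `b` and contains no removed face -/
def DeepIn (R : ℕ) (k : EvId) (b : ℕ × ℕ) : Prop :=
  (∀ i ∈ tpatch c R k, θ.lab i = b) ∧ ∀ f ∈ θ.sm, f.1 ∉ tpatch c R k ∨ fnb c f ∉ tpatch c R k

open Classical in
/-- the retained marks -/
def kept (R : ℕ) (S : Finset EvId) : Finset EvId := S.filter fun k => ∃ b, θ.DeepIn R k b

open Classical in
/-- the retained marks of the box `b` -/
def keptB (R : ℕ) (S : Finset EvId) (b : ℕ × ℕ) : Finset EvId := S.filter fun k => θ.DeepIn R k b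

/-- the cells at the removed faces -/
def smC : Finset c.I := θ.sm.image Prod.fst ∪ θ.sm.image (fnb c)

/-- the exponential weight of the removed faces seen from the cell `i` (it dominates `exp (-cc d (i, Σ))`) -/
def swt (cc : ℝ) (i : c.I) : ℝ := ∑ j ∈ θ.smC, Real.exp (-cc * c.idist j i)

end Cut

/-- shifted coordinate (`t < P`): free square `x + P - t`, torus `x - t` modulo `n` -/
def pshift (c : Grid G) (P t : ℕ) (x : Fin c.n) : ℕ :=
  match G.bc with
  | BC.per => ((x : ℕ) + c.n - t) % c.n
  | BC.free => (x : ℕ) + P - t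

/-- one-dimensional label: free square: intervals of length `≤ P`; torus (`P ≤ n`): `n / P` intervals, the last one of length in `[P, 2P)` -/
def plab (c : Grid G) (P t : ℕ) (x : Fin c.n) : ℕ :=
  match G.bc with
  | BC.per => min (pshift c P t x / P) (c.n / P - 1)
  | BC.free => pshift c P t x / P

open Classical in
/-- **the `P`-grid with the offset `t`** (cell units).  On the torus the faces through the lines `x = t` are removed also if there is only one interval. -/
def pcut (c : Grid G) (P : ℕ) (t : ℕ × ℕ) : Cut c where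
  lab := fun i => (plab c P t.1 i.1, plab c P t.2 i.2)
  sm := Finset.univ.filter fun f => IsFace c f ∧
    ((plab c P t.1 (fnb c f).1, plab c P t.2 (fnb c f).2) ≠ (plab c P t.1 f.1.1, plab c P t.2 f.1.2) ∨
      (G.bc = BC.per ∧ (if f.2 then pshift c P t.1 f.1.1 else pshift c P t.2 f.1.2) + 1 = c.n))

/-- all offsets: the `(P/R)²` translates spaced by `R` -/
def pcuts (R P : ℕ) : Finset (ℕ × ℕ) := ((Finset.range (P / R)) ×ˢ (Finset.range (P / R))).image fun u => (R * u.1, R * u.2)

/-! ## 4. The interface between GOOD and NORM -/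

namespace Phy

variable {c : Grid G} (Y : Phy c)

/-- the original faces of the halos of `S` in the box `b` -/
def boxF (S : Finset EvId) (θ : Cut c) (b : ℕ × ℕ) : Finset (Face c) := (θ.piece ((Top.full c).restr (halC c Y.R S)) b).faces

/-- **the box energy `𝓔_b (w)`** -/
def boxE (S : Finset EvId) (θ : Cut c) (b : ℕ × ℕ) (y : c.I → ℝ) : ℝ := ∑ f ∈ Y.boxF S θ b, Y.w y f ^ 2

/-- the energy of a tile -/
def tileE (t : Tile) (y : c.I → ℝ) : ℝ := ∑ f ∈ (tileTop c Y.R t).faces, Y.w y f ^ 2

end Phy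

/-- **THE PHYSICAL INPUT ON BOXES.**  `a` = reference stiffness of the costs, `P` = side of the boxes, `Zs` = the source cells (`∅` in the centred sector; the cells at the unit junction),
`x` = bound of the pin interactions and of the normaliser ratios (close to `1`), `1 - cstar` = the reserve, `U = U_big`, `γ` = gain of a retained mark and of a selected tile on good data, `C0` = bound of a good box,
`ea` = the quadratic allowance of a good box (`R^{-12}`), `bg` = the price of the source (`(2 + s)^C`). -/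
structure BoxOK {c : Grid G} (Y : Phy c) (a : ℝ) (P : ℕ) (Zs : Finset c.I) (x cstar U γ C0 ea bg : ℝ) : Prop where
  pins : Y.Pins x
  /-- (ent:good-box): ordinary good boxes; `ea` = the allowance `R^{-12}` -/
  good : ∀ (S O : Finset EvId) (t b : ℕ × ℕ), Valid c Y.R S → O ⊆ S → t ∈ pcuts Y.R P → Disjoint ((pcut c P t).box b) Zs →
    ∀ y : c.I → ℝ, Y.boxE S (pcut c P t) b y ≤ U ^ 2 →
      Y.QT ((pcut c P t).piece (halTop c Y.R S O) b) ((pcut c P t).keptB Y.R S b) y
        ≤ C0 * γ ^ ((pcut c P t).keptB Y.R S b).card * Real.exp (ea * Y.boxE S (pcut c P t) b y)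
  /-- the reserve (ent:pointwise-reserve), all real observations, every topology without source -/
  reserve : ∀ T : Top c, T.Ok → Disjoint T.cells Zs → ∀ y : c.I → ℝ, Y.AT T y ≤ Real.exp ((1 - cstar) / 2 * T.Eobs a Y.W.τ y)
  /-- the reserve with the source -/
  reserveZ : ∀ T : Top c, T.Ok → ∀ y : c.I → ℝ, Y.AT T y ≤ bg * Real.exp ((1 - cstar) / 2 * T.Eobs a Y.W.τ y)
  /-- isolated tiles on good data -/
  tile : ∀ t ∈ tiles c Y.R, Disjoint (cellsOf c Y.R {t}) Zs → ∀ y : c.I → ℝ, Y.tileE t y ≤ U ^ 2 → |Y.tfac t y - 1| ≤ γ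

/-! ## 5. The XY instance -/

/-- the factor model of the volume `(G, c)` at inverse temperature `b`: sites `G.V`, integer forms = ALL oriented pairs `(v, d)` (`h (stp v d) - h v`; the zero form at a free wall), real forms = the rows of ALL cells -/
abbrev facT (c : Grid G) (b : ℝ) : Fac where
  V := G.V
  E := G.V × Bool
  O := c.I
  b := fun _ => b
  d := fun e v => (if v = stp e.1 e.2 then 1 else 0) - (if v = e.1 then 1 else 0)
  r := fun i v => if c.blk v = i then ((c.sites {i}).card : ℝ)⁻¹ else 0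

open Classical in
/-- the mask of a cut topology: free sites = sites of the present cells, bonds = `T.IsEdge`, rows = present cells -/
def mskT {c : Grid G} (b : ℝ) (T : Top c) : (facT c b).Msk :=
  ⟨c.sites T.cells, Finset.univ.filter fun e : G.V × Bool => T.IsEdge e, T.cells⟩

/-- a face connection on all oriented pairs: constant on the bonds through a face, zero inside the cells -/
def connT (c : Grid G) (τ : Face c → ℤ) (e : G.V × Bool) : ℤ :=
  if c.blk (stp e.1 e.2) = c.blk e.1 then 0 else τ (c.blk e.1, e.2)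

/-- connection `τ`, observation `y`, zero background -/
def datT (c : Grid G) (b : ℝ) (τ : Face c → ℤ) (y : c.I → ℝ) : (facT c b).Dat := ⟨0, connT c τ, y⟩

open Classical in
/-- the primary bonds through the faces in `E` -/
def bondsF (c : Grid G) (E : Finset (Face c)) : Finset (G.V × Bool) :=
  Finset.univ.filter fun e => stp e.1 e.2 ≠ e.1 ∧ c.blk (stp e.1 e.2) ≠ c.blk e.1 ∧ (c.blk e.1, e.2) ∈ E

/-- **the cutoff XY height law at a real parameter `b`** (base point `b0`) -/
def xyPhy (c : Grid G) (R : ℕ) (a b0 b : ℝ) (τ : Face c → ℤ) : Phy c where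
  W := xyWt c a b0 (b : ℂ) τ
  R := R
  Fc := facT c b
  blk := c.blk
  M := mskT b
  D := datT c b τ
  FF := fun f => (bondsF c {f}, ∅)
  Xf := fun y f => chi c.m (wf c τ y f)

end

end Claimed.Agent.R285.Entry
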