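import Claimed.Agent.R285.Entry.PertMark
import Claimed.Agent.R285.Entry.PhyDefs

/-!
# ROW 285, ENTRY, BP-ENT-PERT = post CONT of `C5.str_box`: FINITE PERTURBATION IN THE TEMPERATURE, LEVEL OF `Phy`      (helper118)

Paper: [E] entry.tex l.262-330, [C] 50-openness.tex l.818-845.   Prefix `pp_`.   Generic in the representation `Y : Phy c` (XY law, strengthened law).
* `Y.atB t W` = the same representation at the uniform temperature `t` with the engine weights `W`.   `xyPhy c R a b0 b τ = (xyPhy c R a b0 b0 τ).atB b (xyWt c a b0 b τ)` by `rfl` (`pp_xy`).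
* `SameW W W'` : the same connection, Gaussian matrices and BASE POINT normalisers.  Then `E, w, Ck, prox, tdiv, boxE, tileE` do not depend on `t` (`pp_E`, ...); `Xi, chiE, st, ev*` never do (`rfl`).
* `pp_dl` : `δ_k` of `Y.atB t W` is `pmD` of `Entry/PertMark.lean`.      `pp_QT` : `Q = e^{E/2} Ξ Z (∏ δ_k) / Z0`.
* **`pp_pins`** : `Pins x` at `b₀` ⟹ `Pins (e^{4 n d} x)` at `b`.      **`pp_tile`** : `|tfac_b - tfac_{b₀}| ≤ ε x e^{E/2}`.      **`pp_box`** : `Q_b ≤ e^{n d} (Q_{b₀} + e^{E/2} (ε + ∑_k X_k / Z0_{b₀}))`.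
-/

set_option autoImplicit false

namespace Claimed.Agent.R285.Entry

open scoped BigOperators
open Claimed.Agent.R285 Claimed.Agent.R285.RG Claimed.Agent.R285.F4a Claimed.Agent.R285.Ent Fac

noncomputable section

variable {G : Geom} {c : Grid G}

/-- the same representation at the uniform temperature `t`, engine weights `W` -/
def Phy.atB (Y : Phy c) (t : ℝ) (W : Wt c) : Phy c where
  W := W
  R := Y.R
  Fc := Y.Fc.atB fun _ => t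
  blk := Y.blk
  M := fun T => (Y.M T).at1 t
  D := fun y => (Y.D y).atB _
  FF := Y.FF
  Xf := Y.Xf

theorem pp_xy (c : Grid G) (R : ℕ) (a b0 b : ℝ) (τ : Face c → ℤ) :
    xyPhy c R a b0 b τ = (xyPhy c R a b0 b0 τ).atB b (xyWt c a b0 (b : ℂ) τ) := rfl

/-- the same connection, Gaussian matrices and base point normalisers -/
structure SameW (W W' : Wt c) : Prop where
  τ : W'.τ = W.τ
  Q : W'.Q = W.Q
  N : W'.N = W.N

theorem pp_same_xy (c : Grid G) (a b0 : ℝ) (b b' : ℂ) (τ : Face c → ℤ) : SameW (xyWt c a b0 b τ) (xyWt c a b0 b' τ) := ⟨rfl, rfl, rfl⟩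

variable (Y : Phy c) {W : Wt c}

theorem pp_w (hW : SameW Y.W W) (t : ℝ) (y : c.I → ℝ) (f : Face c) : (Y.atB t W).w y f = Y.w y f := by
  show wf c W.τ y f = wf c Y.W.τ y f
  rw [hW.τ]

theorem pp_E (hW : SameW Y.W W) (t : ℝ) (T : Top c) (y : c.I → ℝ) : (Y.atB t W).E T y = Y.E T y := by
  unfold Phy.E
  simp only [pp_w Y hW]
  show ∑ f, ∑ f', W.Q T f f' * Y.w y f * Y.w y f' = _
  rw [hW.Q]

theorem pp_Ck (hW : SameW Y.W W) (t : ℝ) (k : EvId) : (Y.atB t W).Ck k = Y.Ck k := by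
  show W.N (topO c Y.R k) / W.N (topC c Y.R k) = Y.W.N (topO c Y.R k) / Y.W.N (topC c Y.R k)
  rw [hW.N]

theorem pp_prox (hW : SameW Y.W W) (t : ℝ) (k : EvId) (y : c.I → ℝ) : (Y.atB t W).prox k y = Y.prox k y := by
  unfold Phy.prox
  rw [pp_Ck Y hW, pp_E Y hW, pp_E Y hW]
  rfl

theorem pp_tdiv (hW : SameW Y.W W) (t : ℝ) (u : Tile) (y : c.I → ℝ) : (Y.atB t W).tdiv u y = Y.tdiv u y := by
  unfold Phy.tdiv
  rw [pp_E Y hW]
  show W.N (tileTop c Y.R u) * _ = Y.W.N (tileTop c Y.R u) * _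
  rw [hW.N]
  rfl

theorem pp_boxE (hW : SameW Y.W W) (t : ℝ) (S : Finset EvId) (θ : Cut c) (b : ℕ × ℕ) (y : c.I → ℝ) : (Y.atB t W).boxE S θ b y = Y.boxE S θ b y := by
  unfold Phy.boxE
  simp only [pp_w Y hW]
  rfl

theorem pp_tileE (hW : SameW Y.W W) (t : ℝ) (u : Tile) (y : c.I → ℝ) : (Y.atB t W).tileE u y = Y.tileE u y := by
  unfold Phy.tileE
  simp only [pp_w Y hW]
  rfl

/-- `δ_k` at the temperature `t` -/
theorem pp_dl (hW : SameW Y.W W) (t : ℝ) (k : EvId) (y : c.I → ℝ) :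
    (Y.atB t W).dl k y = pmD (Y.M (topC c Y.R k)) (Y.evI k) (Y.evF k) (Y.chiE k y) (Y.prox k y) (Y.D y) t := by
  unfold Phy.dl
  rw [pp_prox Y hW]
  rfl

/-- the product of the `δ_k` at the temperature `t` -/
def ppDs (K : Finset EvId) (y : c.I → ℝ) (t : ℝ) (h : Y.Fc.Ht) : ℝ :=
  ∏ k ∈ K, pmD (Y.M (topC c Y.R k)) (Y.evI k) (Y.evF k) (Y.chiE k y) (Y.prox k y) (Y.D y) t h

theorem pp_dls (hW : SameW Y.W W) (t : ℝ) (K : Finset EvId) (y : c.I → ℝ) : (Y.atB t W).dls K y = ppDs Y K y t := by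
  unfold Phy.dls ppDs
  simp only [pp_dl Y hW]
  rfl

/-- `e^{E/2} Ξ` -/
def ppKap (T : Top c) (y : c.I → ℝ) : ℝ := Real.exp (Y.E T y / 2) * Y.Xi T y

/-- **`Q = e^{E/2} Ξ Z (∏ δ_k) / Z0`** -/
theorem pp_QT (hW : SameW Y.W W) (t : ℝ) (ht : 0 < t) (T : Top c) (hT : (Y.M T).Sp) (K : Finset EvId) (y : c.I → ℝ) :
    (Y.atB t W).QT T K y = ppKap Y T y * (((Y.M T).at1 t).Z ((Y.D y).atB _) (ppDs Y K y t) / ((Y.M T).at1 t).Z0) := by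
  have hp : 0 < ((Y.M T).at1 t).Z1 ((Y.D y).atB _) := fk_Z1_pos _ (pf_ok _ hT t ht) _
  unfold Phy.QT Phy.AT Phy.ET Phy.Zh
  rw [pp_E Y hW, pp_dls Y hW]
  show Real.exp (Y.E T y / 2) * (Y.Xi T y * ((Y.M T).at1 t).Z1 ((Y.D y).atB _)) / ((Y.M T).at1 t).Z0
    * (((Y.M T).at1 t).Z ((Y.D y).atB _) (ppDs Y K y t) / ((Y.M T).at1 t).Z1 ((Y.D y).atB _)) = _
  unfold ppKap
  field_simp

/-! ## 2. Pins -/

/-- the mask of `T` separates and has at most `n` Bessel factors -/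
def Phy.Sh (Y : Phy c) (n : ℕ) (T : Top c) : Prop := (Y.M T).Sp ∧ (Y.M T).E.card ≤ n

/-- **the pin interactions and the normaliser ratios**: `Pins x` at `b₀` gives `Pins (e^{4 n d} x)` at `b` -/
theorem pp_pins {W₀ : Wt c} (hW : SameW Y.W W) (hW₀ : SameW Y.W W₀) {b b₀ : ℝ} (hb : 0 < b) (hb₀ : 0 < b₀) (n : ℕ)
    (hE : ∀ k ∈ events c Y.R, Y.Sh n (topC c Y.R k) ∧ Y.Sh n (topO c Y.R k) ∧ Y.Sh n (tstO c Y.R k) ∧ Y.Sh n (tstC c Y.R k))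
    (hTl : ∀ u ∈ tiles c Y.R, Y.Sh n (tileTop c Y.R u)) {x : ℝ} (h : (Y.atB b₀ W₀).Pins x) :
    (Y.atB b W).Pins (Real.exp (4 * ((n : ℝ) * |b - b₀|)) * x) := by
  have hx0 : 0 ≤ x := zero_le_one.trans h.one
  have hnd : 0 ≤ (n : ℝ) * |b - b₀| := by positivity
  have e1 : 1 ≤ Real.exp (4 * ((n : ℝ) * |b - b₀|)) := Real.one_le_exp (by positivity)
  have e24 : Real.exp (2 * ((n : ℝ) * |b - b₀|)) ≤ Real.exp (4 * ((n : ℝ) * |b - b₀|)) := Real.exp_le_exp.2 (by linarith)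
  have e14 : Real.exp ((n : ℝ) * |b - b₀|) ≤ Real.exp (4 * ((n : ℝ) * |b - b₀|)) := Real.exp_le_exp.2 (by linarith)
  refine ⟨?_, ?_, ?_, ?_, ?_, ?_⟩
  · nlinarith [h.one]
  · intro k hk
    refine (pf_xPin_le (Y.M (topC c Y.R k)) (hE k hk).1.1 (Y.evH k) (Y.evG k) hb hb₀ n (hE k hk).1.2).trans ?_
    exact mul_le_mul_of_nonneg_left (h.core k hk) (Real.exp_pos _).le
  · intro k hk
    refine (pf_xPin_le (Y.M (tstO c Y.R k)) (hE k hk).2.2.1.1 (Y.evG k) (Y.evQ k) hb hb₀ n (hE k hk).2.2.1.2).trans ?_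
    exact mul_le_mul_of_nonneg_left (h.tstO k hk) (Real.exp_pos _).le
  · intro k hk
    refine (pf_xPin_le (Y.M (tstC c Y.R k)) (hE k hk).2.2.2.1 (Y.evG k) (Y.evQ k) hb hb₀ n (hE k hk).2.2.2.2).trans ?_
    exact mul_le_mul_of_nonneg_left (h.tstC k hk) (Real.exp_pos _).le
  · intro k hk
    have h1 := pf_ratio_le (Y.M (topO c Y.R k)) (Y.M (topC c Y.R k)) (hE k hk).2.1.1 (hE k hk).1.1 hb hb₀ n (hE k hk).2.1.2 (hE k hk).1.2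
    have h2 : ((Y.M (topO c Y.R k)).at1 b₀).Z0 / ((Y.M (topC c Y.R k)).at1 b₀).Z0 ≤ x * (Y.atB b₀ W₀).Ck k := h.nrmE k hk
    rw [pp_Ck Y hW₀] at h2
    have h3 : 0 ≤ ((Y.M (topO c Y.R k)).at1 b₀).Z0 / ((Y.M (topC c Y.R k)).at1 b₀).Z0 :=
      (div_pos (pf_Z0_pos _ (hE k hk).2.1.1 b₀ hb₀) (pf_Z0_pos _ (hE k hk).1.1 b₀ hb₀)).le
    rw [pp_Ck Y hW]
    refine h1.trans ?_
    calc _ ≤ Real.exp (4 * ((n : ℝ) * |b - b₀|)) * (x * Y.Ck k) := mul_le_mul e24 h2 h3 (Real.exp_pos _).le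
      _ = _ := by ring
  · intro u hu
    have h1 := pf_Z0_le' (Y.M (tileTop c Y.R u)) (hTl u hu).1 hb hb₀ n (hTl u hu).2
    have h2 : ((Y.M (tileTop c Y.R u)).at1 b₀).Z0 ≤ x * W₀.N (tileTop c Y.R u) := h.nrmT u hu
    have h3 := (pf_Z0_pos _ (hTl u hu).1 b₀ hb₀).le
    show ((Y.M (tileTop c Y.R u)).at1 b).Z0 ≤ Real.exp (4 * ((n : ℝ) * |b - b₀|)) * x * W.N (tileTop c Y.R u)
    rw [hW.N, ← hW₀.N]
    refine h1.trans ?_
    calc _ ≤ Real.exp (4 * ((n : ℝ) * |b - b₀|)) * (x * W₀.N (tileTop c Y.R u)) := mul_le_mul e14 h2 h3 (Real.exp_pos _).le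
      _ = _ := by ring

/-! ## 3. Tiles -/

/-- `0 ≤ Ξ ≤ 1` -/
theorem pp_Xi_mem (hX : ∀ y f, 0 < Y.Xf y f ∧ Y.Xf y f ≤ 1) (T : Top c) (y : c.I → ℝ) : 0 < Y.Xi T y ∧ Y.Xi T y ≤ 1 :=
  ⟨Finset.prod_pos fun f _ => (hX y f).1, Finset.prod_le_one (fun f _ => (hX y f).1.le) fun f _ => (hX y f).2⟩

/-- **isolated tiles** -/
theorem pp_tile {W₀ : Wt c} (hW : SameW Y.W W) (hW₀ : SameW Y.W W₀) (hX : ∀ y f, 0 < Y.Xf y f ∧ Y.Xf y f ≤ 1) {b b₀ : ℝ} (hb : 0 < b) (hb₀ : 0 < b₀) (n : ℕ)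
    (u : Tile) (hu : Y.Sh n (tileTop c Y.R u)) {x : ℝ} (hx : ((Y.M (tileTop c Y.R u)).at1 b₀).Z0 ≤ x * Y.W.N (tileTop c Y.R u))
    (hN : 0 < Y.W.N (tileTop c Y.R u)) (y : c.I → ℝ) :
    |(Y.atB b W).tfac u y - (Y.atB b₀ W₀).tfac u y| ≤ pmE n |b - b₀| * x * Real.exp (Y.E (tileTop c Y.R u) y / 2) := by
  set T := tileTop c Y.R u with hT
  have hd : 0 < Y.tdiv u y := mul_pos hN (Real.exp_pos _)
  have e : ∀ (t : ℝ) (W' : Wt c), SameW Y.W W' → (Y.atB t W').tfac u y = Y.Xi T y * ((Y.M T).at1 t).Z1 ((Y.D y).atB _) / Y.tdiv u y := by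
    intro t W' hW'
    unfold Phy.tfac
    rw [pp_tdiv Y hW']
    rfl
  rw [e b W hW, e b₀ W₀ hW₀, ← sub_div, ← mul_sub, abs_div, abs_mul, abs_of_pos hd, abs_of_pos (pp_Xi_mem Y hX T y).1, div_le_iff₀ hd]
  have h1 := pf_Z_sub (Y.M T) hu.1 (Y.D y) (fun _ => 1) 1 (fun _ => by simp) hb hb₀
  rw [one_mul] at h1
  have h2 : Real.exp (2 * (((Y.M T).E.card : ℝ) * |b - b₀|)) - 1 ≤ pmE n |b - b₀| := pm_E_mono hu.2 _ (abs_nonneg _)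
  have h0 := pm_E_nonneg n |b - b₀| (abs_nonneg _)
  have z0 := (pf_Z0_pos (Y.M T) hu.1 b₀ hb₀).le
  have e2 : pmE n |b - b₀| * x * Real.exp (Y.E T y / 2) * Y.tdiv u y = pmE n |b - b₀| * (x * Y.W.N T) := by
    unfold Phy.tdiv
    rw [← hT]
    have : Real.exp (Y.E T y / 2) * Real.exp (-Y.E T y / 2) = 1 := by rw [← Real.exp_add]; simp [neg_div]
    calc _ = pmE n |b - b₀| * (x * Y.W.N T) * (Real.exp (Y.E T y / 2) * Real.exp (-Y.E T y / 2)) := by ring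
      _ = _ := by rw [this, mul_one]
  rw [e2]
  calc Y.Xi T y * |((Y.M T).at1 b).Z1 ((Y.D y).atB _) - ((Y.M T).at1 b₀).Z1 ((Y.D y).atB _)|
      ≤ 1 * (pmE n |b - b₀| * ((Y.M T).at1 b₀).Z0) :=
        mul_le_mul (pp_Xi_mem Y hX T y).2 (h1.trans (mul_le_mul_of_nonneg_right h2 z0)) (abs_nonneg _) zero_le_one
    _ ≤ _ := by rw [one_mul]; exact mul_le_mul_of_nonneg_left hx h0

/-! ## 4. Boxes -/

/-- the error of the mark `k` in the ambient topology `T` -/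
def ppX (T : Top c) (k : EvId) (y : c.I → ℝ) (b b₀ : ℝ) : ℝ :=
  ((Y.M T).at1 b₀).Z ((Y.D y).atB _) fun h =>
    |pmD (Y.M (topC c Y.R k)) (Y.evI k) (Y.evF k) (Y.chiE k y) (Y.prox k y) (Y.D y) b h
      - pmD (Y.M (topC c Y.R k)) (Y.evI k) (Y.evF k) (Y.chiE k y) (Y.prox k y) (Y.D y) b₀ h|

/-- **boxes**: `Q_b ≤ e^{n d} (Q_{b₀} + e^{E/2} Ξ (ε + ∑_k X_k / Z0_{b₀}))` -/
theorem pp_box {W₀ : Wt c} (hW : SameW Y.W W) (hW₀ : SameW Y.W W₀) (hX : ∀ y f, 0 < Y.Xf y f ∧ Y.Xf y f ≤ 1) {b b₀ : ℝ} (hb : 0 < b) (hb₀ : 0 < b₀) (n : ℕ)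
    (T : Top c) (hT : Y.Sh n T) (K : Finset EvId) (hK : ∀ k ∈ K, (Y.M (topC c Y.R k)).Sp ∧ Y.evI k ⊆ (Y.M (topC c Y.R k)).A)
    (y : c.I → ℝ) (hp : ∀ k ∈ K, 0 ≤ Y.prox k y) :
    (Y.atB b W).QT T K y ≤ Real.exp ((n : ℝ) * |b - b₀|) *
      ((Y.atB b₀ W₀).QT T K y + ppKap Y T y * (pmE n |b - b₀| + (∑ k ∈ K, ppX Y T k y b b₀) / ((Y.M T).at1 b₀).Z0)) := by
  have hχ : ∀ k, 0 ≤ Y.chiE k y := fun k => Finset.prod_nonneg fun f _ => (hX y f).1.le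
  have mem : ∀ t, 0 < t → ∀ k ∈ K, ∀ h, 0 ≤ pmD (Y.M (topC c Y.R k)) (Y.evI k) (Y.evF k) (Y.chiE k y) (Y.prox k y) (Y.D y) t h
      ∧ pmD (Y.M (topC c Y.R k)) (Y.evI k) (Y.evF k) (Y.chiE k y) (Y.prox k y) (Y.D y) t h ≤ 1 :=
    fun t ht k hk h => pm_D_mem _ (hK k hk).1 _ (hK k hk).2 _ _ _ (hχ k) (hp k hk) _ t ht h
  have key := pm_multi (Y.M T) hT.1 (Y.D y) K
    (fun k => pmD (Y.M (topC c Y.R k)) (Y.evI k) (Y.evF k) (Y.chiE k y) (Y.prox k y) (Y.D y) b)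
    (fun k => pmD (Y.M (topC c Y.R k)) (Y.evI k) (Y.evF k) (Y.chiE k y) (Y.prox k y) (Y.D y) b₀) (mem b hb) (mem b₀ hb₀) hb hb₀
  have key2 : ((Y.M T).at1 b).Z ((Y.D y).atB _) (ppDs Y K y b)
      ≤ ((Y.M T).at1 b₀).Z ((Y.D y).atB _) (ppDs Y K y b₀) + (pmE n |b - b₀| * ((Y.M T).at1 b₀).Z0 + ∑ k ∈ K, ppX Y T k y b b₀) := by
    have h1 := (abs_le.1 key).2
    have h2 := mul_le_mul_of_nonneg_right (pm_E_mono hT.2 |b - b₀| (abs_nonneg _)) (pf_Z0_pos (Y.M T) hT.1 b₀ hb₀).le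
    have h3 : ((Y.M T).at1 b).Z ((Y.D y).atB _) (ppDs Y K y b) - ((Y.M T).at1 b₀).Z ((Y.D y).atB _) (ppDs Y K y b₀)
        ≤ pmE (Y.M T).E.card |b - b₀| * ((Y.M T).at1 b₀).Z0 + ∑ k ∈ K, ppX Y T k y b b₀ := h1
    linarith
  rw [pp_QT Y hW b hb T hT.1, pp_QT Y hW₀ b₀ hb₀ T hT.1]
  have zb := pf_Z0_pos (Y.M T) hT.1 b hb
  have zb₀ := pf_Z0_pos (Y.M T) hT.1 b₀ hb₀
  have hz := pf_Z0_le' (Y.M T) hT.1 hb₀ hb n hT.2
  rw [abs_sub_comm] at hz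
  have hκ : 0 ≤ ppKap Y T y := mul_nonneg (Real.exp_pos _).le (pp_Xi_mem Y hX T y).1.le
  set u := Real.exp ((n : ℝ) * |b - b₀|) with hu
  have hu0 : 0 < u := Real.exp_pos _
  set A := ((Y.M T).at1 b₀).Z ((Y.D y).atB _) (ppDs Y K y b₀) + (pmE n |b - b₀| * ((Y.M T).at1 b₀).Z0 + ∑ k ∈ K, ppX Y T k y b b₀) with hA
  have hA0 : 0 ≤ A := by
    refine le_trans ?_ key2
    exact fk_Z_nonneg _ (fun _ _ => hb) _ _ fun h => Finset.prod_nonneg fun k hk => (mem b hb k hk h).1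
  have s1 : ((Y.M T).at1 b).Z ((Y.D y).atB _) (ppDs Y K y b) / ((Y.M T).at1 b).Z0 ≤ u * (A / ((Y.M T).at1 b₀).Z0) := by
    rw [← mul_div_assoc, div_le_div_iff₀ zb zb₀]
    calc _ ≤ A * (u * ((Y.M T).at1 b).Z0) := mul_le_mul key2 hz zb₀.le hA0
      _ = _ := by ring
  have s2 := mul_le_mul_of_nonneg_left s1 hκ
  refine s2.trans (le_of_eq ?_)
  rw [hA]
  field_simp

/-- Stores the on-demand equation lemmas of the definitions above in THIS module (rule 6 hygiene). -/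
theorem pp_forced : True := by
  have := @Phy.atB.eq_1
  have := @ppDs.eq_1
  have := @ppKap.eq_1
  have := @Phy.Sh.eq_1
  have := @ppX.eq_1
  trivial

end

end Claimed.Agent.R285.Entry
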