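import Claimed.Agent.R285.Entry.PhyCar
import Claimed.Agent.R285.Ent.PropLaw
import Claimed.Agent.R285.F4a.Tilt

/-!
# ROW 285, ENTRY: `Phy.Ok (xyPhy ..)` (architect helper66).   PAPER-FREE.
s1 the primary bonds and the observation rows in RAW form (shared with the strengthened law, `C5/EntLaw.lean`: `facT` and `facS` have the same sites, the same integer forms and the same rows `inl i`);
s2 from the sum over `𝔉.sup (c.sites T.cells)` to the generic height sum `prZg` of `Ent/PropLaw.lean`;      s3 the XY instance.      All helper names: prefix `car` / `xyp`.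
-/

set_option autoImplicit false

namespace Claimed.Agent.R285.Entry

open scoped BigOperators
open Claimed.Agent.R285 Claimed.Agent.R285.RG Claimed.Agent.R285.F4a Claimed.Agent.R285.Ent

noncomputable section

variable {G : Geom} {c : Grid G}

/-! ## 1. Primary bonds and observation rows, raw form -/

/-- LEAF PHY-1 (`F4a.enb_blk_stp`: a bond which leaves its cell ends in `fnb c (c.blk e.1, e.2)`) -/
theorem car_isEdge_iff (hc : Whole c) (T : Top c) (e : G.V × Bool) : T.IsEdge e ↔ carIn T (carB c e) := by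
  unfold carB
  by_cases h1 : stp e.1 e.2 = e.1
  · rw [if_pos h1]
    exact ⟨fun h => h.1 h1, fun h => h.elim⟩
  · rw [if_neg h1]
    by_cases h2 : c.blk (stp e.1 e.2) = c.blk e.1
    · rw [if_pos h2]
      show T.IsEdge e ↔ c.blk e.1 ∈ T.cells
      exact ⟨fun h => h.2.1, fun h => ⟨h1, h, by rw [h2]; exact h, Or.inl h2⟩⟩
    · rw [if_neg h2]
      show T.IsEdge e ↔ ((c.blk e.1, e.2) ∈ T.faces ∧ c.blk e.1 ∈ T.cells ∧ fnb c (c.blk e.1, e.2) ∈ T.cells)
      rw [← enb_blk_stp hc e.1 e.2 h2]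
      exact ⟨fun h => ⟨h.2.2.2.resolve_left h2, h.2.1, h.2.2.1⟩, fun h => ⟨h1, h.2.1, h.2.2, Or.inr h.1⟩⟩

/-- LEAF PHY-1 -/
theorem car_bondsF_iff (f : Face c) (e : G.V × Bool) : e ∈ bondsF c {f} ↔ carB c e = some (Sum.inr f) := by
  unfold bondsF carB
  simp only [Finset.mem_filter, Finset.mem_univ, true_and, Finset.mem_singleton]
  by_cases h1 : stp e.1 e.2 = e.1
  · simp [h1]
  · by_cases h2 : c.blk (stp e.1 e.2) = c.blk e.1
    · simp [h1, h2]
    · simp [h1, h2]

/-- LEAF PHY-1: the support of the form of a bond (dead form: `stp e.1 e.2 = e.1`, the form vanishes, and `carAt none _ = True` anyway) -/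
theorem car_bond_sup (hc : Whole c) (e : G.V × Bool) (v : G.V)
    (h : ((if v = stp e.1 e.2 then 1 else 0) - (if v = e.1 then 1 else 0) : ℤ) ≠ 0) : carAt (carB c e) (c.blk v) := by
  unfold carB
  by_cases h1 : stp e.1 e.2 = e.1
  · rw [if_pos h1]
    trivial
  · rw [if_neg h1]
    have hv : v = stp e.1 e.2 ∨ v = e.1 := by
      by_contra hn
      rw [not_or] at hn
      exact h (by rw [if_neg hn.1, if_neg hn.2]; rfl)
    by_cases h2 : c.blk (stp e.1 e.2) = c.blk e.1
    · rw [if_pos h2]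
      show c.blk v = c.blk e.1
      rcases hv with hv | hv
      · rw [hv, h2]
      · rw [hv]
    · rw [if_neg h2]
      show c.blk v = c.blk e.1 ∨ c.blk v = fnb c (c.blk e.1, e.2)
      rcases hv with hv | hv
      · right
        rw [hv, enb_blk_stp hc e.1 e.2 h2]
      · left
        rw [hv]

/-- LEAF PHY-1 -/
theorem car_bond_sumZ (e : G.V × Bool) (k : G.V → ℤ) :
    ∑ v, ((if v = stp e.1 e.2 then 1 else 0) - (if v = e.1 then 1 else 0) : ℤ) * k v = k (stp e.1 e.2) - k e.1 := by
  simp only [sub_mul, Finset.sum_sub_distrib, ite_mul, one_mul, zero_mul, Finset.sum_ite_eq', Finset.mem_univ, if_true]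

/-- LEAF PHY-1 -/
theorem car_bond_sumR (e : G.V × Bool) (u : G.V → ℝ) :
    ∑ v, (((if v = stp e.1 e.2 then 1 else 0) - (if v = e.1 then 1 else 0) : ℤ) : ℝ) * u v = u (stp e.1 e.2) - u e.1 := by
  push_cast
  simp only [sub_mul, Finset.sum_sub_distrib, ite_mul, one_mul, zero_mul, Finset.sum_ite_eq', Finset.mem_univ, if_true]

/-- LEAF PHY-1: the row of a cell is the cell average -/
theorem car_row_sum (i : c.I) (u : G.V → ℝ) :
    ∑ v, (if c.blk v = i then ((c.sites {i}).card : ℝ)⁻¹ else 0) * u v = avg c u i := by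
  show _ = cellAvg c u i
  unfold cellAvg
  rw [div_eq_mul_inv, Finset.sum_mul]
  unfold Grid.sites
  rw [Finset.sum_filter]
  refine Finset.sum_congr rfl fun v _ => ?_
  by_cases h : c.blk v = i
  · rw [if_pos h, if_pos (Finset.mem_singleton.2 h), mul_comm]
  · rw [if_neg h, if_neg (fun h' => h (Finset.mem_singleton.1 h')), zero_mul]

/-- LEAF PHY-1: **properness of one cell.**  `F4a.tl_real_inj hc ⟨{i}, ∅⟩ (fun v => u v.1)`: the edges of the one-cell topology have the carrier `inl i` (`car_isEdge_iff`),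
its only row is the row of `i` (`∑` over the subtype `= ∑` over `G.V`: the row vanishes off the cell; `Finset.sum_subtype` / `Finset.sum_coe_sort`). -/
theorem car_cell_raw (hc : Whole c) (i : c.I) (u : G.V → ℝ) (h1 : ∀ e : G.V × Bool, carB c e = some (Sum.inl i) → u (stp e.1 e.2) = u e.1)
    (h2 : avg c u i = 0) : ∀ v, c.blk v = i → u v = 0 := by
  classical
  have key := tl_real_inj hc (⟨{i}, ∅⟩ : Top c) (fun v => u v.1) ?_ ?_
  · intro v hv
    exact congrFun key ⟨v, Finset.mem_singleton.2 hv⟩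
  · intro e
    show u (stp e.1.1 e.1.2) = u e.1.1
    have he := (car_isEdge_iff hc (⟨{i}, ∅⟩ : Top c) e.1).1 e.2
    rcases hcar : carB c e.1 with _ | j | f
    · rw [hcar] at he
      exact he.elim
    · rw [hcar] at he
      have hj : j = i := Finset.mem_singleton.1 he
      rw [hj] at hcar
      exact h1 e.1 hcar
    · rw [hcar] at he
      exact absurd he.1 (Finset.notMem_empty f)
  · rintro ⟨j, hj⟩
    have hj' : j = i := Finset.mem_singleton.1 hj
    subst hj'
    rw [← car_row_sum] at h2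
    show ∑ v : {v : G.V // c.blk v ∈ ({j} : Finset c.I)}, (if c.blk v.1 = j then ((c.sites {j}).card : ℝ)⁻¹ else 0) * u v.1 = 0
    refine Eq.trans ?_ h2
    rw [← Finset.sum_subtype (c.sites {j}) (fun x => Reg.reg_mem_sites c {j} x)
      (fun v => (if c.blk v = j then ((c.sites {j}).card : ℝ)⁻¹ else 0) * u v)]
    refine Finset.sum_subset (Finset.subset_univ _) fun v _ hv => ?_
    rw [if_neg (fun h => hv ((Reg.reg_mem_sites c {j} v).2 (Finset.mem_singleton.2 h))), zero_mul]

/-! ## 2. From `Msk.Z1` to the generic height sum -/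

/-- LEAF PHY-2: `h ↦ prExt T h` is a bijection of `T.graph.V → ℤ` onto the heights supported on the sites of `T` (define the `Equiv` by hand: inverse `g ↦ fun v => g.1 v.1`; `Equiv.tsum_eq`).
Stated for ALL factor models with the sites `G.V`. -/
theorem car_tsum_sup {E O : Type} [Fintype E] [DecidableEq E] [Fintype O] [DecidableEq O] (b : E → ℝ) (d : E → G.V → ℤ) (r : O → G.V → ℝ)
    (T : Top c) (F : (G.V → ℤ) → ℝ) :
    ∑' g : Fac.sup { V := G.V, E := E, O := O, b := b, d := d, r := r } (c.sites T.cells), F (g : G.V → ℤ) = ∑' h : T.graph.V → ℤ, F (prExt T h) := by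
  classical
  have hs : ∀ v : G.V, v ∈ c.sites T.cells ↔ c.blk v ∈ T.cells := fun v => by
    unfold Grid.sites
    simp only [Finset.mem_filter, Finset.mem_univ, true_and]
  let e : (T.graph.V → ℤ) ≃ Fac.sup { V := G.V, E := E, O := O, b := b, d := d, r := r } (c.sites T.cells) :=
    { toFun := fun h => ⟨prExt T h, fun v hv => by
        unfold prExt
        rw [dif_neg (fun h' => hv ((hs v).2 h'))]⟩
      invFun := fun g v => (g : G.V → ℤ) v.1
      left_inv := fun h => by
        funext v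
        exact pr_ext_coe T h v
      right_inv := fun g => by
        apply Subtype.ext
        funext v
        show prExt T (fun v => (g : G.V → ℤ) v.1) v = (g : G.V → ℤ) v
        unfold prExt
        by_cases hv : c.blk v ∈ T.cells
        · rw [dif_pos hv]
        · rw [dif_neg hv]
          exact (g.2 v (fun h' => hv ((hs v).1 h'))).symm }
  exact (Equiv.tsum_eq e (fun g => F (g : G.V → ℤ))).symm

/-- the real Gaussian factor -/
def carGs (T : Top c) (y : c.I → ℝ) (k : G.V → ℤ) : ℝ := Real.exp (-(∑ i ∈ T.cells, (prAv c k i - y i) ^ 2) / 2)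

/-- LEAF PHY-2 (`Complex.ofReal_exp`, `push_cast`) -/
theorem car_Gs_real (T : Top c) (y : c.I → ℝ) (k : G.V → ℤ) : prGs T (fun i => (y i : ℂ)) k = (carGs T y k : ℂ) := by
  unfold prGs carGs
  push_cast
  rfl

/-- LEAF PHY-2 (`Complex.ofReal_tsum`) -/
theorem car_Zg_real (T : Top c) (om : (G.V → ℤ) → ℂ) (omR : (G.V → ℤ) → ℝ) (h : ∀ k, om k = (omR k : ℂ)) (y : c.I → ℝ) :
    prZg T om (fun i => (y i : ℂ)) = ((∑' h : T.graph.V → ℤ, omR (prExt T h) * carGs T y (prExt T h) : ℝ) : ℂ) := by
  unfold prZg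
  rw [Complex.ofReal_tsum]
  refine tsum_congr fun g => ?_
  rw [h, car_Gs_real]
  push_cast
  rfl

/-! ## 3. The XY instance -/

/-- LEAF PHY-3: the weight of a height (`car_bond_sumZ`, `car_row_sum`; `connT = prEc` by `rfl`) -/
theorem xyp_wt (b : ℝ) (τ : Face c → ℤ) (T : Top c) (y : c.I → ℝ) (k : G.V → ℤ) :
    (mskT b T).wt (datT c b τ y) k = prOmR T b τ k * carGs T y k := by
  classical
  unfold Fac.Msk.wt Fac.rw Fac.rwE prOmR carGs
  have h1 : ∀ e : G.V × Bool, (facT c b).dv e k = k (stp e.1 e.2) - k e.1 := fun e => car_bond_sumZ e k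
  have h2 : ∀ i : c.I, (facT c b).rv i k = prAv c k i := fun i => car_row_sum i fun v => 2 * Real.pi * (k v : ℝ)
  congr 1
  · refine Finset.prod_congr (Finset.filter_congr_decidable _ _ _) fun e _ => ?_
    rw [h1]
    rfl
  · congr 3
    refine Finset.sum_congr rfl fun i _ => ?_
    rw [h2]
    rfl

/-- LEAF PHY-3: `car_tsum_sup`, `xyp_wt` -/
theorem xyp_Z1 (b : ℝ) (τ : Face c → ℤ) (T : Top c) (y : c.I → ℝ) :
    (mskT b T).Z1 (datT c b τ y) = ∑' h : T.graph.V → ℤ, prOmR T b τ (prExt T h) * carGs T y (prExt T h) := by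
  rw [← car_tsum_sup (facT c b).b (facT c b).d (facT c b).r T fun k => prOmR T b τ k * carGs T y k]
  unfold Fac.Msk.Z1 Fac.Msk.Z
  refine tsum_congr fun g => ?_
  have h0 : (datT c b τ y).x + (g : (facT c b).Ht) = (g : (facT c b).Ht) := zero_add _
  rw [h0, one_mul, xyp_wt]

/-- LEAF PHY-3: **`T.Zobs b τ y = (mskT b T).Z1 (datT c b τ y)`** (`pr_ZobsC_real`, `pr_ZobsC_eq`, `pr_Om_real`, `car_Zg_real`, `xyp_Z1`; `Complex.ofReal_injective`) -/
theorem xyp_Zobs (b : ℝ) (τ : Face c → ℤ) (T : Top c) (y : c.I → ℝ) : T.Zobs b τ y = (mskT b T).Z1 (datT c b τ y) := by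
  apply Complex.ofReal_injective
  rw [← pr_ZobsC_real, pr_ZobsC_eq, car_Zg_real T _ (prOmR T b τ) (fun k => pr_Om_real T b τ k) y, xyp_Z1]

/-- LEAF PHY-3: `pr_ZhatC_real`, `xyp_Zobs`; unfold `Phy.Zh`, `Phy.Xi`, `xyPhy`, `xyWt`, `Top.Zhat` -/
theorem xyp_Zh_eq (R : ℕ) (a b0 b : ℝ) (τ : Face c → ℤ) (T : Top c) (y : c.I → ℝ) :
    (xyPhy c R a b0 b τ).W.Zh T (fun i => (y i : ℂ)) = (((xyPhy c R a b0 b τ).Zh T y : ℝ) : ℂ) := by
  show ZhatC T (b : ℂ) τ (fun i => (y i : ℂ)) = _
  rw [pr_ZhatC_real]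
  congr 1
  unfold Top.Zhat Phy.Zh Phy.Xi
  rw [xyp_Zobs, mul_comm]
  rfl

/-- the cutoff lies in `(0, 1]` -/
theorem xyp_chi_mem (s : ℝ) (hs : 0 < s) (z : ℝ) : 0 < chi s z ∧ chi s z ≤ 1 := ⟨chiL_pos s z hs, chiL_le_one s z hs⟩

/-- LEAF PHY-4: the carriers of the XY model -/
theorem xyp_car (hc : Whole c) (R : ℕ) (a b0 b : ℝ) (hb : 0 < b) (τ : Face c → ℤ) :
    CarOk (xyPhy c R a b0 b τ) (carB c) (fun i : c.I => some (Sum.inl i)) where
  A_eq := fun T => rfl
  mem_E := fun T e => by
    classical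
    rw [← car_isEdge_iff hc T e]
    have key : ∀ e' : G.V × Bool, e' ∈ (Finset.univ.filter fun e : G.V × Bool => T.IsEdge e) ↔ T.IsEdge e' := fun e' => by
      simp only [Finset.mem_filter, Finset.mem_univ, true_and]
    exact key e
  mem_O := fun T o => Iff.rfl
  mem_FE := fun f e => car_bondsF_iff f e
  mem_FO := fun f o => by
    refine ⟨fun h => absurd h (Finset.notMem_empty (α := c.I) o), fun h => ?_⟩
    simp at h
  supE := fun e v h => car_bond_sup hc e v h
  supO := fun o v h => by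
    show c.blk v = o
    by_contra hne
    exact h (if_neg hne)
  pos := fun _ => hb
  cell := fun i u h1 h2 => by
    refine car_cell_raw hc i u (fun e he => ?_) ?_
    · have h3 := h1 e he
      have h4 := car_bond_sumR e u
      have h5 : u (stp e.1 e.2) - u e.1 = 0 := h4.symm.trans h3
      linarith
    · exact (car_row_sum i u).symm.trans (h2 i rfl)

/-- **the XY height law is represented by its factor model** -/
theorem xy_phy_ok (hc : Whole c) (R : ℕ) (a b0 b : ℝ) (hb : 0 < b) (τ : Face c → ℤ) : (xyPhy c R a b0 b τ).Ok :=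
  car_ok (xyp_car hc R a b0 b hb τ) (fun T _ y => xyp_Zh_eq R a b0 b τ T y)
    (fun y f => (xyp_chi_mem c.m (by exact_mod_cast hc.pos) _).1) (fun y f => (xyp_chi_mem c.m (by exact_mod_cast hc.pos) _).2) (fun _ => rfl)

/-- Stores the on-demand equation lemmas of the definitions above in THIS module (rule 6 hygiene). -/
theorem xyp_forced : True := by
  have := @carGs.eq_1
  trivial

end

end Claimed.Agent.R285.Entry
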