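import Claimed.Agent.R285.Entry.PertCrude
import Claimed.Agent.R285.Entry.PertPhy
import Claimed.Agent.R285.Entry.PhyXY
import Claimed.Agent.R285.Entry.NtCut
import Claimed.Agent.R285.Ent.Maj
import Claimed.Agent.R285.F4a.Face

/-!
# ROW 285, ENTRY, BP-ENT-PERT (#17078): THE XY INPUTS OF THE PERTURBATION      (helper47)

Prefix `pxy_`.   Everything which the generic exit (`Entry/Pert.lean`, helper221; `PertPhy`, helper118; `PertCrude`) asks about `xyPhy c R a b0 b τ`.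
* `pxy_E_eq` : `E T y = T.Eobs a τ y`;   **`pxy_E_bd`** : `0 ≤ E T y ≤ Cu ∑_{f ∈ T.faces} w_f²` in the centred sector (`F4a.face_energy_upper`), `Cu` depends only on `a`.
* **`pxy_Xf_ge`** : `exp (-w_f² / 2) ≤ Xf y f`.      **`pxy_Ck`** : `C_k = Z0 (topO k) / Z0 (topC k)` at the base point.      `pxy_N_pos`.
* **`pxy_bonds`**, `pxy_bonds_add` : at most `2 m² |cells|` Bessel factors, also after restoring faces;   **`pxy_sh`** : `Phy.Sh`.
* cell counts: `pxy_cells_piece` (`≤ (2P)²`), `pxy_cells_tp` (`≤ (2R+1)²`: `topC`, `topO`, `tstC`, `tstO`), `pxy_cells_tile` (`≤ R²`).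
* `pxy_nd` : `n |b - b₀| ≤ 2 N cR` for `n = 2 m² N`, `|b - b₀| < cR / m²`.
-/

set_option autoImplicit false

namespace Claimed.Agent.R285.Entry

open scoped BigOperators
open Claimed.Agent.R285 Claimed.Agent.R285.RG Claimed.Agent.R285.F4a Claimed.Agent.R285.Ent Fac

noncomputable section

variable {G : Geom} {c : Grid G}

/-! ## 1. Energies, cutoffs, normalisers -/

theorem pxy_E_eq (hc : Whole c) (R : ℕ) {a : ℝ} (ha : 0 < a) (b0 b : ℝ) (τ : Face c → ℤ) (T : Top c) (hT : T.Ok) (y : c.I → ℝ) :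
    (xyPhy c R a b0 b τ).E T y = T.Eobs a τ y := by
  rw [← Qf_physical hc T hT a τ y, ← mj_Qf_sum a ha T (wf c τ y)]
  rfl

/-- **the energies of the centred sector** -/
theorem pxy_E_bd (a : ℝ) (ha : 0 < a) : ∃ (Cu : ℝ) (n1 : ℕ), 0 ≤ Cu ∧ ∀ (G : Geom) (c : Grid G), Whole c → n1 ≤ c.n → ∀ (R : ℕ) (b0 b : ℝ),
    ∀ T : Top c, T.Ok → ∀ y : c.I → ℝ, 0 ≤ (xyPhy c R a b0 b 0).E T y ∧
      (xyPhy c R a b0 b 0).E T y ≤ Cu * ∑ f ∈ T.faces, (xyPhy c R a b0 b 0).w y f ^ 2 := by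
  obtain ⟨C, n1, hC⟩ := face_energy_upper a ha
  refine ⟨max C 0, n1, le_max_right _ _, fun G c hc hn R b0 b T hT y => ?_⟩
  rw [pxy_E_eq hc R ha b0 b 0 T hT y]
  constructor
  · rw [← Qf_physical hc T hT a 0 y]
    exact mj_Qf_nonneg a ha T _
  · have h := hC G c hc hn T hT 0 y
    simp only [Pi.zero_apply, add_zero, sub_zero, Int.cast_zero, ne_eq, OfNat.ofNat_ne_zero, not_false_eq_true, zero_pow,
      Finset.sum_const_zero, mul_zero] at h
    refine h.trans (mul_le_mul_of_nonneg_right (le_max_left _ _) (Finset.sum_nonneg fun _ _ => sq_nonneg _))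

theorem pxy_Xf_ge (hc : Whole c) (R : ℕ) (a b0 b : ℝ) (τ : Face c → ℤ) (y : c.I → ℝ) (f : Face c) :
    Real.exp (-(xyPhy c R a b0 b τ).w y f ^ 2 / 2) ≤ (xyPhy c R a b0 b τ).Xf y f :=
  pcr_chi_ge (c.m : ℝ) (wf c τ y f) (by exact_mod_cast hc.pos)

theorem pxy_dat_zero (c : Grid G) (b : ℝ) : datT c b 0 0 = 0 := by
  have : connT c 0 = 0 := by
    funext e
    unfold connT
    split_ifs <;> rfl
  unfold datT
  rw [this]
  rfl

theorem pxy_Z0 (b : ℝ) (T : Top c) : (mskT b T).Z0 = T.Zobs b 0 0 := by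
  rw [xyp_Zobs, pxy_dat_zero]
  rfl

/-- **the proxy scalar is the restoration ratio of the patch at the base point** -/
theorem pxy_Ck (R : ℕ) (a b0 : ℝ) (τ : Face c → ℤ) (k : EvId) :
    (xyPhy c R a b0 b0 τ).Ck k = ((xyPhy c R a b0 b0 τ).M (topO c R k)).Z0 / ((xyPhy c R a b0 b0 τ).M (topC c R k)).Z0 := by
  show (topO c R k).Zobs b0 0 0 / (topC c R k).Zobs b0 0 0 = (mskT b0 (topO c R k)).Z0 / (mskT b0 (topC c R k)).Z0
  rw [pxy_Z0, pxy_Z0]

theorem pxy_N_eq (R : ℕ) (a b0 b : ℝ) (τ : Face c → ℤ) (T : Top c) : (xyPhy c R a b0 b τ).W.N T = (mskT b0 T).Z0 := (pxy_Z0 b0 T).symm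

/-! ## 2. Counting the Bessel factors -/

/-- a mask has at most two Bessel factors per site -/
theorem pxy_bonds (hc : Whole c) (b : ℝ) (T : Top c) : (mskT b T).E.card ≤ 2 * (c.m ^ 2 * T.cells.card) := by
  classical
  have h : (mskT b T).E ⊆ (c.sites T.cells) ×ˢ (Finset.univ : Finset Bool) := by
    intro e he
    have he' : T.IsEdge e := (Finset.mem_filter.1 he).2
    exact Finset.mem_product.2 ⟨Finset.mem_filter.2 ⟨Finset.mem_univ _, he'.2.1⟩, Finset.mem_univ _⟩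
  refine (Finset.card_le_card h).trans (le_of_eq ?_)
  rw [Finset.card_product, mj_sites_card hc, Finset.card_univ, Fintype.card_bool]
  ring

theorem pxy_isEdge (b : ℝ) (T : Top c) (e : G.V × Bool) (he : e ∈ (mskT b T).E) : T.IsEdge e := by
  classical
  exact (Finset.mem_filter.1 he).2

theorem pxy_bondsF (f : Face c) (e : G.V × Bool) (he : e ∈ bondsF c {f}) : (c.blk e.1, e.2) = f := by
  classical
  exact Finset.mem_singleton.1 (Finset.mem_filter.1 he).2.2.2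

/-- the same after restoring faces which start in the present cells -/
theorem pxy_bonds_add (hc : Whole c) (R : ℕ) (a b0 b : ℝ) (τ : Face c → ℤ) (T : Top c) (E : Finset (Face c)) (hE : ∀ f ∈ E, f.1 ∈ T.cells) :
    (((xyPhy c R a b0 b τ).M T).E ∪ ((xyPhy c R a b0 b τ).FFs E).1).card ≤ 2 * (c.m ^ 2 * T.cells.card) := by
  classical
  have h : ∀ e ∈ ((xyPhy c R a b0 b τ).M T).E ∪ ((xyPhy c R a b0 b τ).FFs E).1,
      (show G.V × Bool from e) ∈ (c.sites T.cells) ×ˢ (Finset.univ : Finset Bool) := by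
    intro e he
    rcases Finset.mem_union.1 he with he | he
    · have he' : T.IsEdge e := pxy_isEdge b T e he
      exact Finset.mem_product.2 ⟨Finset.mem_filter.2 ⟨Finset.mem_univ _, he'.2.1⟩, Finset.mem_univ _⟩
    · obtain ⟨f, hf, hef⟩ := Finset.mem_biUnion.1 he
      have h4 : (c.blk e.1, e.2) = f := pxy_bondsF f e hef
      have h5 : c.blk e.1 ∈ T.cells := by
        have := hE f hf
        rw [← h4] at this
        exact this
      exact Finset.mem_product.2 ⟨Finset.mem_filter.2 ⟨Finset.mem_univ _, h5⟩, Finset.mem_univ _⟩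
  refine (Finset.card_le_card_of_injOn (fun e => (show G.V × Bool from e)) h fun _ _ _ _ h' => h').trans (le_of_eq ?_)
  rw [Finset.card_product, mj_sites_card hc, Finset.card_univ, Fintype.card_bool]
  ring

/-- **`Phy.Sh`** for the XY representation -/
theorem pxy_sh (hc : Whole c) (R : ℕ) (a b0 b : ℝ) (hb : 0 < b) (τ : Face c → ℤ) (T : Top c) (hT : T.Ok) {N : ℕ} (hN : T.cells.card ≤ N) :
    (xyPhy c R a b0 b τ).Sh (2 * (c.m ^ 2 * N)) T :=
  ⟨((xy_phy_ok hc R a b0 b hb τ).ok T hT).2,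
    (pxy_bonds hc b T).trans (Nat.mul_le_mul_left _ (Nat.mul_le_mul_left _ hN))⟩

/-! ## 3. Counting cells -/

theorem pxy_cells_piece {P : ℕ} {t : ℕ × ℕ} (ht : t.1 < P ∧ t.2 < P) (hPn : P ≤ c.n) (T : Top c) (b : ℕ × ℕ) :
    ((pcut c P t).piece T b).cells.card ≤ (2 * P) ^ 2 :=
  (Finset.card_le_card Finset.inter_subset_right).trans (pc_box_card ht hPn b)

theorem pxy_cells_tp {R : ℕ} (hg : NGeo c R) {k : EvId} (hk : k ∈ events c R) {A : Finset c.I} (hA : A ⊆ tpatch c R k) :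
    A.card ≤ (2 * R + 1) ^ 2 := by
  obtain ⟨i0, hi0⟩ := hg.tp_small k hk
  refine card_le_of_centre i0 fun a ha => ?_
  obtain ⟨a', ha', hd⟩ := nt_brk_mem_nbh.1 (hi0 (hA ha))
  rw [Finset.mem_singleton.1 ha'] at hd
  exact hd

theorem pxy_cells_topC {R : ℕ} (hg : NGeo c R) {k : EvId} (hk : k ∈ events c R) : (topC c R k).cells.card ≤ (2 * R + 1) ^ 2 :=
  pxy_cells_tp hg hk (Finset.inter_subset_right.trans (pcr_patch_sub R k))

theorem pxy_cells_topO {R : ℕ} (hg : NGeo c R) {k : EvId} (hk : k ∈ events c R) : (topO c R k).cells.card ≤ (2 * R + 1) ^ 2 :=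
  pxy_cells_tp hg hk (Finset.inter_subset_right.trans (pcr_patch_sub R k))

theorem pxy_cells_tstC {R : ℕ} (hg : NGeo c R) {k : EvId} (hk : k ∈ events c R) : (tstC c R k).cells.card ≤ (2 * R + 1) ^ 2 :=
  pxy_cells_tp hg hk Finset.inter_subset_right

theorem pxy_cells_tstO {R : ℕ} (hg : NGeo c R) {k : EvId} (hk : k ∈ events c R) : (tstO c R k).cells.card ≤ (2 * R + 1) ^ 2 :=
  pxy_cells_tp hg hk Finset.inter_subset_right

theorem pxy_cells_tile {R : ℕ} (hg : NGeo c R) (u : Tile) : (tileTop c R u).cells.card ≤ R ^ 2 :=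
  (Finset.card_le_card Finset.inter_subset_right).trans (hg.tile_card u)

/-! ## 4. The small parameter -/

/-- `n d ≤ 2 N cR` -/
theorem pxy_nd (hc : Whole c) (N : ℕ) {b b0 cR : ℝ} (h : |b - b0| < cR / (c.m : ℝ) ^ 2) :
    ((2 * (c.m ^ 2 * N) : ℕ) : ℝ) * |b - b0| ≤ 2 * N * cR := by
  have hm : (0 : ℝ) < (c.m : ℝ) ^ 2 := by
    have : (0 : ℝ) < c.m := by exact_mod_cast hc.pos
    positivity
  have h1 : |b - b0| * (c.m : ℝ) ^ 2 ≤ cR := ((lt_div_iff₀ hm).1 h).le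
  push_cast
  calc 2 * ((c.m : ℝ) ^ 2 * N) * |b - b0| = 2 * N * (|b - b0| * (c.m : ℝ) ^ 2) := by ring
    _ ≤ 2 * N * cR := mul_le_mul_of_nonneg_left h1 (by positivity)

end

end Claimed.Agent.R285.Entry
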