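import Claimed.Agent.R285.Entry.Pert
import Claimed.Agent.R285.Entry.PertXY

/-!
# ROW 285, ENTRY, BP-ENT-PERT (#17078): THE EXIT FOR THE CUTOFF XY LAW      (helper221)

Prefix `epx_`.   `ep_main` (`Entry/Pert.lean`, generic) + the XY inputs `pxy_*` (`Entry/PertXY.lean`, helper47).
* `epx_in`  : `EpIn (xyPhy c R a b0 b0 0) ..` with `nb = 2 m²`.
* **`epx_main`** : centred sector, `|b - b₀| < c_R / s²` ⟹ `0 < b` and the three clauses `EpC (xyPhy c R a b0 b0 0) (xyPhy c R a b0 b 0) P U ε`;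
  `c_R` is chosen after `(a, b₀, R, P, U, ε, x0)`, `x0` = the bound of the pins at the base point; uniform in the volume and in `s`.
* **`epx_boxok`** : `BoxOK (xyPhy c R a b0 b0 0) .. x0 .. γ0 C0 ..` + the two reserves at `b` ⟹ `BoxOK (xyPhy c R a b0 b 0) .. x .. γ C ..`  for `x0 < x`, `γ0 < γ ≤ 1`, `C0 < C`.
-/

set_option autoImplicit false

namespace Claimed.Agent.R285.Entry

open scoped BigOperators
open Claimed.Agent.R285 Claimed.Agent.R285.RG Claimed.Agent.R285.F4a Claimed.Agent.R285.Ent Fac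

noncomputable section

variable {G : Geom} {c : Grid G}

/-- the hypotheses of the generic exit for the XY representation -/
theorem epx_in (hc : Whole c) {R : ℕ} (hg : NGeo c R) {a b0 : ℝ} (hb0 : 0 < b0) {x Cu : ℝ} (hx : 1 ≤ x) (hCu : 0 ≤ Cu)
    (hE : ∀ T : Top c, T.Ok → ∀ y : c.I → ℝ, 0 ≤ (xyPhy c R a b0 b0 0).E T y ∧
      (xyPhy c R a b0 b0 0).E T y ≤ Cu * ∑ f ∈ T.faces, (xyPhy c R a b0 b0 0).w y f ^ 2) :
    EpIn (xyPhy c R a b0 b0 0) (xyWt c a b0 (b0 : ℂ) 0) b0 x Cu (2 * c.m ^ 2) where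
  sW₀ := ⟨rfl, rfl, rfl⟩
  bp := hb0
  ok := Eq.mp (congrArg Phy.Ok (pp_xy c R a b0 b0 0)) (xy_phy_ok hc R a b0 b0 hb0 0)
  N := fun T => mj_N_pos hc a b0 hb0 _ 0 T
  geo := hg
  Cn := hCu
  E := hE
  X := pxy_Xf_ge hc R a b0 b0 0
  Ck := fun k _ => by
    have h1 := pxy_Ck (c := c) R a b0 0 k
    have hok := xy_phy_ok hc R a b0 b0 hb0 0
    have z1 : 0 < ((xyPhy c R a b0 b0 0).M (topO c R k)).Z0 := nt_Z0_pos _ hok _ (nt_ok_restr _ (nt_ok_topU _ _) _)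
    have z2 : 0 < ((xyPhy c R a b0 b0 0).M (topC c R k)).Z0 := nt_Z0_pos _ hok _ (nt_dl_ok_topC _ _)
    have h2 : (xyPhy c R a b0 b0 0).Ck k ≤ x * (((xyPhy c R a b0 b0 0).M (topO c R k)).Z0 / ((xyPhy c R a b0 b0 0).M (topC c R k)).Z0) := by
      rw [h1]
      exact le_mul_of_one_le_left (div_pos z1 z2).le hx
    exact h2
  card := fun T _ => (pxy_bonds hc b0 T).trans (le_of_eq (by ring))

/-- **POST PERT, exit for the cutoff XY law** ([E] lem:finite-perturbation) -/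
theorem epx_main (b0 a : ℝ) (hb0 : 0 < b0) (ha : 0 < a) : ∃ n1 : ℕ, ∀ (R P : ℕ) (U ε x0 : ℝ), 0 < ε → ∃ cR : ℝ, 0 < cR ∧
    ∀ (G : Geom) (c : Grid G), Whole c → NGeo c R → R ∣ P → P ≤ c.n → n1 ≤ c.n → (xyPhy c R a b0 b0 0).Pins x0 →
      ∀ b : ℝ, |b - b0| < cR / (c.m : ℝ) ^ 2 → 0 < b ∧ EpC (xyPhy c R a b0 b0 0) (xyPhy c R a b0 b 0) P U ε := by
  obtain ⟨Cu, n1, hCu, hE⟩ := pxy_E_bd a ha
  refine ⟨n1, fun R P U ε x0 hε => ?_⟩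
  by_cases hx : 1 ≤ x0
  swap
  · exact ⟨1, one_pos, fun G c _ _ _ _ _ hP => absurd hP.one hx⟩
  obtain ⟨N, hN⟩ : ∃ N : ℕ, N = (2 * P) ^ 2 + (2 * R + 1) ^ 2 := ⟨_, rfl⟩
  have hN1 : (1 : ℝ) ≤ N := by
    have : 1 ≤ N := by
      rw [hN]
      have : 1 ≤ (2 * R + 1) ^ 2 := Nat.one_le_pow _ _ (by omega)
      omega
    exact_mod_cast this
  have hA : 0 < epA P x0 Cu U := by
    have := ep_B_pos P x0 Cu U
    unfold epA
    positivity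
  have hlog : 0 < Real.log (1 + ε / epA P x0 Cu U) := Real.log_pos (by have := div_pos hε hA; linarith)
  refine ⟨min (b0 / 2) (Real.log (1 + ε / epA P x0 Cu U) / (8 * N)), lt_min (by linarith) (by positivity), ?_⟩
  intro G c hc hg hRP hPn hn1 hP b hb
  have hm : (1 : ℝ) ≤ (c.m : ℝ) ^ 2 := by
    have : (1 : ℝ) ≤ c.m := by exact_mod_cast hc.pos
    nlinarith
  have hb1 : |b - b0| < b0 / 2 := by
    refine hb.trans_le ((div_le_self (le_min (by linarith) (by positivity)) hm).trans (min_le_left _ _))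
  have hbpos : 0 < b := by
    have := (abs_lt.1 hb1).1
    linarith
  refine ⟨hbpos, ?_⟩
  have H := epx_in hc hg hb0 hx hCu (hE G c hc hn1 R b0 b0)
  have hP' : ((xyPhy c R a b0 b0 0).atB b0 (xyWt c a b0 (b0 : ℂ) 0)).Pins x0 := Eq.mp (congrArg (fun Y => Phy.Pins Y x0) (pp_xy c R a b0 b0 0)) hP
  have hnd := pxy_nd hc N hb
  have hnd2 : ((2 * (c.m ^ 2 * N) : ℕ) : ℝ) * |b - b0| ≤ Real.log (1 + ε / epA P x0 Cu U) / 4 := by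
    refine hnd.trans ?_
    have h1 : 2 * (N : ℝ) * min (b0 / 2) (Real.log (1 + ε / epA P x0 Cu U) / (8 * N)) ≤ 2 * (N : ℝ) * (Real.log (1 + ε / epA P x0 Cu U) / (8 * N)) :=
      mul_le_mul_of_nonneg_left (min_le_right _ _) (by positivity)
    refine h1.trans (le_of_eq ?_)
    field_simp
    ring
  have hsm : epA P x0 Cu U * (Real.exp (4 * (((2 * (c.m ^ 2 * N) : ℕ) : ℝ) * |b - b0|)) - 1) ≤ ε := by
    have h1 : Real.exp (4 * (((2 * (c.m ^ 2 * N) : ℕ) : ℝ) * |b - b0|)) ≤ 1 + ε / epA P x0 Cu U := by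
      rw [← Real.exp_log (show 0 < 1 + ε / epA P x0 Cu U by have := div_pos hε hA; linarith)]
      exact Real.exp_le_exp.2 (by linarith)
    calc _ ≤ epA P x0 Cu U * (ε / epA P x0 Cu U) := mul_le_mul_of_nonneg_left (by linarith) hA.le
      _ = ε := by field_simp
  have key := ep_main H hP' (pp_same_xy c a b0 (b0 : ℂ) (b : ℂ) 0) hbpos hRP hPn (U := U) (ε := ε) (2 * (c.m ^ 2 * N))
    (le_of_eq (by rw [hN]; show 2 * c.m ^ 2 * ((2 * P) ^ 2 + (2 * R + 1) ^ 2) = _; ring)) hsm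
  exact Eq.mp (congrArg₂ (fun Y0 Y1 => EpC Y0 Y1 P U ε) (pp_xy c R a b0 b0 0).symm (pp_xy c R a b0 b 0).symm) key

/-- **POST PERT, exit in the form of `BoxOK`**: room in the three constants `x0 < x`, `γ0 < γ ≤ 1`, `C0 < C`; `c_R` is chosen after `(a, b₀, R, P, U)` and the six constants. -/
theorem epx_boxok (b0 a : ℝ) (hb0 : 0 < b0) (ha : 0 < a) : ∃ n1 : ℕ, ∀ (R P : ℕ) (U x0 x γ0 γ C0 C : ℝ), x0 < x → 0 ≤ γ0 → γ0 < γ → γ ≤ 1 → 0 ≤ C0 → C0 < C →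
    ∃ cR : ℝ, 0 < cR ∧ ∀ (G : Geom) (c : Grid G), Whole c → NGeo c R → R ∣ P → P ≤ c.n → n1 ≤ c.n →
      ∀ (Zs : Finset c.I) (cstar ea bg : ℝ), 0 ≤ ea → BoxOK (xyPhy c R a b0 b0 0) a P Zs x0 cstar U γ0 C0 ea bg →
      ∀ b : ℝ, |b - b0| < cR / (c.m : ℝ) ^ 2 → 0 < b ∧
        ((∀ T : Top c, T.Ok → Disjoint T.cells Zs → ∀ y : c.I → ℝ, (xyPhy c R a b0 b 0).AT T y ≤ Real.exp ((1 - cstar) / 2 * T.Eobs a 0 y)) →
         (∀ T : Top c, T.Ok → ∀ y : c.I → ℝ, (xyPhy c R a b0 b 0).AT T y ≤ bg * Real.exp ((1 - cstar) / 2 * T.Eobs a 0 y)) →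
          BoxOK (xyPhy c R a b0 b 0) a P Zs x cstar U γ C ea bg) := by
  obtain ⟨n1, h⟩ := epx_main b0 a hb0 ha
  refine ⟨n1, fun R P U x0 x γ0 γ C0 C hx hγ0 hγ hγ1 hC0 hC => ?_⟩
  have hγp : 0 < γ := lt_of_le_of_lt hγ0 hγ
  obtain ⟨hε, s1, s2, s3⟩ := ep_E_spec ((2 * P) ^ 2) hx hγ hγp hC0 hC
  obtain ⟨cR, hcR, hmain⟩ := h R P U (epE ((2 * P) ^ 2) x0 x γ0 γ C0 C) x0 hε
  refine ⟨cR, hcR, fun G c hc hg hRP hPn hn1 Zs cstar ea bg hea H0 b hb => ?_⟩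
  obtain ⟨hbp, h3⟩ := hmain G c hc hg hRP hPn hn1 H0.pins b hb
  refine ⟨hbp, fun hr hrZ => ?_⟩
  have h3' : EpC ((xyPhy c R a b0 b0 0).atB b0 (xyWt c a b0 (b0 : ℂ) 0)) ((xyPhy c R a b0 b0 0).atB b (xyWt c a b0 (b : ℂ) 0)) P U
      (epE ((2 * P) ^ 2) x0 x γ0 γ C0 C) :=
    Eq.mp (congrArg₂ (fun Y0 Y1 => EpC Y0 Y1 P U (epE ((2 * P) ^ 2) x0 x γ0 γ C0 C)) (pp_xy c R a b0 b0 0) (pp_xy c R a b0 b 0)) h3
  have H0' : BoxOK ((xyPhy c R a b0 b0 0).atB b0 (xyWt c a b0 (b0 : ℂ) 0)) a P Zs x0 cstar U γ0 C0 ea bg :=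
    Eq.mp (congrArg (fun Y => BoxOK Y a P Zs x0 cstar U γ0 C0 ea bg) (pp_xy c R a b0 b0 0)) H0
  have hr' : ∀ T : Top c, T.Ok → Disjoint T.cells Zs → ∀ y : c.I → ℝ,
      ((xyPhy c R a b0 b0 0).atB b (xyWt c a b0 (b : ℂ) 0)).AT T y ≤ Real.exp ((1 - cstar) / 2 * T.Eobs a 0 y) :=
    Eq.mp (congrArg (fun Y : Phy c => ∀ T : Top c, T.Ok → Disjoint T.cells Zs → ∀ y : c.I → ℝ, Y.AT T y ≤ Real.exp ((1 - cstar) / 2 * T.Eobs a 0 y))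
      (pp_xy c R a b0 b 0)) hr
  have hrZ' : ∀ T : Top c, T.Ok → ∀ y : c.I → ℝ,
      ((xyPhy c R a b0 b0 0).atB b (xyWt c a b0 (b : ℂ) 0)).AT T y ≤ bg * Real.exp ((1 - cstar) / 2 * T.Eobs a 0 y) :=
    Eq.mp (congrArg (fun Y : Phy c => ∀ T : Top c, T.Ok → ∀ y : c.I → ℝ, Y.AT T y ≤ bg * Real.exp ((1 - cstar) / 2 * T.Eobs a 0 y))
      (pp_xy c R a b0 b 0)) hrZ
  have key := ep_boxok (Y := xyPhy c R a b0 b0 0) (x := x) (pp_same_xy c a b0 (b0 : ℂ) (b0 : ℂ) 0) (pp_same_xy c a b0 (b0 : ℂ) (b : ℂ) 0)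
    (fun T => mj_N_pos hc a b0 hb0 _ 0 T) h3' ((2 * P) ^ 2)
    (fun S t bx hS ht => (ep_keptB_card hg _ hS bx).trans (pc_box_card (pc_lt hg.pos hRP ht) hPn bx))
    hε.le s1 hγ0 s2 hγp hγ1 hC0 hea s3 H0' hr' hrZ'
  exact Eq.mp (congrArg (fun Y => BoxOK Y a P Zs x cstar U γ C ea bg) (pp_xy c R a b0 b 0).symm) key

end

end Claimed.Agent.R285.Entry
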