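import Claimed.Agent.R285.Entry.GoodBox
import Claimed.Agent.R285.Entry.PertEx
import Claimed.Agent.R285.Ent.PhysIf

/-!
# ROW 285, ENTRY: THE ASSEMBLY OF `Ent.BoxXYStmt`      (helper33)
```
Ent.BoxXYStmt  ⟸  eg_boxok0, eg_box_reserve   (GOOD, helper109: Entry/GoodBox.lean)      `BoxOK` at the base point `b = b₀`, both sectors; the reserve at every real `b`
                +  GoodGeoStmt, GoodGeoUStmt   (BP-ENT-GOODGEO, helper190)                  the geometry read in windows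
                +  epx_boxok                   (BP-ENT-PERT, helper221 + 47 + 118: Entry/PertEx.lean, PROVED)      `b₀ ⟶ b`, `|b - b₀| < c_R / s²`, centred sector
                +  NGeoStmt (helper30)                                                      hypothesis of PERT
```
The exits of the posts are `def …Stmt : Prop`; `box_xy` is PROVED from them.  Prefix `gb`.
-/

set_option autoImplicit false

namespace Claimed.Agent.R285.Entry

open scoped BigOperators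
open Claimed.Agent.R285 Claimed.Agent.R285.RG Claimed.Agent.R285.F4a Claimed.Agent.R285.Ent

noncomputable section

/-! ## 1. The exits of the posts -/

/-- **POST BP-ENT-GOODGEO, exit 1** -/
def GoodGeoStmt : Prop := ∀ (G : Geom) (c : Grid G) (R : ℕ), GeoOK c R → R ^ 5 ≤ c.n → GoodGeo c R (R ^ 5)

/-- **POST BP-ENT-GOODGEO, exit 2** -/
def GoodGeoUStmt : Prop :=
  ∀ (G : Geom) (c : Grid G) (R : ℕ), GeoOK c R → G.bc = BC.free → 2 * R ∣ c.n → R ^ 5 ≤ c.n → GoodGeoU c R (R ^ 5)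

/-! ## 2. Monotonicity of `BoxOK` -/

variable {G : Geom} {c : Grid G}

theorem gb_Eobs_nonneg (T : Top c) {a : ℝ} (ha : 0 < a) (τ : Face c → ℤ) (y : c.I → ℝ) : 0 ≤ T.Eobs a τ y :=
  Real.iInf_nonneg fun u => enb_quad_nonneg T a ha _ y u

theorem gb_pins_mono {Y : Phy c} {x x' : ℝ} (h : Y.Pins x) (hx : x ≤ x') (hN : ∀ T, 0 < Y.W.N T) : Y.Pins x' where
  one := h.one.trans hx
  core := fun k hk => (h.core k hk).trans hx
  tstO := fun k hk => (h.tstO k hk).trans hx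
  tstC := fun k hk => (h.tstC k hk).trans hx
  nrmE := fun k hk => (h.nrmE k hk).trans (mul_le_mul_of_nonneg_right hx (div_pos (hN _) (hN _)).le)
  nrmT := fun t ht => (h.nrmT t ht).trans (mul_le_mul_of_nonneg_right hx (hN _).le)

theorem gb_boxE_nonneg (Y : Phy c) (S : Finset EvId) (θ : Cut c) (b : ℕ × ℕ) (y : c.I → ℝ) : 0 ≤ Y.boxE S θ b y :=
  Finset.sum_nonneg fun _ _ => sq_nonneg _

/-- `BoxOK` is monotone in all its constants -/
theorem gb_mono {Y : Phy c} {a : ℝ} {P : ℕ} {Zs Zs' : Finset c.I} {x x' cstar cstar' U γ γ' C0 C0' ea ea' bg bg' : ℝ}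
    (h : BoxOK Y a P Zs x cstar U γ C0 ea bg) (ha : 0 < a) (hN : ∀ T, 0 < Y.W.N T) (hZ : Zs ⊆ Zs') (hx : x ≤ x') (hc : cstar' ≤ cstar)
    (hγ0 : 0 ≤ γ) (hγ : γ ≤ γ') (hC0 : 0 ≤ C0) (hC : C0 ≤ C0') (he : ea ≤ ea') (hb0 : 0 ≤ bg) (hb : bg ≤ bg') :
    BoxOK Y a P Zs' x' cstar' U γ' C0' ea' bg' where
  pins := gb_pins_mono h.pins hx hN
  good := fun S O t b hS hO ht hd y hy => by
    refine (h.good S O t b hS hO ht (Finset.disjoint_of_subset_right hZ hd) y hy).trans ?_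
    have hE := gb_boxE_nonneg Y S (pcut c P t) b y
    exact mul_le_mul (mul_le_mul hC (pow_le_pow_left₀ hγ0 hγ _) (pow_nonneg hγ0 _) (hC0.trans hC))
      (Real.exp_le_exp.2 (mul_le_mul_of_nonneg_right he hE)) (Real.exp_pos _).le
      (mul_nonneg (hC0.trans hC) (pow_nonneg (hγ0.trans hγ) _))
  reserve := fun T hT hd y => by
    refine (h.reserve T hT (Finset.disjoint_of_subset_right hZ hd) y).trans (Real.exp_le_exp.2 ?_)
    exact mul_le_mul_of_nonneg_right (by linarith) (gb_Eobs_nonneg T ha _ y)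
  reserveZ := fun T hT y => by
    refine (h.reserveZ T hT y).trans ?_
    exact mul_le_mul hb (Real.exp_le_exp.2 (mul_le_mul_of_nonneg_right (by linarith) (gb_Eobs_nonneg T ha _ y))) (Real.exp_pos _).le (hb0.trans hb)
  tile := fun t ht hd y hy => (h.tile t ht (Finset.disjoint_of_subset_right hZ hd) y hy).trans hγ

theorem gb_boxE_xy (R : ℕ) (a b0 b : ℝ) (τ : Face c → ℤ) (P : ℕ) (S : Finset EvId) (t bx : ℕ × ℕ) (y : c.I → ℝ) :
    (xyPhy c R a b0 b τ).boxE S (pcut c P t) bx y = egE (hFaces c R P S t bx) τ y := rfl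

theorem gb_tileE_xy (R : ℕ) (a b0 b : ℝ) (τ : Face c → ℤ) (t : Tile) (y : c.I → ℝ) :
    (xyPhy c R a b0 b τ).tileE t y = egE (tileTop c R t).faces τ y := rfl

theorem gb_egE_nonneg (F : Finset (Face c)) (τ : Face c → ℤ) (y : c.I → ℝ) : 0 ≤ egE F τ y := Finset.sum_nonneg fun _ _ => sq_nonneg _

/-- `BoxOK` of the XY law in explicit form (no projection of `xyPhy` is left) -/
theorem gb_intro {R : ℕ} {a b0 b : ℝ} {τ : Face c → ℤ} {P : ℕ} {Zs : Finset c.I} {x cstar U γ C0 ea bg : ℝ}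
    (pins : (xyPhy c R a b0 b τ).Pins x)
    (good : ∀ (S O : Finset EvId) (t bx : ℕ × ℕ), Valid c R S → O ⊆ S → t ∈ pcuts R P → Disjoint ((pcut c P t).box bx) Zs →
      ∀ y : c.I → ℝ, egE (hFaces c R P S t bx) τ y ≤ U ^ 2 →
        (xyPhy c R a b0 b τ).QT (hPiece c R P S O t bx) ((pcut c P t).keptB R S bx) y
          ≤ C0 * γ ^ ((pcut c P t).keptB R S bx).card * Real.exp (ea * egE (hFaces c R P S t bx) τ y))
    (reserve : ∀ T : Top c, T.Ok → Disjoint T.cells Zs → ∀ y : c.I → ℝ, (xyPhy c R a b0 b τ).AT T y ≤ Real.exp ((1 - cstar) / 2 * T.Eobs a τ y))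
    (reserveZ : ∀ T : Top c, T.Ok → ∀ y : c.I → ℝ, (xyPhy c R a b0 b τ).AT T y ≤ bg * Real.exp ((1 - cstar) / 2 * T.Eobs a τ y))
    (tile : ∀ t ∈ tiles c R, Disjoint (cellsOf c R {t}) Zs → ∀ y : c.I → ℝ, egE (tileTop c R t).faces τ y ≤ U ^ 2 →
      |(xyPhy c R a b0 b τ).tfac t y - 1| ≤ γ) :
    BoxOK (xyPhy c R a b0 b τ) a P Zs x cstar U γ C0 ea bg := ⟨pins, good, reserve, reserveZ, tile⟩

theorem gb_good {R : ℕ} {a b0 b : ℝ} {τ : Face c → ℤ} {P : ℕ} {Zs : Finset c.I} {x cstar U γ C0 ea bg : ℝ}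
    (h : BoxOK (xyPhy c R a b0 b τ) a P Zs x cstar U γ C0 ea bg) :
    ∀ (S O : Finset EvId) (t bx : ℕ × ℕ), Valid c R S → O ⊆ S → t ∈ pcuts R P → Disjoint ((pcut c P t).box bx) Zs →
      ∀ y : c.I → ℝ, egE (hFaces c R P S t bx) τ y ≤ U ^ 2 →
        (xyPhy c R a b0 b τ).QT (hPiece c R P S O t bx) ((pcut c P t).keptB R S bx) y
          ≤ C0 * γ ^ ((pcut c P t).keptB R S bx).card * Real.exp (ea * egE (hFaces c R P S t bx) τ y) := h.good

theorem gb_tile {R : ℕ} {a b0 b : ℝ} {τ : Face c → ℤ} {P : ℕ} {Zs : Finset c.I} {x cstar U γ C0 ea bg : ℝ}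
    (h : BoxOK (xyPhy c R a b0 b τ) a P Zs x cstar U γ C0 ea bg) :
    ∀ t ∈ tiles c R, Disjoint (cellsOf c R {t}) Zs → ∀ y : c.I → ℝ, egE (tileTop c R t).faces τ y ≤ U ^ 2 →
      |(xyPhy c R a b0 b τ).tfac t y - 1| ≤ γ := h.tile

theorem gb_src_sub (c : Grid G) : egSrc c ⊆ srcZ c := by
  intro i hi
  simp only [egSrc, Finset.mem_filter, Finset.mem_univ, true_and] at hi
  simp only [srcZ, zone, Finset.mem_filter, Finset.mem_univ, true_and]
  omega

/-! ## 3. Numerics -/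

theorem gb_le_two_pow (k : ℕ) : k ≤ 2 ^ k := Nat.lt_two_pow_self.le

/-! ## 4. The assembly -/

/-- **`BoxXYStmt` from the exits of GOOD, GOODGEO and PERT.** -/
theorem box_xy (hG : GoodGeoStmt) (hU : GoodGeoUStmt) (hN : NGeoStmt) : BoxXYStmt := by
  intro b0 a hb0 ha hab
  obtain ⟨cs0, Cu, hcs0, hcs1, hCu, H0⟩ := eg_boxok0 b0 a hb0 ha hab
  obtain ⟨cg, hcg, H1'⟩ := H0 12
  obtain ⟨k1, H1⟩ := H1' 2 (by norm_num)
  obtain ⟨cs', Cu', s1, n1, hcs'0, hcs'1, hCu', HR⟩ := eg_box_reserve a (2 * b0) ha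
  obtain ⟨n2, HP⟩ := epx_boxok b0 a hb0 ha
  refine ⟨min cs0 cs', cg / 2, Cu, max k1 (max n1 n2), lt_min hcs0 hcs'0, (min_le_left _ _).trans_lt hcs1, by positivity, hCu,
    fun kR hkR U hU0 => ?_⟩
  simp only [ge_iff_le, max_le_iff] at hkR
  obtain ⟨hk1, hkn1, hkn2⟩ := hkR
  obtain ⟨k0, H2⟩ := H1 kR hk1 U
  have hR0 : (0 : ℝ) < 2 ^ kR := by positivity
  have hγ0 : 0 < Real.exp (-cg * 2 ^ kR) := Real.exp_pos _
  have hγ : Real.exp (-cg * 2 ^ kR) < Real.exp (-(cg / 2) * 2 ^ kR) := Real.exp_lt_exp.2 (by nlinarith)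
  have hγ1 : Real.exp (-(cg / 2) * 2 ^ kR) ≤ 1 := Real.exp_le_one_iff.2 (by nlinarith)
  obtain ⟨cR, hcR, HP1⟩ := HP (2 ^ kR) ((2 ^ kR) ^ 5) U 2 4 (Real.exp (-cg * 2 ^ kR)) (Real.exp (-(cg / 2) * 2 ^ kR)) 6 13 (by norm_num) hγ0.le hγ hγ1
    (by norm_num) (by norm_num)
  refine ⟨min cR b0, max k0 s1, lt_min hcR hb0, fun ks hks G c hgeo hcm h5 => ?_⟩
  simp only [ge_iff_le, max_le_iff] at hks
  obtain ⟨hk0, hks1⟩ := hks
  have hw := hgeo.whole
  have hcmR : (c.m : ℝ) = (2 : ℝ) ^ ks := by rw [hcm]; push_cast; rfl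
  have hs1 : s1 ≤ c.m := by rw [hcm]; exact hks1.trans (gb_le_two_pow ks)
  have hkn : kR ≤ c.n := by
    refine le_trans ?_ h5
    calc kR ≤ 2 ^ kR := gb_le_two_pow kR
      _ = (2 ^ kR) ^ 1 := (pow_one _).symm
      _ ≤ (2 ^ kR) ^ 5 := Nat.pow_le_pow_right (by positivity) (by norm_num)
  have hgg := hG G c _ hgeo h5
  obtain ⟨B0, BU⟩ := H2 ks hk0 G c hgeo hcm h5 hgg
  have hNpos : ∀ (b : ℝ) (τ : Face c → ℤ) (T : Top c), 0 < (xyPhy c (2 ^ kR) a b0 b τ).W.N T := fun b τ T => Zobs_pos hw T b0 hb0 0 0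
  constructor
  · intro b hb
    have hs21 : (1 : ℝ) ≤ ((2 : ℝ) ^ ks) ^ 2 := one_le_pow₀ (one_le_pow₀ (by norm_num))
    have hb' : |b - b0| < cR / (c.m : ℝ) ^ 2 := by
      rw [hcmR]
      exact hb.trans_le (div_le_div_of_nonneg_right (min_le_left _ _) (by positivity))
    have hb2 : b ≤ 2 * b0 := by
      have h1 : min cR b0 / ((2 : ℝ) ^ ks) ^ 2 ≤ b0 := (div_le_self (lt_min hcR hb0).le hs21).trans (min_le_right _ _)
      have h2 := (abs_lt.1 (hb.trans_le h1)).2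
      linarith
    have B0' : BoxOK (xyPhy c (2 ^ kR) a b0 b0 0) a ((2 ^ kR) ^ 5) ∅ 2 (min cs0 cs') U (Real.exp (-cg * 2 ^ kR)) 6 (1 / ((2 : ℝ) ^ kR) ^ 12) 1 :=
      gb_mono B0 ha (hNpos b0 0) (Finset.Subset.refl _) le_rfl (min_le_left _ _) hγ0.le le_rfl (by norm_num) le_rfl le_rfl zero_le_one le_rfl
    obtain ⟨hbpos, hbox⟩ := HP1 G c hw (hN G c _ hgeo) (Dvd.intro_left ((2 ^ kR) ^ 4) (by ring)) h5 (hkn2.trans hkn) ∅ _ _ 1 (by positivity) B0' b hb'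
    have hres : ∀ T : Top c, T.Ok → ∀ y : c.I → ℝ,
        (xyPhy c (2 ^ kR) a b0 b 0).AT T y ≤ Real.exp ((1 - min cs0 cs') / 2 * T.Eobs a 0 y) := by
      intro T hT y
      have h1 := HR G c hw hs1 (hkn1.trans hkn) (2 ^ kR) b0 b hbpos hb2 0 T hT y
      rw [eg_circ_zero, mul_zero, Real.exp_zero, one_mul] at h1
      refine h1.trans (Real.exp_le_exp.2 (mul_le_mul_of_nonneg_right ?_ (gb_Eobs_nonneg T ha _ y)))
      have := min_le_right cs0 cs'
      linarith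
    exact ⟨hbpos, hbox (fun T hT _ y => hres T hT y) (fun T hT y => by rw [one_mul]; exact hres T hT y)⟩
  · intro hfree hdv h8
    have hB := BU hfree (hU G c _ hgeo hfree hdv h5)
    rw [hcmR] at hB
    exact gb_mono hB ha (hNpos b0 _) (gb_src_sub c) (by norm_num) (min_le_left _ _) hγ0.le hγ.le (by norm_num) (by norm_num) le_rfl
      (Real.exp_pos _).le le_rfl

end

end Claimed.Agent.R285.Entry
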