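import Claimed.Agent.R285.Entry.GoodBox
import Claimed.Agent.R285.Entry.GbDefs
import Claimed.Agent.R285.Ent.Geo

/-!
# ROW 285, ENTRY, post GB-SRC: the unit connection is a gauge on source-free boxes and tiles            (helper12)
No sorry.   `gbs_geoU : GoodGeoU c R P` (vocabulary of `Entry/GoodBox.lean`, source cells `egSrc c`) and `gb_sec : GBSecStmt` (vocabulary of `Entry/GbDefs.lean`, source cells `zone c 1 ⊇ egSrc c`).
Criterion `eg_src_gauge`: the set of faces must not contain horizontal faces through BOTH halves of the vertical line `x = n/2`.  A box of the `P`-grid is a product of intervals;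
the tiles which meet the column `x = n/2 - 1` are vertex tiles and vertical edge tiles (`2R ∣ n`), which are intervals in this column: both contain the cell `(n/2 - 1, n/2 - 1)` as soon as they contain cells below and above it.
-/

set_option autoImplicit false

namespace Claimed.Agent.R285.Entry

open scoped BigOperators
open Claimed.Agent.R285 Claimed.Agent.R285.RG Claimed.Agent.R285.F4a Claimed.Agent.R285.Ent

noncomputable section

variable {G : Geom} {c : Grid G}

/-- the abstract form: a set of cells `B` which is an interval in the column `x = n/2 - 1` and misses the source -/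
theorem gbs_gauge_of_conv (hfree : G.bc = BC.free) (𝓕 : Finset (Face c)) (hF : ∀ f ∈ 𝓕, IsFace c f) (B : Finset c.I) (hB : ∀ f ∈ 𝓕, f.1 ∈ B)
    (hconv : ∀ (x y y' z : Fin c.n), (x : ℕ) + 1 = c.n / 2 → (z : ℕ) + 1 = c.n / 2 → (y : ℕ) ≤ z → (z : ℕ) ≤ y' → (x, y) ∈ B → (x, y') ∈ B → (x, z) ∈ B)
    (hd : Disjoint B (egSrc c)) : EgGauge 𝓕 (tauU c) := by
  refine eg_src_gauge hfree 𝓕 hF ?_
  by_contra hcon
  rw [not_or] at hcon
  obtain ⟨h1, h2⟩ := hcon
  push_neg at h1 h2
  obtain ⟨f', hf', -, hx', hy'⟩ := h1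
  obtain ⟨f, hf, -, hx, hy⟩ := h2
  have hn : c.n / 2 - 1 < c.n := by have := f'.1.2.2; omega
  have hxx : f'.1.1 = f.1.1 := Fin.ext (by omega)
  have m1 : (f.1.1, f.1.2) ∈ B := hB f hf
  have m2 : (f.1.1, f'.1.2) ∈ B := by
    have := hB f' hf'
    rw [← hxx]
    exact this
  have hz := hconv f.1.1 f.1.2 f'.1.2 ⟨c.n / 2 - 1, hn⟩ hx (by show c.n / 2 - 1 + 1 = c.n / 2; omega)
    (by show (f.1.2 : ℕ) ≤ c.n / 2 - 1; omega) (by show c.n / 2 - 1 ≤ (f'.1.2 : ℕ); omega) m1 m2
  refine Finset.disjoint_left.1 hd hz ?_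
  unfold egSrc
  rw [Finset.mem_filter]
  refine ⟨Finset.mem_univ _, Or.inl hx, Or.inl ?_⟩
  show c.n / 2 - 1 + 1 = c.n / 2
  omega

/-- the boxes -/
theorem gbs_box (hfree : G.bc = BC.free) (R P : ℕ) (S : Finset EvId) (t b : ℕ × ℕ) (hd : Disjoint ((pcut c P t).box b) (egSrc c)) :
    EgGauge (hFaces c R P S t b) (tauU c) := by
  classical
  refine gbs_gauge_of_conv hfree _ ?_ ((pcut c P t).box b) ?_ ?_ hd
  · intro f hf
    have h1 := (Finset.mem_filter.1 hf).1
    have h2 := (Finset.mem_sdiff.1 h1).1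
    have h3 := (Finset.mem_filter.1 h2).1
    exact (Finset.mem_filter.1 h3).2
  · intro f hf
    exact (Finset.mem_filter.1 hf).2.1
  · intro x y y' z _ _ hyz hzy' m1 m2
    have e1 := (Finset.mem_filter.1 m1).2
    have e2 := (Finset.mem_filter.1 m2).2
    refine Finset.mem_filter.2 ⟨Finset.mem_univ _, ?_⟩
    have a1 : plab c P t.2 y = b.2 := congrArg Prod.snd e1
    have a2 : plab c P t.2 y' = b.2 := congrArg Prod.snd e2
    have a0 : plab c P t.1 x = b.1 := congrArg Prod.fst e1
    have hl : ∀ w : Fin c.n, plab c P t.2 w = ((w : ℕ) + P - t.2) / P := by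
      intro w
      unfold plab pshift
      rw [hfree]
    rw [hl] at a1 a2
    have a3 : plab c P t.2 z = b.2 := by
      rw [hl]
      have u1 : ((y : ℕ) + P - t.2) / P ≤ ((z : ℕ) + P - t.2) / P := Nat.div_le_div_right (by omega)
      have u2 : ((z : ℕ) + P - t.2) / P ≤ ((y' : ℕ) + P - t.2) / P := Nat.div_le_div_right (by omega)
      omega
    exact Prod.ext a0 a3

/-- the tiles -/
theorem gbs_tile {R : ℕ} (h : Adm c R) (hfree : G.bc = BC.free) (h2R : 2 * R ∣ c.n) (t : Tile) (hd : Disjoint (cellsOf c R {t}) (egSrc c)) :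
    EgGauge (tileTop c R t).faces (tauU c) := by
  classical
  refine gbs_gauge_of_conv hfree _ ?_ (cellsOf c R {t}) ?_ ?_ hd
  · intro f hf
    have h1 := (Finset.mem_filter.1 hf).1
    exact (Finset.mem_filter.1 h1).2
  · intro f hf
    exact (Finset.mem_filter.1 hf).2.1
  · intro x y y' z hx hz hyz hzy' m1 m2
    have e1 : tile c R (x, y) = t := by simpa [cellsOf] using m1
    have e2 : tile c R (x, y') = t := by simpa [cellsOf] using m2
    suffices hh : tile c R (x, z) = t by simpa [cellsOf] using hh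
    obtain ⟨q, hq⟩ := h2R
    have hp := h.pos
    have h64 := h.d64
    have hn2 : c.n / 2 = R * q := by
      rw [hq, Nat.mul_assoc]
      exact Nat.mul_div_cancel_left _ (by norm_num)
    have hq0 : 0 < q := by
      rcases Nat.eq_zero_or_pos q with rfl | hq0
      · rw [hn2] at hx; omega
      · exact hq0
    obtain ⟨q', rfl⟩ : ∃ q', q = q' + 1 := ⟨q - 1, by omega⟩
    have hexp : R * (q' + 1) = R * q' + R := by ring
    have dx := dm_of (R := R) (x := (x : ℕ)) (a := q') (u := R - 1) (by omega) (by omega)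
    have dz := dm_of (R := R) (x := (z : ℕ)) (a := q') (u := R - 1) (by omega) (by omega)
    have hV1 : ((x : ℕ) + R / 4) % R < R / 2 := (near_iff h _).2 (Or.inr (by omega))
    have hV2 : ((z : ℕ) + R / 4) % R < R / 2 := (near_iff h _).2 (Or.inr (by omega))
    have tz := tile_V (c := c) (R := R) (i := (x, z)) hV1 hV2
    rw [tz, ← e1]
    have hred : ∀ k, red c R k = k := fun k => red_free hfree k
    rcases tile_cases h (x, y) with ⟨-, c1⟩ | ⟨⟨⟨-, c0⟩, -⟩, -⟩ | ⟨⟨-, c0⟩, c1⟩ | ⟨c0, -⟩
    · rcases tile_cases h (x, y') with ⟨-, c1'⟩ | ⟨⟨⟨-, c0'⟩, -⟩, -⟩ | ⟨-, c1'⟩ | ⟨c0', -⟩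
      · rw [c1]
        have e3 : tile c R (x, y) = tile c R (x, y') := e1.trans e2.symm
        rw [c1, c1'] at e3
        simp only [Prod.mk.injEq, true_and, hred] at e3
        simp only [hred]
        have u1 : ((y : ℕ) + R / 4) / R ≤ ((z : ℕ) + R / 4) / R := Nat.div_le_div_right (by omega)
        have u2 : ((z : ℕ) + R / 4) / R ≤ ((y' : ℕ) + R / 4) / R := Nat.div_le_div_right (by omega)
        have u3 : ((z : ℕ) + R / 4) / R = ((y : ℕ) + R / 4) / R := by omega
        simp only [u3]
      · exfalso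
        simp only at c0'
        omega
      · exfalso
        have e3 : tile c R (x, y) = tile c R (x, y') := e1.trans e2.symm
        rw [c1, c1'] at e3
        simp at e3
      · exfalso
        simp only at c0'
        omega
    · exfalso
      simp only at c0
      omega
    · exfalso
      rcases tile_cases h (x, y') with ⟨-, c1'⟩ | ⟨⟨⟨-, c0'⟩, -⟩, -⟩ | ⟨-, c1'⟩ | ⟨c0', -⟩
      · have e3 : tile c R (x, y) = tile c R (x, y') := e1.trans e2.symm
        rw [c1, c1'] at e3
        simp at e3
      · simp only at c0'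
        omega
      · have e3 : tile c R (x, y) = tile c R (x, y') := e1.trans e2.symm
        rw [c1, c1'] at e3
        simp only [Prod.mk.injEq, true_and] at e3
        -- `y / R = y' / R`, `y ≤ z < R (q'+1) ≤ ...`: `y, y'` in the middle band, `z % R = R - 1`
        have b1 := Nat.div_add_mod (y : ℕ) R
        have b2 := Nat.div_add_mod (y' : ℕ) R
        have b3 := Nat.mod_lt (y' : ℕ) hp
        have u1 : (y : ℕ) / R ≤ (z : ℕ) / R := Nat.div_le_div_right hyz
        have u2 : (z : ℕ) / R ≤ (y' : ℕ) / R := Nat.div_le_div_right hzy'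
        have u3 : (y' : ℕ) / R = q' := by omega
        rw [u3] at b2
        have c2 := (tile_cases h (x, y'))
        simp only at c0
        -- `y' = R q' + y' % R ≥ z = R q' + R - 1` forces `y' % R = R - 1`, not in the middle band
        have : (y' : ℕ) % R = R - 1 := by omega
        rcases c2 with ⟨-, c3⟩ | ⟨⟨⟨-, c4⟩, -⟩, -⟩ | ⟨⟨-, c4⟩, -⟩ | ⟨c4, -⟩
        · rw [c1'] at c3
          simp at c3
        · simp only at c4
          omega
        · simp only at c4
          omega
        · simp only at c4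
          omega
      · simp only at c0'
        omega
    · exfalso
      simp only at c0
      omega

/-- **the unit sector in the vocabulary of `Entry/GoodBox.lean`** -/
theorem gbs_geoU {R : ℕ} (h : GeoOK c R) (hfree : G.bc = BC.free) (h2R : 2 * R ∣ c.n) (P : ℕ) : GoodGeoU c R P where
  gaugeB := fun S t b _ hd => gbs_box hfree R P S t b hd
  gaugeT := fun t _ hd => gbs_tile h.adm hfree h2R t hd

theorem gbs_src_sub_zone (c : Grid G) : egSrc c ⊆ zone c 1 := by
  intro i hi
  unfold egSrc at hi
  unfold zone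
  rw [Finset.mem_filter] at hi ⊢
  obtain ⟨-, h1, h2⟩ := hi
  refine ⟨Finset.mem_univ _, ?_, ?_⟩ <;> omega

/-- **POST BP-ENT-GOODGEO, exit 2** (`GBSecStmt` of the first version of `GbDefs.lean` has been replaced by `GoodGeoUStmt`) -/
theorem gb_geoU : GoodGeoUStmt := fun _ _ R h hfree h2R _ => gbs_geoU h hfree h2R (R ^ 5)

end

end Claimed.Agent.R285.Entry
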