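import Claimed.Agent.R285.Alg.Comps
import Claimed.Agent.R285.F4a.Defs

/-!
# ROW 285, post BP-ENT-GEO (#13338), file 1: the ALGEBRA of the finite expansion ([F] s4.6 = [B] s9.2), model independent.   (architect helper108)
EVERYTHING IN THIS FILE IS PROVED.

* `iso_telescope` : **the binary identity** of the isolation expansion.  `Ev` = events (proximity groups of tiles), `col` = colour (events of one colour are simultaneous),
  a PATH is `(M, σ)`: `M` = set of marks, `σ ⊆ M` = the marks at which the CUT term `- 𝓑_i · (cut weight)` of the difference is evaluated.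
  `Sk j M` : the event `j` is skipped on the paths with marks `M`;   `isoPerf Sk univ M σ` = set of PERFORMED events (not skipped, and unmarked or in `σ`): the topology of the path is a function of this set.
  `Z P` = weight of the topology in which the events of `P` are performed, `B j P` = proxy of `j` when the performed events are `P`.
      `Z ∅ = ∑_{M valid} ∑_{σ ⊆ M} (-1)^{|σ|} ∏_{j performed} B j P · Z P`,  `P = isoPerf Sk univ M σ`.
  ONLY hypothesis: `B j ·` and `Sk j ·` consult events of strictly smaller colour.  No linear order of the events appears in the statement: covariance is not destroyed.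
* `pat_regroup`     : `∑_π F π = ZA g R K`, `K X = ∑_{cover π = X} F π`  (ent:ordinary-subset), from BINARY multiplicativity of `F` over `R`-separated covers (via `Alg.ZA_of_mult`).
* `pat_regroup_lab` : `∑_π F_⋆ π = ZA1 g R K J`, `J X = ∑_{𝔠_⋆ ∪ cover π = X} F_⋆ π`  (ent:labelled-subset), (ent:occupied-label-cover).
  Items need: non-empty `R`-connected covers.  Validity / exclusion constraints are part of `F` (`F π = 0`).  "Connected pattern" is never needed: `X` connected and `cover π = X` is enough.
-/

set_option autoImplicit false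
set_option linter.unusedSectionVars false

namespace Claimed.Agent.R285.Entry

open scoped BigOperators
open Claimed.Agent.R285.RG

section telescope

variable {Ev 𝔸 : Type} [CommRing 𝔸]

/-- a set of marks is valid: no mark is skipped -/
def IsoValid (Sk : Ev → Finset Ev → Prop) (M : Finset Ev) : Prop := ∀ j ∈ M, ¬ Sk j M

/-- the events of `s` which are PERFORMED on the path with marks `M` and signed choices `σ ⊆ M` (`j ∈ σ`: the cut term of the difference) -/
noncomputable def isoPerf (Sk : Ev → Finset Ev → Prop) (s M σ : Finset Ev) : Finset Ev :=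
  @Finset.filter _ (fun j => ¬ Sk j M ∧ (j ∉ M ∨ j ∈ σ)) (Classical.decPred _) s

theorem mem_isoPerf {Sk : Ev → Finset Ev → Prop} {s M σ : Finset Ev} {j : Ev} :
    j ∈ isoPerf Sk s M σ ↔ j ∈ s ∧ ¬ Sk j M ∧ (j ∉ M ∨ j ∈ σ) := by
  unfold isoPerf
  exact @Finset.mem_filter _ _ (Classical.decPred _) _ _

/-- one signed term of the binary expansion -/
noncomputable def isoTerm (Z : Finset Ev → 𝔸) (B : Ev → Finset Ev → 𝔸) (Sk : Ev → Finset Ev → Prop) (s M σ : Finset Ev) : 𝔸 :=
  (-1) ^ σ.card * (∏ j ∈ isoPerf Sk s M σ, B j (isoPerf Sk s M σ)) * Z (isoPerf Sk s M σ)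

/-- the binary expansion after the events of `s` -/
noncomputable def isoSum (Z : Finset Ev → 𝔸) (B : Ev → Finset Ev → 𝔸) (Sk : Ev → Finset Ev → Prop) (s : Finset Ev) : 𝔸 :=
  ∑ M ∈ @Finset.filter _ (IsoValid Sk) (Classical.decPred _) s.powerset, ∑ σ ∈ M.powerset, isoTerm Z B Sk s M σ

theorem isoValid_insert [LinearOrder Ev] {Sk : Ev → Finset Ev → Prop}
    (hSk : ∀ j M M', (∀ i, i < j → (i ∈ M ↔ i ∈ M')) → (Sk j M ↔ Sk j M')) {a : Ev} {M : Finset Ev} (hM : ∀ x ∈ M, x < a) :
    IsoValid Sk (insert a M) ↔ IsoValid Sk M ∧ ¬ Sk a M := by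
  have key : ∀ j, j ≤ a → (Sk j (insert a M) ↔ Sk j M) := fun j hj => hSk j _ _ fun i hi => by
    have : i ≠ a := fun h => absurd (h ▸ hi) (not_lt.2 hj)
    simp [Finset.mem_insert, this]
  unfold IsoValid
  constructor
  · intro h
    refine ⟨fun j hj => ?_, ?_⟩
    · have := h j (Finset.mem_insert_of_mem hj)
      rwa [key j (hM j hj).le] at this
    · have := h a (Finset.mem_insert_self a M)
      rwa [key a le_rfl] at this
  · rintro ⟨h1, h2⟩ j hj
    rcases Finset.mem_insert.1 hj with rfl | hj
    · rwa [key j le_rfl]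
    · rw [key j (hM j hj).le]
      exact h1 j hj

/-- **the binary telescope** for a linear order of the events.  `B` is ANY family of numbers which is causal, `Sk` any causal skip rule. -/
theorem isoSum_eq [LinearOrder Ev] (Z : Finset Ev → 𝔸) (B : Ev → Finset Ev → 𝔸) (Sk : Ev → Finset Ev → Prop)
    (hB : ∀ j P P', (∀ i, i < j → (i ∈ P ↔ i ∈ P')) → B j P = B j P')
    (hSk : ∀ j M M', (∀ i, i < j → (i ∈ M ↔ i ∈ M')) → (Sk j M ↔ Sk j M')) (s : Finset Ev) :
    isoSum Z B Sk s = Z ∅ := by
  induction s using Finset.induction_on_max with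
  | empty =>
    have hv : IsoValid Sk (∅ : Finset Ev) := fun j hj => absurd hj (Finset.notMem_empty j)
    have e : isoPerf Sk (∅ : Finset Ev) ∅ ∅ = ∅ := by
      ext j; simp [mem_isoPerf]
    simp [isoSum, isoTerm, e, Finset.filter_singleton, hv]
  | insert a s ha ih =>
    have has : a ∉ s := fun h => lt_irrefl a (ha a h)
    have key : ∀ (M : Finset Ev) j, j ≤ a → (Sk j (insert a M) ↔ Sk j M) := fun M j hj => hSk j _ _ fun i hi => by
      have : i ≠ a := fun h => absurd (h ▸ hi) (not_lt.2 hj)
      simp [Finset.mem_insert, this]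
    rw [← ih]
    unfold isoSum
    rw [Finset.sum_filter, Finset.sum_filter, Finset.sum_powerset_insert has, ← Finset.sum_add_distrib]
    refine Finset.sum_congr rfl fun M hM => ?_
    rw [Finset.mem_powerset] at hM
    have hMa : ∀ x ∈ M, x < a := fun x hx => ha x (hM hx)
    have haM : a ∉ M := fun h => has (hM h)
    by_cases hv : IsoValid Sk M
    swap
    · have hv' : ¬ IsoValid Sk (insert a M) := fun h => hv ((isoValid_insert hSk hMa).1 h).1
      rw [if_neg hv, if_neg hv', if_neg hv, add_zero]
    rw [if_pos hv, if_pos hv]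
    by_cases hsk : Sk a M
    · have hv' : ¬ IsoValid Sk (insert a M) := fun h => ((isoValid_insert hSk hMa).1 h).2 hsk
      rw [if_neg hv', add_zero]
      refine Finset.sum_congr rfl fun σ _ => ?_
      have e : isoPerf Sk (insert a s) M σ = isoPerf Sk s M σ := by
        ext j
        simp only [mem_isoPerf, Finset.mem_insert]
        constructor
        · rintro ⟨rfl | h1, h2, h3⟩
          · exact absurd hsk h2
          · exact ⟨h1, h2, h3⟩
        · rintro ⟨h1, h2, h3⟩
          exact ⟨Or.inr h1, h2, h3⟩
      unfold isoTerm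
      rw [e]
    · have hv' : IsoValid Sk (insert a M) := (isoValid_insert hSk hMa).2 ⟨hv, hsk⟩
      rw [if_pos hv', Finset.sum_powerset_insert haM, ← Finset.sum_add_distrib, ← Finset.sum_add_distrib]
      refine Finset.sum_congr rfl fun σ hσ => ?_
      rw [Finset.mem_powerset] at hσ
      have haσ : a ∉ σ := fun h => haM (hσ h)
      set P := isoPerf Sk s M σ with hP
      have haP : a ∉ P := fun h => has (mem_isoPerf.1 h).1
      have hPa : ∀ j ∈ P, j < a := fun j hj => ha j (mem_isoPerf.1 hj).1
      have e1 : isoPerf Sk (insert a s) M σ = insert a P := by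
        ext j
        simp only [hP, mem_isoPerf, Finset.mem_insert]
        constructor
        · rintro ⟨rfl | h1, h2, h3⟩
          · exact Or.inl rfl
          · exact Or.inr ⟨h1, h2, h3⟩
        · rintro (rfl | ⟨h1, h2, h3⟩)
          · exact ⟨Or.inl rfl, hsk, Or.inl haM⟩
          · exact ⟨Or.inr h1, h2, h3⟩
      have e2 : isoPerf Sk (insert a s) (insert a M) σ = P := by
        ext j
        simp only [hP, mem_isoPerf, Finset.mem_insert]
        constructor
        · rintro ⟨rfl | h1, h2, h3⟩
          · exact absurd h3 (by simp [haσ])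
          · have hja : j ≠ a := fun h => has (h ▸ h1)
            rw [key M j (ha j h1).le] at h2
            exact ⟨h1, h2, h3.imp (fun h h' => h (Or.inr h')) id⟩
        · rintro ⟨h1, h2, h3⟩
          have hja : j ≠ a := fun h => has (h ▸ h1)
          refine ⟨Or.inr h1, by rwa [key M j (ha j h1).le], h3.imp (fun h h' => h (h'.resolve_left hja)) id⟩
      have e3 : isoPerf Sk (insert a s) (insert a M) (insert a σ) = insert a P := by
        ext j
        simp only [hP, mem_isoPerf, Finset.mem_insert]
        constructor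
        · rintro ⟨rfl | h1, h2, h3⟩
          · exact Or.inl rfl
          · have hja : j ≠ a := fun h => has (h ▸ h1)
            rw [key M j (ha j h1).le] at h2
            exact Or.inr ⟨h1, h2, h3.imp (fun h h' => h (Or.inr h')) (fun h => h.resolve_left hja)⟩
        · rintro (rfl | ⟨h1, h2, h3⟩)
          · exact ⟨Or.inl rfl, by rwa [key M j le_rfl], Or.inr (Or.inl rfl)⟩
          · have hja : j ≠ a := fun h => has (h ▸ h1)
            exact ⟨Or.inr h1, by rwa [key M j (ha j h1).le],
              h3.imp (fun h h' => h (h'.resolve_left hja)) Or.inr⟩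
      have e4 : ∏ j ∈ insert a P, B j (insert a P) = B a (insert a P) * ∏ j ∈ P, B j P := by
        rw [Finset.prod_insert haP]
        congr 1
        refine Finset.prod_congr rfl fun j hj => hB j _ _ fun i hi => ?_
        have : i ≠ a := fun h => absurd (h ▸ hi) (not_lt.2 (hPa j hj).le)
        simp [Finset.mem_insert, this]
      unfold isoTerm
      rw [e1, e2, e3, e4, Finset.card_insert_of_notMem haσ, ← hP]
      ring

/-- **the binary telescope with colours** (events of one colour are simultaneous): the proxy `B j P` and the skip rule `Sk j M` of an event only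
consult events of strictly smaller colour.  No other hypothesis: the identity is a trivial telescope for ANY numbers `B`. -/
theorem iso_telescope [Fintype Ev] (col : Ev → ℕ) (Z : Finset Ev → 𝔸) (B : Ev → Finset Ev → 𝔸) (Sk : Ev → Finset Ev → Prop)
    (hB : ∀ j P P', (∀ i, col i < col j → (i ∈ P ↔ i ∈ P')) → B j P = B j P')
    (hSk : ∀ j M M', (∀ i, col i < col j → (i ∈ M ↔ i ∈ M')) → (Sk j M ↔ Sk j M')) :
    isoSum Z B Sk Finset.univ = Z ∅ := by
  let f : Ev → ℕ ×ₗ Fin (Fintype.card Ev) := fun x => toLex (col x, Fintype.equivFin Ev x)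
  have hf : Function.Injective f := fun x y h => by
    have h2 : (col x, Fintype.equivFin Ev x) = (col y, Fintype.equivFin Ev y) := toLex.injective h
    exact (Fintype.equivFin Ev).injective (Prod.ext_iff.1 h2).2
  let _ : LinearOrder Ev := LinearOrder.lift' f hf
  have hlt : ∀ i j : Ev, col i < col j → i < j := fun i j h => by
    show f i < f j
    exact Prod.Lex.toLex_lt_toLex.2 (Or.inl h)
  exact isoSum_eq Z B Sk (fun j P P' h => hB j P P' fun i hi => h i (hlt i j hi))
    (fun j M M' h => hSk j M M' fun i hi => h i (hlt i j hi)) Finset.univ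

end telescope

/-! ## Regrouping of pattern sums into the subset functional -/

section regroup

open Claimed.Agent.R285.Alg Claimed.Agent.R285.F4a
open Classical

variable {G : Geom} {g : Grid G} {R : ℕ} {It 𝔸 : Type} [Fintype It] [CommRing 𝔸]

/-- the occupied cover of a pattern, (ent:occupied-cover) -/
noncomputable def patCov (cov : It → Finset g.I) (π : Finset It) : Finset g.I := π.biUnion cov

/-- the sum of the pattern weights with a given occupied cover -/
noncomputable def patW (cov : It → Finset g.I) (F : Finset It → 𝔸) (V : Finset g.I) : 𝔸 :=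
  ∑ π ∈ Finset.univ.filter (fun π : Finset It => patCov cov π = V), F π

theorem patCov_union (cov : It → Finset g.I) (π₁ π₂ : Finset It) :
    patCov cov (π₁ ∪ π₂) = patCov cov π₁ ∪ patCov cov π₂ := Finset.union_biUnion

theorem patCov_eq_empty {cov : It → Finset g.I} (hne : ∀ I, (cov I).Nonempty) {π : Finset It}
    (h : patCov cov π = ∅) : π = ∅ := by
  by_contra hπ
  obtain ⟨I, hI⟩ := Finset.nonempty_iff_ne_empty.2 hπ
  obtain ⟨b, hb⟩ := hne I
  have : b ∈ patCov cov π := Finset.mem_biUnion.2 ⟨I, hI, hb⟩
  rw [h] at this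
  exact absurd this (Finset.notMem_empty b)

theorem patW_total (cov : It → Finset g.I) (F : Finset It → 𝔸) :
    ∑ V : Finset g.I, patW cov F V = ∑ π : Finset It, F π := by
  unfold patW
  exact Finset.sum_fiberwise _ _ _

theorem patW_empty {cov : It → Finset g.I} (hne : ∀ I, (cov I).Nonempty) (F : Finset It → 𝔸) :
    patW cov F ∅ = F ∅ := by
  unfold patW
  have : Finset.univ.filter (fun π : Finset It => patCov cov π = (∅ : Finset g.I)) = {∅} := by
    ext π
    simp only [Finset.mem_filter, Finset.mem_univ, true_and, Finset.mem_singleton]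
    exact ⟨patCov_eq_empty hne, fun h => by rw [h]; rfl⟩
  rw [this, Finset.sum_singleton]

/-- splitting of a pattern along two separated block sets; `C0 ⊆ V1` is a compulsory part of the cover (`∅` in the ordinary sector) -/
theorem pat_split' {cov : It → Finset g.I} (hne : ∀ I, (cov I).Nonempty) (hconn : ∀ I, g.Conn R (cov I))
    {C0 V1 V2 : Finset g.I} (h : g.Sep R V1 V2) (hC : C0 ⊆ V1) {M : Type} [AddCommMonoid M] (f : Finset It → M) :
    ∑ π ∈ Finset.univ.filter (fun π : Finset It => C0 ∪ patCov cov π = V1 ∪ V2), f π =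
      ∑ π₁ ∈ Finset.univ.filter (fun π : Finset It => C0 ∪ patCov cov π = V1),
        ∑ π₂ ∈ Finset.univ.filter (fun π : Finset It => patCov cov π = V2), f (π₁ ∪ π₂) := by
  have hd : Disjoint V1 V2 := sep_disjoint h
  have hnot : ∀ I, cov I ⊆ V1 → cov I ⊆ V2 → False := fun I h1 h2 => by
    obtain ⟨b, hb⟩ := hne I
    exact Finset.disjoint_left.1 hd (h1 hb) (h2 hb)
  have hsub' : ∀ π : Finset It, C0 ∪ patCov cov π = V1 ∪ V2 → ∀ I ∈ π, cov I ⊆ V1 ∪ V2 := fun π hπ I hI => by
    rw [← hπ]; exact (Finset.subset_biUnion_of_mem cov hI).trans Finset.subset_union_right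
  have hre : ∀ π : Finset It, C0 ∪ patCov cov π = V1 ∪ V2 →
      (π.filter fun I => cov I ⊆ V1) ∪ (π.filter fun I => cov I ⊆ V2) = π := fun π hπ => by
    ext I
    simp only [Finset.mem_union, Finset.mem_filter]
    constructor
    · rintro (h1 | h1) <;> exact h1.1
    · intro hI
      rcases conn_sub_of_sep (hconn I) (hsub' π hπ I hI) h with h1 | h2
      · exact Or.inl ⟨hI, h1⟩
      · exact Or.inr ⟨hI, h2⟩
  rw [← Finset.sum_product']
  refine Finset.sum_nbij' (fun π => (π.filter fun I => cov I ⊆ V1, π.filter fun I => cov I ⊆ V2))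
    (fun q => q.1 ∪ q.2) ?_ ?_ ?_ ?_ ?_
  · intro π hπ
    simp only [Finset.mem_filter, Finset.mem_univ, true_and] at hπ
    have hsub := hsub' π hπ
    simp only [Finset.mem_product, Finset.mem_filter, Finset.mem_univ, true_and]
    constructor
    · apply Finset.Subset.antisymm
      · intro b hb
        rcases Finset.mem_union.1 hb with hb | hb
        · exact hC hb
        · obtain ⟨I, hI, hbI⟩ := Finset.mem_biUnion.1 hb
          exact (Finset.mem_filter.1 hI).2 hbI
      · intro b hb
        have : b ∈ C0 ∪ patCov cov π := by rw [hπ]; exact Finset.mem_union_left _ hb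
        rcases Finset.mem_union.1 this with hb0 | this
        · exact Finset.mem_union_left _ hb0
        obtain ⟨I, hI, hbI⟩ := Finset.mem_biUnion.1 this
        refine Finset.mem_union_right _ (Finset.mem_biUnion.2 ⟨I, Finset.mem_filter.2 ⟨hI, ?_⟩, hbI⟩)
        rcases conn_sub_of_sep (hconn I) (hsub I hI) h with h1 | h2
        · exact h1
        · exact absurd (h2 hbI) (Finset.disjoint_left.1 hd hb)
    · apply Finset.Subset.antisymm
      · intro b hb
        obtain ⟨I, hI, hbI⟩ := Finset.mem_biUnion.1 hb
        exact (Finset.mem_filter.1 hI).2 hbI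
      · intro b hb
        have : b ∈ C0 ∪ patCov cov π := by rw [hπ]; exact Finset.mem_union_right _ hb
        rcases Finset.mem_union.1 this with hb0 | this
        · exact absurd hb (Finset.disjoint_left.1 hd (hC hb0))
        obtain ⟨I, hI, hbI⟩ := Finset.mem_biUnion.1 this
        refine Finset.mem_biUnion.2 ⟨I, Finset.mem_filter.2 ⟨hI, ?_⟩, hbI⟩
        rcases conn_sub_of_sep (hconn I) (hsub I hI) h with h1 | h2
        · exact absurd hb (Finset.disjoint_left.1 hd (h1 hbI))
        · exact h2
  · intro q hq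
    simp only [Finset.mem_product, Finset.mem_filter, Finset.mem_univ, true_and] at hq ⊢
    rw [patCov_union, ← Finset.union_assoc, hq.1, hq.2]
  · intro π hπ
    simp only [Finset.mem_filter, Finset.mem_univ, true_and] at hπ
    exact hre π hπ
  · intro q hq
    simp only [Finset.mem_product, Finset.mem_filter, Finset.mem_univ, true_and] at hq
    have s1 : ∀ I ∈ q.1, cov I ⊆ V1 := fun I hI => by
      rw [← hq.1]; exact (Finset.subset_biUnion_of_mem cov hI).trans Finset.subset_union_right
    have s2 : ∀ I ∈ q.2, cov I ⊆ V2 := fun I hI => by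
      rw [← hq.2]; exact Finset.subset_biUnion_of_mem cov hI
    ext1
    · ext I
      simp only [Finset.mem_filter, Finset.mem_union]
      constructor
      · rintro ⟨h1 | h1, h2⟩
        · exact h1
        · exact (hnot I h2 (s2 I h1)).elim
      · intro hI
        exact ⟨Or.inl hI, s1 I hI⟩
    · ext I
      simp only [Finset.mem_filter, Finset.mem_union]
      constructor
      · rintro ⟨h1 | h1, h2⟩
        · exact (hnot I (s1 I h1) h2).elim
        · exact h1
      · intro hI
        exact ⟨Or.inr hI, s2 I hI⟩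
  · intro π hπ
    simp only [Finset.mem_filter, Finset.mem_univ, true_and] at hπ
    rw [hre π hπ]

theorem pat_split {cov : It → Finset g.I} (hne : ∀ I, (cov I).Nonempty) (hconn : ∀ I, g.Conn R (cov I))
    {V1 V2 : Finset g.I} (h : g.Sep R V1 V2) {M : Type} [AddCommMonoid M] (f : Finset It → M) :
    ∑ π ∈ Finset.univ.filter (fun π : Finset It => patCov cov π = V1 ∪ V2), f π =
      ∑ π₁ ∈ Finset.univ.filter (fun π : Finset It => patCov cov π = V1),
        ∑ π₂ ∈ Finset.univ.filter (fun π : Finset It => patCov cov π = V2), f (π₁ ∪ π₂) := by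
  have := pat_split' hne hconn (C0 := ∅) h (Finset.empty_subset _) f
  simpa only [Finset.empty_union] using this

theorem patW_mul {cov : It → Finset g.I} (hne : ∀ I, (cov I).Nonempty) (hconn : ∀ I, g.Conn R (cov I))
    {F : Finset It → 𝔸}
    (hmul : ∀ π₁ π₂, g.Sep R (patCov cov π₁) (patCov cov π₂) → F (π₁ ∪ π₂) = F π₁ * F π₂)
    (V1 V2 : Finset g.I) (h : g.Sep R V1 V2) : patW cov F (V1 ∪ V2) = patW cov F V1 * patW cov F V2 := by
  unfold patW
  rw [pat_split hne hconn h, Finset.sum_mul_sum]
  refine Finset.sum_congr rfl fun π₁ h1 => Finset.sum_congr rfl fun π₂ h2 => ?_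
  simp only [Finset.mem_filter, Finset.mem_univ, true_and] at h1 h2
  exact hmul π₁ π₂ (by rw [h1, h2]; exact h)

/-- **regrouping, ordinary sector**: a sum over patterns whose weight factorises over `R`-separated covers is the subset functional of
`K X = ∑_{cover π = X} F π`.  (Validity constraints are part of `F`: `F π = 0` for an invalid pattern.) -/
theorem pat_regroup {cov : It → Finset g.I} (hne : ∀ I, (cov I).Nonempty) (hconn : ∀ I, g.Conn R (cov I))
    {F : Finset It → 𝔸} (h0 : F ∅ = 1)
    (hmul : ∀ π₁ π₂, g.Sep R (patCov cov π₁) (patCov cov π₂) → F (π₁ ∪ π₂) = F π₁ * F π₂)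
    (K : Finset g.I → 𝔸) (hK : ∀ Y, g.Conn R Y → K Y = patW cov F Y) :
    ZA g R K = ∑ π : Finset It, F π := by
  rw [ZA_of_mult K (patW cov F) (by rw [patW_empty hne, h0]) (patW_mul hne hconn hmul) hK, patW_total]

/-- the sum of the labelled pattern weights with a given occupied cover, (ent:occupied-label-cover) -/
noncomputable def patWs (cov : It → Finset g.I) (Cs : Finset g.I) (Fs : Finset It → 𝔸) (V : Finset g.I) : 𝔸 :=
  ∑ π ∈ Finset.univ.filter (fun π : Finset It => Cs ∪ patCov cov π = V), Fs π

theorem patWs_eq_zero (cov : It → Finset g.I) {Cs : Finset g.I} (Fs : Finset It → 𝔸) {V : Finset g.I} (h : ¬ Cs ⊆ V) :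
    patWs cov Cs Fs V = 0 := by
  unfold patWs
  refine Finset.sum_eq_zero fun π hπ => ?_
  simp only [Finset.mem_filter, Finset.mem_univ, true_and] at hπ
  exact absurd (hπ ▸ Finset.subset_union_left) h

/-- **regrouping, labelled sector**: every pattern carries exactly one compulsory marker with cover `Cs`; `Fs π` is the weight of the pattern
`π ∪ {I_⋆}`, `F` the ordinary weight of the same sector. -/
theorem pat_regroup_lab {cov : It → Finset g.I} (hne : ∀ I, (cov I).Nonempty) (hconn : ∀ I, g.Conn R (cov I))
    {Cs : Finset g.I} (hCs : g.Conn R Cs) {F Fs : Finset It → 𝔸} (h0 : F ∅ = 1)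
    (hmul : ∀ π₁ π₂, g.Sep R (patCov cov π₁) (patCov cov π₂) → F (π₁ ∪ π₂) = F π₁ * F π₂)
    (hmulS : ∀ π₁ π₂, g.Sep R (Cs ∪ patCov cov π₁) (patCov cov π₂) → Fs (π₁ ∪ π₂) = Fs π₁ * F π₂)
    (K J : Finset g.I → 𝔸) (hK : ∀ Y, g.Conn R Y → K Y = patW cov F Y)
    (hJ : ∀ Y, g.Conn R Y → J Y = patWs cov Cs Fs Y) :
    ZA1 g R K J = ∑ π : Finset It, Fs π := by
  have htot : ∑ V : Finset g.I, patWs cov Cs Fs V = ∑ π : Finset It, Fs π := by
    unfold patWs
    exact Finset.sum_fiberwise _ _ _
  rw [← htot]
  unfold ZA1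
  refine Finset.sum_congr rfl fun V _ => ?_
  by_cases hV : Cs ⊆ V
  swap
  · rw [patWs_eq_zero cov Fs hV]
    refine Finset.sum_eq_zero fun X hX => ?_
    rw [hJ X (comps_conn hX), patWs_eq_zero cov Fs (fun h => hV (h.trans (comps_subset hX))), zero_mul]
  obtain ⟨a, ha⟩ := hCs.1
  obtain ⟨X₀, hX₀, haX₀⟩ := comps_cover (R := R) (hV ha)
  have hsep := comps_sep_sdiff hX₀
  have hVe : X₀ ∪ (V \ X₀) = V := Finset.union_sdiff_of_subset (comps_subset hX₀)
  have hCX : Cs ⊆ X₀ := by
    rcases conn_sub_of_sep hCs (by rw [hVe]; exact hV) hsep with h1 | h2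
    · exact h1
    · exact absurd haX₀ (Finset.mem_sdiff.1 (h2 ha)).2
  rw [Finset.sum_eq_single_of_mem X₀ hX₀ (fun X hX hne' => by
    have hdis := comps_disjoint hX hX₀ hne'
    rw [hJ X (comps_conn hX), patWs_eq_zero cov Fs (fun h => Finset.disjoint_left.1 hdis (h ha) haX₀), zero_mul])]
  have hcomps : (g.comps R V).erase X₀ = g.comps R (V \ X₀) := by
    conv_lhs => rw [← hVe, comps_union hsep, comps_self (comps_conn hX₀)]
    have hd := comps_union_disjoint hsep
    rw [comps_self (comps_conn hX₀)] at hd
    rw [Finset.erase_union_distrib, Finset.erase_singleton, Finset.empty_union,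
      Finset.erase_eq_of_notMem (Finset.disjoint_singleton_left.1 hd)]
  rw [hcomps, hJ X₀ (comps_conn hX₀)]
  have h2 : ∏ X' ∈ g.comps R (V \ X₀), K X' = patW cov F (V \ X₀) := by
    rw [mult_eq_prod (patW cov F) (by rw [patW_empty hne, h0]) (patW_mul hne hconn hmul) (V \ X₀)]
    exact Finset.prod_congr rfl fun Y hY => hK Y (comps_conn hY)
  rw [h2]
  conv_rhs => rw [← hVe]
  unfold patWs patW
  rw [pat_split' hne hconn hsep hCX, Finset.sum_mul_sum]
  refine Finset.sum_congr rfl fun π₁ h1 => Finset.sum_congr rfl fun π₂ h2 => ?_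
  simp only [Finset.mem_filter, Finset.mem_univ, true_and] at h1 h2
  exact (hmulS π₁ π₂ (by rw [h1, h2]; exact hsep)).symm

end regroup

end Claimed.Agent.R285.Entry
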