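import Claimed.Agent.R285.Entry.NtDefs
import Claimed.Agent.R285.Ent.Iso

/-!
# ROW 285, ENTRY, post NORM (#13340, architect helper229): BASIC FACTS ABOUT `Phy`.   Prefix `nt_`.   Paper-free.
Vocabulary: `Entry/PhyDefs.lean`, `Entry/NtDefs.lean`, `Ent/Defs.lean`, `Entry/Fac.lean`; kit: `Entry/FacKit.lean`, `Entry/Norm.lean`.   Only the DEFINITIONS of `topU`, `cutF`, `core`, `seam`, `nbh` are used (not the shape of the tiles).
LEAVES: L-NT-TOP (s1), L-NT-CAST (s2), L-NT-POS (s3), L-NT-FFS (s4), L-NT-BRK (s5), L-NT-DL (s6).   Helper lemmas: directly above the statement, same prefix.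
-/

set_option autoImplicit false

namespace Claimed.Agent.R285.Entry

open scoped BigOperators
open Claimed.Agent.R285 Claimed.Agent.R285.RG Claimed.Agent.R285.F4a Claimed.Agent.R285.Ent Fac

noncomputable section

variable {G : Geom} {c : Grid G}

/-! ## 1. Algebra of cut topologies  (L-NT-TOP) -/

theorem nt_ok_full : (Top.full c).Ok := by
  intro f hf
  exact ⟨mem_full_faces.1 hf, Finset.mem_univ _, Finset.mem_univ _⟩

theorem nt_mem_restr_faces {T : Top c} {O : Finset c.I} {f : Face c} :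
    f ∈ (T.restr O).faces ↔ f ∈ T.faces ∧ f.1 ∈ O ∧ fnb c f ∈ O := by
  classical
  unfold Top.restr
  simp only [Finset.mem_filter]

theorem nt_ok_restr (T : Top c) (hT : T.Ok) (O : Finset c.I) : (T.restr O).Ok := by
  classical
  intro f hf
  have h := nt_mem_restr_faces.1 hf
  obtain ⟨h1, h2, h3⟩ := hT f h.1
  exact ⟨h1, Finset.mem_inter.2 ⟨h2, h.2.1⟩, Finset.mem_inter.2 ⟨h3, h.2.2⟩⟩

theorem nt_ok_cut (T : Top c) (hT : T.Ok) (E : Finset (Face c)) : (T.cut E).Ok := by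
  intro f hf
  exact hT f (Finset.mem_sdiff.1 hf).1

theorem nt_ok_topU (R : ℕ) (U : Finset EvId) : (topU c R U).Ok := by
  exact nt_ok_cut _ nt_ok_full _

theorem nt_ok_halTop (R : ℕ) (S O : Finset EvId) : (halTop c R S O).Ok := by
  exact nt_ok_restr _ (nt_ok_topU _ _) _

theorem nt_restr_restr_of_sub (T : Top c) {A B : Finset c.I} (h : B ⊆ A) : (T.restr A).restr B = T.restr B := by
  rw [restr_restr, Finset.inter_eq_right.2 h]

theorem nt_cutF_core {R : ℕ} {k : EvId} {f : Face c} (hf : f ∈ cutF c R k) : IsFace c f ∧ f.1 ∈ core c R k ∧ fnb c f ∈ core c R k := by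
  refine ⟨(mem_seam.1 (Finset.mem_filter.1 hf).1).1, ?_, ?_⟩
  · exact Finset.mem_union_left _ (Finset.mem_image_of_mem Prod.fst hf)
  · exact Finset.mem_union_right _ (Finset.mem_image_of_mem (fnb c) hf)

theorem nt_cutF_disj {R : ℕ} {k k' : EvId} (h : k ≠ k') : Disjoint (cutF c R k) (cutF c R k') := by
  rw [Finset.disjoint_left]
  intro f h1 h2
  exact h ((Finset.mem_filter.1 h1).2.symm.trans (Finset.mem_filter.1 h2).2)

theorem nt_mem_cutF {R : ℕ} {k : EvId} {f : Face c} :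
    f ∈ cutF c R k ↔ (IsFace c f ∧ tile c R (fnb c f) ≠ tile c R f.1) ∧ evKey c R f = k := by
  unfold cutF
  rw [Finset.mem_filter, mem_seam]

/-- restoring the events of `O` = glueing their faces -/
theorem nt_topU_union (R : ℕ) (U O : Finset EvId) (D : Finset c.I) (hd : Disjoint O U) (hD : ∀ k ∈ O, core c R k ⊆ D) :
    (topU c R (U ∪ O)).restr D = ⟨((topU c R U).restr D).cells, ((topU c R U).restr D).faces ∪ O.biUnion (cutF c R)⟩ ∧
      Disjoint (O.biUnion (cutF c R)) ((topU c R U).restr D).faces := by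
  constructor
  · refine top_ext rfl ?_
    ext f
    simp only [Finset.mem_union, Finset.mem_biUnion, nt_mem_restr_faces, mem_topU_faces, nt_mem_cutF]
    constructor
    · rintro ⟨⟨h1, h2⟩, h3⟩
      rcases h2 with h2 | h2 | h2
      · exact Or.inl ⟨⟨h1, Or.inl h2⟩, h3⟩
      · exact Or.inl ⟨⟨h1, Or.inr h2⟩, h3⟩
      · by_cases h4 : tile c R (fnb c f) = tile c R f.1
        · exact Or.inl ⟨⟨h1, Or.inl h4⟩, h3⟩
        · exact Or.inr ⟨_, h2, ⟨h1, h4⟩, rfl⟩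
    · rintro (⟨⟨h1, h2⟩, h3⟩ | ⟨k, hk, ⟨h1, h2⟩, h3⟩)
      · exact ⟨⟨h1, h2.imp id Or.inl⟩, h3⟩
      · have hf : f ∈ cutF c R k := nt_mem_cutF.2 ⟨⟨h1, h2⟩, h3⟩
        have := nt_cutF_core hf
        exact ⟨⟨h1, Or.inr (Or.inr (h3 ▸ hk))⟩, hD k hk this.2.1, hD k hk this.2.2⟩
  · rw [Finset.disjoint_left]
    intro f h1 h2
    obtain ⟨k, hk, hf⟩ := Finset.mem_biUnion.1 h1
    rw [nt_mem_cutF] at hf
    rw [nt_mem_restr_faces, mem_topU_faces] at h2
    rcases h2.1.2 with h3 | h3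
    · exact hf.1.2 h3
    · exact Finset.disjoint_left.1 hd hk (hf.2 ▸ h3)

theorem nt_topU_insert (R : ℕ) (U : Finset EvId) (k : EvId) (D : Finset c.I) (hk : k ∉ U) (hD : core c R k ⊆ D) :
    (topU c R (insert k U)).restr D = ⟨((topU c R U).restr D).cells, ((topU c R U).restr D).faces ∪ cutF c R k⟩ ∧
      Disjoint (cutF c R k) ((topU c R U).restr D).faces := by
  have := nt_topU_union R U {k} D (Finset.disjoint_singleton_left.2 hk) (fun k' hk' => by rw [Finset.mem_singleton.1 hk']; exact hD)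
  rwa [Finset.singleton_biUnion, Finset.union_comm U, ← Finset.insert_eq] at this

/-- the two topologies of a step differ only at the core -/
theorem nt_disc_insert (R : ℕ) (U : Finset EvId) (k : EvId) (D : Finset c.I) :
    ((topU c R (insert k U)).restr D).disc ((topU c R U).restr D) ⊆ core c R k := by
  classical
  intro i hi
  unfold Top.disc at hi
  rw [Finset.mem_filter] at hi
  rcases hi.2 with h | ⟨f, h1, h2⟩
  · exact absurd Iff.rfl h
  · have hf : f ∈ cutF c R k := by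
      rw [nt_mem_cutF]
      simp only [nt_mem_restr_faces, mem_topU_faces, Finset.mem_insert] at h2
      by_contra hcon
      apply h2
      constructor
      · rintro ⟨⟨a1, a2⟩, a3⟩
        refine ⟨⟨a1, ?_⟩, a3⟩
        rcases a2 with a2 | a2 | a2
        · exact Or.inl a2
        · by_cases h4 : tile c R (fnb c f) = tile c R f.1
          · exact Or.inl h4
          · exact absurd ⟨⟨a1, h4⟩, a2⟩ hcon
        · exact Or.inr a2
      · rintro ⟨⟨a1, a2⟩, a3⟩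
        exact ⟨⟨a1, a2.imp id Or.inr⟩, a3⟩
    have := nt_cutF_core hf
    rcases h1 with rfl | rfl
    · exact this.2.1
    · exact this.2.2

/-- a topology and its cut differ only at the removed faces -/
theorem nt_disc_cut (T : Top c) (E : Finset (Face c)) : T.disc (T.cut E) ⊆ E.image Prod.fst ∪ E.image (fnb c) := by
  classical
  intro i hi
  unfold Top.disc at hi
  rw [Finset.mem_filter] at hi
  rcases hi.2 with h | ⟨f, h1, h2⟩
  · exact absurd Iff.rfl h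
  · have hf : f ∈ E := by
      by_contra hcon
      apply h2
      show f ∈ T.faces ↔ f ∈ T.faces \ E
      rw [Finset.mem_sdiff]
      tauto
    rcases h1 with rfl | rfl
    · exact Finset.mem_union_left _ (Finset.mem_image_of_mem Prod.fst hf)
    · exact Finset.mem_union_right _ (Finset.mem_image_of_mem (fnb c) hf)

/-- the faces of a restricted cut topology are original faces of the region -/
theorem nt_faces_sub (R : ℕ) (U : Finset EvId) (D : Finset c.I) : ((topU c R U).restr D).faces ⊆ ((Top.full c).restr D).faces := by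
  intro f hf
  rw [nt_mem_restr_faces, mem_topU_faces] at hf
  rw [nt_mem_restr_faces, mem_full_faces]
  exact ⟨hf.1.1, hf.2⟩

/-- without events: no face between different tiles -/
theorem nt_topU_empty_face {R : ℕ} {f : Face c} (hf : f ∈ (topU c R ∅).faces) : IsFace c f ∧ tile c R (fnb c f) = tile c R f.1 := by
  rw [mem_topU_faces] at hf
  exact ⟨hf.1, hf.2.resolve_right (Finset.notMem_empty _)⟩

theorem nt_tileTop_eq (R : ℕ) (t : Tile) : tileTop c R t = (topU c R ∅).restr (cellsOf c R {t}) := by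
  exact (topU_restr_tile R ∅ t).symm

theorem nt_idist1_self (x : Fin c.n) : c.idist1 x x = 0 := by
  unfold Grid.idist1
  cases G.bc <;> simp

theorem nt_idist1_nx (x : Fin c.n) (hf : G.bc = BC.per ∨ (x : ℕ) + 1 < c.n) : c.idist1 x (nx x) ≤ 1 := by
  have hx := x.2
  unfold Grid.idist1
  by_cases h1 : (x : ℕ) + 1 < c.n
  · have e : (nx x : ℕ) = x + 1 := Nat.mod_eq_of_lt h1
    cases G.bc <;> simp only [e] <;> omega
  · have hb : G.bc = BC.per := hf.resolve_right h1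
    have e : (nx x : ℕ) = 0 := by
      show ((x : ℕ) + 1) % c.n = 0
      rw [show (x : ℕ) + 1 = c.n by omega]; exact Nat.mod_self _
    rw [hb]
    simp only [e]
    omega

theorem nt_face_dist {f : Face c} (hf : IsFace c f) : c.idist f.1 (fnb c f) ≤ 1 := by
  obtain ⟨⟨x, y⟩, d⟩ := f
  cases d
  · have hF' : G.bc = BC.per ∨ (y : ℕ) + 1 < c.n := by simpa [IsFace] using hf
    show max (c.idist1 x x) (c.idist1 y (nx y)) ≤ 1
    rw [nt_idist1_self]
    exact max_le (Nat.zero_le _) (nt_idist1_nx y hF')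
  · have hF' : G.bc = BC.per ∨ (x : ℕ) + 1 < c.n := by simpa [IsFace] using hf
    show max (c.idist1 x (nx x)) (c.idist1 y y) ≤ 1
    rw [nt_idist1_self]
    exact max_le (nt_idist1_nx x hF') (Nat.zero_le _)

/-! ## 2. Real observations  (L-NT-CAST) -/

variable (Y : Phy c)

theorem nt_w_cast (y : c.I → ℝ) (f : Face c) : Y.W.w (fun i => (y i : ℂ)) f = ((Y.w y f : ℝ) : ℂ) := by
  unfold Wt.w wfC Phy.w wf
  push_cast
  ring

theorem nt_En_cast (T : Top c) (y : c.I → ℝ) : Y.W.En T (fun i => (y i : ℂ)) = ((Y.E T y : ℝ) : ℂ) := by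
  unfold Wt.En Phy.E
  simp only [nt_w_cast]
  push_cast
  rfl

theorem nt_prox_cast (k : EvId) (y : c.I → ℝ) : Y.W.prox Y.R k (fun i => (y i : ℂ)) = ((Y.prox k y : ℝ) : ℂ) := by
  unfold Wt.prox Phy.prox Phy.Ck
  rw [nt_En_cast, nt_En_cast]
  push_cast
  rfl

theorem nt_tdiv_cast (t : Tile) (y : c.I → ℝ) : Y.W.tdiv Y.R t (fun i => (y i : ℂ)) = ((Y.tdiv t y : ℝ) : ℂ) := by
  unfold Wt.tdiv Phy.tdiv
  rw [nt_En_cast]
  push_cast
  rfl

theorem nt_tfac_cast (hY : Y.Ok) (t : Tile) (y : c.I → ℝ) : Y.W.tfac Y.R t (fun i => (y i : ℂ)) = ((Y.tfac t y : ℝ) : ℂ) := by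
  unfold Wt.tfac Phy.tfac
  rw [hY.Zh_eq (tileTop c Y.R t) (nt_ok_restr _ nt_ok_full _), nt_tdiv_cast]
  push_cast
  rfl

theorem nt_haloTerm_cast (hY : Y.Ok) (S O : Finset EvId) (y : c.I → ℝ) :
    Y.W.haloTerm Y.R S O (fun i => (y i : ℂ)) = ((Y.hterm S O y : ℝ) : ℂ) := by
  unfold Wt.haloTerm Phy.hterm
  rw [hY.Zh_eq _ (nt_ok_halTop _ _ _)]
  simp only [nt_prox_cast, nt_tdiv_cast]
  push_cast
  rfl

theorem nt_En_restr_congr {W : Wt c} (hW : W.Str) (T : Top c) (O : Finset c.I) {y y' : c.I → ℂ} (h : ∀ i ∈ O, y i = y' i) :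
    W.En (T.restr O) y = W.En (T.restr O) y' := by
  unfold Wt.En
  refine Finset.sum_congr rfl fun f _ => Finset.sum_congr rfl fun f' _ => ?_
  have key : ∀ f ∈ (T.restr O).faces, W.w y f = W.w y' f := by
    intro f hf
    have := nt_mem_restr_faces.1 hf
    unfold Wt.w wfC
    rw [h _ this.2.1, h _ this.2.2]
  by_cases hf : f ∈ (T.restr O).faces
  · by_cases hf' : f' ∈ (T.restr O).faces
    · rw [key f hf, key f' hf']
    · rw [hW.Q_supp _ f f' (Or.inr hf')]; simp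
  · rw [hW.Q_supp _ f f' (Or.inl hf)]; simp

theorem nt_Zh_restr_congr {W : Wt c} (hW : W.Str) (T : Top c) (O : Finset c.I) {y y' : c.I → ℂ} (h : ∀ i ∈ O, y i = y' i) :
    W.Zh (T.restr O) y = W.Zh (T.restr O) y' :=
  hW.Zh_loc _ _ _ (fun i hi => h i (Finset.mem_inter.1 hi).2)
    (fun _ hf => ⟨h _ (nt_mem_restr_faces.1 hf).2.1, h _ (nt_mem_restr_faces.1 hf).2.2⟩)

theorem nt_tdiv_congr {W : Wt c} (hW : W.Str) (R : ℕ) (t : Tile) {y y' : c.I → ℂ} (h : ∀ i ∈ cellsOf c R {t}, y i = y' i) :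
    W.tdiv R t y = W.tdiv R t y' := by
  unfold Wt.tdiv tileTop
  rw [nt_En_restr_congr hW _ _ h]

theorem nt_prox_congr {W : Wt c} (hW : W.Str) (R : ℕ) (k : EvId) {y y' : c.I → ℂ} (h : ∀ i ∈ patch c R k, y i = y' i) :
    W.prox R k y = W.prox R k y' := by
  unfold Wt.prox topO topC
  rw [nt_En_restr_congr hW _ _ h, nt_En_restr_congr hW _ _ h]

theorem nt_patch_halC {R : ℕ} {S : Finset EvId} {k : EvId} (hk : k ∈ S ∪ skp c R S) : patch c R k ⊆ halC c R S := by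
  intro i hi
  have h1 : i ∈ ctl c R k := (Finset.mem_inter.1 hi).2
  obtain ⟨j, hj, hji⟩ := Finset.mem_image.1 (mem_cellsOf.1 h1)
  exact mem_cellsOf.2 (hji ▸ tile_mem_halT hk hj)

/-- locality of the halo factor: `Zh_loc`, `Q_supp`; every topology which occurs (`halTop`, `topO k`, `topC k` for `k ∈ skp S ∪ S`, `tileTop t` for `t ∈ halT S`) lives in `halC S` -/
theorem nt_haloTerm_loc (hW : Y.W.Str) (hg : NGeo c Y.R) {S O : Finset EvId} (hO : O ⊆ S) (y y' : c.I → ℂ) (h : ∀ i ∈ halC c Y.R S, y i = y' i) :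
    Y.W.haloTerm Y.R S O y = Y.W.haloTerm Y.R S O y' := by
  unfold Wt.haloTerm halTop
  rw [nt_Zh_restr_congr hW _ _ h]
  have h1 : ∏ k ∈ skp c Y.R S ∪ O, Y.W.prox Y.R k y = ∏ k ∈ skp c Y.R S ∪ O, Y.W.prox Y.R k y' := by
    refine Finset.prod_congr rfl fun k hk => nt_prox_congr hW Y.R k fun i hi => h i ?_
    have hk' : k ∈ S ∪ skp c Y.R S := by
      rcases Finset.mem_union.1 hk with hk | hk
      · exact Finset.mem_union_right _ hk
      · exact Finset.mem_union_left _ (hO hk)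
    exact nt_patch_halC hk' hi
  have h2 : ∏ t ∈ halT c Y.R S, Y.W.tdiv Y.R t y = ∏ t ∈ halT c Y.R S, Y.W.tdiv Y.R t y' :=
    Finset.prod_congr rfl fun t ht => nt_tdiv_congr hW Y.R t fun i hi =>
      h i (mem_cellsOf.2 (by rw [Finset.mem_singleton.1 (mem_cellsOf.1 hi)]; exact ht))
  rw [h1, h2]

theorem nt_tfac_loc (hW : Y.W.Str) (t : Tile) (y y' : c.I → ℂ) (h : ∀ i ∈ cellsOf c Y.R {t}, y i = y' i) :
    Y.W.tfac Y.R t y = Y.W.tfac Y.R t y' := by
  unfold Wt.tfac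
  rw [nt_tdiv_congr hW Y.R t h]
  unfold tileTop
  rw [nt_Zh_restr_congr hW _ _ h]

/-! ## 3. Positivity  (L-NT-POS) -/

theorem nt_Ck_pos (hN : ∀ T, 0 < Y.W.N T) (k : EvId) : 0 < Y.Ck k := by
  exact div_pos (hN _) (hN _)

theorem nt_prox_pos (hN : ∀ T, 0 < Y.W.N T) (k : EvId) (y : c.I → ℝ) : 0 < Y.prox k y := by
  exact mul_pos (nt_Ck_pos Y hN k) (Real.exp_pos _)

theorem nt_tdiv_pos (hN : ∀ T, 0 < Y.W.N T) (t : Tile) (y : c.I → ℝ) : 0 < Y.tdiv t y := by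
  exact mul_pos (hN _) (Real.exp_pos _)

theorem nt_Xi_mem (hY : Y.Ok) (T : Top c) (y : c.I → ℝ) : 0 < Y.Xi T y ∧ Y.Xi T y ≤ 1 := by
  exact ⟨Finset.prod_pos fun f _ => hY.Xf_pos y f,
    Finset.prod_le_one (fun f _ => (hY.Xf_pos y f).le) fun f _ => hY.Xf_le y f⟩

theorem nt_chiE_mem (hY : Y.Ok) (k : EvId) (y : c.I → ℝ) : 0 < Y.chiE k y ∧ Y.chiE k y ≤ 1 := by
  exact ⟨Finset.prod_pos fun f _ => hY.Xf_pos y f,
    Finset.prod_le_one (fun f _ => (hY.Xf_pos y f).le) fun f _ => hY.Xf_le y f⟩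

/-- fewer faces, larger cutoff product -/
theorem nt_Xi_anti (hY : Y.Ok) (T T' : Top c) (h : T'.faces ⊆ T.faces) (y : c.I → ℝ) : Y.Xi T y ≤ Y.Xi T' y := by
  unfold Phy.Xi
  rw [← Finset.prod_sdiff h]
  exact mul_le_of_le_one_left (Finset.prod_nonneg fun f _ => (hY.Xf_pos y f).le)
    (Finset.prod_le_one (fun f _ => (hY.Xf_pos y f).le) fun f _ => hY.Xf_le y f)

theorem nt_Z0_pos (hY : Y.Ok) (T : Top c) (hT : T.Ok) : 0 < (Y.M T).Z0 := by
  exact fk_Z1_pos _ (hY.ok T hT) 0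

theorem nt_Zh_pos (hY : Y.Ok) (T : Top c) (hT : T.Ok) (y : c.I → ℝ) : 0 < Y.Zh T y := by
  exact mul_pos (nt_Xi_mem Y hY T y).1 (fk_Z1_pos _ (hY.ok T hT) _)

theorem nt_AT_pos (hY : Y.Ok) (T : Top c) (hT : T.Ok) (y : c.I → ℝ) : 0 < Y.AT T y := by
  exact div_pos (mul_pos (Real.exp_pos _) (nt_Zh_pos Y hY T hT y)) (nt_Z0_pos Y hY T hT)

theorem nt_hterm_pos (hY : Y.Ok) (hN : ∀ T, 0 < Y.W.N T) (S O : Finset EvId) (y : c.I → ℝ) : 0 < Y.hterm S O y := by
  exact div_pos (nt_Zh_pos Y hY _ (nt_ok_halTop _ _ _) y)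
    (mul_pos (Finset.prod_pos fun k _ => nt_prox_pos Y hN k y) (Finset.prod_pos fun t _ => nt_tdiv_pos Y hN t y))

/-! ## 4. Sites and factors  (L-NT-FFS) -/

theorem nt_mem_st {A : Finset c.I} {v : Y.Fc.V} : v ∈ Y.st A ↔ Y.blk v ∈ A := by
  simp [Phy.st]

theorem nt_st_mono {A B : Finset c.I} (h : A ⊆ B) : Y.st A ⊆ Y.st B := by
  intro v hv
  rw [nt_mem_st] at hv ⊢
  exact h hv

theorem nt_st_disj {A B : Finset c.I} (h : Disjoint A B) : Disjoint (Y.st A) (Y.st B) := by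
  exact Finset.disjoint_left.2 fun v h1 h2 => Finset.disjoint_left.1 h ((nt_mem_st Y).1 h1) ((nt_mem_st Y).1 h2)

theorem nt_st_sdiff (A B : Finset c.I) : Y.st (A \ B) = Y.st A \ Y.st B := by
  ext v
  simp [nt_mem_st]

theorem nt_st_union (A B : Finset c.I) : Y.st (A ∪ B) = Y.st A ∪ Y.st B := by
  ext v
  simp [nt_mem_st]

theorem nt_st_biUnion {ι : Type} [DecidableEq ι] (s : Finset ι) (A : ι → Finset c.I) : Y.st (s.biUnion A) = s.biUnion fun i => Y.st (A i) := by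
  ext v
  simp [nt_mem_st]

theorem nt_FFs_pos (hY : Y.Ok) (E : Finset (Face c)) : (Y.FFs E).Pos := by
  intro e he
  obtain ⟨f, _, hf⟩ := Finset.mem_biUnion.1 he
  exact hY.FF_pos f e hf

theorem nt_FFs_new (hY : Y.Ok) (T : Top c) (hT : T.Ok) (E : Finset (Face c)) (hE : Disjoint E T.faces) : (Y.M T).New (Y.FFs E) := by
  have hf : ∀ f ∈ E, f ∉ T.faces := fun f hf => Finset.disjoint_left.1 hE hf
  exact ⟨(Finset.disjoint_biUnion_left _ _ _).2 fun f h => (hY.FF_new T f hT (hf f h)).1,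
    (Finset.disjoint_biUnion_left _ _ _).2 fun f h => (hY.FF_new T f hT (hf f h)).2⟩

theorem nt_FFs_disj (hY : Y.Ok) (E E' : Finset (Face c)) (h : Disjoint E E') :
    Disjoint (Y.FFs E).1 (Y.FFs E').1 ∧ Disjoint (Y.FFs E).2 (Y.FFs E').2 := by
  have hne : ∀ f ∈ E, ∀ f' ∈ E', f ≠ f' := fun f hf f' hf' e => Finset.disjoint_left.1 h hf (e ▸ hf')
  exact ⟨(Finset.disjoint_biUnion_left _ _ _).2 fun f hf => (Finset.disjoint_biUnion_right _ _ _).2 fun f' hf' =>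
      (hY.FF_dis f f' (hne f hf f' hf')).1,
    (Finset.disjoint_biUnion_left _ _ _).2 fun f hf => (Finset.disjoint_biUnion_right _ _ _).2 fun f' hf' =>
      (hY.FF_dis f f' (hne f hf f' hf')).2⟩

/-- the factors through the faces of `E` see only the sites of the cells of these faces -/
theorem nt_FFs_in (hY : Y.Ok) (E : Finset (Face c)) (A : Finset c.I) (hA : ∀ f ∈ E, f.1 ∈ A ∧ fnb c f ∈ A) : (Y.FFs E).In Finset.univ (Y.st A) := by
  have hs : ∀ f ∈ E, Y.st {f.1, fnb c f} ⊆ Y.st A := fun f hf => nt_st_mono Y (by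
    intro i hi
    rcases Finset.mem_insert.1 hi with rfl | hi
    · exact (hA f hf).1
    · rw [Finset.mem_singleton.1 hi]
      exact (hA f hf).2)
  constructor
  · intro e he v hv hne
    obtain ⟨f, hf, hef⟩ := Finset.mem_biUnion.1 he
    exact hs f hf ((hY.FF_sup f).1 e hef v hv hne)
  · intro o ho v hv hne
    obtain ⟨f, hf, hof⟩ := Finset.mem_biUnion.1 ho
    exact hs f hf ((hY.FF_sup f).2 o hof v hv hne)

theorem nt_FFs_off (hY : Y.Ok) (E : Finset (Face c)) (A B : Finset c.I) (hA : ∀ f ∈ E, f.1 ∈ A ∧ fnb c f ∈ A) (hAB : Disjoint A B) :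
    (Y.FFs E).Off (Y.st B) := by
  have hin := nt_FFs_in Y hY E A hA
  have hd := nt_st_disj Y hAB
  constructor
  · intro e he v hv
    by_contra hne
    exact Finset.disjoint_left.1 hd (hin.1 e he v (Finset.mem_univ _) hne) hv
  · intro o ho v hv
    by_contra hne
    exact Finset.disjoint_left.1 hd (hin.2 o ho v (Finset.mem_univ _) hne) hv

theorem nt_FFs_biUnion {ι : Type} [DecidableEq ι] (s : Finset ι) (E : ι → Finset (Face c)) : Y.FFs (s.biUnion E) = Fs.bU s fun i => Y.FFs (E i) := by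
  unfold Phy.FFs Fs.bU
  exact Prod.ext (Finset.biUnion_biUnion _ _ _) (Finset.biUnion_biUnion _ _ _)

/-! ## 5. The bracket geometry  (L-NT-BRK) -/

theorem nt_brk_mem_nbh {r : ℕ} {A : Finset c.I} {i : c.I} : i ∈ nbh c r A ↔ ∃ a ∈ A, c.idist a i ≤ r := by
  classical
  simp [nbh]

theorem nt_brk_nbh_mono {r r' : ℕ} (h : r ≤ r') (A : Finset c.I) : nbh c r A ⊆ nbh c r' A := by
  intro i hi
  obtain ⟨a, ha, hd⟩ := nt_brk_mem_nbh.1 hi
  exact nt_brk_mem_nbh.2 ⟨a, ha, hd.trans h⟩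

/-- the two cells of a face: one in `nbh r₁`, then the other in `nbh r₂` -/
theorem nt_brk_face {f : Face c} (hf : IsFace c f) (A0 : Finset c.I) {r1 r2 : ℕ} (hr : r1 + 1 ≤ r2) :
    (f.1 ∈ nbh c r1 A0 → fnb c f ∈ nbh c r2 A0) ∧ (fnb c f ∈ nbh c r1 A0 → f.1 ∈ nbh c r2 A0) := by
  have h1 := nt_face_dist hf
  constructor
  · intro h
    obtain ⟨a, ha, hd⟩ := nt_brk_mem_nbh.1 h
    refine nt_brk_mem_nbh.2 ⟨a, ha, ?_⟩
    have := Alg.idist_triangle c a f.1 (fnb c f)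
    omega
  · intro h
    obtain ⟨a, ha, hd⟩ := nt_brk_mem_nbh.1 h
    refine nt_brk_mem_nbh.2 ⟨a, ha, ?_⟩
    have := Alg.idist_triangle c a (fnb c f) f.1
    rw [Alg.idist_comm c (fnb c f) f.1] at this
    omega

/-- **open patch `T|_{nbh r₂}` in the ambient `T`, guard `= nbh r₂ ∖ nbh r₁`, inside `= nbh r₁`.**
PLAN: `le`: `hY.le`; `oko`, `ok`: `hY.ok`, `nt_ok_restr`; `subo`, `sub`: `hY.A_eq`, `nt_st_*`; `sepo`: the second set is empty; `sep`: `hY.sep T (nbh r₁ A0) (T.cells \ nbh r₂ A0)` (a face has length `≤ 1`: `nt_face_dist`, triangle inequality `Geo.geo_idist_triangle`, `r₁ + 1 ≤ r₂`);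
`loc`: `hY.loc`, a cell of `disc` is outside `nbh r₂` or a neighbour of such a cell. -/
theorem nt_brk (hY : Y.Ok) (T : Top c) (hT : T.Ok) (A0 : Finset c.I) (r1 r2 : ℕ) (hr : r1 + 1 ≤ r2) (hsub : nbh c r2 A0 ⊆ T.cells) :
    Brk (Y.M (T.restr (nbh c r2 A0))) (Y.M T) (Y.st (nbh c r2 A0 \ nbh c r1 A0)) (Y.st (nbh c r1 A0)) := by
  classical
  have h12 : nbh c r1 A0 ⊆ nbh c r2 A0 := nt_brk_nbh_mono (by omega) A0
  have hTo : (T.restr (nbh c r2 A0)).Ok := nt_ok_restr T hT _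
  have hcells : (T.restr (nbh c r2 A0)).cells = T.cells ∩ nbh c r2 A0 := rfl
  have hmst : ∀ {A : Finset c.I} {v : Y.Fc.V}, v ∈ Y.st A ↔ Y.blk v ∈ A := fun {A v} => by simp [Phy.st]
  refine ⟨?_, hY.ok _ hTo, hY.ok T hT, ?_, ?_, ?_, ?_, ?_⟩
  · exact hY.le _ T hTo hT Finset.inter_subset_left (Finset.filter_subset _ _)
  · intro v hv
    have hv1 : Y.blk v ∈ nbh c r1 A0 := hmst.1 hv
    rw [hY.A_eq, Finset.mem_sdiff, hmst, hmst, hcells, Finset.mem_inter, Finset.mem_sdiff]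
    exact ⟨⟨hsub (h12 hv1), h12 hv1⟩, fun h => h.2 hv1⟩
  · intro v hv
    have hv1 : Y.blk v ∈ nbh c r1 A0 := hmst.1 hv
    rw [hY.A_eq, Finset.mem_sdiff, hmst, hmst, Finset.mem_sdiff]
    exact ⟨hsub (h12 hv1), fun h => h.2 hv1⟩
  · have hemp : ((Y.M (T.restr (nbh c r2 A0))).A \ Y.st (nbh c r2 A0 \ nbh c r1 A0)) \ Y.st (nbh c r1 A0) = ∅ := by
      rw [Finset.eq_empty_iff_forall_notMem]
      intro v hv
      rw [hY.A_eq, Finset.mem_sdiff, Finset.mem_sdiff, hmst, hmst, hmst, hcells, Finset.mem_inter, Finset.mem_sdiff] at hv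
      exact hv.1.2 ⟨hv.1.1.2, hv.2⟩
    rw [hemp]
    exact ⟨fun _ _ _ v hv => absurd hv (Finset.notMem_empty v), fun _ _ _ v hv => absurd hv (Finset.notMem_empty v)⟩
  · have hset : ((Y.M T).A \ Y.st (nbh c r2 A0 \ nbh c r1 A0)) \ Y.st (nbh c r1 A0) = Y.st (T.cells \ nbh c r2 A0) := by
      ext v
      rw [hY.A_eq, Finset.mem_sdiff, Finset.mem_sdiff, hmst, hmst, hmst, hmst, Finset.mem_sdiff, Finset.mem_sdiff]
      constructor
      · rintro ⟨⟨h1, h2⟩, h3⟩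
        exact ⟨h1, fun h => h2 ⟨h, h3⟩⟩
      · rintro ⟨h1, h2⟩
        exact ⟨⟨h1, fun h => h2 h.1⟩, fun h => h2 (h12 h)⟩
    rw [hset]
    refine hY.sep T _ _ hT ?_ ?_
    · rw [Finset.disjoint_left]
      intro i hi hi'
      exact (Finset.mem_sdiff.1 hi').2 (h12 hi)
    · intro f hf
      have hF := nt_brk_face (hT f hf).1 A0 hr
      exact ⟨fun h => (Finset.mem_sdiff.1 h.2).2 (hF.1 h.1), fun h => (Finset.mem_sdiff.1 h.1).2 (hF.2 h.2)⟩
  · refine hY.loc _ T _ hTo hT ?_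
    rw [Finset.disjoint_left]
    intro i hi hd
    have hd' := (Finset.mem_filter.1 hd).2
    rcases hd' with hd' | ⟨f, hfi, hff⟩
    · apply hd'
      rw [hcells, Finset.mem_inter]
      exact ⟨fun h => h.1, fun h => ⟨h, h12 hi⟩⟩
    · apply hff
      constructor
      · intro h
        exact (Finset.mem_filter.1 h).1
      · intro h
        have hF := nt_brk_face (hT f h).1 A0 hr
        refine Finset.mem_filter.2 ⟨h, ?_⟩
        rcases hfi with rfl | rfl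
        · exact ⟨h12 hi, hF.1 hi⟩
        · exact ⟨hF.2 hi, h12 hi⟩

/-! ## 6. The functions `δ_k`  (L-NT-DL) -/

theorem nt_dl_ok_topC (R : ℕ) (k : EvId) : (topC c R k).Ok := nt_ok_restr _ (nt_ok_topU R _) _

theorem nt_dl_topC_cells (R : ℕ) (k : EvId) : (topC c R k).cells = patch c R k := by
  simp [topC, Top.restr, topU, Top.cut, Top.full]

theorem nt_dl_topC_face {R : ℕ} {k : EvId} {f : Face c} (hf : f ∈ (topC c R k).faces) : f.1 ∈ patch c R k ∧ fnb c f ∈ patch c R k := by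
  simp only [topC, Top.restr, Finset.mem_filter] at hf
  exact hf.2

theorem nt_dl_nbh_mono {r r' : ℕ} (h : r ≤ r') (A : Finset c.I) : nbh c r A ⊆ nbh c r' A := by
  intro i hi
  simp only [nbh, Finset.mem_filter, Finset.mem_univ, true_and] at hi ⊢
  obtain ⟨a, ha, hd⟩ := hi
  exact ⟨a, ha, hd.trans h⟩

theorem nt_dl_inner_sub (R : ℕ) (k : EvId) : inner c R k ⊆ patch c R k :=
  Finset.inter_subset_inter_right (nt_dl_nbh_mono (Nat.div_le_div_left (by norm_num) (by norm_num)) _)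

theorem nt_dl_core_sub (R : ℕ) (k : EvId) : core c R k ⊆ patch c R k := by
  intro i hi
  refine Finset.mem_inter.2 ⟨?_, ?_⟩
  · simp only [nbh, Finset.mem_filter, Finset.mem_univ, true_and]
    exact ⟨i, hi, by rw [Alg.idist_self]; exact Nat.zero_le _⟩
  · simp only [ctl, cellsOf, Finset.mem_filter, Finset.mem_univ, true_and]
    exact Finset.mem_image_of_mem _ hi

theorem nt_dl_mem (hY : Y.Ok) (hN : ∀ T, 0 < Y.W.N T) (k : EvId) (y : c.I → ℝ) (h : Y.Fc.Ht) : 0 ≤ Y.dl k y h ∧ Y.dl k y h ≤ 1 := by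
  refine nm_dlt_mem _ (hY.ok _ (nt_dl_ok_topC _ k)) _ ?_ _ (nt_FFs_pos Y hY _) _ _ (nt_chiE_mem Y hY k y).1.le (nt_prox_pos Y hN k y).le _ h
  rw [hY.A_eq, nt_dl_topC_cells]
  exact nt_st_mono Y (nt_dl_inner_sub _ k)

/-- **`δ_k` depends only on the heights in the guard.**  PLAN: `univ \ evG k = evI k ∪ st (univ \ patch k)`; `nm_inv_union`, `nm_dlt_inv_self`, `nm_dlt_inv` (`hY.sep (topC k) inner (univ \ patch)`: the faces of `topC k` lie in the patch; `nt_FFs_off`, `nt_cutF_core`). -/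
theorem nt_dl_inv (hY : Y.Ok) (k : EvId) (y : c.I → ℝ) : Y.Fc.Inv (Finset.univ \ Y.evG k) (Y.dl k y) := by
  have hsub : Finset.univ \ Y.evG k ⊆ Y.evI k ∪ Y.st (Finset.univ \ patch c Y.R k) := by
    intro v hv
    rw [Finset.mem_sdiff] at hv
    have hv2 : Y.blk v ∉ guard c Y.R k := fun hh => hv.2 ((nt_mem_st Y).2 hh)
    rw [Finset.mem_union]
    by_cases hp : Y.blk v ∈ patch c Y.R k
    · left
      refine (nt_mem_st Y).2 ?_
      by_contra hi
      exact hv2 (Finset.mem_sdiff.2 ⟨hp, hi⟩)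
    · right
      exact (nt_mem_st Y).2 (Finset.mem_sdiff.2 ⟨Finset.mem_univ _, hp⟩)
  refine nm_inv_mono hsub (nm_inv_union (nm_dlt_inv_self _ _ _ _ _ _) (nm_dlt_inv _ _ _ _ ?_ ?_ _ _ _))
  · refine hY.sep _ _ _ (nt_dl_ok_topC _ k) ?_ ?_
    · exact Finset.disjoint_of_subset_left (nt_dl_inner_sub _ k) Finset.disjoint_sdiff
    · intro f hf
      have h2 := nt_dl_topC_face hf
      exact ⟨fun hh => (Finset.mem_sdiff.1 hh.2).2 h2.2, fun hh => (Finset.mem_sdiff.1 hh.1).2 h2.1⟩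
  · exact nt_FFs_off Y hY _ (core c Y.R k) _ (fun f hf => (nt_cutF_core hf).2)
      (Finset.disjoint_of_subset_left (nt_dl_core_sub _ k) Finset.disjoint_sdiff)

theorem nt_dls_mem (hY : Y.Ok) (hN : ∀ T, 0 < Y.W.N T) (K : Finset EvId) (y : c.I → ℝ) (h : Y.Fc.Ht) : 0 ≤ Y.dls K y h ∧ Y.dls K y h ≤ 1 :=
  ⟨Finset.prod_nonneg fun k _ => (nt_dl_mem Y hY hN k y h).1,
    Finset.prod_le_one (fun k _ => (nt_dl_mem Y hY hN k y h).1) fun k _ => (nt_dl_mem Y hY hN k y h).2⟩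

theorem nt_dls_bdd (hY : Y.Ok) (hN : ∀ T, 0 < Y.W.N T) (K : Finset EvId) (y : c.I → ℝ) : Y.Fc.Bdd (Y.dls K y) :=
  ⟨1, fun h => by
    rw [abs_of_nonneg (nt_dls_mem Y hY hN K y h).1]
    exact (nt_dls_mem Y hY hN K y h).2⟩

theorem nt_dls_inv (hY : Y.Ok) (K : Finset EvId) (y : c.I → ℝ) (B : Finset Y.Fc.V) (hB : ∀ k ∈ K, Disjoint B (Y.evG k)) : Y.Fc.Inv B (Y.dls K y) :=
  nm_inv_prod K (fun k => Y.dl k y) B fun k hk =>
    nm_inv_mono (fun _ hv => Finset.mem_sdiff.2 ⟨Finset.mem_univ _, Finset.disjoint_left.1 (hB k hk) hv⟩) (nt_dl_inv Y hY k y)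

theorem nt_dls_anti (hY : Y.Ok) (hN : ∀ T, 0 < Y.W.N T) {K K' : Finset EvId} (h : K ⊆ K') (y : c.I → ℝ) (x : Y.Fc.Ht) :
    Y.dls K' y x ≤ Y.dls K y x := by
  have e : Y.dls K' y x = Y.dls (K' \ K) y x * Y.dls K y x := (Finset.prod_sdiff h).symm
  rw [e]
  exact mul_le_of_le_one_left (nt_dls_mem Y hY hN K y x).1 (nt_dls_mem Y hY hN _ y x).2

/-- fewer factors `δ ≤ 1`, larger expectation -/
theorem nt_ET_anti (hY : Y.Ok) (hN : ∀ T, 0 < Y.W.N T) (T : Top c) (hT : T.Ok) {K K' : Finset EvId} (h : K ⊆ K') (y : c.I → ℝ) :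
    Y.ET T K' y ≤ Y.ET T K y :=
  div_le_div_of_nonneg_right
    (fk_Z_mono _ (hY.ok T hT) _ _ _ (nt_dls_bdd Y hY hN K' y) (nt_dls_bdd Y hY hN K y) (nt_dls_anti Y hY hN h y))
    (fk_Z1_pos _ (hY.ok T hT) _).le

theorem nt_ET_mem (hY : Y.Ok) (hN : ∀ T, 0 < Y.W.N T) (T : Top c) (hT : T.Ok) (K : Finset EvId) (y : c.I → ℝ) : 0 ≤ Y.ET T K y ∧ Y.ET T K y ≤ 1 := by
  have hp := fk_Z1_pos _ (hY.ok T hT) (Y.D y)
  refine ⟨div_nonneg (fk_Z_nonneg _ (hY.ok T hT).1 _ _ fun x => (nt_dls_mem Y hY hN K y x).1) hp.le, ?_⟩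
  refine div_le_one_of_le₀ ?_ hp.le
  exact fk_Z_mono _ (hY.ok T hT) _ _ _ (nt_dls_bdd Y hY hN K y) (nm_bdd_const 1) fun x => (nt_dls_mem Y hY hN K y x).2

/-- "discard the conditional rarity" -/
theorem nt_QT_mem (hY : Y.Ok) (hN : ∀ T, 0 < Y.W.N T) (T : Top c) (hT : T.Ok) (K : Finset EvId) (y : c.I → ℝ) : 0 ≤ Y.QT T K y ∧ Y.QT T K y ≤ Y.AT T y := by
  have hA := nt_AT_pos Y hY T hT y
  have hE := nt_ET_mem Y hY hN T hT K y
  exact ⟨mul_nonneg hA.le hE.1, mul_le_of_le_one_right hA.le hE.2⟩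

/-- `nt_brk` for an arbitrary inside `I ⊆ P` of an arbitrary open patch `P`: no face of `T` joins `I` to the outside of `P` -/
theorem nt_brk_gen (hY : Y.Ok) (T : Top c) (hT : T.Ok) (I P : Finset c.I) (h12 : I ⊆ P) (hsub : P ⊆ T.cells)
    (hsep : ∀ f ∈ T.faces, (f.1 ∈ I → fnb c f ∈ P) ∧ (fnb c f ∈ I → f.1 ∈ P)) :
    Brk (Y.M (T.restr P)) (Y.M T) (Y.st (P \ I)) (Y.st I) := by
  classical
  have hTo : (T.restr P).Ok := nt_ok_restr T hT _
  have hcells : (T.restr P).cells = T.cells ∩ P := rfl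
  have hmst : ∀ {A : Finset c.I} {v : Y.Fc.V}, v ∈ Y.st A ↔ Y.blk v ∈ A := fun {A v} => by simp [Phy.st]
  refine ⟨?_, hY.ok _ hTo, hY.ok T hT, ?_, ?_, ?_, ?_, ?_⟩
  · exact hY.le _ T hTo hT Finset.inter_subset_left (Finset.filter_subset _ _)
  · intro v hv
    have hv1 : Y.blk v ∈ I := hmst.1 hv
    rw [hY.A_eq, Finset.mem_sdiff, hmst, hmst, hcells, Finset.mem_inter, Finset.mem_sdiff]
    exact ⟨⟨hsub (h12 hv1), h12 hv1⟩, fun h => h.2 hv1⟩
  · intro v hv
    have hv1 : Y.blk v ∈ I := hmst.1 hv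
    rw [hY.A_eq, Finset.mem_sdiff, hmst, hmst, Finset.mem_sdiff]
    exact ⟨hsub (h12 hv1), fun h => h.2 hv1⟩
  · have hemp : ((Y.M (T.restr P)).A \ Y.st (P \ I)) \ Y.st I = ∅ := by
      rw [Finset.eq_empty_iff_forall_notMem]
      intro v hv
      rw [hY.A_eq, Finset.mem_sdiff, Finset.mem_sdiff, hmst, hmst, hmst, hcells, Finset.mem_inter, Finset.mem_sdiff] at hv
      exact hv.1.2 ⟨hv.1.1.2, hv.2⟩
    rw [hemp]
    exact ⟨fun _ _ _ v hv => absurd hv (Finset.notMem_empty v), fun _ _ _ v hv => absurd hv (Finset.notMem_empty v)⟩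
  · have hset : ((Y.M T).A \ Y.st (P \ I)) \ Y.st I = Y.st (T.cells \ P) := by
      ext v
      rw [hY.A_eq, Finset.mem_sdiff, Finset.mem_sdiff, hmst, hmst, hmst, hmst, Finset.mem_sdiff, Finset.mem_sdiff]
      constructor
      · rintro ⟨⟨h1, h2⟩, h3⟩
        exact ⟨h1, fun h => h2 ⟨h, h3⟩⟩
      · rintro ⟨h1, h2⟩
        exact ⟨⟨h1, fun h => h2 h.1⟩, fun h => h2 (h12 h)⟩
    rw [hset]
    refine hY.sep T _ _ hT ?_ ?_
    · rw [Finset.disjoint_left]
      intro i hi hi'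
      exact (Finset.mem_sdiff.1 hi').2 (h12 hi)
    · intro f hf
      have hF := hsep f hf
      exact ⟨fun h => (Finset.mem_sdiff.1 h.2).2 (hF.1 h.1), fun h => (Finset.mem_sdiff.1 h.1).2 (hF.2 h.2)⟩
  · refine hY.loc _ T _ hTo hT ?_
    rw [Finset.disjoint_left]
    intro i hi hd
    have hd' := (Finset.mem_filter.1 hd).2
    rcases hd' with hd' | ⟨f, hfi, hff⟩
    · apply hd'
      rw [hcells, Finset.mem_inter]
      exact ⟨fun h => h.1, fun h => ⟨h, h12 hi⟩⟩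
    · apply hff
      constructor
      · intro h
        exact (Finset.mem_filter.1 h).1
      · intro h
        have hF := hsep f h
        refine Finset.mem_filter.2 ⟨h, ?_⟩
        rcases hfi with rfl | rfl
        · exact ⟨h12 hi, hF.1 hi⟩
        · exact ⟨hF.2 hi, h12 hi⟩

theorem nt_core_sub_inner (R : ℕ) (k : EvId) : core c R k ⊆ inner c R k := by
  intro i hi
  refine Finset.mem_inter.2 ⟨?_, ?_⟩
  · simp only [nbh, Finset.mem_filter, Finset.mem_univ, true_and]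
    exact ⟨i, hi, by rw [Alg.idist_self]; exact Nat.zero_le _⟩
  · simp only [ctl, cellsOf, Finset.mem_filter, Finset.mem_univ, true_and]
    exact Finset.mem_image_of_mem _ hi

/-- the island clause of `StepOK`: a face of the ambient topology which starts in the inner part ends in the patch -/
theorem nt_step_sep {R : ℕ} (hg : NGeo c R) {D : Finset c.I} {U : Finset EvId} {k : EvId} (hk : StepOK c R D U k) :
    ∀ f ∈ ((topU c R (insert k U)).restr D).faces,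
      (f.1 ∈ inner c R k → fnb c f ∈ patch c R k) ∧ (fnb c f ∈ inner c R k → f.1 ∈ patch c R k) := by
  obtain ⟨-, -, -, -, -, A, hA1, hA2, hA3⟩ := hk
  have hr : R / 64 + 1 ≤ R / 32 := by
    obtain ⟨m, hm⟩ := hg.d64
    have := hg.pos
    omega
  intro f hf
  have hF := nt_brk_face ((nt_ok_restr _ (nt_ok_topU R _) D) f hf).1 (core c R k) hr
  constructor
  · intro h
    have h1 : f.1 ∈ A := hA1 (nt_dl_inner_sub R k h)
    exact hA2 (Finset.mem_inter.2 ⟨(hA3 f hf).1 h1, hF.1 (Finset.mem_inter.1 h).1⟩)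
  · intro h
    have h1 : fnb c f ∈ A := hA1 (nt_dl_inner_sub R k h)
    exact hA2 (Finset.mem_inter.2 ⟨(hA3 f hf).2 h1, hF.2 (Finset.mem_inter.1 h).1⟩)

end

end Claimed.Agent.R285.Entry
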