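import Claimed.Agent.R285.Entry.GoodBox
import Claimed.Agent.R285.Ent.GeoLip
import Claimed.Agent.R285.Entry.NtBase

/-!
# ROW 285, post BP-ENT-GOODGEO (#17867): SHARED TOOLS between the volume (`Ent/GeoLip.lean`, helper108) and the windows      (helper190)
Prefix `gga_`.  Everything here is proved (from the statements of `Ent/GeoLip.lean` and `eg_nodiag_of_col`).
* `gga_isFace`   : a face inside a window is a face of the volume.
* `gga_fnb_comm` : the fourth cell of a junction.
* `gga_nodiag`   : **`NoDiag` of the shape of a topology whose faces INSIDE THE WINDOW are "same tile or event in `U`"** (`RC c R U`, `Pres` at the junctions inside the window).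
* `gga_nodiag_restr` : the case `T = (topU c R U).restr A` in ANY window which carries it (`topO`, `topC`, `tstO`, `tstC`, `tileTop`: `A` = `patch`, `tpatch`, `cellsOf {t}`; `Pres` from `gl_pres_nbh`, `gl_pres_sat`).
Users: `Entry/GoodGeoB.lean` (P-boxes, helper190), `Entry/GoodGeoE.lean` (events, tiles, unit sector, helper15).
-/

set_option autoImplicit false

namespace Claimed.Agent.R285.Entry

open scoped BigOperators
open Claimed.Agent.R285 Claimed.Agent.R285.RG Claimed.Agent.R285.F4a Claimed.Agent.R285.Ent

variable {G : Geom} {c : Grid G} {m₁ m₂ : ℕ}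

/-- a face inside a window is a face of the volume -/
theorem gga_isFace (W : EgWin c m₁ m₂) {f : Face c} (hf : W.FaceIn f) : IsFace c f := by
  obtain ⟨κ, hi, e⟩ := hf
  have hbc : G.bc = BC.per ∨ G.bc = BC.free := by cases G.bc <;> simp
  rcases hbc with hG | hG
  · exact Or.inl hG
  · right
    obtain ⟨h1, h2⟩ := W.free hG
    have k1 := κ.1.2
    have k2 := κ.2.2
    obtain ⟨i, d⟩ := f
    have e' : i = W.emb κ := e
    subst e'
    cases d
    · have hi' : (κ.2 : ℕ) + 1 < m₂ := by simpa [EgWin.Inner] using hi
      show ((W.o.2 : ℕ) + κ.2) % c.n + 1 < c.n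
      rw [Nat.mod_eq_of_lt (by omega)]
      omega
    · have hi' : (κ.1 : ℕ) + 1 < m₁ := by simpa [EgWin.Inner] using hi
      show ((W.o.1 : ℕ) + κ.1) % c.n + 1 < c.n
      rw [Nat.mod_eq_of_lt (by omega)]
      omega

/-- the fourth cell of a junction -/
theorem gga_fnb_comm (z : c.I) : fnb c (fnb c (z, false), true) = fnb c (fnb c (z, true), false) := rfl

/-- **`NoDiag` from the tile facts of `Ent/GeoLip.lean`.**  `hface`: inside the window, between present cells, the retained faces are the faces inside one tile and the seam faces whose event is in `U`. -/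
theorem gga_nodiag {R : ℕ} (h : Adm c R) (hc : Whole c) {U : Finset EvId} (hU : RC c R U) (W : EgWin c m₁ m₂) (T : Top c) (hT : T.Ok) (hf : W.Fits T)
    (hface : ∀ f : Face c, W.FaceIn f → f.1 ∈ T.cells → fnb c f ∈ T.cells → (f ∈ T.faces ↔ (tile c R (fnb c f) = tile c R f.1 ∨ evKey c R f ∈ U)))
    (hP : ∀ z : c.I, W.FaceIn (z, true) → W.FaceIn (z, false) → W.FaceIn (fnb c (z, true), false) → W.FaceIn (fnb c (z, false), true) → Pres c R T.cells z) :
    (W.shape T).NoDiag := by
  -- a face inside the window between present cells of one colour is retained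
  have key : ∀ f : Face c, W.FaceIn f → f.1 ∈ T.cells → fnb c f ∈ T.cells → glCol c R U (fnb c f) = glCol c R U f.1 → f ∈ T.faces :=
    fun f hW h1 h2 hcol => (hface f hW h1 h2).2 (gl_unc h U (gga_isFace W hW) hcol)
  refine eg_nodiag_of_col hc W T hf (glCol c R U) ?_ ?_ ?_ hT
  · intro f hfT
    obtain ⟨hF, h1, h2⟩ := hT f hfT
    exact gl_col_face h hU hF ((hface f (hf.2 f hfT) h1 h2).1 hfT)
  · intro f hW h1 h2 hn
    have hn' : ¬ (tile c R (fnb c f) = tile c R f.1 ∨ evKey c R f ∈ U) := fun hh => hn ((hface f hW h1 h2).2 hh)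
    rw [not_or] at hn'
    exact gl_col_cut h U (gga_isFace W hW) hn'.1 hn'.2
  · intro z w1 w2 w3 w4
    obtain ⟨P1, P2⟩ := hP z w1 w2 w3 w4
    constructor
    · intro hz hq hcol
      rcases P1 hz hq with ⟨hr, ht⟩ | ⟨hr, ht⟩
      · left
        have cr : glCol c R U (fnb c (z, true)) = glCol c R U z := by
          rcases ht with ht | ht
          · exact gl_col_congr U ht
          · exact (gl_col_congr U ht).trans hcol
        exact ⟨key (z, true) w1 hz hr cr, key (fnb c (z, true), false) w3 hr hq (hcol.trans cr.symm)⟩
      · right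
        have cr : glCol c R U (fnb c (z, false)) = glCol c R U z := by
          rcases ht with ht | ht
          · exact gl_col_congr U ht
          · exact (gl_col_congr U ht).trans hcol
        exact ⟨key (z, false) w2 hz hr cr, key (fnb c (z, false), true) w4 hr hq (hcol.trans cr.symm)⟩
    · intro hp hq hcol
      rcases P2 hp hq with ⟨hr, ht⟩ | ⟨hr, ht⟩
      · left
        have cr : glCol c R U z = glCol c R U (fnb c (z, true)) := by
          rcases ht with ht | ht
          · exact gl_col_congr U ht
          · exact (gl_col_congr U ht).trans hcol.symm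
        exact ⟨key (z, true) w1 hr hp cr.symm, key (z, false) w2 hr hq (hcol.symm.trans cr.symm)⟩
      · right
        have cr : glCol c R U (fnb c (fnb c (z, true), false)) = glCol c R U (fnb c (z, true)) := by
          rcases ht with ht | ht
          · exact gl_col_congr U ht
          · exact (gl_col_congr U ht).trans hcol.symm
        exact ⟨key (fnb c (z, true), false) w3 hp hr cr, key (fnb c (z, false), true) w4 hq hr (cr.trans hcol)⟩

/-- **`NoDiag` of `(topU c R U).restr A` in any window which carries it** -/
theorem gga_nodiag_restr {R : ℕ} (h : Adm c R) (hc : Whole c) {U : Finset EvId} (hU : RC c R U) (W : EgWin c m₁ m₂) (A : Finset c.I)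
    (hf : W.Fits ((topU c R U).restr A)) (hP : ∀ z : c.I, IsFace c (z, true) → IsFace c (z, false) → Pres c R A z) :
    (W.shape ((topU c R U).restr A)).NoDiag := by
  have hcells : ((topU c R U).restr A).cells = A := by
    show (topU c R U).cells ∩ A = A
    rw [topU_cells, Finset.univ_inter]
  refine gga_nodiag h hc hU W _ (nt_ok_restr _ (nt_ok_topU R U) A) hf ?_ ?_
  · intro f hW h1 h2
    rw [hcells] at h1 h2
    rw [nt_mem_restr_faces, mem_topU_faces]
    exact ⟨fun hh => hh.1.2, fun hh => ⟨⟨gga_isFace W hW, hh⟩, h1, h2⟩⟩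
  · intro z w1 w2 _ _
    rw [hcells]
    exact hP z (gga_isFace W w1) (gga_isFace W w2)

end Claimed.Agent.R285.Entry
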