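import Claimed.Agent.R285.Entry.GoodBox
import Claimed.Agent.R285.Entry.GoodGeoA
import Claimed.Agent.R285.Ent.GeoLip
import Claimed.Agent.R285.Entry.NtBase
import Claimed.Agent.R285.Ent.Geo
import Claimed.Agent.R285.Ent.LinkGeo

/-!
# ROW 285, post BP-ENT-GOODGEO (#17867), file `Entry/GoodGeoE`: THE FIELDS `GoodGeo.ev`, `GoodGeo.tile`            (helper15)
PAPER-FREE.  Exits: `gge_ev_main`, `gge_tile_main` (verbatim the two fields, from `GeoOK c R`), `gge_lip_topC / topO / tstC / tstO` (`NoDiag` of the four shapes of an event in ANY window which carries them).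
* s1 window of side `2 r + 1` around a cell: `ggeWin`, `gge_win_mem`, `gge_faceIn`, `gge_fits`  (two small arithmetic leaves L-GGE-W1, L-GGE-W2).
* s2 the topologies `(topU U).restr A`: `gge_cells`, `gge_mem_faces`, `gge_glue` (`topC.glue (cutF k) = topO`), `gge_cut_disj`.
* s3-s5 `EgMark.Geo`, `EgMark.Ok`, `egPc` of `evMark` in `topC`, of `tsMark` in `tstO`, `tstC`: pure set theory + the triangle inequality.
* s6, s7 the two fields from `GgeLip`, `GgeLipT`;   s8 `GgeLip`, `GgeLipT` from `Ent/GeoLip.lean` (`gl_pres_nbh`, `gl_pres_sat`, `gl_rc_pre`, `gl_rc_pre'`) and `Entry/GoodGeoA.lean` (`gga_nodiag_restr`).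
-/

set_option autoImplicit false

namespace Claimed.Agent.R285.Entry

open scoped BigOperators
open Claimed.Agent.R285 Claimed.Agent.R285.RG Claimed.Agent.R285.F4a Claimed.Agent.R285.Ent Claimed.Agent.R285.Geo

noncomputable section

variable {G : Geom} {c : Grid G}

/-! ## 1. Windows around a cell -/

/-- the origin of the window of radius `r` around `x`, one coordinate: torus `x - r` modulo `n`; free square `x - r`, pushed inside -/
def ggeO (c : Grid G) (x : Fin c.n) (r : ℕ) : Fin c.n :=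
  ⟨if G.bc = BC.per then ((x : ℕ) + (c.n - r)) % c.n else min ((x : ℕ) - r) (c.n - (2 * r + 1)), by
    split_ifs
    · exact Nat.mod_lt _ x.pos
    · exact lt_of_le_of_lt ((min_le_left _ _).trans (Nat.sub_le _ _)) x.2⟩

/-- the window of side `2 r + 1` around the cell `p` -/
def ggeWin (c : Grid G) (p : c.I) (r : ℕ) (h : 2 * r + 1 ≤ c.n) : EgWin c (2 * r + 1) (2 * r + 1) where
  o := (ggeO c p.1 r, ggeO c p.2 r)
  le₁ := h
  le₂ := h
  free := fun hf => by
    have hne : ¬ G.bc = BC.per := by rw [hf]; decide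
    simp only [ggeO, if_neg hne]
    omega

/-- **LEAF L-GGE-W1** (one coordinate; `geo_idist1_per`, `geo_idist1_free`; torus: `k = (y + r - x) mod n`, split `r ≤ x`, `x ≤ y`, wrap or not; `Nat.mod_eq_of_lt`, `Nat.add_mod_right`). -/
theorem gge_o_mem (x y : Fin c.n) (r : ℕ) (h : 2 * r + 1 ≤ c.n) (hd : c.idist1 x y ≤ r) :
    ∃ k : ℕ, k < 2 * r + 1 ∧ (y : ℕ) = ((ggeO c x r : ℕ) + k) % c.n := by
  have hx := x.2
  have hy := y.2
  have hfin : ∀ o k : ℕ, (o + k = (y : ℕ) ∨ o + k = (y : ℕ) + c.n) → (y : ℕ) = (o + k) % c.n := by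
    intro o k hk
    rcases hk with e | e
    · rw [e, Nat.mod_eq_of_lt hy]
    · rw [e, Nat.add_mod_right, Nat.mod_eq_of_lt hy]
  rcases geo_bc_cases G with hb | hb
  · rw [geo_idist1_per c hb] at hd
    have ho : (ggeO c x r : ℕ) = ((x : ℕ) + (c.n - r)) % c.n := by
      show (if G.bc = BC.per then ((x : ℕ) + (c.n - r)) % c.n else min ((x : ℕ) - r) (c.n - (2 * r + 1))) = _
      rw [if_pos hb]
    have ho' : ((ggeO c x r : ℕ) = (x : ℕ) - r ∧ r ≤ (x : ℕ)) ∨ ((ggeO c x r : ℕ) = (x : ℕ) + c.n - r ∧ (x : ℕ) < r) := by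
      rw [ho]
      rcases Nat.lt_or_ge (x : ℕ) r with q | q
      · right
        refine ⟨?_, q⟩
        rw [Nat.mod_eq_of_lt (by omega)]
        omega
      · left
        refine ⟨?_, q⟩
        have e : (x : ℕ) + (c.n - r) = ((x : ℕ) - r) + c.n := by omega
        rw [e, Nat.add_mod_right, Nat.mod_eq_of_lt (by omega)]
    generalize (ggeO c x r : ℕ) = o at ho' ⊢
    have hk : ∃ k, k < 2 * r + 1 ∧ (o + k = (y : ℕ) ∨ o + k = (y : ℕ) + c.n) := by
      by_cases q : o ≤ (y : ℕ)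
      · exact ⟨(y : ℕ) - o, by omega, Or.inl (by omega)⟩
      · exact ⟨(y : ℕ) + c.n - o, by omega, Or.inr (by omega)⟩
    obtain ⟨k, hk1, e⟩ := hk
    exact ⟨k, hk1, hfin o k e⟩
  · rw [geo_idist1_free c hb] at hd
    have hne : ¬ G.bc = BC.per := by rw [hb]; decide
    have ho : (ggeO c x r : ℕ) = min ((x : ℕ) - r) (c.n - (2 * r + 1)) := by
      show (if G.bc = BC.per then ((x : ℕ) + (c.n - r)) % c.n else min ((x : ℕ) - r) (c.n - (2 * r + 1))) = _
      rw [if_neg hne]
    generalize (ggeO c x r : ℕ) = o at ho ⊢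
    exact ⟨(y : ℕ) - o, by omega, hfin o _ (Or.inl (by omega))⟩

theorem gge_win_mem (p : c.I) (r : ℕ) (h : 2 * r + 1 ≤ c.n) {i : c.I} (hd : c.idist p i ≤ r) : ∃ κ, i = (ggeWin c p r h).emb κ := by
  obtain ⟨k1, l1, e1⟩ := gge_o_mem p.1 i.1 r h ((idist1_le_left p i).trans hd)
  obtain ⟨k2, l2, e2⟩ := gge_o_mem p.2 i.2 r h ((idist1_le_right p i).trans hd)
  exact ⟨(⟨k1, l1⟩, ⟨k2, l2⟩), Prod.ext (Fin.ext e1) (Fin.ext e2)⟩

/-- **LEAF L-GGE-W2.**  A face between two cells of a window which is smaller than the volume is an inner face.  `f.1 = emb κ`; if `κ` were in the last column, `fnb f = (o + m) mod n` would be `emb κ'`, `κ'.1 < m < n`: `eg_win_mod_inj`. -/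
theorem gge_faceIn {m₁ m₂ : ℕ} (W : EgWin c m₁ m₂) (h1 : m₁ < c.n) (h2 : m₂ < c.n) {f : Face c} (hf : IsFace c f)
    (ha : ∃ κ, f.1 = W.emb κ) (hb : ∃ κ, fnb c f = W.emb κ) : W.FaceIn f := by
  obtain ⟨κ, hκ⟩ := ha
  obtain ⟨κ', hκ'⟩ := hb
  refine ⟨κ, ?_, hκ⟩
  obtain ⟨i, d⟩ := f
  have hi : i = W.emb κ := hκ
  subst hi
  have l1 := κ.1.is_lt
  have l2 := κ.2.is_lt
  have l1' := κ'.1.is_lt
  have l2' := κ'.2.is_lt
  cases d with
  | true =>
    have e : ((fnb c (W.emb κ, true)).1 : ℕ) = ((W.emb κ').1 : ℕ) := by rw [hκ']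
    have e' : (((W.o.1 : ℕ) + κ.1) % c.n + 1) % c.n = ((W.o.1 : ℕ) + κ'.1) % c.n := e
    rw [Nat.mod_add_mod, add_assoc] at e'
    have := eg_win_mod_inj (by omega) (by omega) e'
    show (κ.1 : ℕ) + 1 < m₁
    omega
  | false =>
    have e : ((fnb c (W.emb κ, false)).2 : ℕ) = ((W.emb κ').2 : ℕ) := by rw [hκ']
    have e' : (((W.o.2 : ℕ) + κ.2) % c.n + 1) % c.n = ((W.o.2 : ℕ) + κ'.2) % c.n := e
    rw [Nat.mod_add_mod, add_assoc] at e'
    have := eg_win_mod_inj (by omega) (by omega) e'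
    show (κ.2 : ℕ) + 1 < m₂
    omega

theorem gge_fits {m₁ m₂ : ℕ} (W : EgWin c m₁ m₂) (h1 : m₁ < c.n) (h2 : m₂ < c.n) (T : Top c) (hT : T.Ok)
    (hc : ∀ i ∈ T.cells, ∃ κ, i = W.emb κ) : W.Fits T :=
  ⟨hc, fun f hf => gge_faceIn W h1 h2 (hT f hf).1 (hc _ (hT f hf).2.1) (hc _ (hT f hf).2.2)⟩

/-! ## 2. The topologies `(topU U).restr A` -/

theorem gge_cells (R : ℕ) (U : Finset EvId) (A : Finset c.I) : ((topU c R U).restr A).cells = A := by
  simp [Top.restr, topU, Top.cut, Top.full]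

theorem gge_mem_faces {R : ℕ} {U : Finset EvId} {A : Finset c.I} {f : Face c} :
    f ∈ ((topU c R U).restr A).faces ↔ IsFace c f ∧ (f ∈ seam c R → evKey c R f ∈ U) ∧ f.1 ∈ A ∧ fnb c f ∈ A := by
  classical
  rw [nt_mem_restr_faces]
  simp only [topU, Top.cut, Top.full, Finset.mem_sdiff, Finset.mem_filter, Finset.mem_univ, true_and, not_and, not_not]
  tauto

theorem gge_top_ext {T T' : Top c} (h1 : T.cells = T'.cells) (h2 : T.faces = T'.faces) : T = T' := by
  cases T; cases T'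
  simp only at h1 h2
  subst h1; subst h2
  rfl

theorem gge_mem_pre {R : ℕ} {k : EvId} (hk : k ∈ events c R) : k ∈ pre c R k := by
  unfold pre
  split_ifs with h
  · exact mem_evV.2 ⟨hk, h⟩
  · exact hk

/-- restoring the faces of the event -/
theorem gge_glue {R : ℕ} {k : EvId} (hk : k ∈ events c R) {A : Finset c.I} (hA : core c R k ⊆ A) :
    ((topU c R (pre c R k \ {k})).restr A).glue (cutF c R k) = (topU c R (pre c R k)).restr A := by
  classical
  refine gge_top_ext ?_ ?_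
  · show ((topU c R (pre c R k \ {k})).restr A).cells = _
    rw [gge_cells, gge_cells]
  · ext f
    show f ∈ ((topU c R (pre c R k \ {k})).restr A).faces ∪ cutF c R k ↔ _
    rw [Finset.mem_union, gge_mem_faces, gge_mem_faces]
    constructor
    · rintro (⟨h1, h2, h3, h4⟩ | h)
      · exact ⟨h1, fun hs => (Finset.mem_sdiff.1 (h2 hs)).1, h3, h4⟩
      · obtain ⟨g1, g2, g3⟩ := nt_cutF_core h
        exact ⟨g1, fun _ => by rw [(Finset.mem_filter.1 h).2]; exact gge_mem_pre hk, hA g2, hA g3⟩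
    · rintro ⟨h1, h2, h3, h4⟩
      by_cases hs : f ∈ seam c R ∧ evKey c R f = k
      · exact Or.inr (Finset.mem_filter.2 hs)
      · refine Or.inl ⟨h1, fun hs' => Finset.mem_sdiff.2 ⟨h2 hs', ?_⟩, h3, h4⟩
        rw [Finset.mem_singleton]
        exact fun e => hs ⟨hs', e⟩

/-- the faces of the event are cut -/
theorem gge_cut_disj {R : ℕ} (k : EvId) (A : Finset c.I) : Disjoint (cutF c R k) ((topU c R (pre c R k \ {k})).restr A).faces := by
  classical
  rw [Finset.disjoint_left]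
  intro f hf h
  obtain ⟨hs, hk⟩ := Finset.mem_filter.1 hf
  have := (gge_mem_faces.1 h).2.1 hs
  rw [hk] at this
  exact (Finset.mem_sdiff.1 this).2 (Finset.mem_singleton_self k)

theorem gge_cut_of_disj {T : Top c} {E : Finset (Face c)} (h : Disjoint E T.faces) : T.cut E = T :=
  gge_top_ext rfl (Finset.sdiff_eq_self_of_disjoint h.symm)

theorem gge_cut_empty (T : Top c) : T.cut ∅ = T := gge_top_ext rfl (Finset.sdiff_empty)

theorem gge_glue_empty (T : Top c) : T.glue ∅ = T := gge_top_ext rfl (Finset.union_empty _)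

theorem gge_restr_self (R : ℕ) (U : Finset EvId) (A : Finset c.I) : ((topU c R U).restr A).restr A = (topU c R U).restr A :=
  nt_restr_restr_of_sub _ (Finset.Subset.refl A)

/-! ## 3. The regions of an event -/

/-- the region of radius `r` of an event: `patch = ggeA (R/32)`, `inner = ggeA (R/64)`, `tpatch = ggeA (R/16)` (all by `rfl`) -/
def ggeA (c : Grid G) (R : ℕ) (k : EvId) (r : ℕ) : Finset c.I := nbh c r (core c R k) ∩ ctl c R k

theorem gge_core_sub (R : ℕ) (k : EvId) (r : ℕ) : core c R k ⊆ ggeA c R k r :=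
  Finset.subset_inter (subset_nbh _ _) (core_subset_ctl k)

/-- **the key of the post: the shapes of the regions of an event are Lipschitz**, in EVERY window which carries them.
`U = pre k` (the event is not cut) or `U = pre k \ {k}` (it is cut). -/
def GgeLip (c : Grid G) (R : ℕ) : Prop :=
  ∀ k ∈ events c R, ∀ r : ℕ, 1 ≤ r → r ≤ R / 16 → ∀ U : Finset EvId, (U = pre c R k ∨ U = pre c R k \ {k}) →
    ∀ (m₁ m₂ : ℕ) (W : EgWin c m₁ m₂), W.Fits ((topU c R U).restr (ggeA c R k r)) → (W.shape ((topU c R U).restr (ggeA c R k r))).NoDiag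

/-! ## 4. The mark of an event in its cut patch -/

theorem gge_ev_geo {R : ℕ} (k : EvId) : (evMark c R k).Geo (topC c R k) (R / 64) where
  cur := Or.inr (gge_cut_disj k _)
  face := fun f hf => nt_cutF_core hf
  H_sub := core_subset_inner k
  D_sub := inner_subset_patch k
  p_sub := Finset.sdiff_subset
  O_sub := by
    show patch c R k ⊆ (topC c R k).cells
    unfold topC
    rw [gge_cells]
  disj := Finset.disjoint_sdiff
  sepG := by
    have key : ∀ f ∈ (topC c R k).faces ∪ cutF c R k, f.1 ∈ patch c R k ∧ fnb c f ∈ patch c R k := by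
      intro f hf
      rcases Finset.mem_union.1 hf with h | h
      · exact (gge_mem_faces.1 h).2.2
      · exact ⟨core_subset_patch k (nt_cutF_core h).2.1, core_subset_patch k (nt_cutF_core h).2.2⟩
    have split : ∀ i ∈ patch c R k, i ∈ inner c R k ∪ guard c R k := by
      intro i hi
      by_cases h : i ∈ inner c R k
      · exact Finset.mem_union_left _ h
      · exact Finset.mem_union_right _ (Finset.mem_sdiff.2 ⟨hi, h⟩)
    intro f hf
    exact ⟨fun _ => split _ (key f hf).2, fun _ => split _ (key f hf).1⟩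
  far := by
    refine ⟨patch c R k, Finset.Subset.refl _, fun f hf => ?_, fun i hi j hj hjD => ?_⟩
    · rcases Finset.mem_union.1 hf with h | h
      · exact iff_of_true (gge_mem_faces.1 h).2.2.1 (gge_mem_faces.1 h).2.2.2
      · exact iff_of_true (core_subset_patch k (nt_cutF_core h).2.1) (core_subset_patch k (nt_cutF_core h).2.2)
    · by_contra hlt
      exact hjD (Finset.mem_inter.2 ⟨mem_nbh.2 ⟨i, hi, by omega⟩, (Finset.mem_inter.1 hj).2⟩)

theorem gge_ev_Pc {R : ℕ} (k : EvId) : egPc (topC c R k) (evMark c R k) = topC c R k := by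
  show ((topC c R k).cut (cutF c R k)).restr (patch c R k) = topC c R k
  rw [gge_cut_of_disj (T := topC c R k) (gge_cut_disj k _)]
  exact gge_restr_self R _ _

theorem gge_ev_ok {R : ℕ} (hL : GgeLip c R) (h64 : 64 ∣ R) (hR : 0 < R) {k : EvId} (hk : k ∈ events c R) {m₁ m₂ : ℕ} (W : EgWin c m₁ m₂)
    (hC : W.Fits (topC c R k)) (hF : ∀ f ∈ cutF c R k, W.FaceIn f) : (evMark c R k).Ok W (topC c R k) (R / 64) where
  geo := gge_ev_geo k
  faceW := hF
  lipC := by
    show (W.shape ((topC c R k).cut (cutF c R k))).NoDiag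
    rw [gge_cut_of_disj (T := topC c R k) (gge_cut_disj k _)]
    exact hL k hk (R / 32) (by omega) (by omega) _ (Or.inr rfl) _ _ W hC
  lipO := by
    show (W.shape ((topC c R k).glue (cutF c R k))).NoDiag
    have e : (topC c R k).glue (cutF c R k) = (topU c R (pre c R k)).restr (ggeA c R k (R / 32)) := gge_glue hk (gge_core_sub R k _)
    have hO : W.Fits ((topC c R k).glue (cutF c R k)) := eg_fits_glue W _ hC _ hF
    rw [e] at hO ⊢
    exact hL k hk (R / 32) (by omega) (by omega) _ (Or.inl rfl) _ _ W hO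
  lipP := by
    rw [gge_ev_Pc]
    exact hL k hk (R / 32) (by omega) (by omega) _ (Or.inr rfl) _ _ W hC

/-! ## 5. The testing mark -/

theorem gge_ts_geo {R : ℕ} (h64 : 64 ∣ R) (k : EvId) (U : Finset EvId) : (tsMark c R k).Geo ((topU c R U).restr (tpatch c R k)) (R / 64) where
  cur := Or.inl (Finset.empty_subset _)
  face := fun f hf => absurd hf (Finset.notMem_empty f)
  H_sub := by
    intro i hi
    have hp : i ∈ patch c R k := (Finset.mem_sdiff.1 hi).1
    exact Finset.mem_inter.2 ⟨patch_subset_tpatch k hp, nbh_mono (by omega) (Finset.Subset.refl _) (patch_subset_nbh k hp)⟩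
  D_sub := Finset.inter_subset_left
  p_sub := Finset.sdiff_subset
  O_sub := by
    show tpatch c R k ⊆ ((topU c R U).restr (tpatch c R k)).cells
    rw [gge_cells]
  disj := by
    rw [Finset.disjoint_left]
    intro i h1 h2
    exact (Finset.mem_sdiff.1 h2).2 (Finset.mem_inter.1 h1).2
  sepG := by
    have split : ∀ i ∈ tpatch c R k, i ∈ (tsMark c R k).D ∪ (tsMark c R k).p := by
      intro i hi
      by_cases h : i ∈ nbh c (3 * (R / 64)) (core c R k)
      · exact Finset.mem_union_left _ (Finset.mem_inter.2 ⟨hi, h⟩)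
      · exact Finset.mem_union_right _ (Finset.mem_sdiff.2 ⟨hi, h⟩)
    intro f hf
    have hf' : f ∈ ((topU c R U).restr (tpatch c R k)).faces := by
      rcases Finset.mem_union.1 hf with h | h
      · exact h
      · exact absurd h (Finset.notMem_empty f)
    exact ⟨fun _ => split _ (gge_mem_faces.1 hf').2.2.2, fun _ => split _ (gge_mem_faces.1 hf').2.2.1⟩
  far := by
    refine ⟨tpatch c R k, Finset.Subset.refl _, fun f hf => ?_, fun i hi j hj hjD => ?_⟩
    · have hf' : f ∈ ((topU c R U).restr (tpatch c R k)).faces := by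
        rcases Finset.mem_union.1 hf with h | h
        · exact h
        · exact absurd h (Finset.notMem_empty f)
      exact iff_of_true (gge_mem_faces.1 hf').2.2.1 (gge_mem_faces.1 hf').2.2.2
    · by_contra hlt
      obtain ⟨a, ha, hd⟩ := mem_nbh.1 (patch_subset_nbh k (Finset.mem_sdiff.1 hi).1)
      have htri := geo_idist_triangle c a i j
      exact hjD (Finset.mem_inter.2 ⟨hj, mem_nbh.2 ⟨a, ha, by omega⟩⟩)

theorem gge_ts_Pc {R : ℕ} (k : EvId) (U : Finset EvId) :
    egPc ((topU c R U).restr (tpatch c R k)) (tsMark c R k) = (topU c R U).restr (tpatch c R k) := by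
  show (((topU c R U).restr (tpatch c R k)).cut ∅).restr (tpatch c R k) = _
  rw [gge_cut_empty]
  exact gge_restr_self R _ _

theorem gge_ts_ok {R : ℕ} (hL : GgeLip c R) (h64 : 64 ∣ R) (hR : 0 < R) {k : EvId} (hk : k ∈ events c R) (U : Finset EvId)
    (hU : U = pre c R k ∨ U = pre c R k \ {k}) {m₁ m₂ : ℕ} (W : EgWin c m₁ m₂) (hC : W.Fits ((topU c R U).restr (tpatch c R k))) :
    (tsMark c R k).Ok W ((topU c R U).restr (tpatch c R k)) (R / 64) where
  geo := gge_ts_geo h64 k U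
  faceW := fun f hf => absurd hf (Finset.notMem_empty f)
  lipC := by
    show (W.shape (((topU c R U).restr (tpatch c R k)).cut ∅)).NoDiag
    rw [gge_cut_empty]
    exact hL k hk (R / 16) (by omega) le_rfl U hU _ _ W hC
  lipO := by
    show (W.shape (((topU c R U).restr (tpatch c R k)).glue ∅)).NoDiag
    rw [gge_glue_empty]
    exact hL k hk (R / 16) (by omega) le_rfl U hU _ _ W hC
  lipP := by
    rw [gge_ts_Pc]
    exact hL k hk (R / 16) (by omega) le_rfl U hU _ _ W hC

/-! ## 6. The field `ev` -/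

theorem gge_ev {R : ℕ} (h : GeoOK c R) (hL : GgeLip c R) (k : EvId) (hk : k ∈ events c R) :
    ∃ (m₁ m₂ : ℕ) (W : EgWin c m₁ m₂), m₁ ≤ 2 * R ∧ m₂ ≤ 2 * R ∧
    ((topC c R k).Ok ∧ W.Fits (topC c R k) ∧ (evMark c R k).Ok W (topC c R k) (R / 64) ∧ egPc (topC c R k) (evMark c R k) = topC c R k) ∧
    ((tstO c R k).Ok ∧ W.Fits (tstO c R k) ∧ (tsMark c R k).Ok W (tstO c R k) (R / 64) ∧ egPc (tstO c R k) (tsMark c R k) = tstO c R k) ∧
    ((tstC c R k).Ok ∧ W.Fits (tstC c R k) ∧ (tsMark c R k).Ok W (tstC c R k) (R / 64) ∧ egPc (tstC c R k) (tsMark c R k) = tstC c R k) := by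
  have hA := h.adm
  have h64 := h.r64
  have hR := h.pos
  have hbig := h.big
  obtain ⟨p, hp⟩ := core_ne hk
  have hn : 2 * (R - 1) + 1 ≤ c.n := by omega
  have hlt : 2 * (R - 1) + 1 < c.n := by omega
  -- everything lies in the ball of radius `R - 1` around `p`
  have hball : ∀ i ∈ tpatch c R k, ∃ κ, i = (ggeWin c p (R - 1) hn).emb κ := by
    intro i hi
    refine gge_win_mem p (R - 1) hn ?_
    have b1 := nbh_box hA (ρ := R / 16) (by omega) (subset_nbh (R / 16) _ hp)
    have b2 := nbh_box hA (ρ := R / 16) (by omega) (tpatch_subset_nbh k hi)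
    have := box_diam hA (by omega) b1 b2
    omega
  have fitsT : ∀ U : Finset EvId, (ggeWin c p (R - 1) hn).Fits ((topU c R U).restr (tpatch c R k)) := fun U =>
    gge_fits _ hlt hlt _ (nt_ok_restr _ (nt_ok_topU R _) _) (fun i hi => hball i (by rwa [gge_cells] at hi))
  have fitsC : (ggeWin c p (R - 1) hn).Fits (topC c R k) :=
    gge_fits _ hlt hlt _ (nt_ok_restr _ (nt_ok_topU R _) _) (fun i hi => hball i (by
      unfold topC at hi
      rw [gge_cells] at hi
      exact patch_subset_tpatch k hi))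
  have hF : ∀ f ∈ cutF c R k, (ggeWin c p (R - 1) hn).FaceIn f := fun f hf =>
    gge_faceIn _ hlt hlt (nt_cutF_core hf).1 (hball _ (patch_subset_tpatch k (core_subset_patch k (nt_cutF_core hf).2.1)))
      (hball _ (patch_subset_tpatch k (core_subset_patch k (nt_cutF_core hf).2.2)))
  refine ⟨_, _, ggeWin c p (R - 1) hn, by omega, by omega, ⟨nt_ok_restr _ (nt_ok_topU R _) _, fitsC, gge_ev_ok hL h64 hR hk _ fitsC hF, gge_ev_Pc k⟩,
    ⟨nt_ok_restr _ (nt_ok_topU R _) _, fitsT _, gge_ts_ok hL h64 hR hk _ (Or.inl rfl) _ (fitsT _), gge_ts_Pc k _⟩,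
    ⟨nt_ok_restr _ (nt_ok_topU R _) _, fitsT _, gge_ts_ok hL h64 hR hk _ (Or.inr rfl) _ (fitsT _), gge_ts_Pc k _⟩⟩

/-! ## 7. The field `tile` -/

/-- the shape of an isolated tile is Lipschitz, in every window which carries it -/
def GgeLipT (c : Grid G) (R : ℕ) : Prop :=
  ∀ t ∈ tiles c R, ∀ (m₁ m₂ : ℕ) (W : EgWin c m₁ m₂), W.Fits (tileTop c R t) → (W.shape (tileTop c R t)).NoDiag

theorem gge_tile {R : ℕ} (h : GeoOK c R) (hL : GgeLipT c R) (t : Tile) (ht : t ∈ tiles c R) :
    (tileTop c R t).Ok ∧ ∃ (m₁ m₂ : ℕ) (W : EgWin c m₁ m₂), m₁ ≤ 2 * R ∧ m₂ ≤ 2 * R ∧ W.Fits (tileTop c R t) ∧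
      (W.shape (tileTop c R t)).NoDiag := by
  have hA := h.adm
  have hR := h.pos
  have hbig := h.big
  obtain ⟨p, -, hp⟩ := Finset.mem_image.1 ht
  have hn : 2 * (R - 1) + 1 ≤ c.n := by omega
  have hlt : 2 * (R - 1) + 1 < c.n := by omega
  have hok : (tileTop c R t).Ok := nt_ok_restr _ nt_ok_full _
  have hfit : (ggeWin c p (R - 1) hn).Fits (tileTop c R t) := by
    refine gge_fits _ hlt hlt _ hok fun i hi => gge_win_mem p (R - 1) hn ?_
    have hi' : i ∈ cellsOf c R {t} := (Finset.mem_inter.1 hi).2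
    have e : tile c R p = tile c R i := by
      rw [hp]
      exact (Finset.mem_singleton.1 (mem_cellsOf.1 hi')).symm
    have := tile_diam hA e
    omega
  exact ⟨hok, _, _, ggeWin c p (R - 1) hn, by omega, by omega, hfit, hL t ht _ _ _ hfit⟩

/-! ## 8. The Lipschitz property, from `Ent/GeoLip.lean` (helper108 + 177, 281, 140) and `Entry/GoodGeoA.lean` (helper190) -/

theorem gge_lip {R : ℕ} (h : GeoOK c R) : GgeLip c R := by
  intro k hk r h1 hr U hU m₁ m₂ W hf
  have hRC : RC c R U := by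
    rcases hU with rfl | rfl
    · exact gl_rc_pre h.adm k
    · exact gl_rc_pre' h.adm k
  exact gga_nodiag_restr h.adm h.whole hRC W _ hf fun z a b => gl_pres_nbh h.adm hk h1 hr z a b

theorem gge_tileTop (R : ℕ) (t : Tile) : tileTop c R t = (topU c R (events c R)).restr (cellsOf c R {t}) := by
  classical
  refine gge_top_ext ?_ ?_
  · rw [gge_cells]
    simp [tileTop, Top.restr, Top.full]
  · ext f
    rw [gge_mem_faces]
    unfold tileTop
    rw [nt_mem_restr_faces]
    simp only [Top.full, Finset.mem_filter, Finset.mem_univ, true_and]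
    constructor
    · rintro ⟨a, b, d⟩
      exact ⟨a, fun hs => Finset.mem_image_of_mem _ hs, b, d⟩
    · rintro ⟨a, -, b, d⟩
      exact ⟨a, b, d⟩

theorem gge_lipT {R : ℕ} (h : GeoOK c R) : GgeLipT c R := by
  intro t _ m₁ m₂ W hf
  rw [gge_tileTop] at hf ⊢
  have hRC : RC c R (events c R) := gl_rc_pre h.adm (false, true, 0, 0)
  refine gga_nodiag_restr h.adm h.whole hRC W _ hf fun z a b => ?_
  have := gl_pres_sat h.adm {t} Finset.univ z a b ⟨Finset.mem_univ _, Finset.mem_univ _, Finset.mem_univ _, Finset.mem_univ _⟩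
  rwa [Finset.inter_univ] at this

/-! ## 9. Exits -/

/-- **the field `GoodGeo.ev`** -/
theorem gge_ev_main {R : ℕ} (h : GeoOK c R) : ∀ k ∈ events c R, ∃ (m₁ m₂ : ℕ) (W : EgWin c m₁ m₂), m₁ ≤ 2 * R ∧ m₂ ≤ 2 * R ∧
    ((topC c R k).Ok ∧ W.Fits (topC c R k) ∧ (evMark c R k).Ok W (topC c R k) (R / 64) ∧ egPc (topC c R k) (evMark c R k) = topC c R k) ∧
    ((tstO c R k).Ok ∧ W.Fits (tstO c R k) ∧ (tsMark c R k).Ok W (tstO c R k) (R / 64) ∧ egPc (tstO c R k) (tsMark c R k) = tstO c R k) ∧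
    ((tstC c R k).Ok ∧ W.Fits (tstC c R k) ∧ (tsMark c R k).Ok W (tstC c R k) (R / 64) ∧ egPc (tstC c R k) (tsMark c R k) = tstC c R k) :=
  gge_ev h (gge_lip h)

/-- **the field `GoodGeo.tile`** -/
theorem gge_tile_main {R : ℕ} (h : GeoOK c R) : ∀ t ∈ tiles c R, (tileTop c R t).Ok ∧ ∃ (m₁ m₂ : ℕ) (W : EgWin c m₁ m₂), m₁ ≤ 2 * R ∧ m₂ ≤ 2 * R ∧
    W.Fits (tileTop c R t) ∧ (W.shape (tileTop c R t)).NoDiag :=
  gge_tile h (gge_lipT h)

/-- the shapes of `topC`, `topO`, `tstC`, `tstO` in an ARBITRARY window which carries them -/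
theorem gge_lip_topC {R : ℕ} (h : GeoOK c R) {k : EvId} (hk : k ∈ events c R) {m₁ m₂ : ℕ} (W : EgWin c m₁ m₂) (hf : W.Fits (topC c R k)) :
    (W.shape (topC c R k)).NoDiag := by
  have h64 := h.r64
  have hR := h.pos
  exact gge_lip h k hk (R / 32) (by omega) (by omega) _ (Or.inr rfl) _ _ W hf

theorem gge_lip_topO {R : ℕ} (h : GeoOK c R) {k : EvId} (hk : k ∈ events c R) {m₁ m₂ : ℕ} (W : EgWin c m₁ m₂) (hf : W.Fits (topO c R k)) :
    (W.shape (topO c R k)).NoDiag := by
  have h64 := h.r64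
  have hR := h.pos
  exact gge_lip h k hk (R / 32) (by omega) (by omega) _ (Or.inl rfl) _ _ W hf

theorem gge_lip_tstC {R : ℕ} (h : GeoOK c R) {k : EvId} (hk : k ∈ events c R) {m₁ m₂ : ℕ} (W : EgWin c m₁ m₂) (hf : W.Fits (tstC c R k)) :
    (W.shape (tstC c R k)).NoDiag := by
  have h64 := h.r64
  have hR := h.pos
  exact gge_lip h k hk (R / 16) (by omega) le_rfl _ (Or.inr rfl) _ _ W hf

theorem gge_lip_tstO {R : ℕ} (h : GeoOK c R) {k : EvId} (hk : k ∈ events c R) {m₁ m₂ : ℕ} (W : EgWin c m₁ m₂) (hf : W.Fits (tstO c R k)) :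
    (W.shape (tstO c R k)).NoDiag := by
  have h64 := h.r64
  have hR := h.pos
  exact gge_lip h k hk (R / 16) (by omega) le_rfl _ (Or.inl rfl) _ _ W hf

end

end Claimed.Agent.R285.Entry
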