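import Claimed.Agent.R285.Entry.GoodGeoB
import Claimed.Agent.R285.Entry.GoodGeoE
import Claimed.Agent.R285.Entry.GbDefs

/-!
# ROW 285, post BP-ENT-GOODGEO (#17867): THE TWO EXITS      (assembly helper190)
```
good_geo  : GoodGeoStmt    box, faces = Entry/GoodGeoB.lean (helper190; leaves helper65, helper174)      ev, tile = Entry/GoodGeoE.lean (helper15)      tile facts = Ent/GeoLip.lean (helper108)
good_geoU : GoodGeoUStmt   eg_geoU (helper161, Entry/GoodGeoB.lean s5)   (a second proof: gbs_geoU, helper12, Entry/GbSrc.lean)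
```
-/

set_option autoImplicit false

namespace Claimed.Agent.R285.Entry

open Claimed.Agent.R285 Claimed.Agent.R285.RG Claimed.Agent.R285.F4a Claimed.Agent.R285.Ent

/-- **POST BP-ENT-GOODGEO, exit 1** -/
theorem good_geo : GoodGeoStmt := fun _ c R h hP =>
  { box := fun S O t b hS hO ht => by
      obtain ⟨a1, m₁, m₂, W, a2, a3, a4, a5, a6⟩ := ggb_box h.adm h.whole (dvd_pow_self R (by norm_num)) hP S O t b hS hO ht
      exact ⟨a1, m₁, m₂, W, a2, a3, a4, a5, fun k hk => (a6 k hk).1⟩
    faces := fun S O t b hS hO ht => ggb_faces h.adm (dvd_pow_self R (by norm_num)) hP S O t b hS hO ht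
    ev := gge_ev_main h
    tile := gge_tile_main h }

/-- **POST BP-ENT-GOODGEO, exit 2** -/
theorem good_geoU : GoodGeoUStmt := fun _ _ _ h hfree h2 _ => eg_geoU h.adm hfree h2 _

end Claimed.Agent.R285.Entry
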