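import Claimed.Agent.R285.Entry.NtGeo
import Claimed.Agent.R285.Ent.PhysIf

/-!
# ROW 285, ENTRY: the exit `NGeoStmt` of `Ent/PhysIf.lean`            (helper30)
-/

set_option autoImplicit false

namespace Claimed.Agent.R285.Entry

/-- **POST GEO, exit** -/
theorem ngeo_stmt : Claimed.Agent.R285.Ent.NGeoStmt := fun _ _ _ h => ngeo_of h

end Claimed.Agent.R285.Entry
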