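import Claimed.Agent.R285.Ent.PhysIf
import Claimed.Agent.R285.Entry.NtCut
import Claimed.Agent.R285.F4a.Face
import Claimed.Agent.R285.Ent.GeoU

/-!
# ROW 285, ENTRY, post NT-XY (#17486, architect + prover helper82): THE XY INSTANCE OF THE HYPOTHESES OF NORM.   Everything in this file is proved.
Exits (statements in `Ent/PhysIf.lean`, consumer `Ent/PhysTop.lean`):
* `xy_qloc   : XyQLocStmt`     from `F4a.face_localization` (matrix bounds, second line) + `F4a.guarded_face_error`; `Hr (xyWt ..) Ds = Top.Hm a Ds`.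
* `xy_faceco : XyFaceCoStmt`   two-cell Poincaré: `(avg_j u - avg_i u)² ≤ 2 ‖∇ u‖²` by translation of the cell along the rows through the face.
* `xy_src    : XySrcStmt`      `F4a.sig_wf`, `F4a.sig_tauU`.
* `xy_zone   : XyZoneStmt`     boxes have side `≤ P`; the count of `Ent.geo_unit` for a general grid of whole cells.
-/

set_option autoImplicit false

namespace Claimed.Agent.R285.Entry

open scoped BigOperators
open Claimed.Agent.R285 Claimed.Agent.R285.RG Claimed.Agent.R285.F4a Claimed.Agent.R285.Ent Claimed.Agent.R285.Geo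

noncomputable section

variable {G : Geom}

/-! ## 1. The matrices -/

theorem xy_Hr_eq {c : Grid G} (a b0 : ℝ) (b : ℂ) (τ : Face c → ℤ) (Ds : ℝ) (T : Top c) (f f' : Face c) :
    Hr (xyWt c a b0 b τ) Ds T f f' = T.Hm a Ds f f' := rfl

theorem xy_exp_mono {cq cc : ℝ} (h : cq ≤ cc) (d : ℕ) : Real.exp (-cc * d) ≤ Real.exp (-cq * d) := by
  apply Real.exp_le_exp.2
  have : (0 : ℝ) ≤ d := Nat.cast_nonneg _
  nlinarith

/-- **NT-XY, exit 1** -/
theorem xy_qloc : XyQLocStmt := by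
  intro a ha
  obtain ⟨C, cc, n1, Ds, hcc, hF⟩ := face_localization a ha
  obtain ⟨C', cc', hcc', hG⟩ := guarded_face_error a C cc n1 Ds hcc hF
  have hC1 : C ≤ max (max C C') 0 := (le_max_left _ _).trans (le_max_left _ _)
  have hC2 : C' ≤ max (max C C') 0 := (le_max_right _ _).trans (le_max_left _ _)
  refine ⟨max (max C C') 0, min cc cc', 1, n1, le_max_right _ _, lt_min hcc hcc', ?_⟩
  intro G c hc hs hn
  obtain ⟨h0, h1, h2⟩ := hF c.m hs
  refine ⟨Ds c.m, h0, ?_, ?_⟩
  · have hlog : 0 ≤ Real.log (2 + c.m) := Real.log_nonneg (by have : (0:ℝ) ≤ c.m := Nat.cast_nonneg _; linarith)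
    exact h1.trans (mul_le_mul_of_nonneg_right hC1 hlog)
  · intro b0 b τ
    refine ⟨lt_min hcc hcc', le_max_right _ _, h0, ?_, ?_⟩
    · intro T T' hT hT' f f' D hD
      have h3 := (h2 G c hc rfl hn T hT).2.2 T' hT' f f' D hD
      rw [xy_Hr_eq, xy_Hr_eq]
      refine h3.trans ?_
      have hm : min (Real.exp (-cc * c.idist f.1 f'.1)) (Real.exp (-cc * D))
          ≤ min (Real.exp (-min cc cc' * c.idist f.1 f'.1)) (Real.exp (-min cc cc' * D)) :=
        min_le_min (xy_exp_mono (min_le_left _ _) _) (xy_exp_mono (min_le_left _ _) _)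
      have hp : 0 ≤ min (Real.exp (-cc * c.idist f.1 f'.1)) (Real.exp (-cc * D)) := le_min (Real.exp_pos _).le (Real.exp_pos _).le
      calc C * min (Real.exp (-cc * c.idist f.1 f'.1)) (Real.exp (-cc * D))
          ≤ max (max C C') 0 * min (Real.exp (-cc * c.idist f.1 f'.1)) (Real.exp (-cc * D)) := mul_le_mul_of_nonneg_right hC1 hp
        _ ≤ _ := mul_le_mul_of_nonneg_left hm (le_max_right _ _)
    · intro G0 G1 hG0 hG1 O r hr f f' D hD
      have h3 := hG G c hc hn G0 G1 hG0 hG1 O r hr f f' D hD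
      rw [xy_Hr_eq, xy_Hr_eq, xy_Hr_eq, xy_Hr_eq]
      refine h3.trans ?_
      have hm : Real.exp (-cc' * r - cc' * c.idist f.1 f'.1 - cc' * D) ≤ Real.exp (-min cc cc' * r - min cc cc' * c.idist f.1 f'.1 - min cc cc' * D) := by
        apply Real.exp_le_exp.2
        have e1 : (0 : ℝ) ≤ r := Nat.cast_nonneg _
        have e2 : (0 : ℝ) ≤ c.idist f.1 f'.1 := Nat.cast_nonneg _
        have e3 : (0 : ℝ) ≤ D := Nat.cast_nonneg _
        have e4 : min cc cc' ≤ cc' := min_le_right _ _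
        nlinarith
      calc C' * Real.exp (-cc' * r - cc' * c.idist f.1 f'.1 - cc' * D)
          ≤ max (max C C') 0 * Real.exp (-cc' * r - cc' * c.idist f.1 f'.1 - cc' * D) := mul_le_mul_of_nonneg_right hC2 (Real.exp_pos _).le
        _ ≤ _ := mul_le_mul_of_nonneg_left hm (le_max_right _ _)

/-! ## 2. Two-cell Poincaré -/

/-- translation of a square of side `m` by `m` along rows of length `2 m` -/
theorem xy_two_rows (m : ℕ) (hm : 0 < m) (v : ℕ → ℕ → ℝ) :
    ((∑ p ∈ Finset.range m, ∑ q ∈ Finset.range m, (v q (p + m) - v q p)) / (m : ℝ) ^ 2) ^ 2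
      ≤ 2 * ∑ q ∈ Finset.range m, ∑ t ∈ Finset.range (2 * m - 1), (v q (t + 1) - v q t) ^ 2 := by
  have hm' : (0 : ℝ) < m := by exact_mod_cast hm
  set E : ℕ → ℝ := fun q => ∑ t ∈ Finset.range (2 * m - 1), (v q (t + 1) - v q t) ^ 2 with hE
  have h1 : ∀ p ∈ Finset.range m, ∀ q ∈ Finset.range m, (v q (p + m) - v q p) ^ 2 ≤ (2 * m : ℝ) * E q := by
    intro p hp q _
    rw [Finset.mem_range] at hp
    have := rwb_diff_sq_le (2 * m) (v q) p (p + m) (by omega) (by omega)
    push_cast at this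
    exact this
  have h2 : (∑ p ∈ Finset.range m, ∑ q ∈ Finset.range m, (v q (p + m) - v q p)) ^ 2
      ≤ (m : ℝ) ^ 2 * ∑ p ∈ Finset.range m, ∑ q ∈ Finset.range m, (v q (p + m) - v q p) ^ 2 := by
    rw [← Finset.sum_product' (Finset.range m) (Finset.range m) (fun p q => v q (p + m) - v q p),
      ← Finset.sum_product' (Finset.range m) (Finset.range m) (fun p q => (v q (p + m) - v q p) ^ 2)]
    have := sq_sum_le_card_mul_sum_sq (s := Finset.range m ×ˢ Finset.range m) (f := fun x : ℕ × ℕ => v x.2 (x.1 + m) - v x.2 x.1)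
    rw [Finset.card_product, Finset.card_range] at this
    push_cast at this
    rw [sq (m : ℝ)]
    exact this
  have h3 : ∑ p ∈ Finset.range m, ∑ q ∈ Finset.range m, (v q (p + m) - v q p) ^ 2 ≤ (m : ℝ) * ((2 * m : ℝ) * ∑ q ∈ Finset.range m, E q) := by
    calc ∑ p ∈ Finset.range m, ∑ q ∈ Finset.range m, (v q (p + m) - v q p) ^ 2
        ≤ ∑ p ∈ Finset.range m, ∑ q ∈ Finset.range m, (2 * m : ℝ) * E q :=
          Finset.sum_le_sum fun p hp => Finset.sum_le_sum fun q hq => h1 p hp q hq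
      _ = (m : ℝ) * ((2 * m : ℝ) * ∑ q ∈ Finset.range m, E q) := by
          rw [Finset.sum_const, Finset.card_range, nsmul_eq_mul, ← Finset.mul_sum]
  rw [div_pow, div_le_iff₀ (by positivity)]
  calc (∑ p ∈ Finset.range m, ∑ q ∈ Finset.range m, (v q (p + m) - v q p)) ^ 2
      ≤ (m : ℝ) ^ 2 * ((m : ℝ) * ((2 * m : ℝ) * ∑ q ∈ Finset.range m, E q)) := h2.trans (mul_le_mul_of_nonneg_left h3 (by positivity))
    _ = 2 * (∑ q ∈ Finset.range m, E q) * ((m : ℝ) ^ 2) ^ 2 := by ring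

open Classical in
/-- **two-cell Poincaré in a chart**: `Pi`, `Pj` = coordinates of the two cells, first argument along the direction `d` -/
theorem xy_two_cell {c : Grid G} (hc : Whole c) (d : Bool) (i j : c.I) (hij : j ≠ i) (Pi Pj : ℕ → ℕ → G.V)
    (hsi : ∀ F : G.V → ℝ, ∑ x ∈ c.sites {i}, F x = ∑ p ∈ Finset.range c.m, ∑ q ∈ Finset.range c.m, F (Pi p q))
    (hsj : ∀ F : G.V → ℝ, ∑ x ∈ c.sites {j}, F x = ∑ p ∈ Finset.range c.m, ∑ q ∈ Finset.range c.m, F (Pj p q))
    (hbi : ∀ p q, p < c.m → q < c.m → c.blk (Pi p q) = i) (hbj : ∀ p q, p < c.m → q < c.m → c.blk (Pj p q) = j)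
    (hti : ∀ p q, p + 1 < c.m → q < c.m → stp (Pi p q) d = Pi (p + 1) q ∧ Pi (p + 1) q ≠ Pi p q)
    (htj : ∀ p q, p + 1 < c.m → q < c.m → stp (Pj p q) d = Pj (p + 1) q ∧ Pj (p + 1) q ≠ Pj p q)
    (hx : ∀ q, q < c.m → stp (Pi (c.m - 1) q) d = Pj 0 q) (u : G.V → ℝ) (w : Face c → ℝ) :
    (avg c u j + w (i, d) - avg c u i) ^ 2 ≤ 2 * ∑ x : G.V,
      if stp x d ≠ x ∧ c.blk x ∈ ({i, j} : Finset c.I) ∧ c.blk (stp x d) ∈ ({i, j} : Finset c.I) then
        (u (stp x d) - u x + if c.blk (stp x d) = c.blk x then 0 else w (c.blk x, d)) ^ 2 else 0 := by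
  have hm := hc.pos
  have hm' : (0 : ℝ) < c.m := by exact_mod_cast hm
  set g : G.V → ℝ := fun x => if stp x d ≠ x ∧ c.blk x ∈ ({i, j} : Finset c.I) ∧ c.blk (stp x d) ∈ ({i, j} : Finset c.I) then
        (u (stp x d) - u x + if c.blk (stp x d) = c.blk x then 0 else w (c.blk x, d)) ^ 2 else 0 with hg
  have hg0 : ∀ x, 0 ≤ g x := fun x => by
    simp only [hg]
    split_ifs <;> first | exact sq_nonneg _ | exact le_rfl
  set v : ℕ → ℕ → ℝ := fun q t => if t < c.m then u (Pi t q) else u (Pj (t - c.m) q) + w (i, d) with hv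
  have hmi : i ∈ ({i, j} : Finset c.I) := by simp
  have hmj : j ∈ ({i, j} : Finset c.I) := by simp
  -- the steps of a row
  have s1 : ∀ q, q < c.m → ∀ t, t < c.m → (v q (t + 1) - v q t) ^ 2 = g (Pi t q) := by
    intro q hq t ht
    simp only [hv, hg]
    rw [if_pos ht]
    by_cases h : t + 1 < c.m
    · obtain ⟨e1, e2⟩ := hti t q h hq
      rw [if_pos h, e1, hbi t q ht hq, hbi (t + 1) q h hq, if_pos ⟨e2, hmi, hmi⟩, if_pos rfl, add_zero]
    · have ht' : t = c.m - 1 := by omega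
      subst ht'
      have e1 := hx q hq
      have e0 : c.m - 1 + 1 - c.m = 0 := by omega
      have e2 : Pj 0 q ≠ Pi (c.m - 1) q := fun e => hij (by rw [← hbj 0 q hm hq, e, hbi _ q ht hq])
      rw [if_neg h, e0, e1, hbi _ q ht hq, hbj 0 q hm hq, if_pos ⟨e2, hmi, hmj⟩, if_neg hij]
      ring
  have s2 : ∀ q, q < c.m → ∀ t, t + 1 < c.m → (v q (c.m + t + 1) - v q (c.m + t)) ^ 2 = g (Pj t q) := by
    intro q hq t ht
    simp only [hv, hg]
    obtain ⟨e1, e2⟩ := htj t q ht hq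
    rw [if_neg (by omega), if_neg (by omega), show c.m + t + 1 - c.m = t + 1 by omega, show c.m + t - c.m = t by omega, e1,
      hbj t q (by omega) hq, hbj (t + 1) q ht hq, if_pos ⟨e2, hmj, hmj⟩, if_pos rfl]
    ring
  have hrow : ∀ q, q < c.m → ∑ t ∈ Finset.range (2 * c.m - 1), (v q (t + 1) - v q t) ^ 2
      ≤ ∑ p ∈ Finset.range c.m, g (Pi p q) + ∑ p ∈ Finset.range c.m, g (Pj p q) := by
    intro q hq
    rw [show 2 * c.m - 1 = c.m + (c.m - 1) by omega, Finset.sum_range_add]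
    refine add_le_add (le_of_eq (Finset.sum_congr rfl fun t ht => s1 q hq t (Finset.mem_range.1 ht))) ?_
    rw [Finset.sum_congr rfl fun t ht => s2 q hq t (by have := Finset.mem_range.1 ht; omega)]
    refine Finset.sum_le_sum_of_subset_of_nonneg ?_ fun _ _ _ => hg0 _
    intro p hp
    rw [Finset.mem_range] at hp ⊢
    omega
  -- the averages
  have havg : avg c u j + w (i, d) - avg c u i
      = (∑ p ∈ Finset.range c.m, ∑ q ∈ Finset.range c.m, (v q (p + c.m) - v q p)) / (c.m : ℝ) ^ 2 := by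
    simp only [avg, cellAvg]
    rw [hsi u, hsj u, whole_sites_card hc i, whole_sites_card hc j]
    have e : ∀ p ∈ Finset.range c.m, ∀ q ∈ Finset.range c.m, v q (p + c.m) - v q p = u (Pj p q) + w (i, d) - u (Pi p q) := by
      intro p hp q _
      rw [Finset.mem_range] at hp
      simp only [hv]
      rw [if_neg (by omega), if_pos hp, Nat.add_sub_cancel]
    rw [Finset.sum_congr rfl fun p hp => Finset.sum_congr rfl fun q hq => e p hp q hq]
    simp only [Finset.sum_sub_distrib, Finset.sum_add_distrib, Finset.sum_const, Finset.card_range, nsmul_eq_mul]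
    push_cast
    field_simp
  rw [havg]
  refine (xy_two_rows c.m hm v).trans (mul_le_mul_of_nonneg_left ?_ (by norm_num))
  calc ∑ q ∈ Finset.range c.m, ∑ t ∈ Finset.range (2 * c.m - 1), (v q (t + 1) - v q t) ^ 2
      ≤ ∑ q ∈ Finset.range c.m, (∑ p ∈ Finset.range c.m, g (Pi p q) + ∑ p ∈ Finset.range c.m, g (Pj p q)) :=
        Finset.sum_le_sum fun q hq => hrow q (Finset.mem_range.1 hq)
    _ = ∑ x ∈ c.sites {i}, g x + ∑ x ∈ c.sites {j}, g x := by
        rw [Finset.sum_add_distrib, hsi g, hsj g, Finset.sum_comm, Finset.sum_comm (s := Finset.range c.m) (t := Finset.range c.m) (f := fun q p => g (Pj p q))]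
    _ = ∑ x ∈ c.sites {i} ∪ c.sites {j}, g x := by
        rw [Finset.sum_union]
        rw [Finset.disjoint_left]
        intro x h1 h2
        unfold Grid.sites at h1 h2
        rw [Finset.mem_filter, Finset.mem_singleton] at h1 h2
        exact hij (h2.2.symm.trans h1.2)
    _ ≤ ∑ x, g x := Finset.sum_le_sum_of_subset_of_nonneg (Finset.subset_univ _) fun _ _ _ => hg0 _

/-- the last site of a cell steps to the first site of the next cell -/
theorem xy_fold_cross {c : Grid G} (hc : Whole c) (k : Fin c.n) (hk : G.bc = BC.per ∨ (k : ℕ) + 1 < c.n) (h : (k : ℕ) * c.m + (c.m - 1) < G.M) :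
    ((G.fold ((((⟨(k : ℕ) * c.m + (c.m - 1), h⟩ : Fin G.M) : ℕ) : ℤ) + 1) : Fin G.M) : ℕ) = ((nx k : Fin c.n) : ℕ) * c.m + 0 := by
  have hm := hc.pos
  have hM := whole_card hc
  have e1 : ((k : ℕ) + 1) * c.m = (k : ℕ) * c.m + c.m := by ring
  by_cases hk1 : (k : ℕ) + 1 < c.n
  · have e2 : ((nx k : Fin c.n) : ℕ) = (k : ℕ) + 1 := by
      unfold nx
      exact Nat.mod_eq_of_lt hk1
    have e3 : ((k : ℕ) + 2) * c.m ≤ c.n * c.m := Nat.mul_le_mul_right _ hk1
    have e4 : ((k : ℕ) + 2) * c.m = (k : ℕ) * c.m + 2 * c.m := by ring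
    rw [enb_fold_succ _ (by simp only; omega), e2, e1]
    simp only
    omega
  · have hG : G.bc = BC.per := hk.resolve_right hk1
    have hkn : (k : ℕ) + 1 = c.n := by have := k.2; omega
    have e2 : ((nx k : Fin c.n) : ℕ) = 0 := by
      unfold nx
      simp only
      rw [hkn, Nat.mod_self]
    have e5 : c.n * c.m = (k : ℕ) * c.m + c.m := by
      calc c.n * c.m = ((k : ℕ) + 1) * c.m := congrArg (· * c.m) hkn.symm
        _ = _ := e1
    rw [enb_fold_last_per hG _ (by simp only; omega), e2]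
    simp

theorem xy_cross_true {c : Grid G} (hc : Whole c) (i : c.I) (hf : IsFace c (i, true)) (q : ℕ) (hq : q < c.m) :
    stp (G.π ((((i.1 : ℕ) * c.m + (c.m - 1) : ℕ) : ℤ), (((i.2 : ℕ) * c.m + q : ℕ) : ℤ))) true
      = G.π (((((nx i.1 : Fin c.n) : ℕ) * c.m + 0 : ℕ) : ℤ), (((i.2 : ℕ) * c.m + q : ℕ) : ℤ)) := by
  have hm := hc.pos
  have hk : G.bc = BC.per ∨ (i.1 : ℕ) + 1 < c.n := by simpa [IsFace] using hf
  rw [rwb_pi_nat _ _ (rwb_lt hc i.1 (c.m - 1) (by omega)) (rwb_lt hc i.2 q hq),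
    rwb_pi_nat _ _ (rwb_lt hc (nx i.1) 0 hm) (rwb_lt hc i.2 q hq), enc_stp_true]
  exact Prod.ext (Fin.ext (xy_fold_cross hc i.1 hk _)) rfl

theorem xy_cross_false {c : Grid G} (hc : Whole c) (i : c.I) (hf : IsFace c (i, false)) (q : ℕ) (hq : q < c.m) :
    stp (G.π ((((i.1 : ℕ) * c.m + q : ℕ) : ℤ), (((i.2 : ℕ) * c.m + (c.m - 1) : ℕ) : ℤ))) false
      = G.π ((((i.1 : ℕ) * c.m + q : ℕ) : ℤ), ((((nx i.2 : Fin c.n) : ℕ) * c.m + 0 : ℕ) : ℤ)) := by
  have hm := hc.pos
  have hk : G.bc = BC.per ∨ (i.2 : ℕ) + 1 < c.n := by simpa [IsFace] using hf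
  rw [rwb_pi_nat _ _ (rwb_lt hc i.1 q hq) (rwb_lt hc i.2 (c.m - 1) (by omega)),
    rwb_pi_nat _ _ (rwb_lt hc i.1 q hq) (rwb_lt hc (nx i.2) 0 hm), enc_stp_false]
  exact Prod.ext rfl (Fin.ext (xy_fold_cross hc i.2 hk _))

open Classical in
/-- two-cell Poincaré for a face -/
theorem xy_two_face {c : Grid G} (hc : Whole c) (f : Face c) (hf : IsFace c f) (u : G.V → ℝ) (w : Face c → ℝ) :
    (avg c u (fnb c f) + w f - avg c u f.1) ^ 2 ≤ 2 * ∑ x : G.V,
      if stp x f.2 ≠ x ∧ c.blk x ∈ ({f.1, fnb c f} : Finset c.I) ∧ c.blk (stp x f.2) ∈ ({f.1, fnb c f} : Finset c.I) then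
        (u (stp x f.2) - u x + if c.blk (stp x f.2) = c.blk x then 0 else w (c.blk x, f.2)) ^ 2 else 0 := by
  obtain ⟨i, d⟩ := f
  cases d
  · have hj : fnb c (i, false) = (i.1, nx i.2) := by simp [fnb]
    have hij : fnb c (i, false) ≠ i := by
      rw [hj]
      intro h
      exact j2_nx_ne hc.two i.2 (congrArg Prod.snd h)
    refine xy_two_cell hc false i (fnb c (i, false)) hij
      (fun p q => G.π ((((i.1 : ℕ) * c.m + q : ℕ) : ℤ), (((i.2 : ℕ) * c.m + p : ℕ) : ℤ)))
      (fun p q => G.π (((((fnb c (i, false)).1 : ℕ) * c.m + q : ℕ) : ℤ), ((((fnb c (i, false)).2 : ℕ) * c.m + p : ℕ) : ℤ)))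
      (fun F => by rw [sum_cell hc, Finset.sum_comm]) (fun F => by rw [sum_cell hc, Finset.sum_comm])
      (fun p q hp hq => rwb_blk_pi hc _ q p hq hp) (fun p q hp hq => rwb_blk_pi hc _ q p hq hp)
      (fun p q hp hq => ⟨rwb_stp_false hc _ q p hq hp, rwb_pi_ne_false hc _ q p hq hp⟩)
      (fun p q hp hq => ⟨rwb_stp_false hc _ q p hq hp, rwb_pi_ne_false hc _ q p hq hp⟩) ?_ u w
    intro q hq
    simp only [hj]
    exact xy_cross_false hc i hf q hq
  · have hj : fnb c (i, true) = (nx i.1, i.2) := by simp [fnb]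
    have hij : fnb c (i, true) ≠ i := by
      rw [hj]
      intro h
      exact j2_nx_ne hc.two i.1 (congrArg Prod.fst h)
    refine xy_two_cell hc true i (fnb c (i, true)) hij
      (fun p q => G.π ((((i.1 : ℕ) * c.m + p : ℕ) : ℤ), (((i.2 : ℕ) * c.m + q : ℕ) : ℤ)))
      (fun p q => G.π (((((fnb c (i, true)).1 : ℕ) * c.m + p : ℕ) : ℤ), ((((fnb c (i, true)).2 : ℕ) * c.m + q : ℕ) : ℤ)))
      (fun F => sum_cell hc _ F) (fun F => sum_cell hc _ F)
      (fun p q hp hq => rwb_blk_pi hc _ p q hp hq) (fun p q hp hq => rwb_blk_pi hc _ p q hp hq)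
      (fun p q hp hq => ⟨rwb_stp_true hc _ p q hp hq, rwb_pi_ne_true hc _ p q hp hq⟩)
      (fun p q hp hq => ⟨rwb_stp_true hc _ p q hp hq, rwb_pi_ne_true hc _ p q hp hq⟩) ?_ u w
    intro q hq
    simp only [hj]
    exact xy_cross_true hc i hf q hq

/-- **NT-XY, exit 2** -/
theorem xy_faceco : XyFaceCoStmt := by
  classical
  intro a ha
  have hC : 0 < 3 + 6 * a := by positivity
  refine ⟨3 + 6 * a, hC.le, ?_⟩
  intro G c hc τ y f hf
  have hij : f.1 ≠ fnb c f := by
    obtain ⟨i, d⟩ := f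
    cases d
    · intro h
      have h' : i = (i.1, nx i.2) := by simpa [fnb] using h
      exact j2_nx_ne hc.two i.2 (congrArg Prod.snd h').symm
    · intro h
      have h' : i = (nx i.1, i.2) := by simpa [fnb] using h
      exact j2_nx_ne hc.two i.1 (congrArg Prod.fst h').symm
  have key : ∀ u : G.V → ℝ, wf c τ y f ^ 2 ≤ (3 + 6 * a) * (twoT c f).quad a (fun f => 2 * Real.pi * τ f) y u := by
    intro u
    set w : Face c → ℝ := fun f => 2 * Real.pi * τ f with hw
    have h1 := xy_two_face hc f hf u w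
    let F : G.V × Bool → ℝ := fun e =>
      (u (stp e.1 e.2) - u e.1 + (if c.blk (stp e.1 e.2) = c.blk e.1 then 0 else w (c.blk e.1, e.2))) ^ 2
    have h2 : ∑ e : (twoT c f).graph.E, (u (stp e.1.1 e.1.2) - u e.1.1 + (twoT c f).econn w e) ^ 2
        = ∑ e ∈ Finset.univ.filter (twoT c f).IsEdge, F e :=
      (Finset.sum_subtype (Finset.univ.filter (twoT c f).IsEdge) (by simp) F).symm
    have h3 : (∑ x : G.V,
        if stp x f.2 ≠ x ∧ c.blk x ∈ ({f.1, fnb c f} : Finset c.I) ∧ c.blk (stp x f.2) ∈ ({f.1, fnb c f} : Finset c.I) then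
          (u (stp x f.2) - u x + if c.blk (stp x f.2) = c.blk x then 0 else w (c.blk x, f.2)) ^ 2 else 0)
        ≤ ∑ e ∈ Finset.univ.filter (twoT c f).IsEdge, F e := by
      rw [Finset.sum_filter, Fintype.sum_prod_type (fun e : G.V × Bool => if (twoT c f).IsEdge e then F e else 0)]
      refine Finset.sum_le_sum fun x _ => ?_
      have h4 : (if (twoT c f).IsEdge (x, f.2) then F (x, f.2) else 0) ≤ ∑ d : Bool, if (twoT c f).IsEdge (x, d) then F (x, d) else 0 :=
        Finset.single_le_sum (s := (Finset.univ : Finset Bool)) (f := fun d : Bool => if (twoT c f).IsEdge (x, d) then F (x, d) else (0 : ℝ))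
          (fun d _ => by
            show (0 : ℝ) ≤ if (twoT c f).IsEdge (x, d) then F (x, d) else (0 : ℝ)
            split_ifs
            · exact sq_nonneg _
            · exact le_rfl) (Finset.mem_univ f.2)
      refine le_trans (le_of_eq ?_) h4
      unfold twoT
      simp only [enc_opn_edge hc]
      rfl
    unfold Top.quad
    rw [h2]
    have h5 : ∑ i ∈ (twoT c f).cells, (avg c u i - y i) ^ 2 = (avg c u f.1 - y f.1) ^ 2 + (avg c u (fnb c f) - y (fnb c f)) ^ 2 := by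
      unfold twoT
      rw [enc_opn_cells, Finset.sum_pair hij]
    rw [h5]
    set B := ∑ e ∈ Finset.univ.filter (twoT c f).IsEdge, F e with hB
    have hB0 : 0 ≤ B := Finset.sum_nonneg fun _ _ => sq_nonneg _
    have h6 : (avg c u (fnb c f) + w f - avg c u f.1) ^ 2 ≤ 2 * B := h1.trans (mul_le_mul_of_nonneg_left h3 (by norm_num))
    have h7 : wf c τ y f = (y (fnb c f) - avg c u (fnb c f)) + (avg c u (fnb c f) + w f - avg c u f.1) + (avg c u f.1 - y f.1) := by
      unfold wf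
      simp only [hw]
      ring
    set A1 := avg c u f.1 - y f.1
    set A2 := avg c u (fnb c f) - y (fnb c f)
    set A3 := avg c u (fnb c f) + w f - avg c u f.1
    have h8 : wf c τ y f = -A2 + A3 + A1 := by rw [h7]; ring
    have h9 : (-A2 + A3 + A1) ^ 2 ≤ 3 * (A2 ^ 2 + A3 ^ 2 + A1 ^ 2) := by
      nlinarith [sq_nonneg (A2 + A3), sq_nonneg (A2 + A1), sq_nonneg (A3 - A1)]
    have h10 : a * (a⁻¹ * B) = B := by field_simp
    rw [h8]
    have h11 : 0 ≤ a⁻¹ * B := by positivity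
    nlinarith [sq_nonneg A1, sq_nonneg A2]
  unfold Top.Eobs Top.En
  rw [← div_le_iff₀' hC]
  exact le_ciInf fun u => by rw [div_le_iff₀' hC]; exact key u

/-! ## 3. The source -/

theorem xy_w_eq {c : Grid G} (R : ℕ) (a b0 b : ℝ) (τ : Face c → ℤ) (y : c.I → ℝ) : (xyPhy c R a b0 b τ).w y = wf c τ y := rfl

/-- **NT-XY, exit 3** -/
theorem xy_src : XySrcStmt := by
  intro G c R a b0 b hc
  refine ⟨⟨le_rfl, fun T _ y => ?_⟩, fun hfree h2 h4 => ⟨by positivity, fun T hT y => ?_⟩⟩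
  · rw [xy_w_eq, if_pos (Finset.disjoint_empty_right _)]
    refine le_of_eq (Finset.sum_eq_zero fun z _ => ?_)
    rw [sig_wf]
    simp
  · rw [xy_w_eq]
    have hsg : ∀ z ∈ T.V4, sig c z (wf c (tauU c) y) = if (z.1 : ℕ) + 1 = c.n / 2 ∧ (z.2 : ℕ) + 1 = c.n / 2 then 2 * Real.pi else 0 := by
      intro z hz
      unfold Top.V4 at hz
      rw [Finset.mem_filter] at hz
      obtain ⟨-, f1, -, -, f4⟩ := hz
      have i1 := (hT _ f1).1
      have i4 := (hT _ f4).1
      unfold IsFace at i1 i4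
      rw [hfree] at i1 i4
      simp only [reduceCtorEq, false_or, if_true, Bool.false_eq_true, if_false] at i1 i4
      exact sig_tauU c hc.two z ⟨i1, i4⟩ y
    have hmem : ∀ z ∈ T.V4, (z.1 : ℕ) + 1 = c.n / 2 ∧ (z.2 : ℕ) + 1 = c.n / 2 → z ∈ T.cells ∧ z ∈ srcZ c := by
      intro z hz hp
      unfold Top.V4 at hz
      rw [Finset.mem_filter] at hz
      obtain ⟨-, f1, -, -, -⟩ := hz
      refine ⟨(hT _ f1).2.1, ?_⟩
      unfold srcZ zone
      rw [Finset.mem_filter]
      refine ⟨Finset.mem_univ _, ?_, ?_⟩ <;> omega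
    rw [Finset.sum_congr rfl fun z hz => by rw [hsg z hz]]
    split_ifs with hd
    · refine le_of_eq (Finset.sum_eq_zero fun z hz => ?_)
      rw [if_neg, zero_pow two_ne_zero]
      intro hp
      obtain ⟨m1, m2⟩ := hmem z hz hp
      exact Finset.disjoint_left.1 hd m1 m2
    · have e : ∀ z : c.I, (if (z.1 : ℕ) + 1 = c.n / 2 ∧ (z.2 : ℕ) + 1 = c.n / 2 then 2 * Real.pi else 0) ^ 2
          = if (z.1 : ℕ) + 1 = c.n / 2 ∧ (z.2 : ℕ) + 1 = c.n / 2 then (2 * Real.pi) ^ 2 else 0 := by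
        intro z
        split_ifs
        · rfl
        · exact zero_pow two_ne_zero
      simp only [e]
      rw [← Finset.sum_filter, Finset.sum_const, nsmul_eq_mul]
      have hcard : ((T.V4.filter fun z : c.I => (z.1 : ℕ) + 1 = c.n / 2 ∧ (z.2 : ℕ) + 1 = c.n / 2).card : ℝ) ≤ 1 := by
        have : (T.V4.filter fun z : c.I => (z.1 : ℕ) + 1 = c.n / 2 ∧ (z.2 : ℕ) + 1 = c.n / 2).card ≤ 1 := by
          rw [Finset.card_le_one]
          intro z hz z' hz'
          rw [Finset.mem_filter] at hz hz'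
          apply Prod.ext <;> apply Fin.ext <;> omega
        exact_mod_cast this
      nlinarith [sq_nonneg (2 * Real.pi)]

/-! ## 4. The zone -/

theorem xy_plab_free {c : Grid G} (hfree : G.bc = BC.free) (P t : ℕ) (x : Fin c.n) : plab c P t x = ((x : ℕ) + P - t) / P := by
  unfold plab pshift
  rw [hfree]

/-- two cells with the same label are closer than `P` -/
theorem xy_plab_near {P t x x' : ℕ} (hP : 0 < P) (h : (x + P - t) / P = (x' + P - t) / P) (ht : t < P) : x < x' + P := by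
  have e1 := Nat.div_add_mod (x + P - t) P
  have e2 := Nat.div_add_mod (x' + P - t) P
  have l1 := Nat.mod_lt (x + P - t) hP
  have l2 := Nat.mod_lt (x' + P - t) hP
  rw [h] at e1
  omega

theorem xy_zone_box {c : Grid G} {R : ℕ} (hR : 0 < R) (hfree : G.bc = BC.free) (P : ℕ) (hP : 0 < P) :
    ∀ t ∈ pcuts R P, ∀ b, ¬ Disjoint ((pcut c P t).box b) (srcZ c) → (pcut c P t).box b ⊆ zone c (2 * P) := by
  intro t ht b hb i hi
  obtain ⟨j, hj, hz⟩ := Finset.not_disjoint_iff.1 hb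
  unfold pcuts at ht
  rw [Finset.mem_image] at ht
  obtain ⟨u, hu, rfl⟩ := ht
  rw [Finset.mem_product, Finset.mem_range, Finset.mem_range] at hu
  have lt : ∀ v, v < P / R → R * v < P := by
    intro v hv
    calc R * v < R * (P / R) := Nat.mul_lt_mul_of_pos_left hv hR
      _ ≤ P := Nat.mul_div_le P R
  unfold Cut.box at hi hj
  rw [Finset.mem_filter] at hi hj
  have hi2 : (plab c P (R * u.1) i.1, plab c P (R * u.2) i.2) = b := hi.2
  have hj2 : (plab c P (R * u.1) j.1, plab c P (R * u.2) j.2) = b := hj.2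
  rw [← hj2, xy_plab_free hfree, xy_plab_free hfree, xy_plab_free hfree, xy_plab_free hfree, Prod.mk.injEq] at hi2
  have a1 := xy_plab_near hP hi2.1 (lt _ hu.1)
  have a2 := xy_plab_near hP hi2.1.symm (lt _ hu.1)
  have b1 := xy_plab_near hP hi2.2 (lt _ hu.2)
  have b2 := xy_plab_near hP hi2.2.symm (lt _ hu.2)
  unfold srcZ zone at hz
  unfold zone
  rw [Finset.mem_filter] at hz ⊢
  refine ⟨Finset.mem_univ _, ?_, ?_⟩ <;> omega

theorem xy_zone_mono (c : Grid G) {r r' : ℕ} (h : r ≤ r') : zone c r ⊆ zone c r' := by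
  intro i hi
  unfold zone at hi ⊢
  rw [Finset.mem_filter] at hi ⊢
  exact ⟨hi.1, hi.2.1.trans h, hi.2.2.trans h⟩

/-- the count of `Ent.geo_unit` (clause 5) for a general grid -/
theorem xy_zone_cnt {c : Grid G} {R : ℕ} (hgeo : GeoOK c R) (hfree : G.bc = BC.free) (h2 : 2 * R ∣ c.n) (h8 : 8 * R ^ 5 ≤ c.n) :
    ((events c R).filter fun k => ¬ Disjoint (halC c R {k}) (zone c (2 * R ^ 5))).card ≤ 3 * (4 * R ^ 4 + 8) ^ 2 := by
  obtain ⟨t, hcn⟩ := h2
  have h := hgeo.adm
  have hR := h.pos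
  have h64 := h.d64
  have hc2 : c.n / 2 = R * t := by
    rw [hcn, show 2 * R * t = 2 * (R * t) by ring]
    exact Nat.mul_div_cancel_left _ (by norm_num)
  have h5 : R ^ 5 = R * R ^ 4 := by ring
  have hQ : 4 * R ^ 4 ≤ t := by
    rw [hcn] at h8
    have : 2 * R * (4 * R ^ 4) ≤ 2 * R * t := by
      calc 2 * R * (4 * R ^ 4) = 8 * R ^ 5 := by ring
        _ ≤ 2 * R * t := h8
    exact Nat.le_of_mul_le_mul_left this (by positivity)
  have hR64 : 64 ≤ R := Nat.le_of_dvd hR h64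
  have hQ2 : 3 ≤ R ^ 4 := by
    calc 3 ≤ 64 ^ 4 := by norm_num
      _ ≤ R ^ 4 := Nat.pow_le_pow_left hR64 4
  rw [h5]
  generalize hQdef : R ^ 4 = Q at *
  -- one coordinate
  have one : ∀ x σ : ℕ, σ ≤ R / 4 → R * t ≤ x + 2 * (R * Q) + 2 * R + R / 4 →
      x ≤ R * t + 2 * (R * Q) + 2 * R + R / 4 →
      t - (2 * Q + 3) ≤ (x + σ) / R ∧ (x + σ) / R ≤ t + 2 * Q + 3 := by
    intro x σ hσ h1 h2
    constructor
    · rw [Nat.le_div_iff_mul_le hR, Nat.sub_mul]
      have e1 : t * R = R * t := by ring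
      have e2 : (2 * Q + 3) * R = 2 * (R * Q) + 3 * R := by ring
      omega
    · apply Nat.div_le_of_le_mul
      have e1 : R * (t + 2 * Q + 3) = R * t + 2 * (R * Q) + 3 * R := by ring
      omega
  have claim : ∀ k ∈ (events c R).filter fun k => ¬ Disjoint (halC c R {k}) (zone c (2 * (R * Q))),
      ((k.1, k.2.1), (k.2.2.1, k.2.2.2)) ∈ (({(false, true), (true, true), (true, false)} : Finset (Bool × Bool)) ×ˢ
        (Finset.Icc (t - (2 * Q + 3)) (t + 2 * Q + 3) ×ˢ Finset.Icc (t - (2 * Q + 3)) (t + 2 * Q + 3))) := by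
    intro k hk
    obtain ⟨hk, hm⟩ := Finset.mem_filter.1 hk
    obtain ⟨j, hj, hjk⟩ := event_eq_tile hk
    obtain ⟨i, hi, hz⟩ := Finset.not_disjoint_iff.1 hm
    have hd := halC_near h hj hi
    have d1 := idist1_le_left j i
    have d2 := idist1_le_right j i
    rw [geo_idist1_free _ hfree] at d1 d2
    unfold zone at hz
    rw [Finset.mem_filter, hc2] at hz
    obtain ⟨-, z1, z2⟩ := hz
    have sh := key_shape h hk
    have o1 := fun σ hσ => one (j.1 : ℕ) σ hσ (by omega) (by omega)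
    have o2 := fun σ hσ => one (j.2 : ℕ) σ hσ (by omega) (by omega)
    have a0 := o1 0 (by omega)
    have b0 := o2 0 (by omega)
    have a4 := o1 (R / 4) le_rfl
    have b4 := o2 (R / 4) le_rfl
    have a16 := o1 (R / 16) (by omega)
    have b16 := o2 (R / 16) (by omega)
    rw [Nat.add_zero] at a0 b0
    rw [Finset.mem_product, Finset.mem_product, Finset.mem_Icc, Finset.mem_Icc]
    rcases tile_cases h j with ⟨-, e⟩ | ⟨-, e⟩ | ⟨-, e⟩ | ⟨-, e⟩
    · rw [← hjk, e, red_free hfree, red_free hfree]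
      exact ⟨by simp, a4, b4⟩
    · rw [← hjk, e, red_free hfree]
      exact ⟨by simp, a0, b16⟩
    · rw [← hjk, e, red_free hfree]
      exact ⟨by simp, a16, b0⟩
    · exfalso
      rw [← hjk, e] at sh
      simpa using sh rfl
  refine (Finset.card_le_card_of_injOn (fun k : EvId => ((k.1, k.2.1), (k.2.2.1, k.2.2.2))) claim ?_).trans ?_
  · intro k _ k' _ e
    simp only [Prod.mk.injEq] at e
    exact Prod.ext e.1.1 (Prod.ext e.1.2 (Prod.ext e.2.1 e.2.2))
  · rw [Finset.card_product, Finset.card_product, Nat.card_Icc]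
    have e3 : ({(false, true), (true, true), (true, false)} : Finset (Bool × Bool)).card = 3 := by decide
    rw [e3, show t + 2 * Q + 3 + 1 - (t - (2 * Q + 3)) = 4 * Q + 7 by omega]
    have : (4 * Q + 7) * (4 * Q + 7) ≤ (4 * Q + 8) ^ 2 := by nlinarith
    omega

/-- the source meets at most four boxes (helper229) -/
theorem xy_zone_four {c : Grid G} {R P : ℕ} (hR : 0 < R) (hRP : R ∣ P) (h3 : 3 ≤ P) (hPn : P ≤ c.n) (hfree : G.bc = BC.free) :
    ∀ t ∈ pcuts R P, ((srcZ c).image (pcut c P t).lab).card ≤ 4 := by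
  intro t ht
  have hn : c.n / 2 < c.n := Nat.div_lt_self (by omega) (by norm_num)
  have hsub : srcZ c ⊆ nbh c 1 {((⟨c.n / 2, hn⟩, ⟨c.n / 2, hn⟩) : c.I)} := by
    intro i hi
    unfold srcZ zone at hi
    rw [Finset.mem_filter] at hi
    rw [pc_mem_nbh]
    unfold Grid.idist1
    rw [hfree]
    simp only
    constructor
    · have := hi.2.1
      omega
    · have := hi.2.2
      omega
  exact (Finset.card_le_card (Finset.image_subset_image hsub)).trans (pc_labs (pc_lt hR hRP ht) hPn _ 1 (by omega))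

/-- **NT-XY, exit 4** -/
theorem xy_zone : XyZoneStmt := by
  intro G c R hgeo hfree h2 h8
  have hR := hgeo.pos
  have hP : 0 < R ^ 5 := by positivity
  have h64 : 64 ≤ R := Nat.le_of_dvd hR hgeo.r64
  have h3 : 3 ≤ R ^ 5 := le_trans (by omega) (Nat.le_self_pow (by norm_num) R)
  exact ⟨xy_zone_box hR hfree _ hP, xy_zone_mono c (by omega), xy_zone_four hR (dvd_pow_self _ (by norm_num)) h3 (by omega) hfree,
    xy_zone_cnt hgeo hfree h2 h8⟩

end

end Claimed.Agent.R285.Entry
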