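import Claimed.Agent.R285.Entry.GoodDefs
import Claimed.Agent.R285.F4a.Tilt
import Claimed.Agent.R285.F4a.Chi
import Claimed.Agent.R285.Pins.T32Lat

/-!
# ROW 285, post BP-ENT-GOOD ([F] L4.7 part 2), file 2: ELEMENTARY AND EXACT STATEMENTS      (architect helper109)

Paper-free.  Definitions: `Entry/GoodDefs.lean`.  One finite volume, one cell side, no limit.  Prefix `eg`.
Every `sorry` is a leaf `L-ENT-GOOD-*` (the name is in the docstring).  Statements are frozen; put your auxiliary lemmas directly above your theorem (prefix `eg_<leaf>_`), edit only your block, pull before landing.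

TOOLS.  `F4a/Tilt.lean`: `law_proper`, `law_ok`, `Zobs_eq_w`, `Zobs_pos` (so `Pins.T32.Gd T.law b` holds: `eg_gd`).   `Pins/T32Lat.lean` (any finite law `H` with `Gd H b`): `pn_ZI_zero`, `pn_ZC_eq`, `pn_summable`, `latM`, `pn_ExT_eq`,
`pn_rPin_mem`, `Ext`, `pn_ext_sandwich`, `pn_ext_const`, `pn_gd_addPin`.   `Entry/FacKit.lean`, `Entry/Norm.lean` (factor models on the sites `G.V`; bridge `Entry/GoodFac.lean`): `fk_ratio`, `fk_T_mono`, `nm_T_loc`, `nm_T_pin_le`.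
`Base/Height.lean`: `lsys_summable`, `lsys_ratio_mono`, `lsys_event_mono`.
-/

set_option autoImplicit false

namespace Claimed.Agent.R285.Entry

open scoped BigOperators
open Claimed.Agent.R285 Claimed.Agent.R285.RG Claimed.Agent.R285.F4a

noncomputable section

variable {G : Geom} {c : Grid G}

/-! ## [EL] elementary lemmas -/

/-- L-ENT-GOOD-EL1 -/
theorem eg_dl_mem (x : ℝ) (hx : 0 ≤ x) : 0 ≤ egDl x ∧ egDl x ≤ 1 := by
  unfold egDl
  have h1 : 0 < x + 1 := by linarith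
  refine ⟨div_nonneg (abs_nonneg _) h1.le, (div_le_one h1).2 ?_⟩
  rw [abs_le]
  constructor <;> linarith

/-- L-ENT-GOOD-EL1.  `|x - 1| / (x + 1) = tanh (|log x| / 2)`.  PLAN: by the symmetry `x ↔ 1/x` assume `1 ≤ x`; `x - 1 ≤ (x + 1) log x` because both sides vanish at `1` and `log x + (x+1)/x ≥ 1`;
or: `log x ≥ 2 (x - 1)/(x + 1)` (`Real.le_log_of...`), or `Real.add_one_le_exp` twice. -/
theorem eg_dl_le_log (x : ℝ) (hx : 0 < x) : egDl x ≤ |Real.log x| := by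
  unfold egDl
  have h1 : 0 < x + 1 := by linarith
  rcases le_total 1 x with h | h
  · rw [abs_of_nonneg (by linarith), abs_of_nonneg (Real.log_nonneg h)]
    refine le_trans ?_ (Real.one_sub_inv_le_log_of_pos hx)
    rw [div_le_iff₀ h1]
    have : (1 - x⁻¹) * (x + 1) = x - x⁻¹ := by field_simp; ring
    rw [this]
    have : x⁻¹ ≤ 1 := inv_le_one_of_one_le₀ h
    linarith
  · rw [abs_of_nonpos (by linarith), abs_of_nonpos (Real.log_nonpos hx.le h)]
    have h2 := Real.log_le_sub_one_of_pos hx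
    rw [div_le_iff₀ h1]
    nlinarith

theorem eg_EL1_clip (ρ : ℝ) : Real.exp (-1) ≤ min 1 (max ρ (Real.exp (-1))) ∧ min 1 (max ρ (Real.exp (-1))) ≤ 1 := by
  refine ⟨le_min ?_ (le_max_right _ _), min_le_left _ _⟩
  rw [Real.exp_le_one_iff]; norm_num

/-- L-ENT-GOOD-EL1 -/
theorem eg_lg_mem (ρ : ℝ) : 0 ≤ egLg ρ ∧ egLg ρ ≤ 1 := by
  unfold egLg
  obtain ⟨h1, h2⟩ := eg_EL1_clip ρ
  have h0 : 0 < min 1 (max ρ (Real.exp (-1))) := lt_of_lt_of_le (Real.exp_pos _) h1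
  have a := Real.log_nonpos h0.le h2
  have b := (Real.le_log_iff_exp_le h0).2 h1
  constructor <;> linarith

/-- L-ENT-GOOD-EL1 -/
theorem eg_lg_eq (ρ : ℝ) (h0 : 0 < ρ) (h1 : ρ ≤ 1) : egLg ρ = min 1 (-Real.log ρ) := by
  unfold egLg
  have he : Real.exp (-1) ≤ 1 := by rw [Real.exp_le_one_iff]; norm_num
  rw [min_eq_right (max_le h1 he)]
  rcases le_total (Real.exp (-1)) ρ with h | h
  · rw [max_eq_left h, min_eq_right]
    have := (Real.le_log_iff_exp_le h0).2 h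
    linarith
  · rw [max_eq_right h, Real.log_exp, min_eq_left]
    · norm_num
    · have := (Real.log_le_iff_le_exp h0).2 h
      linarith

/-- L-ENT-GOOD-EL1 -/
theorem eg_lg_continuous : Continuous egLg := by
  unfold egLg
  refine ((continuous_const.min (continuous_id.max continuous_const)).log fun ρ => ?_).neg
  exact (lt_of_lt_of_le (Real.exp_pos _) (eg_EL1_clip ρ).1).ne'

theorem eg_EL1_arg (θ₁ θ₂ : ℝ) (h : 0 ≤ θ₁) (x x' ρ : ℝ) : 0 ≤ θ₁ + egLg ρ + |x' - x + θ₂| := by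
  have := (eg_lg_mem ρ).1
  positivity

/-- L-ENT-GOOD-EL1 -/
theorem eg_phi_mem (θ₁ θ₂ : ℝ) (h : 0 ≤ θ₁) (r : ℕ) (x x' ρ : ℝ) : 0 ≤ egPhi θ₁ θ₂ r x x' ρ ∧ egPhi θ₁ θ₂ r x x' ρ ≤ 1 := by
  unfold egPhi
  have h0 : 0 ≤ min 1 (θ₁ + egLg ρ + |x' - x + θ₂|) := le_min zero_le_one (eg_EL1_arg θ₁ θ₂ h x x' ρ)
  exact ⟨pow_nonneg h0 r, pow_le_one₀ h0 (min_le_left _ _)⟩

/-- L-ENT-GOOD-EL1 -/
theorem eg_phi_le (θ₁ θ₂ : ℝ) (h : 0 ≤ θ₁) (r : ℕ) (x x' ρ : ℝ) : egPhi θ₁ θ₂ r x x' ρ ≤ (θ₁ + egLg ρ + |x' - x + θ₂|) ^ r := by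
  unfold egPhi
  exact pow_le_pow_left₀ (le_min zero_le_one (eg_EL1_arg θ₁ θ₂ h x x' ρ)) (min_le_right _ _) r

/-- L-ENT-GOOD-EL1 -/
theorem eg_phi_continuous (θ₁ θ₂ : ℝ) (r : ℕ) : Continuous fun x : ℝ × ℝ × ℝ => egPhi θ₁ θ₂ r x.1 x.2.1 x.2.2 := by
  unfold egPhi
  have h1 : Continuous fun x : ℝ × ℝ × ℝ => egLg x.2.2 := eg_lg_continuous.comp (continuous_snd.comp continuous_snd)
  have h2 : Continuous fun x : ℝ × ℝ × ℝ => |x.2.1 - x.1 + θ₂| :=
    (((continuous_fst.comp continuous_snd).sub continuous_fst).add continuous_const).abs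
  exact (continuous_const.min ((continuous_const.add h1).add h2)).pow r

theorem eg_EL1_pow_lip (u v : ℝ) (hu0 : 0 ≤ u) (hu1 : u ≤ 1) (hv0 : 0 ≤ v) (hv1 : v ≤ 1) (r : ℕ) :
    |u ^ r - v ^ r| ≤ r * |u - v| := by
  induction r with
  | zero => simp
  | succ r ih =>
    have e : u ^ (r + 1) - v ^ (r + 1) = u ^ r * (u - v) + (u ^ r - v ^ r) * v := by ring
    rw [e]
    refine (abs_add_le _ _).trans ?_
    rw [abs_mul, abs_mul, abs_of_nonneg (pow_nonneg hu0 r), abs_of_nonneg hv0]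
    have h1 : u ^ r * |u - v| ≤ 1 * |u - v| := mul_le_mul_of_nonneg_right (pow_le_one₀ hu0 hu1) (abs_nonneg _)
    have h2 : |u ^ r - v ^ r| * v ≤ (r * |u - v|) * 1 := mul_le_mul ih hv1 hv0 (by positivity)
    push_cast
    linarith

/-- L-ENT-GOOD-EL1.  `t ↦ (min 1 t)^r` is `r`-Lipschitz on `[0, ∞)` (`|u^r - v^r| ≤ r |u - v|` for `u, v ∈ [0,1]`: induction on `r`). -/
theorem eg_phi_lip (θ₁ θ₂ θ₁' θ₂' : ℝ) (h : 0 ≤ θ₁) (h' : 0 ≤ θ₁') (r : ℕ) (x x' ρ : ℝ) :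
    |egPhi θ₁ θ₂ r x x' ρ - egPhi θ₁' θ₂' r x x' ρ| ≤ r * (|θ₁ - θ₁'| + |θ₂ - θ₂'|) := by
  unfold egPhi
  have a0 := eg_EL1_arg θ₁ θ₂ h x x' ρ
  have a0' := eg_EL1_arg θ₁' θ₂' h' x x' ρ
  refine (eg_EL1_pow_lip _ _ (le_min zero_le_one a0) (min_le_left _ _) (le_min zero_le_one a0') (min_le_left _ _) r).trans ?_
  refine mul_le_mul_of_nonneg_left ?_ (Nat.cast_nonneg r)
  refine (abs_min_sub_min_le_max _ _ _ _).trans ?_
  rw [sub_self, abs_zero]
  refine max_le (by positivity) ?_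
  have e : θ₁ + egLg ρ + |x' - x + θ₂| - (θ₁' + egLg ρ + |x' - x + θ₂'|)
      = (θ₁ - θ₁') + (|x' - x + θ₂| - |x' - x + θ₂'|) := by ring
  rw [e]
  refine (abs_add_le _ _).trans (add_le_add le_rfl ?_)
  refine (abs_abs_sub_abs_le _ _).trans (le_of_eq ?_)
  congr 1
  ring

/-- L-ENT-GOOD-EL1.  monotone in `θ₁` -/
theorem eg_phi_mono (θ₁ θ₁' θ₂ : ℝ) (h : 0 ≤ θ₁) (h' : θ₁ ≤ θ₁') (r : ℕ) (x x' ρ : ℝ) : egPhi θ₁ θ₂ r x x' ρ ≤ egPhi θ₁' θ₂ r x x' ρ := by
  unfold egPhi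
  refine pow_le_pow_left₀ (le_min zero_le_one (eg_EL1_arg θ₁ θ₂ h x x' ρ)) (min_le_min_left _ ?_) r
  linarith

/-- L-ENT-GOOD-EL2, auxiliary: the polynomial prefactor is absorbed by half of the exponential -/
theorem eg_numeric_R0 (K c0 : ℝ) (n : ℕ) (hK : 0 ≤ K) (hc0 : 0 < c0) : ∃ R0 : ℕ, 1 ≤ R0 ∧ ∀ R : ℕ, R0 ≤ R →
    K * (R : ℝ) ^ n * Real.exp (-c0 * R) ≤ Real.exp (-(c0 / 2) * R) := by
  have h1 : Filter.Tendsto (fun R : ℕ => (c0 / 2) * (R : ℝ)) Filter.atTop Filter.atTop :=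
    tendsto_natCast_atTop_atTop.const_mul_atTop (by positivity)
  have h2 := (Real.tendsto_pow_mul_exp_neg_atTop_nhds_zero n).comp h1
  have hM : 0 < K * (2 / c0) ^ n + 1 := by positivity
  have h3 := h2.eventually (gt_mem_nhds (show (0 : ℝ) < 1 / (K * (2 / c0) ^ n + 1) by positivity))
  obtain ⟨R1, hR1⟩ := Filter.eventually_atTop.1 h3
  refine ⟨max R1 1, le_max_right _ _, fun R hR => ?_⟩
  have h4 : ((c0 / 2) * (R : ℝ)) ^ n * Real.exp (-((c0 / 2) * (R : ℝ))) < 1 / (K * (2 / c0) ^ n + 1) :=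
    hR1 R (le_trans (le_max_left _ _) hR)
  have e1 : Real.exp (-c0 * R) = Real.exp (-((c0 / 2) * (R : ℝ))) * Real.exp (-(c0 / 2) * R) := by
    rw [← Real.exp_add]
    congr 1
    ring
  have e2 : (R : ℝ) ^ n = (2 / c0) ^ n * ((c0 / 2) * (R : ℝ)) ^ n := by
    rw [← mul_pow]
    congr 1
    field_simp
  have h0 : 0 ≤ ((c0 / 2) * (R : ℝ)) ^ n * Real.exp (-((c0 / 2) * (R : ℝ))) := by positivity
  have h5 : K * (R : ℝ) ^ n * Real.exp (-((c0 / 2) * (R : ℝ))) ≤ 1 := by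
    calc K * (R : ℝ) ^ n * Real.exp (-((c0 / 2) * (R : ℝ)))
        = K * (2 / c0) ^ n * (((c0 / 2) * (R : ℝ)) ^ n * Real.exp (-((c0 / 2) * (R : ℝ)))) := by rw [e2]; ring
      _ ≤ (K * (2 / c0) ^ n + 1) * (1 / (K * (2 / c0) ^ n + 1)) :=
          mul_le_mul (by linarith) h4.le h0 hM.le
      _ = 1 := by field_simp
  calc K * (R : ℝ) ^ n * Real.exp (-c0 * R)
      = (K * (R : ℝ) ^ n * Real.exp (-((c0 / 2) * (R : ℝ)))) * Real.exp (-(c0 / 2) * R) := by rw [e1]; ring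
    _ ≤ 1 * Real.exp (-(c0 / 2) * R) := mul_le_mul_of_nonneg_right h5 (Real.exp_pos _).le
    _ = _ := one_mul _

/-- L-ENT-GOOD-EL2, **the last inequality of (ent:good-box)**.  PLAN: `j = 0` trivial.  With `ε = R^{-kE}`, `x = 1 + 𝓔`: `(ε x / j)^j ≤ exp (ε x - j)` (`Real.add_one_le_exp`), so `x^j ≤ (j R^{kE})^j e^{ε} e^{ε 𝓔}`,
`e^ε ≤ 3`, `j R^{kE} ≤ R^{kj + kE}`; choose `R0` with `K R^{k + kj + kE} ≤ exp (c0 R / 2)` for `R ≥ R0` (`Real.tendsto_pow_mul_exp_neg_atTop_nhds_zero`). -/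
theorem eg_numeric (K c0 : ℝ) (k kj kE : ℕ) (hK : 0 ≤ K) (hc0 : 0 < c0) : ∃ R0 : ℕ, ∀ R : ℕ, R0 ≤ R → ∀ j : ℕ, j ≤ R ^ kj → ∀ E : ℝ, 0 ≤ E →
    (K * (R : ℝ) ^ k * Real.exp (-c0 * R) * (1 + E)) ^ j ≤ 3 * Real.exp (-(c0 / 2) * R * j + E / (R : ℝ) ^ kE) := by
  obtain ⟨R0, hR01, hR0⟩ := eg_numeric_R0 K c0 (k + kj + kE) hK hc0
  refine ⟨R0, fun R hR j hj E hE => ?_⟩
  have hR1 : (1 : ℝ) ≤ R := by exact_mod_cast hR01.trans hR
  have hRpos : (0 : ℝ) < R := by linarith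
  have hRE : (1 : ℝ) ≤ (R : ℝ) ^ kE := one_le_pow₀ hR1
  have hRE0 : (0 : ℝ) < (R : ℝ) ^ kE := by positivity
  rcases Nat.eq_zero_or_pos j with rfl | hjpos
  · simp only [pow_zero, Nat.cast_zero, mul_zero, zero_add]
    have : 1 ≤ Real.exp (E / (R : ℝ) ^ kE) := Real.one_le_exp (by positivity)
    linarith
  have hj0 : (0 : ℝ) < j := by exact_mod_cast hjpos
  obtain ⟨u, hu_def⟩ : ∃ u : ℝ, u = (1 + E) / (j * (R : ℝ) ^ kE) := ⟨_, rfl⟩
  have hu0 : 0 ≤ u := by rw [hu_def]; positivity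
  have hu : u ≤ Real.exp (u - 1) := by
    have := Real.add_one_le_exp (u - 1)
    linarith
  have hju : (j : ℝ) * u = (1 + E) / (R : ℝ) ^ kE := by
    rw [hu_def]
    field_simp
  have hu' : u ^ j ≤ Real.exp ((1 + E) / (R : ℝ) ^ kE) := by
    calc u ^ j ≤ (Real.exp (u - 1)) ^ j := pow_le_pow_left₀ hu0 hu j
      _ = Real.exp (j * (u - 1)) := by rw [← Real.exp_nat_mul]
      _ ≤ Real.exp ((1 + E) / (R : ℝ) ^ kE) := by
          apply Real.exp_le_exp.2
          rw [← hju]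
          nlinarith
  have hx : (1 + E) = (j * (R : ℝ) ^ kE) * u := by
    rw [hu_def]
    field_simp
  have hjR : (j : ℝ) * (R : ℝ) ^ kE ≤ (R : ℝ) ^ (kj + kE) := by
    rw [pow_add]
    exact mul_le_mul_of_nonneg_right (by exact_mod_cast hj) hRE0.le
  have hexp3 : Real.exp ((1 + E) / (R : ℝ) ^ kE) ≤ 3 * Real.exp (E / (R : ℝ) ^ kE) := by
    rw [add_div, Real.exp_add]
    have : Real.exp (1 / (R : ℝ) ^ kE) ≤ 3 := by
      calc Real.exp (1 / (R : ℝ) ^ kE) ≤ Real.exp 1 := Real.exp_le_exp.2 (by rw [div_le_one hRE0]; exact hRE)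
        _ ≤ 3 := by have := Real.exp_one_lt_d9; linarith
    exact mul_le_mul_of_nonneg_right this (Real.exp_pos _).le
  have hbase : K * (R : ℝ) ^ k * Real.exp (-c0 * R) * (j * (R : ℝ) ^ kE) ≤ Real.exp (-(c0 / 2) * R) := by
    calc K * (R : ℝ) ^ k * Real.exp (-c0 * R) * (j * (R : ℝ) ^ kE)
        ≤ K * (R : ℝ) ^ k * Real.exp (-c0 * R) * (R : ℝ) ^ (kj + kE) := mul_le_mul_of_nonneg_left hjR (by positivity)
      _ = K * (R : ℝ) ^ (k + kj + kE) * Real.exp (-c0 * R) := by rw [add_assoc k kj kE, pow_add _ k]; ring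
      _ ≤ _ := hR0 R hR
  calc (K * (R : ℝ) ^ k * Real.exp (-c0 * R) * (1 + E)) ^ j
      = (K * (R : ℝ) ^ k * Real.exp (-c0 * R) * (j * (R : ℝ) ^ kE)) ^ j * u ^ j := by rw [hx, ← mul_pow]; congr 1; ring
    _ ≤ (Real.exp (-(c0 / 2) * R)) ^ j * (3 * Real.exp (E / (R : ℝ) ^ kE)) :=
        mul_le_mul (pow_le_pow_left₀ (by positivity) hbase j) (hu'.trans hexp3) (by positivity) (by positivity)
    _ = 3 * Real.exp (-(c0 / 2) * R * j + E / (R : ℝ) ^ kE) := by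
        rw [← Real.exp_nat_mul, Real.exp_add, show (j : ℝ) * (-(c0 / 2) * R) = -(c0 / 2) * R * j by ring]
        ring

/-- the increment along a walk is bounded by the sum of the increments over its edges -/
theorem eg_EL3_walk {V : Type} (Gr : SimpleGraph V) (y : V → ℝ) (φ : Sym2 V → ℝ) (hφ : ∀ a b, φ s(a, b) = |y b - y a|)
    {u v : V} (p : Gr.Walk u v) : |y v - y u| ≤ (p.edges.map φ).sum := by
  induction p with
  | nil => simp
  | cons h p ih =>
    rename_i a b d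
    rw [SimpleGraph.Walk.edges_cons, List.map_cons, List.sum_cons, hφ]
    have e : y d - y a = (y b - y a) + (y d - y b) := by ring
    rw [e]
    exact (abs_add_le _ _).trans (add_le_add le_rfl ih)

/-- the oscillation on a component is at most the total variation -/
theorem eg_EL3_osc {V ι : Type} (𝓕 : Finset ι) (s t : ι → V) (y : V → ℝ) (u v : V)
    (h : (SimpleGraph.fromRel fun a b => ∃ f ∈ 𝓕, s f = a ∧ t f = b).Reachable u v) :
    |y v - y u| ≤ ∑ f ∈ 𝓕, |y (t f) - y (s f)| := by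
  classical
  obtain ⟨p, hp⟩ := h.exists_isPath
  set φ : Sym2 V → ℝ := Sym2.lift ⟨fun a b => |y b - y a|, fun a b => abs_sub_comm _ _⟩ with hφd
  have hφ : ∀ a b, φ s(a, b) = |y b - y a| := fun a b => rfl
  have hφ0 : ∀ e, 0 ≤ φ e := by
    intro e
    induction e using Sym2.ind with
    | _ a b => rw [hφ]; exact abs_nonneg _
  refine (eg_EL3_walk _ y φ hφ p).trans ?_
  rw [← List.sum_toFinset φ hp.isTrail.edges_nodup]
  set g : ι → Sym2 V := fun f => s(s f, t f) with hg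
  have hsub : p.edges.toFinset ⊆ 𝓕.image g := by
    intro e he
    rw [List.mem_toFinset] at he
    have h1 := p.edges_subset_edgeSet he
    induction e using Sym2.ind with
    | _ a b =>
      rw [SimpleGraph.mem_edgeSet, SimpleGraph.fromRel_adj] at h1
      rw [Finset.mem_image]
      rcases h1.2 with ⟨f, hf, h2, h3⟩ | ⟨f, hf, h2, h3⟩
      · exact ⟨f, hf, by rw [hg]; simp only; rw [h2, h3]⟩
      · exact ⟨f, hf, by rw [hg]; simp only; rw [h2, h3, Sym2.eq_swap]⟩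
  refine (Finset.sum_le_sum_of_subset_of_nonneg hsub fun e _ _ => hφ0 e).trans ?_
  have e1 : ∑ f ∈ 𝓕, |y (t f) - y (s f)| = ∑ e ∈ 𝓕.image g, ∑ f ∈ 𝓕 with g f = e, φ (g f) :=
    (Finset.sum_fiberwise_of_maps_to (fun f hf => Finset.mem_image_of_mem g hf) _).symm
  rw [e1]
  refine Finset.sum_le_sum fun e he => ?_
  obtain ⟨f, hf, rfl⟩ := Finset.mem_image.1 he
  exact Finset.single_le_sum (f := fun f' => φ (g f')) (fun f' _ => hφ0 _) (Finset.mem_filter.2 ⟨hf, rfl⟩)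

theorem eg_EL3_round (x : ℝ) : |x + 2 * Real.pi * ((-round (x / (2 * Real.pi)) : ℤ) : ℝ)| ≤ Real.pi := by
  have hπ := Real.pi_pos
  have h := abs_sub_round (x / (2 * Real.pi))
  have e : x + 2 * Real.pi * ((-round (x / (2 * Real.pi)) : ℤ) : ℝ)
      = 2 * Real.pi * (x / (2 * Real.pi) - round (x / (2 * Real.pi))) := by
    push_cast
    field_simp
    ring
  rw [e, abs_mul, abs_of_pos (by positivity)]
  nlinarith

/-- L-ENT-GOOD-EL3, **recentring by component periods**.  PLAN: the simple graph on `c.I` with the edges `{f.1, fnb c f}`, `f ∈ 𝓕`; choose a representative `ρ(i)` of every component (`Quot.out` of `ConnectedComponent`),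
`κ i = - round (y (ρ i) / (2π))`; `|y (ρ i) + 2π κ i| ≤ π` (`abs_sub_round`); along a PATH from `ρ i` to `i` (`Walk.toPath`, edges without repetition) `|y i - y (ρ i)| ≤ ∑_{f ∈ 𝓕} |w_f| ≤ √(|𝓕| ∑ w_f²)`
(`Finset.sum_mul_sq_le_sq_mul_sq` / `inner_mul_le_norm_mul_norm`). -/
theorem eg_recentre (𝓕 : Finset (Face c)) (y : c.I → ℝ) : ∃ κ : c.I → ℤ, (∀ f ∈ 𝓕, κ (fnb c f) = κ f.1) ∧
    ∀ i, |y i + 2 * Real.pi * κ i| ≤ Real.pi + Real.sqrt (𝓕.card * egE 𝓕 0 y) := by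
  classical
  set Gr : SimpleGraph c.I := SimpleGraph.fromRel fun a b => ∃ f ∈ 𝓕, f.1 = a ∧ fnb c f = b with hGr
  set ρ : c.I → c.I := fun i => (Gr.connectedComponentMk i).out with hρ
  have hρr : ∀ i, Gr.Reachable (ρ i) i := fun i =>
    SimpleGraph.ConnectedComponent.exact (Quot.out_eq (Gr.connectedComponentMk i))
  refine ⟨fun i => -round (y (ρ i) / (2 * Real.pi)), ?_, ?_⟩
  · intro f hf
    have : Gr.connectedComponentMk (fnb c f) = Gr.connectedComponentMk f.1 := by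
      by_cases hne : f.1 = fnb c f
      · rw [← hne]
      · apply SimpleGraph.ConnectedComponent.sound
        have hadj : Gr.Adj f.1 (fnb c f) := by
          rw [hGr, SimpleGraph.fromRel_adj]
          exact ⟨hne, Or.inl ⟨f, hf, rfl, rfl⟩⟩
        exact hadj.reachable.symm
    simp only [hρ]
    rw [this]
  · intro i
    have h1 := eg_EL3_osc 𝓕 (fun f => f.1) (fun f => fnb c f) y (ρ i) i (hρr i)
    have h2 := eg_EL3_round (y (ρ i))
    have hw : ∀ f ∈ 𝓕, |y (fnb c f) - y f.1| = |wf c 0 y f| := by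
      intro f _
      unfold wf
      simp
    rw [Finset.sum_congr rfl hw] at h1
    have h3 : ∑ f ∈ 𝓕, |wf c 0 y f| ≤ Real.sqrt (𝓕.card * egE 𝓕 0 y) := by
      refine (le_abs_self _).trans (Real.abs_le_sqrt ?_)
      refine sq_sum_le_card_mul_sum_sq.trans (le_of_eq ?_)
      unfold egE
      congr 1
      exact Finset.sum_congr rfl fun f _ => sq_abs _
    have e : y i + 2 * Real.pi * ((-round (y (ρ i) / (2 * Real.pi)) : ℤ) : ℝ)
        = (y i - y (ρ i)) + (y (ρ i) + 2 * Real.pi * ((-round (y (ρ i) / (2 * Real.pi)) : ℤ) : ℝ)) := by ring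
    rw [e]
    refine (abs_add_le _ _).trans ?_
    linarith

/-- one cutoff logarithm -/
theorem eg_EL4_one (s x η : ℝ) (hs : 1 ≤ s) (hx : |x| ≤ s / 2) (hη : Real.exp (-(1 / 16) * s ^ 2) ≤ η) (hη2 : η ≤ 1 / 2) :
    |Real.log (chi s x)| ≤ 2 * η := by
  have hs0 : 0 < s := by linarith
  have h1 := (chiL_tails s x hs).1 hx
  have h2 := chiL_le_one s x hs0
  have h3 := chiL_pos s x hs0
  rw [one_mul] at h1
  have h4 : 1 / 2 ≤ chi s x := by linarith
  rw [abs_of_nonpos (Real.log_nonpos h3.le h2)]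
  have h5 := Real.one_sub_inv_le_log_of_pos h3
  have h6 : (chi s x)⁻¹ - 1 ≤ 2 * η := by
    have e : (chi s x)⁻¹ - 1 = (1 - chi s x) / chi s x := by field_simp
    rw [e, div_le_iff₀ h3]
    have h7 : 0 ≤ η := le_trans (Real.exp_pos _).le hη
    nlinarith
  linarith

/-- L-ENT-GOOD-EL4, "the finitely many cutoff logarithms tend uniformly to zero on the compact face data".  PLAN: `F4a.chiL_tails`, `chiL_le_one`, `chiL_pos`: for `2U ≤ s`: `1 - e^{-s²/16} ≤ χ ≤ 1`;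
`|log χ| ≤ 2 e^{-s²/16}` when `e^{-s²/16} ≤ 1/2`; `Real.log_prod`. -/
theorem eg_xi_small (U ε : ℝ) (hε : 0 < ε) (N : ℕ) : ∃ s0 : ℕ, ∀ (G : Geom) (c : Grid G), s0 ≤ c.m → ∀ E : Finset (Face c), E.card ≤ N →
    ∀ (τ : Face c → ℤ) (y : c.I → ℝ), (∀ f ∈ E, |wf c τ y f| ≤ U) → |Real.log (∏ f ∈ E, chi c.m (wf c τ y f))| ≤ ε := by
  obtain ⟨η, hηd⟩ : ∃ η : ℝ, η = min (1 / 2) (ε / (2 * ((N : ℝ) + 1))) := ⟨_, rfl⟩
  have hη0 : 0 < η := by rw [hηd]; exact lt_min (by norm_num) (by positivity)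
  have hη2 : η ≤ 1 / 2 := hηd ▸ min_le_left _ _
  have hηN : (N : ℝ) * (2 * η) ≤ ε := by
    have h1 : η ≤ ε / (2 * ((N : ℝ) + 1)) := hηd ▸ min_le_right _ _
    rw [le_div_iff₀ (by positivity)] at h1
    nlinarith
  have t1 : Filter.Tendsto (fun s : ℕ => (1 / 16 : ℝ) * (s : ℝ) ^ 2) Filter.atTop Filter.atTop :=
    ((Filter.tendsto_pow_atTop two_ne_zero).comp tendsto_natCast_atTop_atTop).const_mul_atTop (by norm_num)
  have t2 : Filter.Tendsto (fun s : ℕ => Real.exp (-((1 / 16 : ℝ) * (s : ℝ) ^ 2))) Filter.atTop (nhds 0) :=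
    Real.tendsto_exp_atBot.comp (Filter.tendsto_neg_atTop_atBot.comp t1)
  obtain ⟨s1, hs1⟩ := Filter.eventually_atTop.1 (t2.eventually (Iic_mem_nhds hη0))
  refine ⟨max s1 (max 1 ⌈2 * U⌉₊), ?_⟩
  intro G c hcm E hE τ y hU
  have a1 : s1 ≤ c.m := (le_max_left _ _).trans hcm
  have a2 : 1 ≤ c.m := ((le_max_left _ _).trans (le_max_right _ _)).trans hcm
  have a3 : ⌈2 * U⌉₊ ≤ c.m := ((le_max_right _ _).trans (le_max_right _ _)).trans hcm
  have hs : (1 : ℝ) ≤ c.m := by exact_mod_cast a2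
  have hU2 : U ≤ (c.m : ℝ) / 2 := by
    have h1 : 2 * U ≤ (⌈2 * U⌉₊ : ℝ) := Nat.le_ceil _
    have h2 : (⌈2 * U⌉₊ : ℝ) ≤ c.m := by exact_mod_cast a3
    linarith
  have hexp : Real.exp (-(1 / 16) * (c.m : ℝ) ^ 2) ≤ η := by
    have := hs1 c.m a1
    rw [neg_mul]
    exact this
  rw [Real.log_prod (fun f _ => (chiL_pos _ _ (by linarith)).ne')]
  refine (Finset.abs_sum_le_sum_abs _ _).trans ?_
  refine (Finset.sum_le_card_nsmul _ _ (2 * η) fun f hf => eg_EL4_one _ _ η hs ((hU f hf).trans hU2) hexp hη2).trans ?_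
  rw [nsmul_eq_mul]
  refine le_trans (mul_le_mul_of_nonneg_right ?_ (by positivity)) hηN
  exact_mod_cast hE

/-- L-ENT-GOOD-EL5.  PLAN: by contradiction choose `ν k ≥ k`, `b k ∈ 𝔅 (ν k)` with `b k < 1/(k+1)` or `b k > k`; `(h ν b ..).b_cpt` is contradicted. -/
theorem eg_temp_pos {a : ℝ} {𝔅 : ℕ → Set ℝ} (h : EgTemp a 𝔅) : ∃ (s0 : ℕ) (b0 b1 : ℝ), 0 < b0 ∧ ∀ s ≥ s0, ∀ b ∈ 𝔅 s, b0 ≤ b ∧ b ≤ b1 := by
  by_contra hcon
  have hk : ∀ k : ℕ, ∃ s : ℕ, ∃ b : ℝ, k ≤ s ∧ b ∈ 𝔅 s ∧ ¬ (1 / ((k : ℝ) + 1) ≤ b ∧ b ≤ k) := by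
    intro k
    by_contra hk
    apply hcon
    refine ⟨k, 1 / ((k : ℝ) + 1), k, by positivity, fun s hs b hb => ?_⟩
    by_contra hh
    exact hk ⟨s, b, hs, hb, hh⟩
  choose ν b h1 h2 h3 using hk
  have hν : Filter.Tendsto ν Filter.atTop Filter.atTop := Filter.tendsto_atTop_mono h1 Filter.tendsto_id
  obtain ⟨b₀, b₁, hb0, hb⟩ := (h ν b hν h2).b_cpt
  obtain ⟨k, hk⟩ := exists_nat_ge (max (1 / b₀) b₁)
  apply h3 k
  refine ⟨?_, (hb k).2.trans ((le_max_right _ _).trans hk)⟩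
  have h4 : 1 / b₀ ≤ (k : ℝ) + 1 := ((le_max_left _ _).trans hk).trans (by linarith)
  refine le_trans ?_ (hb k).1
  rw [div_le_iff₀ (by positivity)]
  rw [div_le_iff₀ hb0] at h4
  linarith

/-! ## [SUM] sums over heights -/

theorem eg_gd (hc : Whole c) (T : Top c) {b : ℝ} (hb : 0 < b) : Pins.T32.Gd T.law b := ⟨hb, law_proper hc T, law_ok hc T b hb⟩

/-- the weights of an affine law are summable -/
theorem eg_SUM_summable {Gr : HGraph} (H : HLaw Gr) {b : ℝ} (hG : Pins.T32.Gd H b) (α : H.Aff) :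
    Summable fun h : H.Λ => (H.sys b).W (H.coordA b (h : Gr.V → ℤ) + α.amb b) := by
  have h1 := Rsd.lsys_summable (H.sys b) hG.ok (α.amb b) 0
  have h2 := (Equiv.ofBijective _ (Rsd.coordL_bijective H hG.proper b)).summable_iff.2 h1
  refine h2.congr fun h => ?_
  simp [Function.comp]

theorem eg_SUM_W_pos {Gr : HGraph} (H : HLaw Gr) {b : ℝ} (hG : Pins.T32.Gd H b) (z : (H.sys b).Amb) : 0 < (H.sys b).W z :=
  Rsd.kit_W_pos (H.sys b) (fun _ => hG.b_pos) z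

theorem eg_SUM_summableF {Gr : HGraph} (H : HLaw Gr) {b : ℝ} (hG : Pins.T32.Gd H b) (α : H.Aff) (F : (Gr.V → ℤ) → ℝ) (C : ℝ)
    (hF : ∀ h, |F h| ≤ C) :
    Summable fun h : H.Λ => F ((h : Gr.V → ℤ) + α.x) * (H.sys b).W (H.coordA b (h : Gr.V → ℤ) + α.amb b) := by
  refine Summable.of_norm_bounded ((eg_SUM_summable H hG α).mul_left C) fun h => ?_
  rw [norm_mul, Real.norm_eq_abs, Real.norm_eq_abs, abs_of_pos (eg_SUM_W_pos H hG _)]
  exact mul_le_mul_of_nonneg_right (hF _) (eg_SUM_W_pos H hG _).le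

theorem eg_SUM_ZI_mono {Gr : HGraph} (H : HLaw Gr) {b : ℝ} (hG : Pins.T32.Gd H b) (α : H.Aff) (F F' : (Gr.V → ℤ) → ℝ) (C : ℝ)
    (hF : ∀ h, |F h| ≤ C) (hF' : ∀ h, |F' h| ≤ C) (hle : ∀ h, F h ≤ F' h) : C3.ZI H b α F ≤ C3.ZI H b α F' := by
  unfold C3.ZI
  exact (eg_SUM_summableF H hG α F C hF).tsum_le_tsum
    (fun h => mul_le_mul_of_nonneg_right (hle _) (eg_SUM_W_pos H hG _).le) (eg_SUM_summableF H hG α F' C hF')

theorem eg_SUM_ZI_lin {Gr : HGraph} (H : HLaw Gr) {b : ℝ} (hG : Pins.T32.Gd H b) (α : H.Aff) {ι : Type} (s : Finset ι) (w : ι → ℝ)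
    (F : ι → (Gr.V → ℤ) → ℝ) (C : ℝ) (hF : ∀ i ∈ s, ∀ h, |F i h| ≤ C) :
    C3.ZI H b α (fun h => ∑ i ∈ s, w i * F i h) = ∑ i ∈ s, w i * C3.ZI H b α (F i) := by
  unfold C3.ZI
  have e : ∀ h : H.Λ, (∑ i ∈ s, w i * F i ((h : Gr.V → ℤ) + α.x)) * (H.sys b).W (H.coordA b (h : Gr.V → ℤ) + α.amb b)
      = ∑ i ∈ s, w i * (F i ((h : Gr.V → ℤ) + α.x) * (H.sys b).W (H.coordA b (h : Gr.V → ℤ) + α.amb b)) := by
    intro h
    rw [Finset.sum_mul]
    exact Finset.sum_congr rfl fun i _ => by ring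
  rw [tsum_congr e, Summable.tsum_finsetSum fun i hi => (eg_SUM_summableF H hG α (F i) C (hF i hi)).mul_left (w i)]
  exact Finset.sum_congr rfl fun i _ => tsum_mul_left

theorem eg_SUM_one (T : Top c) (b : ℝ) (τ : Face c → ℤ) (y : c.I → ℝ) : egSum T b τ y (fun _ => 1) = T.Zobs b τ y := rfl

/-- L-ENT-GOOD-SUM.  PLAN: `egSum`, `Zobs` are `tsum`s over `T.law.Λ = ⊤` with the same positive summable weights (`F4a/Unfold.lean`, `lsys_summable` through `coordL`); `tsum_le_tsum`. -/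
theorem eg_ex_mem (hc : Whole c) (T : Top c) {b : ℝ} (hb : 0 < b) (τ : Face c → ℤ) (y : c.I → ℝ) (F : (G.V → ℤ) → ℝ) (h01 : ∀ h, 0 ≤ F h ∧ F h ≤ 1) :
    0 ≤ egEx T b τ y F ∧ egEx T b τ y F ≤ 1 := by
  have hF : ∀ h, |F h| ≤ 1 := fun h => by rw [abs_of_nonneg (h01 h).1]; exact (h01 h).2
  constructor
  · unfold egEx egSum C3.ZI
    exact div_nonneg (tsum_nonneg fun h => mul_nonneg (h01 _).1 (eg_SUM_W_pos T.law (eg_gd hc T hb) _).le)
      (Zobs_pos hc T b hb τ y).le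
  · unfold egEx
    rw [div_le_one (Zobs_pos hc T b hb τ y), ← eg_SUM_one]
    unfold egSum
    exact eg_SUM_ZI_mono T.law (eg_gd hc T hb) _ _ _ 1 (fun h => hF _) (fun _ => by simp) fun h => (h01 _).2

/-- L-ENT-GOOD-SUM -/
theorem eg_ex_one (hc : Whole c) (T : Top c) {b : ℝ} (hb : 0 < b) (τ : Face c → ℤ) (y : c.I → ℝ) : egEx T b τ y (fun _ => 1) = 1 := by
  unfold egEx
  rw [eg_SUM_one]
  exact div_self (Zobs_pos hc T b hb τ y).ne'

/-- L-ENT-GOOD-SUM -/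
theorem eg_ex_mono (hc : Whole c) (T : Top c) {b : ℝ} (hb : 0 < b) (τ : Face c → ℤ) (y : c.I → ℝ) (F F' : (G.V → ℤ) → ℝ) (C : ℝ)
    (hF : ∀ h, |F h| ≤ C) (hF' : ∀ h, |F' h| ≤ C) (hle : ∀ h, F h ≤ F' h) : egEx T b τ y F ≤ egEx T b τ y F' := by
  unfold egEx egSum
  exact div_le_div_of_nonneg_right (eg_SUM_ZI_mono T.law (eg_gd hc T hb) _ _ _ C (fun h => hF _) (fun h => hF' _) fun h => hle _)
    (Zobs_pos hc T b hb τ y).le

/-- L-ENT-GOOD-SUM -/
theorem eg_ex_lin (hc : Whole c) (T : Top c) {b : ℝ} (hb : 0 < b) (τ : Face c → ℤ) (y : c.I → ℝ) {ι : Type} (s : Finset ι) (w : ι → ℝ)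
    (F : ι → (G.V → ℤ) → ℝ) (C : ℝ) (hF : ∀ i ∈ s, ∀ h, |F i h| ≤ C) :
    egEx T b τ y (fun h => ∑ i ∈ s, w i * F i h) = ∑ i ∈ s, w i * egEx T b τ y (F i) := by
  unfold egEx egSum
  rw [eg_SUM_ZI_lin T.law (eg_gd hc T hb) _ s w (fun i h => F i (egExt T h)) C (fun i hi h => hF i hi _), Finset.sum_div]
  exact Finset.sum_congr rfl fun i _ => by ring

/-- the pairing of the observation with the rows -/
theorem eg_SUM_pair (T : Top c) (y : c.I → ℝ) (h : T.graph.V → ℤ) :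
    ∑ o : T.law.O, (∑ v, T.law.B o v * (2 * Real.pi * (h v : ℝ))) * (fun i : T.law.O => y i.1) o = Pins.T32.lin (egTest T y) h := by
  unfold Pins.T32.lin HLaw.pair C3.phys egTest
  have e : ∀ o : T.law.O, (∑ v, T.law.B o v * (2 * Real.pi * (h v : ℝ))) * (fun i : T.law.O => y i.1) o
      = ∑ v, ((fun i : T.law.O => y i.1) o * T.law.B o v) * (2 * Real.pi * (h v : ℝ)) := by
    intro o
    rw [Finset.sum_mul]
    exact Finset.sum_congr rfl fun v _ => by ring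
  rw [Finset.sum_congr rfl fun o _ => e o, Finset.sum_comm]
  refine Finset.sum_congr rfl fun v _ => ?_
  rw [← Finset.sum_mul]
  congr 1
  refine (Finset.sum_eq_single (⟨c.blk v.1, v.2⟩ : T.law.O) ?_ ?_).trans ?_
  · intro o _ hne
    show y o.1 * (if c.blk v.1 = o.1 then _ else 0) = 0
    rw [if_neg, mul_zero]
    intro h'
    exact hne (Subtype.ext h'.symm)
  · intro h'; exact absurd (Finset.mem_univ _) h'
  · show y (c.blk v.1) * (if c.blk v.1 = c.blk v.1 then _ else 0) = _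
    rw [if_pos rfl]

/-- completion of the square in the weight of an abstract system -/
theorem eg_SUM_sq_sys (S : LSys) (z : S.Amb) (cc : S.O → ℝ) :
    S.W (z + ((0 : S.E → ℤ), fun o => - cc o))
      = Real.exp (-(∑ o, cc o ^ 2) / 2) * (Real.exp (∑ o, z.2 o * cc o) * S.W z) := by
  unfold LSys.W
  simp only [Prod.fst_add, Prod.snd_add, Pi.add_apply, Pi.zero_apply, add_zero]
  have e4 : -(∑ o, (z.2 o + -cc o) ^ 2) / 2 = -(∑ o, cc o ^ 2) / 2 + (∑ o, z.2 o * cc o) + -(∑ o, z.2 o ^ 2) / 2 := by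
    have : ∀ o, (z.2 o + -cc o) ^ 2 = cc o ^ 2 - 2 * (z.2 o * cc o) + z.2 o ^ 2 := fun o => by ring
    rw [Finset.sum_congr rfl fun o _ => this o, Finset.sum_add_distrib, Finset.sum_sub_distrib, ← Finset.mul_sum]
    ring
  rw [e4, Real.exp_add, Real.exp_add]
  ring

/-- completion of the square in the weight of a law -/
theorem eg_SUM_sq_law {Gr : HGraph} (H : HLaw Gr) (b : ℝ) (cc : H.O → ℝ) (h : Gr.V → ℤ) :
    (H.sys b).W (H.coordA b h + (⟨0, 0, cc⟩ : H.Aff).amb b)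
      = Real.exp (-(∑ o, cc o ^ 2) / 2)
        * (Real.exp (∑ o, (∑ v, H.B o v * (2 * Real.pi * (h v : ℝ))) * cc o) * Pins.T32.hW H b h) := by
  have e : (⟨0, 0, cc⟩ : H.Aff).amb b = (((0 : (H.sys b).E → ℤ), fun o => - cc o) : (H.sys b).Amb) := by
    unfold HLaw.Aff.amb
    simp only [map_zero, zero_add]
    rfl
  rw [e]
  exact eg_SUM_sq_sys (H.sys b) (H.coordA b h) cc

theorem eg_SUM_econn_zero (T : Top c) : T.econn (0 : Face c → ℤ) = 0 := by
  funext e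
  unfold Top.econn
  split_ifs <;> rfl

/-- completion of the square in the weight -/
theorem eg_SUM_square (T : Top c) (b : ℝ) (y : c.I → ℝ) (h : T.graph.V → ℤ) :
    (T.law.sys b).W (T.law.coordA b h + (⟨0, T.econn 0, fun i => y i.1⟩ : T.law.Aff).amb b)
      = Real.exp (-(∑ o : T.law.O, (fun i : T.law.O => y i.1) o ^ 2) / 2)
        * (Real.exp (Pins.T32.lin (egTest T y) h) * Pins.T32.hW T.law b h) := by
  rw [← eg_SUM_pair, eg_SUM_econn_zero]
  exact eg_SUM_sq_law T.law b (fun i => y i.1) h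

/-- L-ENT-GOOD-SUM: the observation as a tilt.  PLAN: `exp (-|B h - y|²/2) = exp (-|y|²/2) exp ⟨y, B h⟩ exp (-|B h|²/2)` termwise in numerator and denominator; `HLaw.pair (egTest T y) (C3.phys h) = ∑_{i ∈ cells} y_i (B (2π h))_i`. -/
theorem eg_ex_eq (hc : Whole c) (T : Top c) {b : ℝ} (hb : 0 < b) (y : c.I → ℝ) (F : (G.V → ℤ) → ℝ) :
    egEx T b 0 y F = C3.ExT T.law b (egTest T y) fun h => F (egExt T h) := by
  rw [Pins.T32.pn_ExT_ratio]
  unfold egEx egSum Top.Zobs C3.ZI HLaw.Z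
  have hK : Real.exp (-(∑ o : T.law.O, (fun i : T.law.O => y i.1) o ^ 2) / 2) ≠ 0 := (Real.exp_pos _).ne'
  have e1 : ∀ h : T.law.Λ, F (egExt T ((h : T.graph.V → ℤ) + (⟨0, T.econn 0, fun i => y i.1⟩ : T.law.Aff).x))
        * (T.law.sys b).W (T.law.coordA b (h : T.graph.V → ℤ) + (⟨0, T.econn 0, fun i => y i.1⟩ : T.law.Aff).amb b)
      = Real.exp (-(∑ o : T.law.O, (fun i : T.law.O => y i.1) o ^ 2) / 2) * (F (egExt T (h : T.graph.V → ℤ))
        * (Real.exp (Pins.T32.lin (egTest T y) (h : T.graph.V → ℤ)) * Pins.T32.hW T.law b (h : T.graph.V → ℤ))) := by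
    intro h
    rw [eg_SUM_square]
    have : (h : T.graph.V → ℤ) + (⟨0, T.econn 0, fun i => y i.1⟩ : T.law.Aff).x = h := add_zero _
    rw [this]
    ring
  have e2 : ∀ h : T.law.Λ, (1 : ℝ)
        * (T.law.sys b).W (T.law.coordA b (h : T.graph.V → ℤ) + (⟨0, T.econn 0, fun i => y i.1⟩ : T.law.Aff).amb b)
      = Real.exp (-(∑ o : T.law.O, (fun i : T.law.O => y i.1) o ^ 2) / 2)
        * (Real.exp (Pins.T32.lin (egTest T y) (h : T.graph.V → ℤ)) * Pins.T32.hW T.law b (h : T.graph.V → ℤ)) := by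
    intro h
    rw [eg_SUM_square, one_mul]
  rw [tsum_congr e1, tsum_congr e2, tsum_mul_left, tsum_mul_left, mul_div_mul_left _ _ hK]

/-- pointwise weighted AM-GM -/
private theorem eg_holder_amgm {ι : Type} [Fintype ι] (x : ι → ℝ) (hx : ∀ i, 0 ≤ x i) (r : ℕ) (hr : Fintype.card ι ≤ r) (hr1 : 1 ≤ r) :
    ∏ i, x i ≤ (1 - (Fintype.card ι : ℝ) / r) + ∑ i, (r : ℝ)⁻¹ * x i ^ r := by
  have hr0 : (0 : ℝ) < r := by exact_mod_cast hr1
  have hjr : (Fintype.card ι : ℝ) ≤ r := by exact_mod_cast hr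
  have key := Real.geom_mean_le_arith_mean_weighted (Finset.univ : Finset (Option ι))
    (fun o => o.elim (1 - (Fintype.card ι : ℝ) / r) (fun _ => (r : ℝ)⁻¹)) (fun o => o.elim 1 (fun i => x i ^ r))
    (fun o _ => ?_) ?_ (fun o _ => ?_)
  · rw [Fintype.prod_option, Fintype.sum_option] at key
    simp only [Option.elim_none, Option.elim_some, Real.one_rpow, one_mul, mul_one] at key
    refine le_trans (le_of_eq ?_) key
    refine Finset.prod_congr rfl fun i _ => ?_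
    rw [Real.pow_rpow_inv_natCast (hx i) (by omega)]
  · cases o with
    | none =>
      simp only [Option.elim_none, sub_nonneg]
      exact (div_le_one hr0).2 hjr
    | some i => simp only [Option.elim_some]; positivity
  · rw [Fintype.sum_option]
    simp only [Option.elim_none, Option.elim_some, Finset.sum_const, Finset.card_univ, nsmul_eq_mul]
    rw [div_eq_mul_inv]
    ring
  · cases o with
    | none => simp
    | some i => simp only [Option.elim_some]; exact pow_nonneg (hx i) _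

/-- L-ENT-GOOD-HOL, **Hölder without independence**.  PLAN (no measure theory): weighted AM-GM (`Real.inner_le_nnorm_mul_nnorm` is NOT needed; use `Real.geom_mean_le_arith_mean_weighted` with the weights `1/r` on `ι` and `1 - j/r` on one
extra point with value `1`): `∏_i (δ_i/κ) ≤ (1/r) ∑_i (δ_i/κ)^r + (1 - j/r)` pointwise; then `eg_ex_mono`, `eg_ex_lin`, `eg_ex_one` and `hm`. -/
theorem eg_holder (hc : Whole c) (T : Top c) {b : ℝ} (hb : 0 < b) (τ : Face c → ℤ) (y : c.I → ℝ) {ι : Type} [Fintype ι] (δ : ι → (G.V → ℤ) → ℝ)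
    (h01 : ∀ i h, 0 ≤ δ i h ∧ δ i h ≤ 1) (r : ℕ) (hr : Fintype.card ι ≤ r) (hr1 : 1 ≤ r) (κ : ℝ) (hκ : 0 < κ)
    (hm : ∀ i, egEx T b τ y (fun h => δ i h ^ r) ≤ κ ^ r) : egEx T b τ y (fun h => ∏ i, δ i h) ≤ κ ^ Fintype.card ι := by
  set j := Fintype.card ι with hj
  have hr0 : (0 : ℝ) < r := by exact_mod_cast hr1
  have hjr : (j : ℝ) ≤ r := by exact_mod_cast hr
  have hjr1 : 0 ≤ 1 - (j : ℝ) / r := sub_nonneg.2 ((div_le_one hr0).2 hjr)
  set w : Option ι → ℝ := fun o => o.elim (κ ^ j * (1 - (j : ℝ) / r)) (fun _ => κ ^ j * ((r : ℝ)⁻¹ * (κ ^ r)⁻¹)) with hw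
  set F : Option ι → (G.V → ℤ) → ℝ := fun o h => o.elim 1 (fun i => δ i h ^ r) with hF
  have hw0 : ∀ o, 0 ≤ w o := by
    intro o
    cases o with
    | none => simp only [hw, Option.elim_none]; positivity
    | some i => simp only [hw, Option.elim_some]; positivity
  have hF01 : ∀ o h, 0 ≤ F o h ∧ F o h ≤ 1 := by
    intro o h
    cases o with
    | none => simp [hF]
    | some i =>
      simp only [hF, Option.elim_some]
      exact ⟨pow_nonneg (h01 i h).1 _, pow_le_one₀ (h01 i h).1 (h01 i h).2⟩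
  have hpt : ∀ h, ∏ i, δ i h ≤ ∑ o, w o * F o h := by
    intro h
    have h1 := eg_holder_amgm (fun i => δ i h / κ) (fun i => div_nonneg (h01 i h).1 hκ.le) r hr hr1
    rw [Finset.prod_div_distrib, Finset.prod_const, Finset.card_univ, ← hj, div_le_iff₀ (by positivity)] at h1
    refine h1.trans (le_of_eq ?_)
    rw [Fintype.sum_option]
    simp only [hw, hF, Option.elim_none, Option.elim_some, mul_one]
    rw [add_mul, Finset.sum_mul, mul_comm]
    congr 1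
    refine Finset.sum_congr rfl fun i _ => ?_
    rw [div_pow, div_eq_mul_inv]
    ring
  have hsum0 : ∀ h, 0 ≤ ∑ o, w o * F o h := fun h => Finset.sum_nonneg fun o _ => mul_nonneg (hw0 o) (hF01 o h).1
  have hsum1 : ∀ h, ∑ o, w o * F o h ≤ ∑ o, w o := fun h =>
    Finset.sum_le_sum fun o _ => mul_le_of_le_one_right (hw0 o) (hF01 o h).2
  have hW0 : 0 ≤ ∑ o, w o := Finset.sum_nonneg fun o _ => hw0 o
  have hp01 : ∀ h, 0 ≤ ∏ i, δ i h ∧ ∏ i, δ i h ≤ 1 := fun h =>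
    ⟨Finset.prod_nonneg fun i _ => (h01 i h).1, Finset.prod_le_one (fun i _ => (h01 i h).1) fun i _ => (h01 i h).2⟩
  have h1 := eg_ex_mono hc T hb τ y (fun h => ∏ i, δ i h) (fun h => ∑ o, w o * F o h) (1 + ∑ o, w o)
    (fun h => by rw [abs_of_nonneg (hp01 h).1]; linarith [(hp01 h).2])
    (fun h => by rw [abs_of_nonneg (hsum0 h)]; linarith [hsum1 h]) hpt
  have h2 := eg_ex_lin hc T hb τ y Finset.univ w F 1 (fun o _ h => by rw [abs_of_nonneg (hF01 o h).1]; exact (hF01 o h).2)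
  rw [h2, Fintype.sum_option] at h1
  refine h1.trans ?_
  have h3 : egEx T b τ y (F none) = 1 := eg_ex_one hc T hb τ y
  have h4 : ∀ i, w (some i) * egEx T b τ y (F (some i)) ≤ κ ^ j * (r : ℝ)⁻¹ := by
    intro i
    have h5 : egEx T b τ y (F (some i)) ≤ κ ^ r := hm i
    calc w (some i) * egEx T b τ y (F (some i)) ≤ w (some i) * κ ^ r := mul_le_mul_of_nonneg_left h5 (hw0 _)
      _ = κ ^ j * (r : ℝ)⁻¹ := by
        simp only [hw, Option.elim_some]
        have : κ ^ r ≠ 0 := by positivity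
        field_simp
  have h6 : ∑ i, w (some i) * egEx T b τ y (F (some i)) ≤ (j : ℝ) * (κ ^ j * (r : ℝ)⁻¹) := by
    refine (Finset.sum_le_sum fun i _ => h4 i).trans (le_of_eq ?_)
    rw [Finset.sum_const, Finset.card_univ, nsmul_eq_mul]
  rw [h3]
  have h7 : w none = κ ^ j * (1 - (j : ℝ) / r) := rfl
  rw [h7]
  have h8 : κ ^ j * (1 - (j : ℝ) / r) * 1 + (j : ℝ) * (κ ^ j * (r : ℝ)⁻¹) = κ ^ j := by
    rw [div_eq_mul_inv]; ring
  linarith

/-! ## [ONE] the exact one-mark identity (ent:one-mark-law), (ent:one-mark-identity) -/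

/-- the quotient `Ξ_o / Ξ_c` of the retained local cutoffs -/
def egXiR (M : EgMark c) (τ : Face c → ℤ) (y : c.I → ℝ) : ℝ := ∏ f ∈ M.F, chi c.m (wf c τ y f)

/-- L-ENT-GOOD-ONE.  `pn_gd_addPin`, `pn_ZC_eq`, `pn_summable`, `pn_hW_pos`. -/
theorem eg_Z0_pos (hc : Whole c) (T : Top c) {b : ℝ} (hb : 0 < b) (p : Finset c.I) (h : G.V → ℤ) : 0 < egZ0 T b p h :=
  Pins.T32.pn_ZC_one_pos T.law (eg_gd hc T hb) _ _

/-- the pairing of `egTest` with a physical height is the pairing of `y` with the rows -/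
theorem eg_one_pair (T : Top c) (y : c.I → ℝ) (φ : T.graph.V → ℝ) :
    HLaw.pair (egTest T y) φ = ∑ o : T.law.O, y o.1 * ∑ v, T.law.B o v * φ v := by
  unfold HLaw.pair egTest
  simp only [Finset.mul_sum]
  rw [Finset.sum_comm]
  refine Finset.sum_congr rfl fun v _ => ?_
  symm
  refine (Finset.sum_eq_single (⟨c.blk v.1, v.2⟩ : T.law.O) ?_ ?_).trans ?_
  · intro o _ ho
    have h1 : c.blk v.1 ≠ o.1 := fun h => ho (Subtype.ext h.symm)
    have h2 : T.law.B o v = 0 := if_neg h1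
    rw [h2]
    ring
  · intro h
    exact absurd (Finset.mem_univ _) h
  · have h2 : T.law.B (⟨c.blk v.1, v.2⟩ : T.law.O) v = ((c.sites {c.blk v.1}).card : ℝ)⁻¹ := if_pos rfl
    rw [h2]
    ring

/-- completion of the square in the weight of an abstract system -/
theorem eg_one_W (S : LSys) (z : S.Amb) (cc : S.O → ℝ) :
    S.W (z + (show S.Amb from ((0 : S.E → ℤ), fun o => - cc o)))
      = Real.exp (-(∑ o, cc o ^ 2) / 2) * (Real.exp (∑ o, cc o * z.2 o) * S.W z) := by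
  unfold LSys.W
  have h2 : ∑ o, (z + (show S.Amb from ((0 : S.E → ℤ), fun o => - cc o))).2 o ^ 2
      = ∑ o, z.2 o ^ 2 - 2 * ∑ o, cc o * z.2 o + ∑ o, cc o ^ 2 := by
    rw [Finset.mul_sum, ← Finset.sum_sub_distrib, ← Finset.sum_add_distrib]
    refine Finset.sum_congr rfl fun o _ => ?_
    show (z.2 o + - cc o) ^ 2 = _
    ring
  rw [h2]
  have h1 : ∀ e, (z + (show S.Amb from ((0 : S.E → ℤ), fun o => - cc o))).1 e = z.1 e := fun e => by
    show z.1 e + 0 = _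
    ring
  simp only [h1]
  rw [mul_left_comm (Real.exp (∑ o, cc o * z.2 o)), mul_left_comm (Real.exp (-(∑ o, cc o ^ 2) / 2)), ← Real.exp_add, ← Real.exp_add]
  congr 2
  ring

theorem eg_one_econn_zero (T : Top c) : T.econn (0 : Face c → ℤ) = 0 := by
  funext e
  unfold Top.econn
  split_ifs <;> rfl

theorem eg_one_ZC_exp_pos {Gr : HGraph} (H : HLaw Gr) {b : ℝ} (hG : Pins.T32.Gd H b) (P : Set Gr.V) (u : Gr.V → ℤ) (f : Gr.V → ℝ) :
    0 < C3.ZC H b P u (fun φ => Real.exp (HLaw.pair f φ)) := by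
  rw [Pins.T32.pn_ZC_eq]
  have hs : Summable fun h : ↥(H.Λ ⊓ HLaw.pinned P) =>
      Real.exp (HLaw.pair f (C3.phys ((h : Gr.V → ℤ) + C3.resZ P u))) * Pins.T32.hW H b ((h : Gr.V → ℤ) + C3.resZ P u) :=
    Pins.T32.pn_summable (H.addPin P) (Pins.T32.pn_gd_addPin H hG P) (C3.resZ P u) f
  exact hs.tsum_pos (fun h => (mul_pos (Real.exp_pos _) (Pins.T32.pn_hW_pos H hG.b_pos _)).le) 0
    (mul_pos (Real.exp_pos _) (Pins.T32.pn_hW_pos H hG.b_pos _))

/-- the observation as a tilt, unnormalised and with pins -/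
theorem eg_one_J (T : Top c) (b : ℝ) (p : Finset c.I) (y : c.I → ℝ) (h : G.V → ℤ) :
    egJ T b 0 y p h = Real.exp (-(egNorm T y) / 2)
      * C3.ZC T.law b (egSites T p) (egRes T h) (fun φ => Real.exp (HLaw.pair (egTest T y) φ)) := by
  rw [Pins.T32.pn_ZC_eq, ← tsum_mul_left]
  unfold egJ HLaw.Z
  refine tsum_congr fun k => ?_
  rw [one_mul, eg_one_econn_zero]
  have e1 : (T.law.addPin (egSites T p)).coordA b (k : T.graph.V → ℤ)
        + HLaw.Aff.amb (H := T.law.addPin (egSites T p)) ⟨C3.resZ (egSites T p) (egRes T h), 0, fun i => y i.1⟩ b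
      = T.law.coordA b ((k : T.graph.V → ℤ) + C3.resZ (egSites T p) (egRes T h))
        + (show (T.law.sys b).Amb from ((0 : (T.law.sys b).E → ℤ), fun o => - y o.1)) := by
    rw [map_add, add_assoc]
    rfl
  have e2 := eg_one_W (T.law.sys b) (T.law.coordA b ((k : T.graph.V → ℤ) + C3.resZ (egSites T p) (egRes T h))) (fun o => y o.1)
  have e3 : (∑ o : (T.law.sys b).O, y o.1 ^ 2) = egNorm T y := Finset.sum_coe_sort T.cells (fun i => y i ^ 2)
  rw [e3] at e2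
  rw [eg_one_pair]
  exact (congrArg _ e1).trans e2

/-- L-ENT-GOOD-ONE, third line of (ent:one-mark-law).  PLAN: as `eg_ex_eq`, termwise on the sum over `Λ ⊓ pinned`; `T.econn 0 = 0`; positivity of `ZC .. (exp ..)` for `Real.exp_log`. -/
theorem eg_J_eq (hc : Whole c) (T : Top c) {b : ℝ} (hb : 0 < b) (p : Finset c.I) (y : c.I → ℝ) (h : G.V → ℤ) :
    egJ T b 0 y p h = Real.exp (-(egNorm T y) / 2) * egZ0 T b p h * Real.exp (egCL T b p y h) := by
  have h0 := eg_Z0_pos hc T hb p h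
  have h1 := eg_one_ZC_exp_pos T.law (eg_gd hc T hb) (egSites T p) (egRes T h) (egTest T y)
  rw [eg_one_J]
  unfold egCL C3.cLap
  unfold egZ0 at h0 ⊢
  rw [Real.exp_log (div_pos h1 h0), mul_assoc]
  congr 1
  field_simp

/-- L-ENT-GOOD-ONE.  `(T.glue F).faces = (T.cut F).faces ∪ F`, disjoint. -/
theorem eg_xi_ratio (T : Top c) (M : EgMark c) (τ : Face c → ℤ) (y : c.I → ℝ) : egXi (T.glue M.F) τ y = egXi (T.cut M.F) τ y * egXiR M τ y := by
  classical
  unfold egXi egXiR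
  show ∏ f ∈ T.faces ∪ M.F, _ = (∏ f ∈ T.faces \ M.F, _) * _
  rw [← Finset.prod_union Finset.sdiff_disjoint, Finset.sdiff_union_self_eq_union]

theorem eg_one_xi_pos (hc : Whole c) (E : Finset (Face c)) (τ : Face c → ℤ) (y : c.I → ℝ) : 0 < ∏ f ∈ E, chi c.m (wf c τ y f) :=
  Finset.prod_pos fun f _ => chiL_pos _ _ (by exact_mod_cast hc.pos)

theorem eg_one_C_pos (hc : Whole c) (T : Top c) (M : EgMark c) {b : ℝ} (hb : 0 < b) : 0 < egC T M b :=
  div_pos (Zobs_pos hc _ b hb 0 0) (Zobs_pos hc _ b hb 0 0)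

theorem eg_one_alg (n zo zc zo0 zc0 C Xc XR eo ec d : ℝ) (hn : 0 < n) (hzc : 0 < zc) (hzo0 : 0 < zo0) (hzc0 : 0 < zc0)
    (hC : 0 < C) (hXc : 0 < Xc) (hec : 0 < ec) (hd : 0 < d) :
    (n * zo * eo * (Xc * XR)) / (C * d⁻¹ * (n * zc * ec * Xc)) = (zo0 / (C * zc0)) * ((zo / zc) / (zo0 / zc0)) * (eo / ec * d) * XR := by
  field_simp

/-- L-ENT-GOOD-ONE, **(ent:one-mark-identity)**.  Pure algebra of positive numbers from `eg_J_eq` (same cells, so the same `egNorm`), `eg_xi_ratio`, `eg_Z0_pos`, `Zobs_pos`, `chiL_pos`. -/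
theorem eg_X_log (hc : Whole c) (T : Top c) (M : EgMark c) {b : ℝ} (hb : 0 < b) (a : ℝ) (y : c.I → ℝ) (h : G.V → ℤ) :
    0 < egX T M b a 0 y h ∧
      Real.log (egX T M b a 0 y h) = egCs T M b + Real.log (egRD T M b h) + egLam T M b a y h + Real.log (egXiR M 0 y) := by
  have hzo := eg_Z0_pos hc (T.glue M.F) hb M.p h
  have hzc := eg_Z0_pos hc (T.cut M.F) hb M.p h
  have hzo0 := eg_Z0_pos hc (T.glue M.F) hb M.p 0
  have hzc0 := eg_Z0_pos hc (T.cut M.F) hb M.p 0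
  have hC := eg_one_C_pos hc T M hb
  have hXc : 0 < egXi (T.cut M.F) 0 y := eg_one_xi_pos hc _ 0 y
  have hXR : 0 < egXiR M 0 y := eg_one_xi_pos hc _ 0 y
  have hN : egNorm (T.glue M.F) y = egNorm (T.cut M.F) y := rfl
  have key : egX T M b a 0 y h = (egZ0 (T.glue M.F) b M.p 0 / (egC T M b * egZ0 (T.cut M.F) b M.p 0)) * egRD T M b h
      * Real.exp (egLam T M b a y h) * egXiR M 0 y := by
    have hd : Real.exp (-(egDE T M a 0 y) / 2) = (Real.exp (egDE T M a 0 y / 2))⁻¹ := by rw [neg_div, Real.exp_neg]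
    unfold egX egB egRD egLam
    rw [eg_J_eq hc _ hb, eg_J_eq hc _ hb, eg_xi_ratio, hN, hd, Real.exp_add, Real.exp_sub]
    exact eg_one_alg _ _ _ _ _ _ _ _ _ _ _ (Real.exp_pos _) hzc hzo0 hzc0 hC hXc (Real.exp_pos _) (Real.exp_pos _)
  have p1 : 0 < egZ0 (T.glue M.F) b M.p 0 / (egC T M b * egZ0 (T.cut M.F) b M.p 0) := div_pos hzo0 (mul_pos hC hzc0)
  have p2 : 0 < egRD T M b h := div_pos (div_pos hzo hzc) (div_pos hzo0 hzc0)
  have p3 := Real.exp_pos (egLam T M b a y h)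
  rw [key]
  refine ⟨mul_pos (mul_pos (mul_pos p1 p2) p3) hXR, ?_⟩
  rw [Real.log_mul (mul_pos (mul_pos p1 p2) p3).ne' hXR.ne', Real.log_mul (mul_pos p1 p2).ne' p3.ne', Real.log_mul p1.ne' p2.ne',
    Real.log_exp]
  rfl

theorem eg_one_J_nonneg (T : Top c) {b : ℝ} (hb : 0 < b) (τ : Face c → ℤ) (y : c.I → ℝ) (p : Finset c.I) (h : G.V → ℤ) :
    0 ≤ egJ T b τ y p h := by
  unfold egJ HLaw.Z
  exact tsum_nonneg fun k => mul_nonneg zero_le_one (Rsd.kit_W_pos _ (fun _ => hb) _).le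

/-- L-ENT-GOOD-ONE, every sector: `0 ≤ δ ≤ 1` (`eg_dl_mem`; `egX ≥ 0` as a quotient of nonnegative numbers). -/
theorem eg_delta_mem (hc : Whole c) (T : Top c) (M : EgMark c) {b : ℝ} (hb : 0 < b) (a : ℝ) (τ : Face c → ℤ) (y : c.I → ℝ) (h : G.V → ℤ) :
    0 ≤ egDelta T M b a τ y h ∧ egDelta T M b a τ y h ≤ 1 := by
  refine eg_dl_mem _ ?_
  unfold egX
  refine div_nonneg (mul_nonneg (eg_one_J_nonneg _ hb _ _ _ _) (eg_one_xi_pos hc _ τ y).le)
    (mul_nonneg ?_ (mul_nonneg (eg_one_J_nonneg _ hb _ _ _ _) (eg_one_xi_pos hc _ τ y).le))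
  exact mul_nonneg (eg_one_C_pos hc T M hb).le (Real.exp_pos _).le

/-! ## [CMP] comparison: `r_H ≤ r_Δ ≤ 1`, `0 ≤ c_{i,s} ≤ D_i (H, p)` -/

theorem eg_sand_edge (T : Top c) (F : Finset (Face c)) {e : G.V × Bool} (he : (T.cut F).IsEdge e) : (T.glue F).IsEdge e := by
  obtain ⟨h1, h2, h3, h4⟩ := he
  refine ⟨h1, h2, h3, ?_⟩
  rcases h4 with h4 | h4
  · exact Or.inl h4
  · exact Or.inr (Finset.mem_union_left _ (Finset.mem_sdiff.1 h4).1)

theorem eg_sand_new (hc : Whole c) (T : Top c) (F : Finset (Face c)) {e : G.V × Bool} (he : (T.glue F).IsEdge e) (hn : ¬ (T.cut F).IsEdge e) :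
    (c.blk e.1, e.2) ∈ F ∧ c.blk (stp e.1 e.2) = fnb c (c.blk e.1, e.2) := by
  obtain ⟨h1, h2, h3, h4⟩ := he
  have hne : c.blk (stp e.1 e.2) ≠ c.blk e.1 := fun h => hn ⟨h1, h2, h3, Or.inl h⟩
  refine ⟨?_, enb_blk_stp hc e.1 e.2 hne⟩
  rcases h4 with h4 | h4
  · exact absurd h4 hne
  · by_contra hF
    rcases Finset.mem_union.1 h4 with h5 | h5
    · exact hn ⟨h1, h2, h3, Or.inr (Finset.mem_sdiff.2 ⟨h5, hF⟩)⟩
    · exact hF h5

/-- restoring the designated faces is an extension supported in the core -/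
def eg_sand_ext (hc : Whole c) (T : Top c) (M : EgMark c) (hface : ∀ f ∈ M.F, f.1 ∈ M.H ∧ fnb c f ∈ M.H) :
    Pins.T32.Ext (T.cut M.F).law (T.glue M.F).law (egSites (T.cut M.F) M.H) where
  e := Equiv.refl _
  iE := ⟨fun x => ⟨x.1, eg_sand_edge T M.F x.2⟩, fun x y hxy => Subtype.ext (congrArg (fun z => z.1) hxy)⟩
  iO := Function.Embedding.refl _
  src_eq _ := rfl
  tgt_eq _ := rfl
  row_eq _ _ := rfl
  lam _ := Iff.rfl
  newE x' hx' := by
    have hn : ¬ (T.cut M.F).IsEdge x'.1 := fun h => hx' ⟨⟨x'.1, h⟩, rfl⟩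
    obtain ⟨h1, h2⟩ := eg_sand_new hc T M.F x'.2 hn
    obtain ⟨h3, h4⟩ := hface _ h1
    refine ⟨h3, ?_⟩
    show c.blk (stp x'.1.1 x'.1.2) ∈ M.H
    rw [h2]
    exact h4
  newO o' ho' := (ho' ⟨o', rfl⟩).elim

/-- L-ENT-GOOD-SAND, **`r_H ≤ r_Δ ≤ 1`** ([C] L3.9).  PLAN A: the instance `x : Pins.T32.Ext (T.cut M.F).law (T.glue M.F).law (egSites _ M.H)` (`e = Equiv.refl`: the vertex types agree definitionally; `iE` = inclusion of the edges;
new edges cross a face of `M.F`, whose two cells lie in `M.H`), then `pn_ext_sandwich`, `x.rr = egRD`.   PLAN B: bridge `GoodFac` + `fk_ratio` twice (more precision: the bonds of `F`; the pin on `H`, which makes the restoration a scalar). -/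
theorem eg_sandwich (hc : Whole c) (T : Top c) (hT : T.Ok) (M : EgMark c) (R : ℕ) (hM : M.Geo T R) {b : ℝ} (hb : 0 < b) (h : G.V → ℤ) :
    0 < egRP (T.cut M.F) b M.p M.H h ∧ egRP (T.cut M.F) b M.p M.H h ≤ egRD T M b h ∧ egRD T M b h ≤ 1 := by
  have _ := hT
  have hG := eg_gd hc (T.cut M.F) hb
  have hd : Disjoint (egSites (T.cut M.F) M.H) (egSites (T.cut M.F) M.p) := by
    rw [Set.disjoint_left]
    intro v hv hv'
    exact (Finset.disjoint_left.1 hM.disj) (hM.H_sub hv) hv'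
  have hs := Pins.T32.pn_ext_sandwich (T.cut M.F).law (eg_sand_ext hc T M fun f hf => (hM.face f hf).2) hG
    (egSites (T.cut M.F) M.p) hd (egRes (T.cut M.F) h)
  have e : (eg_sand_ext hc T M fun f hf => (hM.face f hf).2).rr b (egSites (T.cut M.F) M.p) (egRes (T.cut M.F) h) = egRD T M b h := rfl
  rw [e] at hs
  exact ⟨(Pins.T32.pn_rPin_mem (T.cut M.F).law hG _ _ _).1, hs.1, hs.2.1⟩

/-- global integer fields supported on the sites of the cells of `A` -/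
def eg_loc_Fld (c : Grid G) (A : Finset c.I) : Type := {g : G.V → ℤ // ∀ v, c.blk v ∉ A → g v = 0}

/-- the row of the cell `i` on a global field -/
def eg_loc_row (c : Grid G) (i : c.I) (g : G.V → ℤ) : ℝ :=
  ∑ v : G.V, (if c.blk v = i then ((c.sites {i}).card : ℝ)⁻¹ else 0) * (2 * Real.pi * (g v : ℝ))

/-- the weight carried by a set of bonds and a set of cells -/
def eg_loc_w (c : Grid G) (b : ℝ) (E : Finset (G.V × Bool)) (A : Finset c.I) (g : G.V → ℤ) : ℝ :=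
  (∏ e ∈ E, bes b (g (stp e.1 e.2) - g e.1)) * Real.exp (-(∑ i ∈ A, eg_loc_row c i g ^ 2) / 2)

open Classical in
theorem eg_loc_hW (T : Top c) (b : ℝ) (g : G.V → ℤ) :
    Pins.T32.hW T.law b (egRes T g) = eg_loc_w c b (Finset.univ.filter T.IsEdge) T.cells g := by
  have h1 : (∏ e : T.graph.E, bes b (g (stp e.1.1 e.1.2) - g e.1.1))
      = ∏ e ∈ Finset.univ.filter T.IsEdge, bes b (g (stp e.1 e.2) - g e.1) :=
    (Finset.prod_subtype (Finset.univ.filter T.IsEdge) (by simp) fun e => bes b (g (stp e.1 e.2) - g e.1)).symm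
  have h2 : ∀ o : {i : c.I // i ∈ T.cells},
      (∑ v : T.graph.V, (if c.blk v.1 = o.1 then ((c.sites {o.1}).card : ℝ)⁻¹ else 0) * (2 * Real.pi * ((g v.1 : ℤ) : ℝ)))
        = eg_loc_row c o.1 g := by
    intro o
    unfold eg_loc_row
    refine (Finset.sum_subtype (p := fun v : G.V => c.blk v ∈ T.cells)
      (Finset.univ.filter fun v : G.V => c.blk v ∈ T.cells) (fun x => by simp)
      fun v => (if c.blk v = o.1 then ((c.sites {o.1}).card : ℝ)⁻¹ else 0) * (2 * Real.pi * ((g v : ℤ) : ℝ))).symm.trans ?_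
    refine Finset.sum_subset (Finset.subset_univ _) fun v _ hv => ?_
    have hv' : c.blk v ≠ o.1 := fun h => hv (by simp [h, o.2])
    rw [if_neg hv', zero_mul]
  have h3 : (∑ o : {i : c.I // i ∈ T.cells}, eg_loc_row c o.1 g ^ 2) = ∑ i ∈ T.cells, eg_loc_row c i g ^ 2 :=
    (Finset.sum_subtype T.cells (by simp) fun i => eg_loc_row c i g ^ 2).symm
  unfold eg_loc_w
  rw [← h1, ← h3]
  simp only [← h2]
  rfl

/-- heights of `T` vanishing on the guard = global fields supported on the free cells -/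
def eg_loc_equiv (T : Top c) (p : Finset c.I) :
    ↥(T.law.Λ ⊓ HLaw.pinned (egSites T p)) ≃ eg_loc_Fld c (T.cells \ p) where
  toFun h := ⟨egExt T (h : T.graph.V → ℤ), fun v hv => by
    unfold egExt
    by_cases h1 : c.blk v ∈ T.cells
    · rw [dif_pos h1]
      refine h.2.2 ⟨v, h1⟩ ?_
      show c.blk v ∈ p
      by_contra h2
      exact hv (Finset.mem_sdiff.2 ⟨h1, h2⟩)
    · rw [dif_neg h1]⟩
  invFun g := ⟨egRes T g.1, ⟨trivial, fun v hv => g.2 v.1 fun h => (Finset.mem_sdiff.1 h).2 hv⟩⟩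
  left_inv h := by
    apply Subtype.ext
    funext v
    show egExt T (h : T.graph.V → ℤ) v.1 = _
    unfold egExt
    rw [dif_pos v.2]
    rfl
  right_inv g := by
    apply Subtype.ext
    funext v
    show egExt T (egRes T g.1) v = _
    unfold egExt
    by_cases h1 : c.blk v ∈ T.cells
    · rw [dif_pos h1]
      rfl
    · rw [dif_neg h1]
      exact (g.2 v fun h => h1 (Finset.mem_sdiff.1 h).1).symm

open Classical in
theorem eg_loc_Z0 (T : Top c) (b : ℝ) (p : Finset c.I) :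
    egZ0 T b p 0 = ∑' g : eg_loc_Fld c (T.cells \ p), eg_loc_w c b (Finset.univ.filter T.IsEdge) T.cells g.1 := by
  unfold egZ0
  rw [Pins.T32.pn_ZC_eq]
  have h0 : C3.resZ (egSites T p) (egRes T (0 : G.V → ℤ)) = 0 := Pins.T32.pn_resZ_zero _
  rw [h0]
  rw [← (eg_loc_equiv T p).symm.tsum_eq]
  refine tsum_congr fun g => ?_
  rw [one_mul, add_zero, ← eg_loc_hW]
  rfl

open Classical in
theorem eg_loc_summable (hc : Whole c) (T : Top c) {b : ℝ} (hb : 0 < b) (p : Finset c.I) :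
    Summable fun g : eg_loc_Fld c (T.cells \ p) => eg_loc_w c b (Finset.univ.filter T.IsEdge) T.cells g.1 := by
  have := Pins.T32.pn_summable (T.law.addPin (egSites T p)) (Pins.T32.pn_gd_addPin T.law (eg_gd hc T hb) _) 0 0
  simp only [Pins.T32.pn_lin_zero_left, Real.exp_zero, one_mul, add_zero] at this
  have h2 : Summable fun h : ↥(T.law.Λ ⊓ HLaw.pinned (egSites T p)) => Pins.T32.hW T.law b (h : T.graph.V → ℤ) := this
  rw [← (eg_loc_equiv T p).symm.summable_iff] at h2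
  refine h2.congr fun g => ?_
  rw [← eg_loc_hW]
  rfl

theorem eg_loc_w_pos {b : ℝ} (hb : 0 < b) (E : Finset (G.V × Bool)) (A : Finset c.I) (g : G.V → ℤ) :
    0 < eg_loc_w c b E A g :=
  mul_pos (Finset.prod_pos fun _ _ => bes_pos b hb _) (Real.exp_pos _)

/-- fields on a disjoint union of sets of cells -/
def eg_loc_split (A B : Finset c.I) (hAB : Disjoint A B) : eg_loc_Fld c A × eg_loc_Fld c B ≃ eg_loc_Fld c (A ∪ B) where
  toFun x := ⟨x.1.1 + x.2.1, fun v hv => by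
    have h1 : c.blk v ∉ A := fun h => hv (Finset.mem_union_left _ h)
    have h2 : c.blk v ∉ B := fun h => hv (Finset.mem_union_right _ h)
    show x.1.1 v + x.2.1 v = 0
    rw [x.1.2 v h1, x.2.2 v h2, add_zero]⟩
  invFun g := (⟨fun v => if c.blk v ∈ A then g.1 v else 0, fun v hv => if_neg hv⟩,
    ⟨fun v => if c.blk v ∈ B then g.1 v else 0, fun v hv => if_neg hv⟩)
  left_inv x := by
    refine Prod.ext (Subtype.ext (funext fun v => ?_)) (Subtype.ext (funext fun v => ?_))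
    · show (if c.blk v ∈ A then x.1.1 v + x.2.1 v else 0) = x.1.1 v
      by_cases h : c.blk v ∈ A
      · rw [if_pos h, x.2.2 v (Finset.disjoint_left.1 hAB h), add_zero]
      · rw [if_neg h, x.1.2 v h]
    · show (if c.blk v ∈ B then x.1.1 v + x.2.1 v else 0) = x.2.1 v
      by_cases h : c.blk v ∈ B
      · rw [if_pos h, x.1.2 v (Finset.disjoint_right.1 hAB h), zero_add]
      · rw [if_neg h, x.2.2 v h]
  right_inv g := by
    apply Subtype.ext
    funext v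
    show (if c.blk v ∈ A then g.1 v else 0) + (if c.blk v ∈ B then g.1 v else 0) = g.1 v
    by_cases hA : c.blk v ∈ A
    · rw [if_pos hA, if_neg (Finset.disjoint_left.1 hAB hA), add_zero]
    · by_cases hB : c.blk v ∈ B
      · rw [if_neg hA, if_pos hB, zero_add]
      · rw [if_neg hA, if_neg hB, add_zero, g.2 v (by simp [hA, hB])]

theorem eg_loc_factor (A B : Finset c.I) (hAB : Disjoint A B) (w f1 f2 : (G.V → ℤ) → ℝ)
    (h1 : ∀ g, 0 < f1 g) (h2 : ∀ g, 0 < f2 g)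
    (hw : ∀ (a : eg_loc_Fld c A) (x : eg_loc_Fld c B), w (a.1 + x.1) = f1 a.1 * f2 x.1)
    (hs : Summable fun g : eg_loc_Fld c (A ∪ B) => w g.1) :
    ∑' g : eg_loc_Fld c (A ∪ B), w g.1 = (∑' a : eg_loc_Fld c A, f1 a.1) * ∑' x : eg_loc_Fld c B, f2 x.1 := by
  have hs' : Summable fun z : eg_loc_Fld c A × eg_loc_Fld c B => f1 z.1.1 * f2 z.2.1 := by
    rw [← (eg_loc_split A B hAB).summable_iff] at hs
    exact hs.congr fun z => hw z.1 z.2
  have s2 : Summable fun x : eg_loc_Fld c B => f2 x.1 := by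
    have := hs'.prod_factor (⟨0, fun _ _ => rfl⟩ : eg_loc_Fld c A)
    exact (summable_mul_left_iff (h1 _).ne').1 this
  have s1 : Summable fun a : eg_loc_Fld c A => f1 a.1 := by
    have := hs'.prod_symm.prod_factor (⟨0, fun _ _ => rfl⟩ : eg_loc_Fld c B)
    exact (summable_mul_right_iff (h2 _).ne').1 this
  rw [s1.tsum_mul_tsum s2 hs', ← (eg_loc_split A B hAB).tsum_eq]
  exact tsum_congr fun z => hw z.1 z.2

theorem eg_loc_w_congr (b : ℝ) (E : Finset (G.V × Bool)) (A : Finset c.I) (g g' : G.V → ℤ)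
    (hE : ∀ e ∈ E, g e.1 = g' e.1 ∧ g (stp e.1 e.2) = g' (stp e.1 e.2)) (hA : ∀ v, c.blk v ∈ A → g v = g' v) :
    eg_loc_w c b E A g = eg_loc_w c b E A g' := by
  have h1 : ∀ i ∈ A, eg_loc_row c i g = eg_loc_row c i g' := by
    intro i hi
    unfold eg_loc_row
    refine Finset.sum_congr rfl fun v _ => ?_
    by_cases h : c.blk v = i
    · rw [hA v (h ▸ hi)]
    · rw [if_neg h, zero_mul, zero_mul]
  unfold eg_loc_w
  rw [Finset.prod_congr rfl fun e he => by rw [(hE e he).1, (hE e he).2],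
    Finset.sum_congr rfl fun i hi => by rw [h1 i hi]]

/-- a bond touches the cells of `D` -/
def eg_loc_tch (D : Finset c.I) (e : G.V × Bool) : Prop := c.blk e.1 ∈ D ∨ c.blk (stp e.1 e.2) ∈ D

theorem eg_loc_w_split (b : ℝ) (E Ein Eout : Finset (G.V × Bool)) (C D : Finset c.I) (hD : D ⊆ C)
    (hin : ∀ e, e ∈ Ein ↔ e ∈ E ∧ eg_loc_tch D e) (hout : ∀ e, e ∈ Eout ↔ e ∈ E ∧ ¬ eg_loc_tch D e) (g : G.V → ℤ) :
    eg_loc_w c b E C g = eg_loc_w c b Ein D g * eg_loc_w c b Eout (C \ D) g := by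
  classical
  have e1 : Ein = E.filter (eg_loc_tch D) := by
    ext e
    rw [hin, Finset.mem_filter]
  have e2 : Eout = E.filter fun e => ¬ eg_loc_tch D e := by
    ext e
    rw [hout, Finset.mem_filter]
  unfold eg_loc_w
  rw [e1, e2, ← Finset.prod_filter_mul_prod_filter_not E (eg_loc_tch D), ← Finset.sum_sdiff hD]
  rw [mul_mul_mul_comm, ← Real.exp_add]
  congr 2
  ring

theorem eg_loc_Z0_factor (hc : Whole c) (T : Top c) {b : ℝ} (hb : 0 < b) (D p C : Finset c.I) (hC : T.cells = C)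
    (hD : D ⊆ C) (hDp : Disjoint D p) (Ein Eout : Finset (G.V × Bool))
    (hin : ∀ e, e ∈ Ein ↔ T.IsEdge e ∧ eg_loc_tch D e) (hout : ∀ e, e ∈ Eout ↔ T.IsEdge e ∧ ¬ eg_loc_tch D e)
    (hsep : ∀ e, T.IsEdge e → eg_loc_tch D e → c.blk e.1 ∈ D ∪ p ∧ c.blk (stp e.1 e.2) ∈ D ∪ p) :
    egZ0 T b p 0 = (∑' a : eg_loc_Fld c D, eg_loc_w c b Ein D a.1)
      * ∑' x : eg_loc_Fld c (C \ (D ∪ p)), eg_loc_w c b Eout (C \ D) x.1 := by
  classical
  subst hC
  have hU : T.cells \ p = D ∪ (T.cells \ (D ∪ p)) := by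
    ext i
    simp only [Finset.mem_sdiff, Finset.mem_union]
    constructor
    · rintro ⟨h1, h2⟩
      by_cases h3 : i ∈ D
      · exact Or.inl h3
      · exact Or.inr ⟨h1, fun h => h.elim h3 h2⟩
    · rintro (h | ⟨h1, h2⟩)
      · exact ⟨hD h, Finset.disjoint_left.1 hDp h⟩
      · exact ⟨h1, fun h => h2 (Or.inr h)⟩
  have hdis : Disjoint D (T.cells \ (D ∪ p)) := by
    rw [Finset.disjoint_left]
    intro i h1 h2
    exact (Finset.mem_sdiff.1 h2).2 (Finset.mem_union_left _ h1)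
  have hs := eg_loc_summable hc T hb p
  rw [eg_loc_Z0]
  rw [hU] at hs ⊢
  refine eg_loc_factor D (T.cells \ (D ∪ p)) hdis _ _ _ (fun g => eg_loc_w_pos hb _ _ g) (fun g => eg_loc_w_pos hb _ _ g) ?_ hs
  intro a x
  rw [eg_loc_w_split b (Finset.univ.filter T.IsEdge) Ein Eout T.cells D hD (fun e => by rw [hin]; simp)
    (fun e => by rw [hout]; simp)]
  congr 1
  · refine eg_loc_w_congr b Ein D _ _ (fun e he => ?_) fun v hv => ?_
    · obtain ⟨h1, h2⟩ := (hin e).1 he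
      obtain ⟨s1, s2⟩ := hsep e h1 h2
      constructor
      · show a.1 e.1 + x.1 e.1 = _
        rw [x.2 e.1 fun h => (Finset.mem_sdiff.1 h).2 s1, add_zero]
      · show a.1 (stp e.1 e.2) + x.1 (stp e.1 e.2) = _
        rw [x.2 _ fun h => (Finset.mem_sdiff.1 h).2 s2, add_zero]
    · show a.1 v + x.1 v = _
      rw [x.2 v fun h => (Finset.mem_sdiff.1 h).2 (Finset.mem_union_left _ hv), add_zero]
  · refine eg_loc_w_congr b Eout (T.cells \ D) _ _ (fun e he => ?_) fun v hv => ?_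
    · obtain ⟨_, h2⟩ := (hout e).1 he
      constructor
      · show a.1 e.1 + x.1 e.1 = _
        rw [a.2 e.1 fun h => h2 (Or.inl h), zero_add]
      · show a.1 (stp e.1 e.2) + x.1 (stp e.1 e.2) = _
        rw [a.2 _ fun h => h2 (Or.inr h), zero_add]
    · show a.1 v + x.1 v = _
      rw [a.2 v (Finset.mem_sdiff.1 hv).2, zero_add]

theorem eg_loc_sep (hc : Whole c) (T : Top c) (M : EgMark c) (R : ℕ) (hM : M.Geo T R) (T' : Top c)
    (hT' : T'.faces ⊆ T.faces ∪ M.F) (e : G.V × Bool) (he : T'.IsEdge e) (ht : eg_loc_tch M.D e) :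
    c.blk e.1 ∈ M.D ∪ M.p ∧ c.blk (stp e.1 e.2) ∈ M.D ∪ M.p := by
  obtain ⟨_, _, _, h4⟩ := he
  by_cases hs : c.blk (stp e.1 e.2) = c.blk e.1
  · unfold eg_loc_tch at ht
    rw [hs] at ht ⊢
    have h : c.blk e.1 ∈ M.D := ht.elim id id
    exact ⟨Finset.mem_union_left _ h, Finset.mem_union_left _ h⟩
  · have hf : (c.blk e.1, e.2) ∈ T.faces ∪ M.F := hT' (h4.resolve_left hs)
    have hn := enb_blk_stp hc e.1 e.2 hs
    have := hM.sepG _ hf
    rw [← hn] at this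
    rcases ht with h | h
    · exact ⟨Finset.mem_union_left _ h, this.1 h⟩
    · exact ⟨this.2 h, Finset.mem_union_left _ h⟩

theorem eg_loc_restr (hc : Whole c) (T : Top c) (M : EgMark c) (R : ℕ) (hM : M.Geo T R) (T' : Top c)
    (hT' : T'.faces ⊆ T.faces ∪ M.F) (e : G.V × Bool) (ht : eg_loc_tch M.D e) :
    (T'.restr M.O).IsEdge e ↔ T'.IsEdge e := by
  constructor
  · rintro ⟨h1, h2, h3, h4⟩
    exact ⟨h1, (Finset.mem_inter.1 h2).1, (Finset.mem_inter.1 h3).1, h4.imp id fun h => (Finset.mem_filter.1 h).1⟩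
  · intro he
    obtain ⟨s1, s2⟩ := eg_loc_sep hc T M R hM T' hT' e he ht
    have hO : M.D ∪ M.p ⊆ M.O := Finset.union_subset hM.D_sub hM.p_sub
    obtain ⟨h1, h2, h3, h4⟩ := he
    refine ⟨h1, Finset.mem_inter.2 ⟨h2, hO s1⟩, Finset.mem_inter.2 ⟨h3, hO s2⟩, ?_⟩
    by_cases hs : c.blk (stp e.1 e.2) = c.blk e.1
    · exact Or.inl hs
    · refine Or.inr (Finset.mem_filter.2 ⟨h4.resolve_left hs, hO s1, ?_⟩)
      rw [← enb_blk_stp hc e.1 e.2 hs]
      exact hO s2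

theorem eg_loc_out (T : Top c) (M : EgMark c) (R : ℕ) (hM : M.Geo T R) (e : G.V × Bool) (ht : ¬ eg_loc_tch M.D e) :
    ((T.glue M.F).IsEdge e ↔ (T.cut M.F).IsEdge e) ∧ ((egPo T M).IsEdge e ↔ (egPc T M).IsEdge e) := by
  have hF : (c.blk e.1, e.2) ∉ M.F := fun h => ht (Or.inl (hM.H_sub (hM.face _ h).2.1))
  unfold egPo egPc Top.IsEdge Top.restr Top.glue Top.cut
  simp [hF]

/-- L-ENT-GOOD-LOC, "factors exterior to the full guard cancel": with the guard pinned the box and the open patch have the same restoration ratio.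
PLAN: with `h = 0` on the sites of `p` the sum over the heights factorises over the sites of `D` and the other free sites (`sepG`: no retained bond joins `D` to a cell outside `D ∪ p`; rows are carried by one cell);
the exterior factor does not see `M.F`; the interior factors of the box and of the patch are the same sums (`D ∪ p ⊆ O ⊆ T.cells`).   In factor models: `nm_T_loc` for `(mskT T_c).pin p` and `(mskT P_c).pin p`, `J = c.sites D`. -/
theorem eg_Z0_local (hc : Whole c) (T : Top c) (hT : T.Ok) (M : EgMark c) (R : ℕ) (hM : M.Geo T R) {b : ℝ} (hb : 0 < b) :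
    egZ0 (T.glue M.F) b M.p 0 / egZ0 (T.cut M.F) b M.p 0 = egZ0 (egPo T M) b M.p 0 / egZ0 (egPc T M) b M.p 0 := by
  classical
  have fo : (T.glue M.F).faces ⊆ T.faces ∪ M.F := Finset.Subset.refl _
  have fc : (T.cut M.F).faces ⊆ T.faces ∪ M.F := fun f hf => Finset.mem_union_left _ (Finset.mem_sdiff.1 hf).1
  have fPo : (egPo T M).faces ⊆ T.faces ∪ M.F := fun f hf => fo (Finset.mem_filter.1 hf).1
  have fPc : (egPc T M).faces ⊆ T.faces ∪ M.F := fun f hf => fc (Finset.mem_filter.1 hf).1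
  have hDT : M.D ⊆ T.cells := hM.D_sub.trans hM.O_sub
  have hDO : M.D ⊆ T.cells ∩ M.O := fun i hi => Finset.mem_inter.2 ⟨hDT hi, hM.D_sub hi⟩
  have z1 := eg_loc_Z0_factor hc (T.glue M.F) hb M.D M.p T.cells rfl hDT hM.disj
    (Finset.univ.filter fun e => (T.glue M.F).IsEdge e ∧ eg_loc_tch M.D e)
    (Finset.univ.filter fun e => (T.cut M.F).IsEdge e ∧ ¬ eg_loc_tch M.D e) (fun e => by simp)
    (fun e => by
      simp only [Finset.mem_filter, Finset.mem_univ, true_and]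
      exact and_congr_left fun h => (eg_loc_out T M R hM e h).1.symm)
    (eg_loc_sep hc T M R hM _ fo)
  have z2 := eg_loc_Z0_factor hc (T.cut M.F) hb M.D M.p T.cells rfl hDT hM.disj
    (Finset.univ.filter fun e => (T.cut M.F).IsEdge e ∧ eg_loc_tch M.D e)
    (Finset.univ.filter fun e => (T.cut M.F).IsEdge e ∧ ¬ eg_loc_tch M.D e) (fun e => by simp) (fun e => by simp)
    (eg_loc_sep hc T M R hM _ fc)
  have z3 := eg_loc_Z0_factor hc (egPo T M) hb M.D M.p (T.cells ∩ M.O) rfl hDO hM.disj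
    (Finset.univ.filter fun e => (T.glue M.F).IsEdge e ∧ eg_loc_tch M.D e)
    (Finset.univ.filter fun e => (egPc T M).IsEdge e ∧ ¬ eg_loc_tch M.D e)
    (fun e => by
      simp only [Finset.mem_filter, Finset.mem_univ, true_and]
      exact and_congr_left fun h => (eg_loc_restr hc T M R hM _ fo e h).symm)
    (fun e => by
      simp only [Finset.mem_filter, Finset.mem_univ, true_and]
      exact and_congr_left fun h => (eg_loc_out T M R hM e h).2.symm)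
    (eg_loc_sep hc T M R hM _ fPo)
  have z4 := eg_loc_Z0_factor hc (egPc T M) hb M.D M.p (T.cells ∩ M.O) rfl hDO hM.disj
    (Finset.univ.filter fun e => (T.cut M.F).IsEdge e ∧ eg_loc_tch M.D e)
    (Finset.univ.filter fun e => (egPc T M).IsEdge e ∧ ¬ eg_loc_tch M.D e)
    (fun e => by
      simp only [Finset.mem_filter, Finset.mem_univ, true_and]
      exact and_congr_left fun h => (eg_loc_restr hc T M R hM _ fc e h).symm)
    (fun e => by simp)
    (eg_loc_sep hc T M R hM _ fPc)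
  have p2 : 0 < egZ0 (T.cut M.F) b M.p 0 := Pins.T32.pn_ZC_one_pos _ (eg_gd hc _ hb) _ _
  have p4 : 0 < egZ0 (egPc T M) b M.p 0 := Pins.T32.pn_ZC_one_pos _ (eg_gd hc _ hb) _ _
  rw [z2] at p2
  rw [z4] at p4
  rw [z1, z2, z3, z4, mul_div_mul_right _ _ (right_ne_zero_of_mul p2.ne'), mul_div_mul_right _ _ (right_ne_zero_of_mul p4.ne')]

theorem eg_cs_Zobs (T : Top c) (b : ℝ) : C3.ZC T.law b ∅ 0 (fun _ => 1) = T.Zobs b 0 0 := by
  rw [Pins.T32.pn_ZC_eq]
  rw [Pins.T32.pn_l11_tsum_nopin T.law fun h => (1 : ℝ) * Pins.T32.hW T.law b h]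
  simp only [one_mul]
  rw [← Pins.T32.pn_Z_zero_hW]
  unfold Top.Zobs
  rw [eg_one_econn_zero]
  rfl

theorem eg_cs_Pc (T : Top c) (M : EgMark c) : egPc T M = (T.restr M.O).cut M.F := by
  unfold egPc Top.restr Top.cut
  congr 1
  ext f
  simp only [Finset.mem_filter, Finset.mem_sdiff]
  tauto

theorem eg_cs_Po (T : Top c) (M : EgMark c) (hF : ∀ f ∈ M.F, f.1 ∈ M.O ∧ fnb c f ∈ M.O) : egPo T M = (T.restr M.O).glue M.F := by
  unfold egPo Top.restr Top.glue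
  congr 1
  ext f
  simp only [Finset.mem_filter, Finset.mem_union]
  constructor
  · rintro ⟨h1 | h1, h2⟩
    · exact Or.inl ⟨h1, h2⟩
    · exact Or.inr h1
  · rintro (⟨h1, h2⟩ | h1)
    · exact ⟨Or.inl h1, h2⟩
    · exact ⟨Or.inr h1, hF f h1⟩

/-- L-ENT-GOOD-CS, **`0 ≤ c_{i,s} ≤ d_{i,s}`**.  PLAN: `eg_Z0_local`; in the patch: `x : Ext (egPc T M).law (egPo T M).law (egSites _ M.H)`, `pn_ext_const` with `P` = guard: `x.zr b P 0` = pinned ratio, `x.zr b ∅ 0 = egC`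
(`ZC H b ∅ 0 1 = Zobs b 0 0`).   In factor models: `fk_T_mono` + `nm_T_pin_le`. -/
theorem eg_cs_bound (hc : Whole c) (T : Top c) (hT : T.Ok) (M : EgMark c) (R : ℕ) (hM : M.Geo T R) {b : ℝ} (hb : 0 < b) :
    0 ≤ egCs T M b ∧ egCs T M b ≤ egDs T M b := by
  have hHO : M.H ⊆ M.O := hM.H_sub.trans hM.D_sub
  have hPc := eg_cs_Pc T M
  have hPo := eg_cs_Po T M fun f hf => ⟨hHO (hM.face f hf).2.1, hHO (hM.face f hf).2.2⟩
  have hloc := eg_Z0_local hc T hT M R hM hb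
  unfold egCs egDs egC
  rw [div_mul_eq_div_div_swap, hloc, hPc, hPo]
  obtain ⟨T', hT'⟩ : ∃ T', T' = T.restr M.O := ⟨_, rfl⟩
  rw [← hT']
  have hG := eg_gd hc (T'.cut M.F) hb
  have hd : Disjoint (egSites (T'.cut M.F) M.H) (egSites (T'.cut M.F) M.p) := by
    rw [Set.disjoint_left]
    intro v hv hv'
    exact (Finset.disjoint_left.1 hM.disj) (hM.H_sub hv) hv'
  have hk := Pins.T32.pn_ext_const (T'.cut M.F).law (eg_sand_ext hc T' M fun f hf => (hM.face f hf).2) hG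
    (egSites (T'.cut M.F) M.p) (fun _ _ => trivial) hd
  have e1 : (eg_sand_ext hc T' M fun f hf => (hM.face f hf).2).zr b (egSites (T'.cut M.F) M.p) 0
      = egZ0 (T'.glue M.F) b M.p 0 / egZ0 (T'.cut M.F) b M.p 0 := rfl
  have e2 : (eg_sand_ext hc T' M fun f hf => (hM.face f hf).2).zr b ∅ 0
      = (T'.glue M.F).Zobs b 0 0 / (T'.cut M.F).Zobs b 0 0 := by
    rw [← eg_cs_Zobs, ← eg_cs_Zobs]
    rfl
  rw [e1, e2] at hk
  constructor
  · exact Real.log_nonneg hk.1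
  · rw [Real.log_le_iff_le_exp (lt_of_lt_of_le one_pos hk.1)]
    exact hk.2

/-- **`δ_i ≤ Θ_{i,s}`**, in the form which is transferred: a bounded continuous function of `(log L_c, log L_o, r_H)`.     GLUE (helper109). -/
theorem eg_delta_le (hc : Whole c) (T : Top c) (hT : T.Ok) (M : EgMark c) (R : ℕ) (hM : M.Geo T R) {b : ℝ} (hb : 0 < b) (a : ℝ) (y : c.I → ℝ)
    (h : G.V → ℤ) (r : ℕ) :
    egDelta T M b a 0 y h ^ r ≤ egPhi (egDs T M b + |Real.log (egXiR M 0 y)|) (egDE T M a 0 y / 2) r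
      (egCL (T.cut M.F) b M.p y h) (egCL (T.glue M.F) b M.p y h) (egRP (T.cut M.F) b M.p M.H h) := by
  obtain ⟨hX0, hXl⟩ := eg_X_log hc T M hb a y h
  obtain ⟨hρ0, hρD, hD1⟩ := eg_sandwich hc T hT M R hM hb h
  obtain ⟨hC0, hCD⟩ := eg_cs_bound hc T hT M R hM hb
  have hδ := eg_delta_mem hc T M hb a 0 y h
  have hδl : egDelta T M b a 0 y h ≤ |Real.log (egX T M b a 0 y h)| := eg_dl_le_log _ hX0
  have hρ1 : egRP (T.cut M.F) b M.p M.H h ≤ 1 := hρD.trans hD1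
  have hlg := eg_lg_eq _ hρ0 hρ1
  have hD0 : 0 < egRD T M b h := lt_of_lt_of_le hρ0 hρD
  have hlD : |Real.log (egRD T M b h)| ≤ -Real.log (egRP (T.cut M.F) b M.p M.H h) := by
    rw [abs_of_nonpos (Real.log_nonpos hD0.le hD1)]
    exact neg_le_neg (Real.log_le_log hρ0 hρD)
  unfold egPhi
  refine pow_le_pow_left₀ hδ.1 (le_min hδ.2 ?_) r
  have hLam : egLam T M b a y h = egCL (T.glue M.F) b M.p y h - egCL (T.cut M.F) b M.p y h + egDE T M a 0 y / 2 := rfl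
  rw [← hLam, hlg]
  rcases le_total 1 (-Real.log (egRP (T.cut M.F) b M.p M.H h)) with h1 | h1
  · rw [min_eq_left h1]
    have := abs_nonneg (egLam T M b a y h)
    have := abs_nonneg (Real.log (egXiR M 0 y))
    linarith [hδ.2]
  · rw [min_eq_right h1]
    refine hδl.trans ?_
    rw [hXl]
    have t1 := abs_add_le (egCs T M b + Real.log (egRD T M b h) + egLam T M b a y h) (Real.log (egXiR M 0 y))
    have t2 := abs_add_le (egCs T M b + Real.log (egRD T M b h)) (egLam T M b a y h)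
    have t3 := abs_add_le (egCs T M b) (Real.log (egRD T M b h))
    rw [abs_of_nonneg hC0] at t3
    linarith

/-! ## [GAU] integral gauges and periods -/

/-- the gauge transformation of an observation -/
def egSh2 (y : c.I → ℝ) (κ : c.I → ℤ) : c.I → ℝ := fun i => y i + 2 * Real.pi * κ i

theorem eg_wf_gauge (τ τ' : Face c → ℤ) (κ : c.I → ℤ) (y : c.I → ℝ) (f : Face c) (h : τ f = τ' f + κ (fnb c f) - κ f.1) :
    wf c τ y f = wf c τ' (egSh2 y κ) f := by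
  unfold wf egSh2
  rw [h]
  push_cast
  ring

theorem eg_E_gauge (𝓕 : Finset (Face c)) (τ τ' : Face c → ℤ) (κ : c.I → ℤ) (y : c.I → ℝ) (h : ∀ f ∈ 𝓕, τ f = τ' f + κ (fnb c f) - κ f.1) :
    egE 𝓕 τ y = egE 𝓕 τ' (egSh2 y κ) :=
  Finset.sum_congr rfl fun f hf => by rw [eg_wf_gauge τ τ' κ y f (h f hf)]

/-- the energy only sees the connection on the retained faces -/
private theorem eg_gau1_En_congr (T : Top c) (a : ℝ) (w w' : Face c → ℝ) (y : c.I → ℝ) (h : ∀ f ∈ T.faces, w f = w' f) :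
    T.En a w y = T.En a w' y := by
  unfold Top.En
  refine iInf_congr fun u => ?_
  unfold Top.quad
  congr 2
  refine Finset.sum_congr rfl fun e _ => ?_
  congr 2
  unfold Top.econn
  split_ifs with h1
  · rfl
  · exact h _ (e.2.2.2.2.resolve_left h1)

/-- L-ENT-GOOD-GAU1.  PLAN: `u ↦ u + 2π κ ∘ blk` is a bijection of the trial fields which carries `quad a (2π τ) y` to `quad a (2π τ') (y + 2π κ)` (`Equiv.iInf_congr`); on a bond inside a cell both connections vanish. -/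
theorem eg_Eobs_gauge (hc : Whole c) (T : Top c) (hT : T.Ok) (a : ℝ) (τ τ' : Face c → ℤ) (κ : c.I → ℤ) (y : c.I → ℝ)
    (h : ∀ f ∈ T.faces, τ f = τ' f + κ (fnb c f) - κ f.1) : T.Eobs a τ y = T.Eobs a τ' (egSh2 y κ) := by
  rw [← Qf_physical hc T hT a τ y, ← Qf_physical hc T hT a τ' (egSh2 y κ)]
  exact eg_gau1_En_congr T a _ _ 0 fun f hf => eg_wf_gauge τ τ' κ y f (h f hf)

theorem eg_gau_Z_shift {Γ : HGraph} (H : HLaw Γ) (b : ℝ) (α α' : H.Aff) (k : Γ.V → ℤ) (hk : k ∈ H.Λ)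
    (h : α.amb b = H.coordA b k + α'.amb b) : H.Z b α (fun _ => 1) = H.Z b α' fun _ => 1 := by
  unfold HLaw.Z
  rw [← (Equiv.addRight (⟨k, hk⟩ : H.Λ)).tsum_eq (fun z : H.Λ => 1 * (H.sys b).W (H.coordA b (z : Γ.V → ℤ) + α'.amb b))]
  refine tsum_congr fun z => ?_
  simp only [Equiv.coe_addRight, AddSubgroup.coe_add, map_add]
  rw [h, add_assoc]

theorem eg_gau_ZI_shift {Γ : HGraph} (H : HLaw Γ) (b : ℝ) (α α' : H.Aff) (k : Γ.V → ℤ) (hk : k ∈ H.Λ)
    (h : α.amb b = H.coordA b k + α'.amb b) (F F' : (Γ.V → ℤ) → ℝ) (hF : ∀ z : Γ.V → ℤ, F (z + α.x) = F' (z + k + α'.x)) :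
    C3.ZI H b α F = C3.ZI H b α' F' := by
  unfold C3.ZI
  rw [← (Equiv.addRight (⟨k, hk⟩ : H.Λ)).tsum_eq (fun z : H.Λ => F' ((z : Γ.V → ℤ) + α'.x) * (H.sys b).W (H.coordA b (z : Γ.V → ℤ) + α'.amb b))]
  refine tsum_congr fun z => ?_
  simp only [Equiv.coe_addRight, AddSubgroup.coe_add, map_add]
  rw [h, hF, ← add_assoc]

theorem eg_gau_row (hc : Whole c) (T : Top c) (κ : c.I → ℤ) (o : T.law.O) :
    ∑ v, T.law.B o v * (2 * Real.pi * ((egRes T (fun v => κ (c.blk v)) v : ℤ) : ℝ)) = 2 * Real.pi * κ o.1 := by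
  obtain ⟨i, hi⟩ := o
  rw [tl_avg T (fun v => 2 * Real.pi * ((egRes T (fun v => κ (c.blk v)) v : ℤ) : ℝ)) i hi]
  unfold avg cellAvg
  have h0 : ((c.sites {i}).card : ℝ) ≠ 0 := by
    rw [whole_sites_card hc i]
    have := hc.pos
    positivity
  rw [div_eq_iff h0]
  rw [Finset.sum_congr rfl (g := fun _ => 2 * Real.pi * (κ i : ℝ))]
  · rw [Finset.sum_const, nsmul_eq_mul]; ring
  · intro v hv
    have hv' : c.blk v = i := by
      simpa [Grid.sites] using hv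
    have := tlExt_coe T (fun v => 2 * Real.pi * ((egRes T (fun v => κ (c.blk v)) v : ℤ) : ℝ)) ⟨v, hv' ▸ hi⟩
    rw [this]
    simp only [egRes, hv']

theorem eg_gau_key (hc : Whole c) (T : Top c) (b : ℝ) (τ τ' : Face c → ℤ) (κ : c.I → ℤ) (y : c.I → ℝ)
    (h : ∀ f ∈ T.faces, τ f = τ' f + κ (fnb c f) - κ f.1) :
    (show (T.law.sys b).Amb from (T.econn τ, fun o => - y o.1)) =
      T.law.coordA b (egRes T fun v => κ (c.blk v)) + (show (T.law.sys b).Amb from (T.econn τ', fun o => - egSh2 y κ o.1)) := by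
  refine Prod.ext (funext fun e => ?_) (funext fun o => ?_)
  · show T.econn τ e = (κ (c.blk (stp e.1.1 e.1.2)) - κ (c.blk e.1.1)) + T.econn τ' e
    unfold Top.econn
    by_cases he : c.blk (stp e.1.1 e.1.2) = c.blk e.1.1
    · rw [if_pos he, if_pos he, he]; ring
    · rw [if_neg he, if_neg he]
      have hf : (c.blk e.1.1, e.1.2) ∈ T.faces := e.2.2.2.2.resolve_left he
      rw [h _ hf, enb_blk_stp hc e.1.1 e.1.2 he]
      ring
  · show - y o.1 = (∑ v, T.law.B o v * (2 * Real.pi * ((egRes T (fun v => κ (c.blk v)) v : ℤ) : ℝ))) + - egSh2 y κ o.1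
    rw [eg_gau_row hc T κ o]
    unfold egSh2
    ring

/-- L-ENT-GOOD-GAU2.  PLAN: reindex the sum over `Λ ⊓ pinned (sites p)` … the affine datum `(resZ h, econn τ, y)` and `(resZ (h + κ ∘ blk), econn τ', y + 2π κ)` differ by `coord` of the field `κ ∘ blk` restricted to the FREE sites, which
lies in the lattice: `Equiv.addRight` on the subgroup. -/
theorem eg_J_gauge (hc : Whole c) (T : Top c) (hT : T.Ok) (b : ℝ) (τ τ' : Face c → ℤ) (κ : c.I → ℤ) (y : c.I → ℝ)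
    (h : ∀ f ∈ T.faces, τ f = τ' f + κ (fnb c f) - κ f.1) (p : Finset c.I) (γ : G.V → ℤ) :
    egJ T b τ y p γ = egJ T b τ' (egSh2 y κ) p (fun v => γ v + κ (c.blk v)) := by
  unfold egJ
  set P := egSites T p with hP
  set g : T.graph.V → ℤ := egRes T fun v => κ (c.blk v) with hg
  have hres : C3.resZ P (egRes T fun v => γ v + κ (c.blk v)) = C3.resZ P (egRes T γ) + C3.resZ P g := by
    funext v
    simp only [C3.resZ, egRes, Pi.add_apply, hg]
    split_ifs <;> simp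
  refine eg_gau_Z_shift (T.law.addPin P) b _ _ (g - C3.resZ P g) ⟨AddSubgroup.mem_top _, ?_⟩ ?_
  · intro v hv
    simp only [C3.resZ, Pi.sub_apply, if_pos hv, sub_self]
  · have key := eg_gau_key hc T b τ τ' κ y h
    show T.law.coordA b (C3.resZ P (egRes T γ)) + (show (T.law.sys b).Amb from (T.econn τ, fun o => - y o.1)) =
      T.law.coordA b (g - C3.resZ P g) + (T.law.coordA b (C3.resZ P (egRes T fun v => γ v + κ (c.blk v))) +
        (show (T.law.sys b).Amb from (T.econn τ', fun o => - egSh2 y κ o.1)))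
    rw [key, hres, map_add, map_sub]
    abel

/-- L-ENT-GOOD-GAU2 -/
theorem eg_sum_gauge (hc : Whole c) (T : Top c) (hT : T.Ok) (b : ℝ) (τ τ' : Face c → ℤ) (κ : c.I → ℤ) (y : c.I → ℝ)
    (h : ∀ f ∈ T.faces, τ f = τ' f + κ (fnb c f) - κ f.1) (F : (G.V → ℤ) → ℝ) (hF : ∀ γ γ' : G.V → ℤ, (∀ v, c.blk v ∈ T.cells → γ v = γ' v) → F γ = F γ') :
    egSum T b τ y F = egSum T b τ' (egSh2 y κ) fun γ => F fun v => γ v - κ (c.blk v) := by
  unfold egSum
  refine eg_gau_ZI_shift T.law b _ _ (egRes T fun v => κ (c.blk v)) (AddSubgroup.mem_top _) ?_ _ _ ?_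
  · rw [tl_amb, tl_amb]
    exact eg_gau_key hc T b τ τ' κ y h
  · intro z
    refine hF _ _ fun v hv => ?_
    simp only [egExt, dif_pos hv, add_zero]
    show z ⟨v, hv⟩ = (z ⟨v, hv⟩ + κ (c.blk v)) - κ (c.blk v)
    ring

theorem eg_gau_Zobs (hc : Whole c) (T : Top c) (b : ℝ) (τ τ' : Face c → ℤ) (κ : c.I → ℤ) (y : c.I → ℝ)
    (h : ∀ f ∈ T.faces, τ f = τ' f + κ (fnb c f) - κ f.1) : T.Zobs b τ y = T.Zobs b τ' (egSh2 y κ) := by
  unfold Top.Zobs
  refine eg_gau_Z_shift T.law b _ _ (egRes T fun v => κ (c.blk v)) (AddSubgroup.mem_top _) ?_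
  rw [tl_amb, tl_amb]
  exact eg_gau_key hc T b τ τ' κ y h

theorem eg_gau_Xi (T : Top c) (τ τ' : Face c → ℤ) (κ : c.I → ℤ) (y : c.I → ℝ)
    (h : ∀ f ∈ T.faces, τ f = τ' f + κ (fnb c f) - κ f.1) : egXi T τ y = egXi T τ' (egSh2 y κ) :=
  Finset.prod_congr rfl fun f hf => by rw [eg_wf_gauge τ τ' κ y f (h f hf)]

theorem eg_gau_A (hc : Whole c) (T : Top c) (hT : T.Ok) (b a : ℝ) (τ τ' : Face c → ℤ) (κ : c.I → ℤ) (y : c.I → ℝ)
    (h : ∀ f ∈ T.faces, τ f = τ' f + κ (fnb c f) - κ f.1) : egA T b a τ y = egA T b a τ' (egSh2 y κ) := by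
  have h1 := eg_gau_Xi T τ τ' κ y h
  unfold egXi at h1
  unfold egA Top.Zhat
  rw [eg_Eobs_gauge hc T hT a τ τ' κ y h, eg_gau_Zobs hc T b τ τ' κ y h, h1]

theorem eg_gau_ok_glue (T : Top c) (hT : T.Ok) (F : Finset (Face c))
    (hF : ∀ f ∈ F, IsFace c f ∧ f.1 ∈ T.cells ∧ fnb c f ∈ T.cells) : (T.glue F).Ok := by
  intro f hf
  rcases Finset.mem_union.1 hf with hf | hf
  · exact hT f hf
  · exact hF f hf

theorem eg_gau_ok_cut (T : Top c) (hT : T.Ok) (F : Finset (Face c)) : (T.cut F).Ok :=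
  fun f hf => hT f (Finset.mem_sdiff.1 hf).1

theorem eg_gau_ok_restr (T : Top c) (hT : T.Ok) (O : Finset c.I) : (T.restr O).Ok := by
  intro f hf
  obtain ⟨hf1, hf2, hf3⟩ := Finset.mem_filter.1 hf
  obtain ⟨h1, h2, h3⟩ := hT f hf1
  exact ⟨h1, Finset.mem_inter.2 ⟨h2, hf2⟩, Finset.mem_inter.2 ⟨h3, hf3⟩⟩

theorem eg_gau_delta (hc : Whole c) (T : Top c) (hT : T.Ok) (M : EgMark c)
    (hF : ∀ f ∈ M.F, IsFace c f ∧ f.1 ∈ T.cells ∧ fnb c f ∈ T.cells) (b a : ℝ) (τ τ' : Face c → ℤ) (κ : c.I → ℤ)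
    (h : ∀ f, (f ∈ T.faces ∨ f ∈ M.F) → τ f = τ' f + κ (fnb c f) - κ f.1) (y : c.I → ℝ) (γ : G.V → ℤ) :
    egDelta T M b a τ y (fun v => γ v - κ (c.blk v)) = egDelta T M b a τ' (egSh2 y κ) γ := by
  have hg : (T.glue M.F).Ok := eg_gau_ok_glue T hT M.F hF
  have hcu : (T.cut M.F).Ok := eg_gau_ok_cut T hT M.F
  have hhg : ∀ f ∈ (T.glue M.F).faces, τ f = τ' f + κ (fnb c f) - κ f.1 := fun f hf => h f (Finset.mem_union.1 hf)
  have hhc : ∀ f ∈ (T.cut M.F).faces, τ f = τ' f + κ (fnb c f) - κ f.1 := fun f hf => h f (Or.inl (Finset.mem_sdiff.1 hf).1)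
  have hγ : (fun v => γ v - κ (c.blk v) + κ (c.blk v)) = γ := funext fun v => sub_add_cancel _ _
  have e1 := eg_J_gauge hc (T.glue M.F) hg b τ τ' κ y hhg M.p (fun v => γ v - κ (c.blk v))
  have e2 := eg_J_gauge hc (T.cut M.F) hcu b τ τ' κ y hhc M.p (fun v => γ v - κ (c.blk v))
  rw [hγ] at e1 e2
  have e3 := eg_Eobs_gauge hc (egPo T M) (eg_gau_ok_restr _ hg M.O) a τ τ' κ y (fun f hf => hhg f (Finset.mem_filter.1 hf).1)
  have e4 := eg_Eobs_gauge hc (egPc T M) (eg_gau_ok_restr _ hcu M.O) a τ τ' κ y (fun f hf => hhc f (Finset.mem_filter.1 hf).1)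
  unfold egDelta egX egB egDE
  rw [e1, e2, e3, e4, eg_gau_Xi (T.glue M.F) τ τ' κ y hhg, eg_gau_Xi (T.cut M.F) τ τ' κ y hhc]

theorem eg_gau_J_congr (T : Top c) (b : ℝ) (τ : Face c → ℤ) (y : c.I → ℝ) (p : Finset c.I) (γ γ' : G.V → ℤ)
    (h : ∀ v, c.blk v ∈ T.cells → γ v = γ' v) : egJ T b τ y p γ = egJ T b τ y p γ' := by
  have : egRes T γ = egRes T γ' := funext fun v => h v.1 v.2
  unfold egJ
  rw [this]

theorem eg_gau_delta_congr (T : Top c) (M : EgMark c) (b a : ℝ) (τ : Face c → ℤ) (y : c.I → ℝ) (γ γ' : G.V → ℤ)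
    (h : ∀ v, c.blk v ∈ T.cells → γ v = γ' v) : egDelta T M b a τ y γ = egDelta T M b a τ y γ' := by
  unfold egDelta egX
  rw [eg_gau_J_congr (T.glue M.F) b τ y M.p γ γ' h, eg_gau_J_congr (T.cut M.F) b τ y M.p γ γ' h]

/-- L-ENT-GOOD-GAU3, **the local gauge of a source-free box and the component periods**: `(τ, y) ↦ (τ', y + 2π κ)`.
PLAN: `egA`: `eg_Eobs_gauge`, `eg_sum_gauge` with `F = 1` (`egSum .. 1 = Zobs`), `eg_wf_gauge`.   `egDelta T M b a τ y γ = egDelta T M b a τ' (y + 2π κ) (γ + κ ∘ blk)`: `eg_J_gauge` for `T.glue F`, `T.cut F`, `eg_Eobs_gauge` for the two patches.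
`egJ` depends on `γ` only through the sites of `p` (`C3.resZ`).   Then `eg_sum_gauge`. -/
theorem eg_Q_gauge (hc : Whole c) (T : Top c) (hT : T.Ok) {ι : Type} [Fintype ι] (Ms : ι → EgMark c)
    (hF : ∀ i, ∀ f ∈ (Ms i).F, IsFace c f ∧ f.1 ∈ T.cells ∧ fnb c f ∈ T.cells) (hp : ∀ i, (Ms i).p ⊆ T.cells) (b a : ℝ) (τ τ' : Face c → ℤ) (κ : c.I → ℤ)
    (h : ∀ f, (f ∈ T.faces ∨ ∃ i, f ∈ (Ms i).F) → τ f = τ' f + κ (fnb c f) - κ f.1) (y : c.I → ℝ) :
    egQ T Ms b a τ y = egQ T Ms b a τ' (egSh2 y κ) := by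
  have hT' : ∀ f ∈ T.faces, τ f = τ' f + κ (fnb c f) - κ f.1 := fun f hf => h f (Or.inl hf)
  unfold egQ egEx
  rw [eg_gau_A hc T hT b a τ τ' κ y hT', eg_gau_Zobs hc T b τ τ' κ y hT',
    eg_sum_gauge hc T hT b τ τ' κ y hT' _ (fun γ γ' hγ => Finset.prod_congr rfl fun i _ => eg_gau_delta_congr T (Ms i) b a τ y γ γ' hγ)]
  congr 3
  funext γ
  refine Finset.prod_congr rfl fun i _ => ?_
  exact eg_gau_delta hc T hT (Ms i) (hF i) b a τ τ' κ (fun f hf => h f (hf.imp id fun hf => ⟨i, hf⟩)) y γ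

end

end Claimed.Agent.R285.Entry
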