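import Claimed.Agent.R285.Entry.FacKit

/-!
# ROW 285, ENTRY, package BP-ENT-NORM (#13340, architect helper229), file 3: THE EXACT PART OF [F] L4.7 "centred normalisation" + "real cut" IN FACTOR MODELS.   Prefix `nm_`.
Paper: [F] cutoff-entry.tex l.1463-1745 (= [B] L9.3, (9.20)-(9.21); [C] (4.6)).   Paper-free statements; only `Entry/FacKit.lean` is used.

DICTIONARY.   `M` = the halo topology with ALL marks cut.   Mark `i`: restored factors `F i : Fs` (bonds of the core faces; [C] s5: also the averaged bonds across them), interior `I i` (sites inside the guard), `χ i` = product of the retained cutoffs of the core faces (a number: it depends on the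
observation only), `β i = 𝓑_i^τ(y)` the proxy.    `K_o/K_c = rho` = conditional expectation of the restoration weight given the heights off the interior;   `δ_i = dlt`.
 * `nm_signed`, `nm_delta`   : "conditional integration of a product of differences and the triangle inequality give the sum of its positive topologies, with `∏ δ_i` under their guard laws"   (no independence)
 * `nm_dlt_le_one`, `nm_dlt_inv`, `nm_dlt_congr` : `δ_i ≤ 1`; `δ_i` depends only on the guard data; "the local kernel at a retained guard is unchanged"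
 * `nm_T_pin_le`, `nm_bracket_T` : "each centred restoration is between its open patch value and its value with a separating zero guard; the logarithm of this gap is bounded by `D(H,p)`"
 * `nm_seam`                 : (ent:seam-joint) summed against `∏ δ_i`  = (ent:seam-normalized) without the Gaussian shapes
 * `nm_bracket_P`, `nm_guards` : `𝗉_G^0 / 𝗉_cut^0 ≤ e^{C j_1}` ("add the zero guards one at a time and bracket each by its common open and outer-zero-guard values")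
LEAVES: L-ENT-NM-MULTI (`nm_markov_multi`), L-ENT-NM-DELTA (`nm_signed`, `nm_dlt_*`, `nm_delta`), L-ENT-NM-LOC (`nm_T_loc`, `nm_P_loc`), L-ENT-NM-BRT (`nm_T_pin_le`, `nm_bracket_T`),
        L-ENT-NM-SEAM (`nm_seam`), L-ENT-NM-BRP (`nm_bracket_P`, `nm_guards`, `nm_seam_norm`).
-/

set_option autoImplicit false

namespace Claimed.Agent.R285.Entry

open scoped BigOperators
open Claimed.Agent.R285 Fac

noncomputable section

variable {𝔉 : Fac}

/-! ## 1. Marks -/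

/- `rho`, `dlt` (the kernel quotient `χ K_o / K_c` and `δ`) are defined at the end of `Entry/Fac.lean`. -/

/-- the interiors of the marks `i ∈ S`: contained in the free sites, no factor touches two of them -/
structure Interiors {ι : Type} (M : 𝔉.Msk) (S : Finset ι) (I : ι → Finset 𝔉.V) : Prop where
  sub : ∀ i ∈ S, I i ⊆ M.A
  sep : ∀ i ∈ S, ∀ j ∈ S, i ≠ j → M.Sep (I i) (I j)

/-- the restored factors: new, pairwise disjoint, positive temperatures, and those of mark `i` do not touch the interior of another mark -/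
structure Cores {ι : Type} (M : 𝔉.Msk) (S : Finset ι) (I : ι → Finset 𝔉.V) (F : ι → 𝔉.Fs) : Prop where
  pos : ∀ i ∈ S, (F i).Pos
  new : ∀ i ∈ S, M.New (F i)
  dis : ∀ i ∈ S, ∀ j ∈ S, i ≠ j → Disjoint (F i).1 (F j).1 ∧ Disjoint (F i).2 (F j).2
  far : ∀ i ∈ S, ∀ j ∈ S, i ≠ j → (F i).Off (I j)

/-! ### invariance (proved) -/

theorem nm_inv_mono {B B' : Finset 𝔉.V} (h : B ⊆ B') {Ψ : 𝔉.Ht → ℝ} (hΨ : 𝔉.Inv B' Ψ) : 𝔉.Inv B Ψ :=
  fun x n hn => hΨ x n fun v hv => hn v fun hvB => hv (h hvB)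

theorem nm_inv_union {B B' : Finset 𝔉.V} {Ψ : 𝔉.Ht → ℝ} (h : 𝔉.Inv B Ψ) (h' : 𝔉.Inv B' Ψ) : 𝔉.Inv (B ∪ B') Ψ := by
  intro x n hn
  have h1 : (fun v => if v ∈ B then n v else 0) ∈ 𝔉.sup B := fun v hv => by simp [hv]
  have h2 : (fun v => if v ∈ B then 0 else n v) ∈ 𝔉.sup B' := fun v hv => by
    by_cases hB : v ∈ B
    · simp [hB]
    · simpa [hB] using hn v (by simp [hB, hv])
  have e : x + n = (x + fun v => if v ∈ B then n v else 0) + fun v => if v ∈ B then 0 else n v := by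
    funext v
    by_cases hB : v ∈ B <;> simp [hB]
  rw [e, h' _ _ h2, h _ _ h1]

theorem nm_inv_prod {ι : Type} (s : Finset ι) (Ψ : ι → 𝔉.Ht → ℝ) (B : Finset 𝔉.V) (h : ∀ i ∈ s, 𝔉.Inv B (Ψ i)) :
    𝔉.Inv B fun x => ∏ i ∈ s, Ψ i x :=
  fun x n hn => Finset.prod_congr rfl fun i hi => h i hi x n hn

theorem nm_bdd_mul {Ψ Ψ' : 𝔉.Ht → ℝ} (h : 𝔉.Bdd Ψ) (h' : 𝔉.Bdd Ψ') : 𝔉.Bdd fun x => Ψ x * Ψ' x := by
  obtain ⟨C, hC⟩ := h
  obtain ⟨C', hC'⟩ := h'
  refine ⟨C * C', fun x => ?_⟩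
  rw [abs_mul]
  exact mul_le_mul (hC x) (hC' x) (abs_nonneg _) ((abs_nonneg _).trans (hC x))

theorem nm_bdd_const (c : ℝ) : 𝔉.Bdd fun _ => c := ⟨|c|, fun _ => le_rfl⟩

theorem nm_bdd_prod {ι : Type} (s : Finset ι) (Ψ : ι → 𝔉.Ht → ℝ) (h : ∀ i ∈ s, 𝔉.Bdd (Ψ i)) : 𝔉.Bdd fun x => ∏ i ∈ s, Ψ i x := by
  classical
  induction s using Finset.induction_on with
  | empty => simpa using nm_bdd_const (𝔉 := 𝔉) 1
  | insert a s ha ih =>
    simp only [Finset.prod_insert ha]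
    exact nm_bdd_mul (h a (Finset.mem_insert_self a s)) (ih fun i hi => h i (Finset.mem_insert_of_mem hi))

theorem nm_bdd_sub {Ψ Ψ' : 𝔉.Ht → ℝ} (h : 𝔉.Bdd Ψ) (h' : 𝔉.Bdd Ψ') : 𝔉.Bdd fun x => Ψ x - Ψ' x := by
  obtain ⟨C, hC⟩ := h
  obtain ⟨C', hC'⟩ := h'
  exact ⟨C + C', fun x => (abs_sub _ _).trans (add_le_add (hC x) (hC' x))⟩

theorem nm_inv_mul {B : Finset 𝔉.V} {Ψ Ψ' : 𝔉.Ht → ℝ} (h : 𝔉.Inv B Ψ) (h' : 𝔉.Inv B Ψ') : 𝔉.Inv B fun x => Ψ x * Ψ' x :=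
  fun x n hn => by
    show Ψ (x + n) * Ψ' (x + n) = Ψ x * Ψ' x
    rw [h x n hn, h' x n hn]

theorem nm_inv_const (B : Finset 𝔉.V) (c : ℝ) : 𝔉.Inv B fun _ => c := fun _ _ _ => rfl

theorem nm_cE_Bdd (M : 𝔉.Msk) (hM : M.Ok) (I : Finset 𝔉.V) (hI : I ⊆ M.A) (D : 𝔉.Dat) (g : 𝔉.Ht → ℝ) (hg : 𝔉.Bdd g) :
    𝔉.Bdd (M.cE I D g) := by
  obtain ⟨C, hC⟩ := hg
  exact ⟨C, fk_cE_bdd M hM I hI D g C hC⟩

/-- **conditional independence of the interiors.**  PLAN: induction on `S` (generalise `Φ`): for `insert i S` apply `fk_markov` at `I i` with `Φ' = Φ * ∏_{j ∈ S} g_j` (invariant under `I i`: `hΦ`, `hg`, `nm_inv_prod`), then the induction hypothesis with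
`Φ'' = Φ * cE (I i) D (g i)` (invariant under `I j`, `j ∈ S`: `hΦ`, `fk_cE_inv` by `sep` and `hg`; bounded: `fk_cE_bdd`). -/
theorem nm_markov_multi {ι : Type} [DecidableEq ι] (M : 𝔉.Msk) (hM : M.Ok) (S : Finset ι) (I : ι → Finset 𝔉.V) (hI : Interiors M S I) (D : 𝔉.Dat)
    (Φ : 𝔉.Ht → ℝ) (g : ι → 𝔉.Ht → ℝ) (hΦb : 𝔉.Bdd Φ) (hgb : ∀ i ∈ S, 𝔉.Bdd (g i)) (hΦ : ∀ i ∈ S, 𝔉.Inv (I i) Φ)
    (hg : ∀ i ∈ S, ∀ j ∈ S, i ≠ j → 𝔉.Inv (I j) (g i)) :
    M.Z D (fun h => Φ h * ∏ i ∈ S, g i h) = M.Z D fun h => Φ h * ∏ i ∈ S, M.cE (I i) D (g i) h := by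
  have key : ∀ s : Finset ι, s ⊆ S → M.Z D (fun h => Φ h * ∏ i ∈ S, g i h)
      = M.Z D fun h => Φ h * ((∏ i ∈ s, M.cE (I i) D (g i) h) * ∏ i ∈ S \ s, g i h) := by
    intro s
    induction s using Finset.induction_on with
    | empty => intro _; simp
    | insert a s ha ih =>
      intro hs
      have haS : a ∈ S := hs (Finset.mem_insert_self a s)
      have hsS : s ⊆ S := fun i hi => hs (Finset.mem_insert_of_mem hi)
      rw [ih hsS]
      have hc : S \ s = insert a (S \ insert a s) := by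
        ext i
        simp only [Finset.mem_sdiff, Finset.mem_insert, not_or]
        constructor
        · intro hi
          by_cases hia : i = a
          · exact Or.inl hia
          · exact Or.inr ⟨hi.1, hia, hi.2⟩
        · rintro (rfl | h)
          · exact ⟨haS, ha⟩
          · exact ⟨h.1, h.2.2⟩
      have ha' : a ∉ S \ insert a s := by simp
      set Φ' : 𝔉.Ht → ℝ := fun h => Φ h * ((∏ i ∈ s, M.cE (I i) D (g i) h) * ∏ i ∈ S \ insert a s, g i h) with hΦ'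
      have hb' : 𝔉.Bdd Φ' :=
        nm_bdd_mul hΦb (nm_bdd_mul (nm_bdd_prod s _ fun i hi => nm_cE_Bdd M hM (I i) (hI.sub i (hsS hi)) D (g i) (hgb i (hsS hi)))
          (nm_bdd_prod _ _ fun i hi => hgb i (Finset.mem_sdiff.1 hi).1))
      have hinv : 𝔉.Inv (I a) Φ' := by
        refine nm_inv_mul (hΦ a haS) (nm_inv_mul (nm_inv_prod s _ _ fun i hi => ?_) (nm_inv_prod _ _ _ fun i hi => ?_))
        · have hia : i ≠ a := fun h => ha (h ▸ hi)
          exact fk_cE_inv M (I i) (I a) (hI.sep i (hsS hi) a haS hia) D (g i) (hg i (hsS hi) a haS hia)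
        · have hia : i ≠ a := fun h => ha' (h ▸ hi)
          exact hg i (Finset.mem_sdiff.1 hi).1 a haS hia
      have h1 := fk_markov M hM (I a) (hI.sub a haS) D Φ' (g a) hb' (hgb a haS) hinv
      have e1 : (fun h => Φ h * ((∏ i ∈ s, M.cE (I i) D (g i) h) * ∏ i ∈ S \ s, g i h)) = fun h => Φ' h * g a h := by
        funext h
        rw [hc, Finset.prod_insert ha', hΦ']
        ring
      have e2 : (fun h => Φ h * ((∏ i ∈ insert a s, M.cE (I i) D (g i) h) * ∏ i ∈ S \ insert a s, g i h))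
          = fun h => Φ' h * M.cE (I a) D (g a) h := by
        funext h
        rw [Finset.prod_insert ha, hΦ']
        ring
      rw [e1, e2, h1]
  rw [key S (Finset.Subset.refl S)]
  simp

/-! ### unions of restored factors -/

theorem nm_rw_bU {ι : Type} [DecidableEq ι] (O : Finset ι) (F : ι → 𝔉.Fs)
    (hd : ∀ i ∈ O, ∀ j ∈ O, i ≠ j → Disjoint (F i).1 (F j).1 ∧ Disjoint (F i).2 (F j).2) (D : 𝔉.Dat) (h : 𝔉.Ht) :
    rw (Fs.bU O F) D h = ∏ i ∈ O, rw (F i) D h := by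
  unfold Fac.rw Fac.rwE Fac.Fs.bU
  rw [Finset.prod_mul_distrib, ← Real.exp_sum]
  congr 1
  · exact Finset.prod_biUnion fun i hi j hj hij => (hd i hi j hj hij).1
  · congr 1
    show -(∑ o ∈ O.biUnion fun i => (F i).2, (𝔉.rv o h - D.c o) ^ 2) / 2 = _
    rw [Finset.sum_biUnion fun i hi j hj hij => (hd i hi j hj hij).2, ← Finset.sum_div, ← Finset.sum_neg_distrib]

theorem nm_new_bU {ι : Type} [DecidableEq ι] (M : 𝔉.Msk) (O : Finset ι) (F : ι → 𝔉.Fs) (h : ∀ i ∈ O, M.New (F i)) : M.New (Fs.bU O F) :=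
  ⟨(Finset.disjoint_biUnion_left _ _ _).2 fun i hi => (h i hi).1, (Finset.disjoint_biUnion_left _ _ _).2 fun i hi => (h i hi).2⟩

theorem nm_pos_bU {ι : Type} [DecidableEq ι] (O : Finset ι) (F : ι → 𝔉.Fs) (h : ∀ i ∈ O, (F i).Pos) : (Fs.bU O F).Pos := by
  intro e he
  obtain ⟨i, hi, hie⟩ := Finset.mem_biUnion.1 he
  exact h i hi e hie

theorem nm_rw_Bdd (F : 𝔉.Fs) (hF : F.Pos) (D : 𝔉.Dat) : 𝔉.Bdd (rw F D) :=
  ⟨1, fun h => by rw [abs_of_pos (fk_rw_mem F hF D h).1]; exact (fk_rw_mem F hF D h).2⟩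

theorem nm_crw_Bdd (F : 𝔉.Fs) (hF : F.Pos) (χ : ℝ) (D : 𝔉.Dat) : 𝔉.Bdd fun h => χ * rw F D h :=
  nm_bdd_mul (nm_bdd_const χ) (nm_rw_Bdd F hF D)

/-- the weight of the marks in the open branch: `∏_O χ_i rw (F i) = (∏_O χ_i) rw (⋃_O F i)` -/
theorem nm_prod_crw {ι : Type} [DecidableEq ι] (O : Finset ι) (F : ι → 𝔉.Fs)
    (hd : ∀ i ∈ O, ∀ j ∈ O, i ≠ j → Disjoint (F i).1 (F j).1 ∧ Disjoint (F i).2 (F j).2) (χ : ι → ℝ) (D : 𝔉.Dat) (h : 𝔉.Ht) :
    ∏ i ∈ O, (χ i * rw (F i) D h) = (∏ i ∈ O, χ i) * rw (Fs.bU O F) D h := by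
  rw [Finset.prod_mul_distrib, nm_rw_bU O F hd]

/-- the signed sum over the two branches of every mark (`O` = the marks in the OPEN branch).  PLAN: `Finset.prod_add` on `∏ (a_i + (-β_i))`, `fk_Z_sum`, `fk_Z_smul`, `fk_add_eq`, `Finset.prod_biUnion`. -/
theorem nm_signed {ι : Type} [DecidableEq ι] (M : 𝔉.Msk) (hM : M.Ok) (S : Finset ι) (I : ι → Finset 𝔉.V) (F : ι → 𝔉.Fs) (hF : Cores M S I F)
    (χ β : ι → ℝ) (D : 𝔉.Dat) :
    M.Z D (fun h => ∏ i ∈ S, (χ i * rw (F i) D h - β i))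
      = ∑ O ∈ S.powerset, (-1) ^ (S \ O).card * (∏ i ∈ S \ O, β i) * (∏ i ∈ O, χ i) * (M.add (Fs.bU O F)).Z1 D := by
  have hdis : ∀ O ∈ S.powerset, ∀ i ∈ O, ∀ j ∈ O, i ≠ j → Disjoint (F i).1 (F j).1 ∧ Disjoint (F i).2 (F j).2 :=
    fun O hO i hi j hj hij => hF.dis i (Finset.mem_powerset.1 hO hi) j (Finset.mem_powerset.1 hO hj) hij
  have e : (fun h => ∏ i ∈ S, (χ i * rw (F i) D h - β i))
      = fun h => ∑ O ∈ S.powerset, ((-1) ^ (S \ O).card * (∏ i ∈ S \ O, β i) * (∏ i ∈ O, χ i)) * rw (Fs.bU O F) D h := by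
    funext h
    simp only [sub_eq_add_neg]
    rw [Finset.prod_add]
    refine Finset.sum_congr rfl fun O hO => ?_
    rw [nm_prod_crw O F (hdis O hO), Finset.prod_neg]
    ring
  rw [e, fk_Z_sum M hM D]
  · refine Finset.sum_congr rfl fun O hO => ?_
    rw [fk_Z_smul]
    congr 1
    unfold Fac.Msk.Z1
    rw [fk_add_eq M _ (nm_new_bU M O F fun i hi => hF.new i (Finset.mem_powerset.1 hO hi))]
    simp
  · intro O hO
    exact nm_bdd_mul (nm_bdd_const _) (nm_rw_Bdd _ (nm_pos_bU O F fun i hi => hF.pos i (Finset.mem_powerset.1 hO hi)) D)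

theorem nm_rho_nonneg (M : 𝔉.Msk) (hM : M.Ok) (I : Finset 𝔉.V) (hI : I ⊆ M.A) (F : 𝔉.Fs) (hF : F.Pos) (χ : ℝ) (hχ : 0 ≤ χ)
    (D : 𝔉.Dat) (h : 𝔉.Ht) : 0 ≤ rho M I F χ D h :=
  fk_cE_nonneg M hM I hI D _ (fun h' => mul_nonneg hχ (fk_rw_mem F hF D h').1.le) h

theorem nm_dlt_mem (M : 𝔉.Msk) (hM : M.Ok) (I : Finset 𝔉.V) (hI : I ⊆ M.A) (F : 𝔉.Fs) (hF : F.Pos) (χ β : ℝ) (hχ : 0 ≤ χ) (hβ : 0 ≤ β)
    (D : 𝔉.Dat) (h : 𝔉.Ht) : 0 ≤ dlt M I F χ β D h ∧ dlt M I F χ β D h ≤ 1 := by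
  have hρ := nm_rho_nonneg M hM I hI F hF χ hχ D h
  unfold dlt
  refine ⟨div_nonneg (abs_nonneg _) (add_nonneg hρ hβ), div_le_one_of_le₀ ?_ (add_nonneg hρ hβ)⟩
  rw [abs_le]
  constructor <;> linarith

/-- `|ρ - β| = δ (ρ + β)` (also when `ρ + β = 0`) -/
theorem nm_dlt_mul (M : 𝔉.Msk) (hM : M.Ok) (I : Finset 𝔉.V) (hI : I ⊆ M.A) (F : 𝔉.Fs) (hF : F.Pos) (χ β : ℝ) (hχ : 0 ≤ χ) (hβ : 0 ≤ β)
    (D : 𝔉.Dat) (h : 𝔉.Ht) : |rho M I F χ D h - β| = dlt M I F χ β D h * (rho M I F χ D h + β) := by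
  have hρ := nm_rho_nonneg M hM I hI F hF χ hχ D h
  unfold dlt
  by_cases h0 : rho M I F χ D h + β = 0
  · have h1 : rho M I F χ D h = 0 := by linarith
    have h2 : β = 0 := by linarith
    rw [h1, h2]
    simp
  · rw [div_mul_cancel₀ _ h0]

/-- `δ` does not depend on the heights in the interior -/
theorem nm_dlt_inv_self (M : 𝔉.Msk) (I : Finset 𝔉.V) (F : 𝔉.Fs) (χ β : ℝ) (D : 𝔉.Dat) : 𝔉.Inv I (dlt M I F χ β D) := by
  intro h n hn
  have e : rho M I F χ D (h + n) = rho M I F χ D h := fk_cE_inv_self M I D _ h n hn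
  unfold dlt
  rw [e]

/-- **`δ` depends only on the guard data**: it does not depend on the heights in `J` if neither a factor touching `I` nor a restored factor touches `J` -/
theorem nm_dlt_inv (M : 𝔉.Msk) (I J : Finset 𝔉.V) (F : 𝔉.Fs) (hsep : M.Sep I J) (hF : F.Off J) (χ β : ℝ) (D : 𝔉.Dat) :
    𝔉.Inv J (dlt M I F χ β D) := by
  intro h n hn
  have e : rho M I F χ D (h + n) = rho M I F χ D h :=
    fk_cE_inv M I J hsep D _ (nm_inv_mul (nm_inv_const J χ) (fk_mkv_rw_inv F J hF D)) h n hn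
  unfold dlt
  rw [e]

/-- the weight of a set of factors only sees the connection and the centres on these factors -/
theorem nm_rw_congr (F : 𝔉.Fs) (D D' : 𝔉.Dat) (hτ : ∀ e ∈ F.1, D.τ e = D'.τ e) (hc : ∀ o ∈ F.2, D.c o = D'.c o) (h : 𝔉.Ht) :
    rw F D h = rw F D' h := by
  unfold Fac.rw Fac.rwE
  rw [Finset.prod_congr rfl fun e he => by rw [hτ e he], Finset.sum_congr rfl fun o ho => by rw [hc o ho]]

/-- **the local kernel is unchanged**: `δ` is the same in two ambient topologies with the same factors touching the interior; only the connection and the centres on these factors matter -/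
theorem nm_dlt_congr (M M' : 𝔉.Msk) (I : Finset 𝔉.V) (F : 𝔉.Fs) (hloc : M.loc I = M'.loc I) (χ β : ℝ) (D D' : 𝔉.Dat)
    (hτ : ∀ e ∈ M.EI I ∪ F.1, D.τ e = D'.τ e) (hc : ∀ o ∈ M.OI I ∪ F.2, D.c o = D'.c o) : dlt M I F χ β D = dlt M' I F χ β D' := by
  have hw : ∀ h x : 𝔉.Ht, (M.loc I).wt (D.bk h) x = (M.loc I).wt (D'.bk h) x := fun h x =>
    nm_rw_congr _ _ _ (fun e he => hτ e (Finset.mem_union_left _ he)) (fun o ho => hc o (Finset.mem_union_left _ ho)) x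
  have hr : ∀ x : 𝔉.Ht, rw F D x = rw F D' x := fun x =>
    nm_rw_congr _ _ _ (fun e he => hτ e (Finset.mem_union_right _ he)) (fun o ho => hc o (Finset.mem_union_right _ ho)) x
  have hZ : ∀ (g : 𝔉.Ht → ℝ) (h : 𝔉.Ht), (M.loc I).Z (D.bk h) g = (M.loc I).Z (D'.bk h) g := by
    intro g h
    unfold Fac.Msk.Z
    refine tsum_congr fun γ => ?_
    rw [hw h]
    rfl
  have e : ∀ h, rho M I F χ D h = rho M' I F χ D' h := by
    intro h
    unfold rho Fac.Msk.cE Fac.Msk.Z1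
    rw [← hloc, hZ, hZ]
    simp only [hr]
  funext h
  unfold dlt
  rw [e]

/-- `cE` is affine -/
theorem nm_cE_sub_const (M : 𝔉.Msk) (hM : M.Ok) (I : Finset 𝔉.V) (hI : I ⊆ M.A) (D : 𝔉.Dat) (g : 𝔉.Ht → ℝ) (hg : 𝔉.Bdd g) (β : ℝ)
    (h : 𝔉.Ht) : M.cE I D (fun x => g x - β) h = M.cE I D g h - β := by
  have hL := fk_ok_loc M hM I hI
  have hp := fk_Z1_pos (M.loc I) hL (D.bk h)
  have e : (fun x => g x - β) = fun x => g x + (-β) * (fun _ => (1 : ℝ)) x := by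
    funext x
    ring
  unfold Fac.Msk.cE
  rw [e, fk_Z_add _ hL _ g _ hg (nm_bdd_mul (nm_bdd_const _) (nm_bdd_const _)), fk_Z_smul]
  show ((M.loc I).Z (D.bk h) g + -β * (M.loc I).Z1 (D.bk h)) / (M.loc I).Z1 (D.bk h) = _
  field_simp
  ring

theorem nm_interiors_mono {ι : Type} {M : 𝔉.Msk} {S O : Finset ι} {I : ι → Finset 𝔉.V} (h : Interiors M S I) (hO : O ⊆ S) : Interiors M O I :=
  ⟨fun i hi => h.sub i (hO hi), fun i hi j hj hij => h.sep i (hO hi) j (hO hj) hij⟩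

/-- **the sum of the positive topologies, with `∏ δ_i` under their guard laws.**
PLAN: `r_i := χ_i rw (F i)`, `ρ_i := rho ..`.  (1) `Z (∏ (r_i - β_i)) = Z (∏ (ρ_i - β_i))`: `nm_markov_multi` with `Φ = 1`, `g_i = r_i - β_i` (`cE` is affine: `cE (r - β) = ρ - β`, from `fk_Z_add`, `fk_Z_smul`, `fk_Z1_pos`).
(2) `fk_Z_abs`, `|∏| = ∏ δ_i (ρ_i + β_i)` (`nm_dlt_mul`).  (3) `∏ (ρ_i + β_i) = ∑_{O ⊆ S} ∏_O ρ ∏_{S \\ O} β` (`Finset.prod_add`), `fk_Z_sum`.  (4) for fixed `O` go back: `nm_markov_multi` with `Φ = ∏_i δ_i` (invariant: `nm_dlt_inv_self`, `nm_dlt_inv`),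
`g_i = r_i` for `i ∈ O`, `g_i = 1` for `i ∉ O` (`cE 1 = 1`).  (5) `fk_add_eq`, `Finset.prod_biUnion`. -/
theorem nm_delta {ι : Type} [DecidableEq ι] (M : 𝔉.Msk) (hM : M.Ok) (S : Finset ι) (I : ι → Finset 𝔉.V) (hI : Interiors M S I) (F : ι → 𝔉.Fs)
    (hF : Cores M S I F) (χ β : ι → ℝ) (hχ : ∀ i ∈ S, 0 ≤ χ i) (hβ : ∀ i ∈ S, 0 ≤ β i) (D : 𝔉.Dat) :
    |M.Z D (fun h => ∏ i ∈ S, (χ i * rw (F i) D h - β i))|
      ≤ ∑ O ∈ S.powerset, (∏ i ∈ S \ O, β i) * (∏ i ∈ O, χ i) *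
          (M.add (Fs.bU O F)).Z D (fun h => ∏ i ∈ S, dlt M (I i) (F i) (χ i) (β i) D h) := by
  set Δ : 𝔉.Ht → ℝ := fun h => ∏ i ∈ S, dlt M (I i) (F i) (χ i) (β i) D h with hΔ
  have hrb : ∀ i ∈ S, 𝔉.Bdd fun h => χ i * rw (F i) D h := fun i hi => nm_crw_Bdd (F i) (hF.pos i hi) (χ i) D
  have hρb : ∀ i ∈ S, 𝔉.Bdd (rho M (I i) (F i) (χ i) D) := fun i hi => nm_cE_Bdd M hM (I i) (hI.sub i hi) D _ (hrb i hi)
  have hrinv : ∀ i ∈ S, ∀ j ∈ S, i ≠ j → 𝔉.Inv (I j) fun h => χ i * rw (F i) D h := fun i hi j hj hij =>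
    nm_inv_mul (nm_inv_const _ (χ i)) (fk_mkv_rw_inv (F i) (I j) (hF.far i hi j hj hij) D)
  have hΔb : 𝔉.Bdd Δ := nm_bdd_prod S _ fun i hi =>
    ⟨1, fun h => by
      obtain ⟨h0, h1⟩ := nm_dlt_mem M hM (I i) (hI.sub i hi) (F i) (hF.pos i hi) (χ i) (β i) (hχ i hi) (hβ i hi) D h
      rw [abs_of_nonneg h0]; exact h1⟩
  have hΔinv : ∀ j ∈ S, 𝔉.Inv (I j) Δ := fun j hj => nm_inv_prod S _ _ fun i hi => by
    by_cases hij : i = j
    · subst hij
      exact nm_dlt_inv_self M (I i) (F i) (χ i) (β i) D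
    · exact nm_dlt_inv M (I i) (I j) (F i) (hI.sep i hi j hj hij) (hF.far i hi j hj hij) (χ i) (β i) D
  -- (1)
  have s1 : M.Z D (fun h => ∏ i ∈ S, (χ i * rw (F i) D h - β i))
      = M.Z D fun h => ∏ i ∈ S, (rho M (I i) (F i) (χ i) D h - β i) := by
    have := nm_markov_multi M hM S I hI D (fun _ => 1) (fun i h => χ i * rw (F i) D h - β i) (nm_bdd_const 1)
      (fun i hi => nm_bdd_sub (hrb i hi) (nm_bdd_const _)) (fun i _ => nm_inv_const _ 1)
      (fun i hi j hj hij x n hn => by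
        exact congrArg (fun t : ℝ => t - β i) (hrinv i hi j hj hij x n hn))
    simp only [one_mul] at this
    rw [this]
    refine congrArg _ (funext fun h => Finset.prod_congr rfl fun i hi => ?_)
    exact nm_cE_sub_const M hM (I i) (hI.sub i hi) D _ (hrb i hi) (β i) h
  -- (2), (3)
  have s2 : (fun h => |∏ i ∈ S, (rho M (I i) (F i) (χ i) D h - β i)|)
      = fun h => ∑ O ∈ S.powerset, (∏ i ∈ S \ O, β i) * (Δ h * ∏ i ∈ O, rho M (I i) (F i) (χ i) D h) := by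
    funext h
    rw [Finset.abs_prod, Finset.prod_congr rfl fun i hi =>
      nm_dlt_mul M hM (I i) (hI.sub i hi) (F i) (hF.pos i hi) (χ i) (β i) (hχ i hi) (hβ i hi) D h,
      Finset.prod_mul_distrib, Finset.prod_add, Finset.mul_sum]
    refine Finset.sum_congr rfl fun O _ => ?_
    rw [hΔ]
    ring
  rw [s1]
  refine (fk_Z_abs M hM D _ (nm_bdd_prod S _ fun i hi => nm_bdd_sub (hρb i hi) (nm_bdd_const _))).trans (le_of_eq ?_)
  rw [s2, fk_Z_sum M hM D]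
  · refine Finset.sum_congr rfl fun O hO => ?_
    have hOS := Finset.mem_powerset.1 hO
    -- (4)
    have s4 := nm_markov_multi M hM O I (nm_interiors_mono hI hOS) D Δ (fun i h => χ i * rw (F i) D h) hΔb
      (fun i hi => hrb i (hOS hi)) (fun i hi => hΔinv i (hOS hi)) (fun i hi j hj hij => hrinv i (hOS hi) j (hOS hj) hij)
    have s4' : M.Z D (fun h => Δ h * ∏ i ∈ O, rho M (I i) (F i) (χ i) D h) = M.Z D fun h => Δ h * ∏ i ∈ O, (χ i * rw (F i) D h) := s4.symm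
    rw [fk_Z_smul, s4', mul_assoc]
    congr 1
    -- (5)
    rw [fk_add_eq M _ (nm_new_bU M O F fun i hi => hF.new i (hOS hi)), ← fk_Z_smul]
    refine congrArg _ (funext fun h => ?_)
    rw [nm_prod_crw O F fun i hi j hj hij => hF.dis i (hOS hi) j (hOS hj) hij]
    ring
  · intro O hO
    have hOS := Finset.mem_powerset.1 hO
    exact nm_bdd_mul (nm_bdd_const _) (nm_bdd_mul hΔb (nm_bdd_prod O _ fun i hi => hρb i (hOS hi)))

/-! ## 2. Localisation of centred ratios -/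

/-- factorisation over two pieces -/
theorem nm_split2 (M : 𝔉.Msk) (P : Bool → 𝔉.Msk) (hP : M.Split P) (hM : M.Ok) (D : 𝔉.Dat) (Ψ₁ Ψ₂ : 𝔉.Ht → ℝ)
    (hb₁ : 𝔉.Bdd Ψ₁) (hb₂ : 𝔉.Bdd Ψ₂) (h₁ : 𝔉.Inv (P false).A Ψ₁) (h₂ : 𝔉.Inv (P true).A Ψ₂) :
    M.Z D (fun h => Ψ₁ h * Ψ₂ h) = (P true).Z D Ψ₁ * (P false).Z D Ψ₂ := by
  have h := fk_split M P hP hM D (fun t => if t then Ψ₁ else Ψ₂) (fun t => by cases t <;> simpa) (fun i j hij => by
    cases i <;> cases j <;> simp_all)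
  simpa [Fintype.prod_bool] using h

theorem nm_rw_inv (F : 𝔉.Fs) (J : Finset 𝔉.V) (hF : F.Off J) (D : 𝔉.Dat) : 𝔉.Inv J (rw F D) := by
  intro h n hn
  have h1 : ∀ e ∈ F.1, 𝔉.dv e (h + n) = 𝔉.dv e h := by
    intro e he
    rw [fk_sys_dv_add]
    have : 𝔉.dv e n = 0 := by
      unfold Fac.dv
      refine Finset.sum_eq_zero fun v _ => ?_
      by_cases hv : v ∈ J
      · rw [hF.1 e he v hv, zero_mul]
      · rw [hn v hv, mul_zero]
    rw [this, add_zero]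
  have h2 : ∀ o ∈ F.2, 𝔉.rv o (h + n) = 𝔉.rv o h := by
    intro o ho
    rw [fk_sys_rv_add]
    have : 𝔉.rv o n = 0 := by
      unfold Fac.rv
      refine Finset.sum_eq_zero fun v _ => ?_
      by_cases hv : v ∈ J
      · rw [hF.2 o ho v hv, zero_mul]
      · rw [hn v hv]; simp
    rw [this, add_zero]
  unfold Fac.rw Fac.rwE
  rw [Finset.prod_congr rfl fun e he => by rw [h1 e he], Finset.sum_congr rfl fun o ho => by rw [h2 o ho]]

theorem nm_rw_bdd (F : 𝔉.Fs) (hF : F.Pos) (D : 𝔉.Dat) : 𝔉.Bdd (rw F D) :=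
  ⟨1, fun h => by rw [abs_of_pos (fk_rw_mem F hF D h).1]; exact (fk_rw_mem F hF D h).2⟩

/-- a restoration ratio only sees the separated piece which contains the restored factors.  PLAN: `fk_split_loc`, `fk_split` (`Ψ = 1`) for `M` and for `M.add F` (pieces `(loc J).add F`, `out J`); `Z0 (out J) > 0` cancels. -/
theorem nm_T_loc (M : 𝔉.Msk) (hM : M.Ok) (J : Finset 𝔉.V) (hJ : J ⊆ M.A) (hsep : M.Sep J (M.A \ J)) (F : 𝔉.Fs) (hb : F.Pos)
    (hd : M.New F) (hF : F.Off (M.A \ J)) : M.T F = (M.loc J).T F := by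
  have hS := fk_split_loc M J hJ hsep
  have hout : 0 < (M.out J).Z0 := fk_Z1_pos _ (fk_split_ok M _ hS hM false) 0
  have hd' : (M.loc J).New F :=
    ⟨Finset.disjoint_of_subset_right (Finset.filter_subset _ _) hd.1, Finset.disjoint_of_subset_right (Finset.filter_subset _ _) hd.2⟩
  have e1 : M.Z0 = (M.loc J).Z0 * (M.out J).Z0 := by
    have := nm_split2 M _ hS hM 0 (fun _ => 1) (fun _ => 1) (nm_bdd_const 1) (nm_bdd_const 1) (nm_inv_const _ 1) (nm_inv_const _ 1)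
    simpa [Fac.Msk.Z0, Fac.Msk.Z1] using this
  have e2 : (M.add F).Z0 = ((M.loc J).add F).Z0 * (M.out J).Z0 := by
    have := nm_split2 M _ hS hM 0 (rw F 0) (fun _ => 1) (nm_rw_bdd F hb 0) (nm_bdd_const 1) (nm_rw_inv F _ hF 0) (nm_inv_const _ 1)
    unfold Fac.Msk.Z0 Fac.Msk.Z1
    rw [fk_add_eq M F hd, fk_add_eq (M.loc J) F hd']
    simpa using this
  unfold Fac.Msk.T
  rw [e1, e2, mul_div_mul_right _ _ hout.ne']

theorem nm_split_pin (M : 𝔉.Msk) (J : Finset 𝔉.V) (hJ : J ⊆ M.A) (hsep : M.Sep J (M.A \ J)) (B : Finset 𝔉.V) (hB : B ⊆ J) :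
    (M.pin B).Split fun t : Bool => if t then (M.loc J).pin B else M.out J := by
  have hS := fk_split_loc M J hJ hsep
  refine ⟨?_, ?_, ?_, ?_, ?_, ?_, ?_, ?_⟩
  · have := hS.A
    simp only [Fintype.univ_bool, Finset.biUnion_insert, Finset.singleton_biUnion, if_true, Bool.false_eq_true, if_false] at this ⊢
    show M.A \ B = (J \ B) ∪ (M.A \ J)
    ext v
    simp only [Finset.mem_sdiff, Finset.mem_union]
    constructor
    · rintro ⟨h1, h2⟩
      by_cases hv : v ∈ J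
      · exact Or.inl ⟨hv, h2⟩
      · exact Or.inr ⟨h1, hv⟩
    · rintro (⟨h1, h2⟩ | ⟨h1, h2⟩)
      · exact ⟨hJ h1, h2⟩
      · exact ⟨h1, fun h => h2 (hB h)⟩
  · have := hS.E
    simp only [Fintype.univ_bool, Finset.biUnion_insert, Finset.singleton_biUnion, if_true, Bool.false_eq_true, if_false] at this ⊢
    exact this
  · have := hS.O
    simp only [Fintype.univ_bool, Finset.biUnion_insert, Finset.singleton_biUnion, if_true, Bool.false_eq_true, if_false] at this ⊢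
    exact this
  · intro i j hij
    have := hS.dA i j hij
    cases i <;> cases j <;> simp only [if_true, Bool.false_eq_true, if_false] at this ⊢
    · exact this
    · exact Finset.disjoint_of_subset_right Finset.sdiff_subset this
    · exact Finset.disjoint_of_subset_left Finset.sdiff_subset this
    · exact absurd rfl hij
  · intro i j hij
    have := hS.dE i j hij
    cases i <;> cases j <;> simp only [if_true, Bool.false_eq_true, if_false] at this ⊢ <;> exact this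
  · intro i j hij
    have := hS.dO i j hij
    cases i <;> cases j <;> simp only [if_true, Bool.false_eq_true, if_false] at this ⊢ <;> exact this
  · intro i j hij e he v hv
    have := hS.sE i j hij e
    cases i <;> cases j <;> simp only [if_true, Bool.false_eq_true, if_false] at this he hv ⊢
    · exact this he v hv
    · exact this he v (Finset.sdiff_subset hv)
    · exact this he v hv
    · exact absurd rfl hij
  · intro i j hij o ho v hv
    have := hS.sO i j hij o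
    cases i <;> cases j <;> simp only [if_true, Bool.false_eq_true, if_false] at this ho hv ⊢
    · exact this ho v hv
    · exact this ho v (Finset.sdiff_subset hv)
    · exact this ho v hv
    · exact absurd rfl hij

/-- the same for zero pins -/
theorem nm_P_loc (M : 𝔉.Msk) (hM : M.Ok) (J : Finset 𝔉.V) (hJ : J ⊆ M.A) (hsep : M.Sep J (M.A \ J)) (B : Finset 𝔉.V) (hB : B ⊆ J) :
    M.P B = (M.loc J).P B := by
  have hS := fk_split_loc M J hJ hsep
  have hS' := nm_split_pin M J hJ hsep B hB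
  have hout : 0 < (M.out J).Z0 := fk_Z1_pos _ (fk_split_ok M _ hS hM false) 0
  have e1 : M.Z0 = (M.loc J).Z0 * (M.out J).Z0 := by
    have := nm_split2 M _ hS hM 0 (fun _ => 1) (fun _ => 1) (nm_bdd_const 1) (nm_bdd_const 1) (nm_inv_const _ 1) (nm_inv_const _ 1)
    simpa [Fac.Msk.Z0, Fac.Msk.Z1] using this
  have e2 : (M.pin B).Z0 = ((M.loc J).pin B).Z0 * (M.out J).Z0 := by
    have := nm_split2 (M.pin B) _ hS' (fk_ok_pin M hM B) 0 (fun _ => 1) (fun _ => 1) (nm_bdd_const 1) (nm_bdd_const 1)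
      (nm_inv_const _ 1) (nm_inv_const _ 1)
    simpa [Fac.Msk.Z0, Fac.Msk.Z1] using this
  unfold Fac.Msk.P
  rw [e1, e2, mul_div_mul_right _ _ hout.ne']

/-! ## 3. Brackets -/

/-- factors which see only `H` among the free sites do not see the free sites left by a pin containing `H` -/
theorem nm_off_of_in {F : 𝔉.Fs} {A H B : Finset 𝔉.V} (hF : F.In A H) (hHB : H ⊆ B) : F.Off (A \ B) := by
  refine ⟨fun e he v hv => ?_, fun o ho v hv => ?_⟩
  · obtain ⟨h1, h2⟩ := Finset.mem_sdiff.1 hv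
    by_contra hne
    exact h2 (hHB (hF.1 e he v h1 hne))
  · obtain ⟨h1, h2⟩ := Finset.mem_sdiff.1 hv
    by_contra hne
    exact h2 (hHB (hF.2 o ho v h1 hne))

/-- "a full pin containing the restored endpoints makes the restoration a fixed scalar" -/
theorem nm_add_pin_Z0 (M : 𝔉.Msk) (F : 𝔉.Fs) (hd : M.New F) (H B : Finset 𝔉.V) (hHB : H ⊆ B) (hF : F.In M.A H) :
    ((M.add F).pin B).Z0 = rw F 0 0 * (M.pin B).Z0 := by
  have hd' : (M.pin B).New F := hd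
  have hinv : 𝔉.Inv (M.pin B).A (rw F 0) := fk_mkv_rw_inv F _ (nm_off_of_in hF hHB) 0
  rw [fk_add_pin]
  unfold Fac.Msk.Z0 Fac.Msk.Z1
  rw [fk_add_eq _ F hd']
  have := fk_Z_inv (M.pin B) 0 (rw F 0) (fun _ => 1) hinv
  simp only [mul_one] at this
  simp only [one_mul]
  exact this

/-- **the gap of a restoration is at most the pin interaction** `D(H,q)` of the CUT law: "a full pin on `H` containing the restored endpoints makes the restoration a fixed scalar".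
PLAN: `μ = M`, `ν = M.add F`, `Z = Z0`, `r₀ = ∏_{e ∈ F.1} bes (b e) 0`.  (a) `Z (ν.pin H) = r₀ Z (μ.pin H)`, `Z (ν.pin (H ∪ q)) = r₀ Z (μ.pin (H ∪ q))` (`fk_add_eq`; on `sup (A \ H)` the forms of `F` vanish, so the Gaussian factors of `F.2` are `exp 0 = 1` at the datum `0`; `fk_Z_congr`, `fk_Z_smul`).
(b) `ν.P H ≤ (ν.pin q).P H` (`fk_P_mono`, `fk_le_pin`), i.e. `Z (ν.pin H) Z (ν.pin q) ≤ Z (ν.pin (H ∪ q)) Z ν`.  (c) divide. -/
theorem nm_T_pin_le (M : 𝔉.Msk) (hM : M.Ok) (F : 𝔉.Fs) (hb : F.Pos) (hd : M.New F) (H q : Finset 𝔉.V) (hH : H ⊆ M.A)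
    (hF : F.In M.A H) : (M.pin q).T F ≤ M.T F * M.xPin H q := by
  have hν : (M.add F).Ok := fk_ok_add M hM F hb
  have hr0 : 0 < rw F 0 0 := (fk_rw_mem F hb 0 0).1
  have a1 := nm_add_pin_Z0 M F hd H H (Finset.Subset.refl H) hF
  have a2 := nm_add_pin_Z0 M F hd H (H ∪ q) Finset.subset_union_left hF
  have b := fk_P_mono (fk_le_pin (M.add F) q) hν (fk_ok_pin _ hν q) H hH
  have p1 : 0 < (M.add F).Z0 := fk_Z1_pos _ hν 0
  have p2 : 0 < ((M.add F).pin q).Z0 := fk_Z1_pos _ (fk_ok_pin _ hν q) 0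
  have p3 : 0 < M.Z0 := fk_Z1_pos _ hM 0
  have p4 : 0 < (M.pin q).Z0 := fk_Z1_pos _ (fk_ok_pin _ hM q) 0
  have p5 : 0 < (M.pin H).Z0 := fk_Z1_pos _ (fk_ok_pin _ hM H) 0
  unfold Fac.Msk.P at b
  rw [fk_pin_pin, Finset.union_comm q H, a1, a2, div_le_div_iff₀ p1 p2] at b
  have b' : (M.pin H).Z0 * ((M.add F).pin q).Z0 ≤ (M.pin (H ∪ q)).Z0 * (M.add F).Z0 := by
    have : rw F 0 0 * ((M.pin H).Z0 * ((M.add F).pin q).Z0) ≤ rw F 0 0 * ((M.pin (H ∪ q)).Z0 * (M.add F).Z0) := by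
      calc _ = rw F 0 0 * (M.pin H).Z0 * ((M.add F).pin q).Z0 := by ring
        _ ≤ rw F 0 0 * (M.pin (H ∪ q)).Z0 * (M.add F).Z0 := b
        _ = _ := by ring
    exact le_of_mul_le_mul_left this hr0
  unfold Fac.Msk.T Fac.Msk.xPin
  rw [← fk_add_pin]
  have e : (M.add F).Z0 / M.Z0 * ((M.pin (H ∪ q)).Z0 * M.Z0 / ((M.pin H).Z0 * (M.pin q).Z0))
      = ((M.pin (H ∪ q)).Z0 * (M.add F).Z0 / (M.pin H).Z0) / (M.pin q).Z0 := by
    field_simp
  rw [e]
  refine div_le_div_of_nonneg_right ?_ p4.le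
  rw [le_div_iff₀ p5]
  linarith

/-- the common geometry of a bracket: `Mo` = open patch, `M` = any ambient topology containing it, `q` = separating guard, `J` = the inside of the guard -/
structure Brk (Mo M : 𝔉.Msk) (q J : Finset 𝔉.V) : Prop where
  le : Mo.Le M
  oko : Mo.Ok
  ok : M.Ok
  subo : J ⊆ Mo.A \ q
  sub : J ⊆ M.A \ q
  sepo : Mo.Sep J ((Mo.A \ q) \ J)
  sep : M.Sep J ((M.A \ q) \ J)
  loc : Mo.loc J = M.loc J

/-- **open patch value ≤ true value ≤ open patch value × `e^{D(H,q)}`** (restorations).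
PLAN: `fk_T_mono` (`Mo ≤ M`), `fk_T_mono` (`M ≤ M.pin q`), `nm_T_loc` for `M.pin q` and `Mo.pin q` (`fk_pin_loc`), `Brk.loc`, `nm_T_pin_le`. -/
theorem nm_bracket_T (Mo M : 𝔉.Msk) (q J : Finset 𝔉.V) (hB : Brk Mo M q J) (F : 𝔉.Fs) (hb : F.Pos) (hd : M.New F)
    (H : Finset 𝔉.V) (hH : H ⊆ J) (hF : F.In Finset.univ H) :
    Mo.T F ≤ M.T F ∧ M.T F ≤ Mo.T F * Mo.xPin H q := by
  have hdo : Mo.New F := ⟨Finset.disjoint_of_subset_right hB.le.E hd.1, Finset.disjoint_of_subset_right hB.le.O hd.2⟩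
  have hin : ∀ A : Finset 𝔉.V, F.In A H := fun A => ⟨fun e he v _ hne => hF.1 e he v (Finset.mem_univ v) hne,
    fun o ho v _ hne => hF.2 o ho v (Finset.mem_univ v) hne⟩
  have hHo : H ⊆ Mo.A := fun v hv => (Finset.mem_sdiff.1 (hB.subo (hH hv))).1
  refine ⟨fk_T_mono hB.le hB.oko hB.ok F hb hd (nm_off_of_in (hin _) hHo), ?_⟩
  have h1 : M.T F ≤ (M.pin q).T F := by
    refine fk_T_mono (fk_le_pin M q) hB.ok (fk_ok_pin M hB.ok q) F hb hd ?_
    have : (M.pin q).A \ M.A = ∅ := by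
      show (M.A \ q) \ M.A = ∅
      exact Finset.sdiff_eq_empty_iff_subset.2 Finset.sdiff_subset
    rw [this]
    exact ⟨fun _ _ v hv => absurd hv (Finset.notMem_empty v), fun _ _ v hv => absurd hv (Finset.notMem_empty v)⟩
  have h2 : (M.pin q).T F = ((M.pin q).loc J).T F :=
    nm_T_loc (M.pin q) (fk_ok_pin M hB.ok q) J hB.sub hB.sep F hb hd (nm_off_of_in (hin _) hH)
  have h3 : (Mo.pin q).T F = ((Mo.pin q).loc J).T F :=
    nm_T_loc (Mo.pin q) (fk_ok_pin Mo hB.oko q) J hB.subo hB.sepo F hb hdo (nm_off_of_in (hin _) hH)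
  rw [fk_pin_loc] at h2 h3
  rw [← hB.loc, ← h3] at h2
  exact (h1.trans h2.le).trans (nm_T_pin_le Mo hB.oko F hb hdo H q hHo (hin _))

/-- **open patch value ≤ true value ≤ open patch value × `e^{D(B,q)}`** (zero pins).  PLAN: as before with `fk_P_mono`, `nm_P_loc`; `(Mo.pin q).P B = Mo.P B * Mo.xPin B q` is an identity (`fk_pin_pin`). -/
theorem nm_bracket_P (Mo M : 𝔉.Msk) (q J : Finset 𝔉.V) (hB : Brk Mo M q J) (B : Finset 𝔉.V) (hBJ : B ⊆ J) :
    Mo.P B ≤ M.P B ∧ M.P B ≤ Mo.P B * Mo.xPin B q := by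
  have hBo : B ⊆ Mo.A := fun v hv => (Finset.mem_sdiff.1 (hB.subo (hBJ hv))).1
  have hBM : B ⊆ M.A := fun v hv => (Finset.mem_sdiff.1 (hB.sub (hBJ hv))).1
  refine ⟨fk_P_mono hB.le hB.oko hB.ok B hBo, ?_⟩
  have h1 : M.P B ≤ (M.pin q).P B := fk_P_mono (fk_le_pin M q) hB.ok (fk_ok_pin M hB.ok q) B hBM
  have h2 : (M.pin q).P B = ((M.pin q).loc J).P B := nm_P_loc (M.pin q) (fk_ok_pin M hB.ok q) J hB.sub hB.sep B hBJ
  have h3 : (Mo.pin q).P B = ((Mo.pin q).loc J).P B := nm_P_loc (Mo.pin q) (fk_ok_pin Mo hB.oko q) J hB.subo hB.sepo B hBJ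
  rw [fk_pin_loc] at h2 h3
  rw [← hB.loc, ← h3] at h2
  refine (h1.trans h2.le).trans (le_of_eq ?_)
  have p3 : 0 < Mo.Z0 := fk_Z1_pos _ hB.oko 0
  have p4 : 0 < (Mo.pin q).Z0 := fk_Z1_pos _ (fk_ok_pin _ hB.oko q) 0
  have p5 : 0 < (Mo.pin B).Z0 := fk_Z1_pos _ (fk_ok_pin _ hB.oko B) 0
  unfold Fac.Msk.P Fac.Msk.xPin
  rw [fk_pin_pin, Finset.union_comm q B]
  field_simp

/-! ## 4. The seam inequality -/

/-- **(ent:seam-joint) summed against a nonnegative functional of the guard data.**  `M` = cut along the seam, `M'` = uncut (same free sites), `p` = the retained guards.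
PLAN: `fk_fibre` over `p` for both; on a fibre `Ψ` is constant (`fk_Z_inv`); `fk_ratio` for `(M.pin p).Le (M'.pin p)` at the datum `D.shift γ`; `tsum_le_tsum`. -/
theorem nm_seam {M M' : 𝔉.Msk} (h : M.Le M') (hA : M.A = M'.A) (hM : M.Ok) (hM' : M'.Ok) (p : Finset 𝔉.V) (hp : p ⊆ M.A) (D : 𝔉.Dat)
    (Ψ : 𝔉.Ht → ℝ) (h0 : ∀ x, 0 ≤ Ψ x) (hb : 𝔉.Bdd Ψ) (hΨ : 𝔉.Inv (M.A \ p) Ψ) :
    M'.Z D Ψ / (M'.pin p).Z0 ≤ M.Z D Ψ / (M.pin p).Z0 := by
  have f1 := (fk_fibre M hM p hp D Ψ hb).div_const (M.pin p).Z0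
  have f2 := (fk_fibre M' hM' p (hA ▸ hp) D Ψ hb).div_const (M'.pin p).Z0
  refine hasSum_le (fun γ => ?_) f2 f1
  have e1 : (M.pin p).Z (D.shift (γ : 𝔉.Ht)) Ψ = Ψ (D.shift (γ : 𝔉.Ht)).x * (M.pin p).Z1 (D.shift (γ : 𝔉.Ht)) := by
    have := fk_Z_inv (M.pin p) (D.shift (γ : 𝔉.Ht)) Ψ (fun _ => 1) hΨ
    simp only [mul_one] at this
    exact this
  have e2 : (M'.pin p).Z (D.shift (γ : 𝔉.Ht)) Ψ = Ψ (D.shift (γ : 𝔉.Ht)).x * (M'.pin p).Z1 (D.shift (γ : 𝔉.Ht)) := by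
    have hΨ' : 𝔉.Inv (M'.pin p).A Ψ := by
      show 𝔉.Inv (M'.A \ p) Ψ
      rw [← hA]; exact hΨ
    have := fk_Z_inv (M'.pin p) (D.shift (γ : 𝔉.Ht)) Ψ (fun _ => 1) hΨ'
    simp only [mul_one] at this
    exact this
  rw [e1, e2, mul_div_assoc, mul_div_assoc]
  exact mul_le_mul_of_nonneg_left (fk_ratio (fk_le_pin_pin h p) (fk_ok_pin M hM p) (fk_ok_pin M' hM' p) _) (h0 _)

theorem nm_P_pos (M : 𝔉.Msk) (hM : M.Ok) (B : Finset 𝔉.V) : 0 < M.P B :=
  div_pos (fk_Z1_pos _ (fk_ok_pin M hM B) 0) (fk_Z1_pos M hM 0)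

theorem nm_xPin_pos (M : 𝔉.Msk) (hM : M.Ok) (H q : Finset 𝔉.V) : 0 < M.xPin H q :=
  div_pos (mul_pos (fk_Z1_pos _ (fk_ok_pin M hM _) 0) (fk_Z1_pos M hM 0))
    (mul_pos (fk_Z1_pos _ (fk_ok_pin M hM _) 0) (fk_Z1_pos _ (fk_ok_pin M hM _) 0))

theorem nm_P_empty (M : 𝔉.Msk) (hM : M.Ok) : M.P ∅ = 1 := by
  have e : M.pin ∅ = M := by
    unfold Fac.Msk.pin
    simp
  unfold Fac.Msk.P
  rw [e]
  exact div_self (fk_Z1_pos M hM 0).ne'

/-- zero pins one after the other -/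
theorem nm_P_union (M : 𝔉.Msk) (hM : M.Ok) (B B' : Finset 𝔉.V) : M.P (B ∪ B') = M.P B * (M.pin B).P B' := by
  have p1 : 0 < M.Z0 := fk_Z1_pos M hM 0
  have p2 : 0 < (M.pin B).Z0 := fk_Z1_pos _ (fk_ok_pin M hM B) 0
  unfold Fac.Msk.P
  rw [fk_pin_pin]
  field_simp

theorem nm_sep_mono {M : 𝔉.Msk} {I J J' : Finset 𝔉.V} (h : M.Sep I J) (hJ : J' ⊆ J) : M.Sep I J' :=
  ⟨fun e he ht v hv => h.1 e he ht v (hJ hv), fun o ho ht v hv => h.2 o ho ht v (hJ hv)⟩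

/-- a bracket survives further pins outside the guard -/
theorem nm_brk_pin {Mo M : 𝔉.Msk} {q J B : Finset 𝔉.V} (h : Brk Mo M q J) (hBJ : Disjoint B J) : Brk Mo (M.pin B) q J where
  le := fk_le_trans h.le (fk_le_pin M B)
  oko := h.oko
  ok := fk_ok_pin M h.ok B
  subo := h.subo
  sub := fun v hv => by
    obtain ⟨h1, h2⟩ := Finset.mem_sdiff.1 (h.sub hv)
    exact Finset.mem_sdiff.2 ⟨Finset.mem_sdiff.2 ⟨h1, fun hB => Finset.disjoint_left.1 hBJ hB hv⟩, h2⟩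
  sepo := h.sepo
  sep := by
    have : M.Sep J (((M.A \ B) \ q) \ J) := nm_sep_mono h.sep fun v hv => by
      obtain ⟨h1, h2⟩ := Finset.mem_sdiff.1 hv
      obtain ⟨h3, h4⟩ := Finset.mem_sdiff.1 h1
      exact Finset.mem_sdiff.2 ⟨Finset.mem_sdiff.2 ⟨(Finset.mem_sdiff.1 h3).1, h4⟩, h2⟩
    exact this
  loc := h.loc

/-- **`𝗉_G^0 / 𝗉_cut^0 ≤ x^n`**: the zero guards `p k` are added one at a time; guard `k` has a testing patch `Mo k` (open), an outer guard `q k` and the inside `J k ⊇ p k` of the outer guard,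
common to the two ambient topologies `M` (cut) and `M'` (uncut); the other guards lie outside `J k`.
PLAN: `M.P (⋃_{j ≤ k} p j) = M.P (⋃_{j<k} p j) * (M.pin (⋃_{j<k} p j)).P (p k)`; `Brk (Mo k) (M.pin (⋃_{j<k} p j)) (q k) (J k)` follows from `Brk (Mo k) M (q k) (J k)` and `hfar`; `nm_bracket_P` for both ambients:
`(M'.pin ..).P (p k) ≤ (Mo k).P (p k) * x ≤ (M.pin ..).P (p k) * x`. -/
theorem nm_guards {ι : Type} [DecidableEq ι] (K : Finset ι) (M M' : 𝔉.Msk) (p q J : ι → Finset 𝔉.V) (Mo : ι → 𝔉.Msk) (hB : ∀ k ∈ K, Brk (Mo k) M (q k) (J k))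
    (hB' : ∀ k ∈ K, Brk (Mo k) M' (q k) (J k)) (hp : ∀ k ∈ K, p k ⊆ J k) (hfar : ∀ k ∈ K, ∀ j ∈ K, j ≠ k → Disjoint (p j) (J k)) (x : ℝ)
    (hx : ∀ k ∈ K, (Mo k).xPin (p k) (q k) ≤ x) (hM : M.Ok) (hM' : M'.Ok) :
    M'.P (K.biUnion p) ≤ x ^ K.card * M.P (K.biUnion p) := by
  have key : ∀ s : Finset ι, s ⊆ K → M'.P (s.biUnion p) ≤ x ^ s.card * M.P (s.biUnion p) := by
    intro s
    induction s using Finset.induction_on with
    | empty =>
      intro _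
      simp only [Finset.biUnion_empty, Finset.card_empty, pow_zero, one_mul]
      rw [nm_P_empty M hM, nm_P_empty M' hM']
    | insert k s hk ih =>
      intro hs
      have hkK : k ∈ K := hs (Finset.mem_insert_self k s)
      have hsK : s ⊆ K := fun i hi => hs (Finset.mem_insert_of_mem hi)
      have hdisj : Disjoint (s.biUnion p) (J k) := (Finset.disjoint_biUnion_left _ _ _).2 fun j hj =>
        hfar k hkK j (hsK hj) fun h => hk (h ▸ hj)
      have b1 := (nm_bracket_P (Mo k) (M.pin (s.biUnion p)) (q k) (J k) (nm_brk_pin (hB k hkK) hdisj) (p k) (hp k hkK)).1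
      have b2 := (nm_bracket_P (Mo k) (M'.pin (s.biUnion p)) (q k) (J k) (nm_brk_pin (hB' k hkK) hdisj) (p k) (hp k hkK)).2
      have hPo : 0 ≤ (Mo k).P (p k) := (nm_P_pos (Mo k) (hB k hkK).oko (p k)).le
      have hx0 : 0 ≤ x := (nm_xPin_pos (Mo k) (hB k hkK).oko (p k) (q k)).le.trans (hx k hkK)
      have b3 : (M'.pin (s.biUnion p)).P (p k) ≤ x * (M.pin (s.biUnion p)).P (p k) :=
        calc (M'.pin (s.biUnion p)).P (p k) ≤ (Mo k).P (p k) * (Mo k).xPin (p k) (q k) := b2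
          _ ≤ (Mo k).P (p k) * x := mul_le_mul_of_nonneg_left (hx k hkK) hPo
          _ = x * (Mo k).P (p k) := mul_comm _ _
          _ ≤ x * (M.pin (s.biUnion p)).P (p k) := mul_le_mul_of_nonneg_left b1 hx0
      rw [Finset.biUnion_insert, Finset.union_comm, nm_P_union M hM, nm_P_union M' hM', Finset.card_insert_of_notMem hk, pow_succ]
      calc M'.P (s.biUnion p) * (M'.pin (s.biUnion p)).P (p k)
          ≤ (x ^ s.card * M.P (s.biUnion p)) * (x * (M.pin (s.biUnion p)).P (p k)) :=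
            mul_le_mul (ih hsK) b3 (nm_P_pos _ (fk_ok_pin M' hM' _) _).le
              (mul_nonneg (pow_nonneg hx0 _) (nm_P_pos M hM _).le)
        _ = x ^ s.card * x * (M.P (s.biUnion p) * (M.pin (s.biUnion p)).P (p k)) := by ring
  exact key K (Finset.Subset.refl K)

/-- **(ent:seam-normalized) without the Gaussian shapes and the cutoffs.**  PLAN: `M'.Z D Ψ / M'.Z0 = (M'.Z D Ψ / (M'.pin p).Z0) * M'.P p`, `nm_seam`, `nm_guards`, positivity (`fk_Z1_pos`, `fk_ok_pin`, `fk_Z_nonneg`). -/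
theorem nm_seam_norm {ι : Type} [DecidableEq ι] (K : Finset ι) {M M' : 𝔉.Msk} (h : M.Le M') (hA : M.A = M'.A) (hM : M.Ok) (hM' : M'.Ok)
    (p q J : ι → Finset 𝔉.V) (Mo : ι → 𝔉.Msk) (hB : ∀ k ∈ K, Brk (Mo k) M (q k) (J k)) (hB' : ∀ k ∈ K, Brk (Mo k) M' (q k) (J k))
    (hp : ∀ k ∈ K, p k ⊆ J k) (hfar : ∀ k ∈ K, ∀ j ∈ K, j ≠ k → Disjoint (p j) (J k)) (x : ℝ) (hx : ∀ k ∈ K, (Mo k).xPin (p k) (q k) ≤ x)
    (D : 𝔉.Dat) (Ψ : 𝔉.Ht → ℝ) (h0 : ∀ x, 0 ≤ Ψ x) (hb : 𝔉.Bdd Ψ) (hΨ : 𝔉.Inv (M.A \ K.biUnion p) Ψ) :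
    M'.Z D Ψ / M'.Z0 ≤ x ^ K.card * (M.Z D Ψ / M.Z0) := by
  have hpA : K.biUnion p ⊆ M.A := Finset.biUnion_subset.2 fun k hk v hv => (Finset.mem_sdiff.1 ((hB k hk).sub (hp k hk hv))).1
  have s1 := nm_seam h hA hM hM' (K.biUnion p) hpA D Ψ h0 hb hΨ
  have s2 := nm_guards K M M' p q J Mo hB hB' hp hfar x hx hM hM'
  have p1 : 0 < M.Z0 := fk_Z1_pos M hM 0
  have p2 : 0 < (M.pin (K.biUnion p)).Z0 := fk_Z1_pos _ (fk_ok_pin M hM _) 0
  have p1' : 0 < M'.Z0 := fk_Z1_pos M' hM' 0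
  have p2' : 0 < (M'.pin (K.biUnion p)).Z0 := fk_Z1_pos _ (fk_ok_pin M' hM' _) 0
  have e' : M'.Z D Ψ / M'.Z0 = M'.Z D Ψ / (M'.pin (K.biUnion p)).Z0 * M'.P (K.biUnion p) := by
    unfold Fac.Msk.P
    field_simp
  have e : x ^ K.card * (M.Z D Ψ / M.Z0) = M.Z D Ψ / (M.pin (K.biUnion p)).Z0 * (x ^ K.card * M.P (K.biUnion p)) := by
    unfold Fac.Msk.P
    field_simp
  rw [e', e]
  exact mul_le_mul s1 s2 (nm_P_pos M' hM' _).le (div_nonneg (fk_Z_nonneg M hM.1 D Ψ h0) p2.le)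

end

end Claimed.Agent.R285.Entry
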