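import Claimed.Agent.R285.Entry.GoodEx
import Claimed.Agent.R285.Entry.PhyDefs
import Claimed.Agent.R285.Entry.Norm
import Claimed.Agent.R285.F4a.EnA
import Claimed.Agent.R285.F4a.EnB

/-!
# ROW 285, post BP-ENT-GOOD, package FAC: THE BRIDGE  factor models (`Entry/Fac.lean`, `PhyDefs.lean`, helper229)  ⟷  height laws `T.law` (`GoodDefs.lean`)      (architect helper109)

All statements are EXACT identities of absolutely convergent sums (reindexing, Markov property).  No estimate, no limit, no geometry of tiles.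
`facT c b`: sites `G.V`, all oriented pairs, all cells;  `mskT b T`: free sites `c.sites T.cells`, bonds `T.IsEdge`, rows `T.cells`;  `T.law`: the same law on the subtype graph `T.graph`.
```
eg_fac_Z   (MASTER: pins on cells, any background, any functional)      leaf L-ENT-FAC-Z
  ⟹ eg_fac_Z1, eg_fac_Z0, eg_fac_Ex, eg_fac_J, eg_fac_pin0, eg_fac_xPin     leaf L-ENT-FAC-COR
eg_fac_E   (`∑ Qmat w w = Eobs`)                                          leaf L-ENT-FAC-E
eg_fac_AT  (`Y.AT = egA`)                                                 leaf L-ENT-FAC-E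
eg_fac_ok, eg_fac_sep, eg_fac_loc, eg_fac_add, eg_fac_bU                  leaf L-ENT-FAC-MSK   (structure of the masks)
eg_fac_ratio (`J_o / J_c = cE_I [rw F]`: Markov property at the guard)    leaf L-ENT-FAC-MKV
eg_fac_delta (`dlt = egDelta`)                                            leaf L-ENT-FAC-DLT
```
Every `sorry` is a leaf (name in the docstring).  Statements are frozen; auxiliary lemmas directly above your theorem (prefix `eg_fac_`), edit only your block, pull before landing.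
Reusable: `eg_loc_*` of `GoodEx.lean` (helper2: `egZ0` as a sum over global fields, interior × exterior factorisation), `fk_*` (`FacKit.lean`), `nm_*` (`Norm.lean`), all sorry-free.
-/

set_option autoImplicit false

namespace Claimed.Agent.R285.Entry

open scoped BigOperators
open Claimed.Agent.R285 Claimed.Agent.R285.RG Claimed.Agent.R285.F4a Claimed.Agent.R285.Ent

noncomputable section

variable {G : Geom} {c : Grid G}

open Classical in
/-- a field on the vertices of `T`, continued by a global background -/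
def egMix {α : Type} (T : Top c) (x : G.V → α) (k : T.graph.V → α) : G.V → α :=
  fun v => if hv : c.blk v ∈ T.cells then k ⟨v, hv⟩ else x v

/-- a global height restricted to the sites of the cells of `p` -/
def egCl (c : Grid G) (p : Finset c.I) (h : G.V → ℤ) : G.V → ℤ := fun v => if c.blk v ∈ p then h v else 0

/-! ## 1. The master identity and its corollaries -/

open Classical in
/-- the weights agree factor by factor -/
theorem eg_fac_Z_wt (T : Top c) (b : ℝ) (x : G.V → ℤ) (τ : Face c → ℤ) (y : c.I → ℝ) (h : G.V → ℤ) :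
    (T.law.sys b).W (T.law.coordA b (egRes T h) + (show (T.law.sys b).Amb from (T.econn τ, fun o => - y o.1)))
      = (mskT b T).wt (⟨x, connT c τ, y⟩ : (facT c b).Dat) h := by
  have hdv : ∀ e : G.V × Bool, (facT c b).dv e h = h (stp e.1 e.2) - h e.1 := by
    intro e
    have e0 : (facT c b).dv e h =
        ∑ v : G.V, ((if v = stp e.1 e.2 then 1 else 0) - (if v = e.1 then 1 else 0) : ℤ) * h v := rfl
    rw [e0]
    simp only [sub_mul, ite_mul, one_mul, zero_mul, Finset.sum_sub_distrib, Finset.sum_ite_eq', Finset.mem_univ, if_true]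
  have h1 : (∏ e : T.graph.E, bes b (h (stp e.1.1 e.1.2) - h e.1.1 + connT c τ e.1))
      = ∏ e ∈ Finset.univ.filter T.IsEdge, bes b (h (stp e.1 e.2) - h e.1 + connT c τ e) :=
    (Finset.prod_subtype (Finset.univ.filter T.IsEdge) (by simp)
      fun e => bes b (h (stp e.1 e.2) - h e.1 + connT c τ e)).symm
  have h2 : ∀ o : {i : c.I // i ∈ T.cells},
      (∑ v : T.graph.V, (if c.blk v.1 = o.1 then ((c.sites {o.1}).card : ℝ)⁻¹ else 0) * (2 * Real.pi * ((h v.1 : ℤ) : ℝ)))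
        = (facT c b).rv o.1 h := by
    intro o
    have e0 : (facT c b).rv o.1 h =
        ∑ v : G.V, (if c.blk v = o.1 then ((c.sites {o.1}).card : ℝ)⁻¹ else 0) * (2 * Real.pi * ((h v : ℤ) : ℝ)) := rfl
    rw [e0]
    refine (Finset.sum_subtype (p := fun v : G.V => c.blk v ∈ T.cells)
      (Finset.univ.filter fun v : G.V => c.blk v ∈ T.cells) (fun x => by simp)
      fun v => (if c.blk v = o.1 then ((c.sites {o.1}).card : ℝ)⁻¹ else 0) * (2 * Real.pi * ((h v : ℤ) : ℝ))).symm.trans ?_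
    refine Finset.sum_subset (Finset.subset_univ _) fun v _ hv => ?_
    have hv' : c.blk v ≠ o.1 := fun h => hv (by simp [h, o.2])
    rw [if_neg hv', zero_mul]
  have h3 : (∑ o : {i : c.I // i ∈ T.cells}, ((facT c b).rv o.1 h + - y o.1) ^ 2)
      = ∑ i ∈ T.cells, ((facT c b).rv i h + - y i) ^ 2 :=
    (Finset.sum_subtype T.cells (by simp) fun i => ((facT c b).rv i h + - y i) ^ 2).symm
  have e1 : (mskT b T).wt (⟨x, connT c τ, y⟩ : (facT c b).Dat) h =
      (∏ e ∈ Finset.univ.filter T.IsEdge, bes b ((facT c b).dv e h + connT c τ e)) *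
        Real.exp (-(∑ i ∈ T.cells, ((facT c b).rv i h - y i) ^ 2) / 2) := rfl
  rw [e1]
  simp only [hdv, sub_eq_add_neg ((facT c b).rv _ h)]
  rw [← h1, ← h3]
  simp only [← h2]
  rfl

/-- the two descriptions of the free fields -/
def eg_fac_Z_equiv (T : Top c) (b : ℝ) (p : Finset c.I) :
    ↥((facT c b).sup ((mskT b T).pin (c.sites p)).A) ≃ eg_loc_Fld c (T.cells \ p) :=
  Equiv.subtypeEquivRight fun g => by
    have hm : ∀ v : G.V, v ∈ ((mskT b T).pin (c.sites p)).A ↔ c.blk v ∈ T.cells \ p := by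
      intro v
      have e0 : ((mskT b T).pin (c.sites p)).A = c.sites T.cells \ c.sites p := rfl
      rw [e0, Finset.mem_sdiff, Finset.mem_sdiff]
      simp [Grid.sites]
    constructor
    · intro hg v hv
      exact hg v fun h => hv ((hm v).1 h)
    · intro hg v hv
      exact hg v fun h => hv ((hm v).2 h)

/-- L-ENT-FAC-Z.  **The master reindexing.**  Bijection `g ↦ egRes T g` from `(facT c b).sup (c.sites T.cells \ c.sites p)` onto `⊤ ⊓ pinned (egSites T p)`; the weights agree factor by factor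
(`dv e h = h (stp e) - h e.1`, `connT = econn`, `rv i h = ∑ B i v (2π h v)`; products over `Finset.filter T.IsEdge` / over the subtype `T.graph.E`: `Finset.prod_subtype`, the same for the rows). -/
theorem eg_fac_Z (T : Top c) (b : ℝ) (p : Finset c.I) (x : G.V → ℤ) (τ : Face c → ℤ) (y : c.I → ℝ) (Ψ : (G.V → ℤ) → ℝ) :
    ((mskT b T).pin (c.sites p)).Z (⟨x, connT c τ, y⟩ : (facT c b).Dat) Ψ
      = C3.ZI (T.law.addPin (egSites T p)) b ⟨egRes T x, T.econn τ, fun i => y i.1⟩ fun k => Ψ (egMix T x k) := by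
  have hL : ((mskT b T).pin (c.sites p)).Z (⟨x, connT c τ, y⟩ : (facT c b).Dat) Ψ =
      ∑' g : ↥((facT c b).sup ((mskT b T).pin (c.sites p)).A),
        Ψ (x + (g : G.V → ℤ)) * (mskT b T).wt (⟨x, connT c τ, y⟩ : (facT c b).Dat) (x + (g : G.V → ℤ)) := rfl
  have hR : C3.ZI (T.law.addPin (egSites T p)) b ⟨egRes T x, T.econn τ, fun i => y i.1⟩ (fun k => Ψ (egMix T x k)) =
      ∑' k : ↥(T.law.Λ ⊓ HLaw.pinned (egSites T p)), Ψ (egMix T x ((k : T.graph.V → ℤ) + egRes T x)) *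
        (T.law.sys b).W (T.law.coordA b (k : T.graph.V → ℤ) + (T.law.coordA b (egRes T x) +
          (show (T.law.sys b).Amb from (T.econn τ, fun o => - y o.1)))) := rfl
  rw [hL, hR, ← ((eg_loc_equiv T p).trans (eg_fac_Z_equiv T b p).symm).tsum_eq]
  refine tsum_congr fun k => ?_
  have hk : ((((eg_loc_equiv T p).trans (eg_fac_Z_equiv T b p).symm) k :
      ↥((facT c b).sup ((mskT b T).pin (c.sites p)).A)) : G.V → ℤ) = egExt T (k : T.graph.V → ℤ) := rfl
  rw [hk]
  have e1 : egRes T (x + egExt T (k : T.graph.V → ℤ)) = (k : T.graph.V → ℤ) + egRes T x := by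
    funext v
    show x v.1 + egExt T (k : T.graph.V → ℤ) v.1 = (k : T.graph.V → ℤ) v + x v.1
    unfold egExt
    rw [dif_pos v.2, add_comm]
    rfl
  have e2 : egMix T x ((k : T.graph.V → ℤ) + egRes T x) = x + egExt T (k : T.graph.V → ℤ) := by
    funext v
    show egMix T x ((k : T.graph.V → ℤ) + egRes T x) v = x v + egExt T (k : T.graph.V → ℤ) v
    unfold egMix egExt
    by_cases hv : c.blk v ∈ T.cells
    · rw [dif_pos hv, dif_pos hv]
      show (k : T.graph.V → ℤ) ⟨v, hv⟩ + x v = _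
      rw [add_comm]
    · rw [dif_neg hv, dif_neg hv, add_zero]
  rw [e2, ← eg_fac_Z_wt T b x τ y, e1, map_add, add_assoc]

theorem eg_fac_ZI_congr {Gr : HGraph} (H : HLaw Gr) (Λ' : AddSubgroup (Gr.V → ℤ)) (hΛ : Λ' = H.Λ) (b : ℝ) (x : Gr.V → ℤ) (τ : Gr.E → ℤ) (cc : H.O → ℝ)
    (F : (Gr.V → ℤ) → ℝ) : C3.ZI (@HLaw.mk Gr Λ' H.O H.fO H.B) b ⟨x, τ, cc⟩ F = C3.ZI H b ⟨x, τ, cc⟩ F := by
  subst hΛ
  rfl

theorem eg_fac_sites_empty (c : Grid G) : c.sites (∅ : Finset c.I) = ∅ := by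
  unfold Grid.sites
  simp

theorem eg_fac_pin_empty {𝔉 : Fac} (M : 𝔉.Msk) : M.pin ∅ = M := by
  unfold Fac.Msk.pin
  simp

theorem eg_fac_addPin_empty (T : Top c) : (T.law.Λ ⊓ HLaw.pinned (egSites T ∅)) = T.law.Λ := by
  apply inf_eq_left.2
  intro h _ v hv
  simp [egSites] at hv

theorem eg_fac_mix_zero (T : Top c) (k : T.graph.V → ℤ) : egMix T (0 : G.V → ℤ) k = egExt T k := by
  funext v
  unfold egMix egExt
  rfl

/-- L-ENT-FAC-COR (`p = ∅`; `T.law.addPin ∅ = T.law`) -/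
theorem eg_fac_sum (T : Top c) (b : ℝ) (τ : Face c → ℤ) (y : c.I → ℝ) (Ψ : (G.V → ℤ) → ℝ) :
    (mskT b T).Z (datT c b τ y) Ψ = egSum T b τ y Ψ := by
  have h := eg_fac_Z T b ∅ 0 τ y Ψ
  rw [eg_fac_sites_empty, eg_fac_pin_empty] at h
  unfold datT egSum
  rw [h]
  have h2 := eg_fac_ZI_congr T.law _ (eg_fac_addPin_empty T) b (egRes T (0 : G.V → ℤ)) (T.econn τ) (fun i => y i.1) (fun k => Ψ (egMix T 0 k))
  refine Eq.trans h2 ?_
  simp only [eg_fac_mix_zero]
  rfl

/-- L-ENT-FAC-COR -/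
theorem eg_fac_Z1 (T : Top c) (b : ℝ) (τ : Face c → ℤ) (y : c.I → ℝ) : (mskT b T).Z1 (datT c b τ y) = T.Zobs b τ y := by
  unfold Fac.Msk.Z1
  rw [eg_fac_sum]
  rfl

theorem eg_fac_connT_zero (c : Grid G) : connT c (0 : Face c → ℤ) = 0 := by
  funext e
  unfold connT
  simp

theorem eg_fac_datT_zero (c : Grid G) (b : ℝ) : datT c b 0 0 = 0 := by
  unfold datT
  rw [eg_fac_connT_zero]
  rfl

/-- L-ENT-FAC-COR (`connT c 0 = 0`) -/
theorem eg_fac_Z0 (T : Top c) (b : ℝ) : (mskT b T).Z0 = T.Zobs b 0 0 := by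
  unfold Fac.Msk.Z0
  rw [← eg_fac_datT_zero c b, eg_fac_Z1]

/-- L-ENT-FAC-COR -/
theorem eg_fac_Ex (T : Top c) (b : ℝ) (τ : Face c → ℤ) (y : c.I → ℝ) (Ψ : (G.V → ℤ) → ℝ) :
    (mskT b T).Ex (datT c b τ y) Ψ = egEx T b τ y Ψ := by
  unfold Fac.Msk.Ex egEx
  rw [eg_fac_sum, eg_fac_Z1]

theorem eg_fac_res_cl (T : Top c) (p : Finset c.I) (h : G.V → ℤ) : egRes T (egCl c p h) = C3.resZ (egSites T p) (egRes T h) := by
  funext v
  unfold egRes egCl C3.resZ egSites
  by_cases hv : c.blk v.1 ∈ p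
  · rw [if_pos hv, if_pos (show v ∈ {v : T.graph.V | c.blk v.1 ∈ p} from hv)]
  · rw [if_neg hv, if_neg (show ¬ v ∈ {v : T.graph.V | c.blk v.1 ∈ p} from hv)]

/-- L-ENT-FAC-COR: the joint density (`ZI .. (fun _ => 1) = HLaw.Z .. (fun _ => 1)` by `rfl`; `egRes T (egCl c p h) = C3.resZ (egSites T p) (egRes T h)`) -/
theorem eg_fac_J (T : Top c) (b : ℝ) (τ : Face c → ℤ) (y : c.I → ℝ) (p : Finset c.I) (h : G.V → ℤ) :
    ((mskT b T).pin (c.sites p)).Z1 (⟨egCl c p h, connT c τ, y⟩ : (facT c b).Dat) = egJ T b τ y p h := by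
  unfold Fac.Msk.Z1 egJ
  rw [eg_fac_Z, eg_fac_res_cl]
  rfl

theorem eg_fac_econn_zero (T : Top c) : T.econn (0 : Face c → ℤ) = 0 := by
  funext e
  unfold Top.econn
  simp

/-- L-ENT-FAC-COR: centred pinned sums -/
theorem eg_fac_pin0 (T : Top c) (b : ℝ) (p : Finset c.I) :
    ((mskT b T).pin (c.sites p)).Z0 = (T.law.addPin (egSites T p)).Z b (HLaw.Aff.zero (T.law.addPin (egSites T p))) fun _ => 1 := by
  unfold Fac.Msk.Z0 Fac.Msk.Z1
  have h := eg_fac_Z T b p 0 0 0 (fun _ => 1)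
  rw [eg_fac_connT_zero, eg_fac_econn_zero] at h
  exact h

theorem eg_fac_sites_union (c : Grid G) (H p : Finset c.I) : c.sites H ∪ c.sites p = c.sites (H ∪ p) := by
  ext v
  unfold Grid.sites
  simp

theorem eg_fac_egSites_union (T : Top c) (H p : Finset c.I) : egSites T H ∪ egSites T p = egSites T (H ∪ p) := by
  ext v
  unfold egSites
  simp

theorem eg_fac_Z0_law (T : Top c) (b : ℝ) : (mskT b T).Z0 = T.law.Z b (HLaw.Aff.zero T.law) fun _ => 1 := by
  rw [eg_fac_Z0]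
  unfold Top.Zobs
  rw [eg_fac_econn_zero]
  rfl

theorem eg_fac_pin0_pos (hc : Whole c) (T : Top c) {b : ℝ} (hb : 0 < b) (p : Finset c.I) : 0 < ((mskT b T).pin (c.sites p)).Z0 := by
  rw [eg_fac_pin0]
  have h := eg_Z0_pos hc T hb p 0
  unfold egZ0 C3.ZC at h
  have e : C3.resZ (egSites T p) (egRes T (0 : G.V → ℤ)) = 0 := by
    funext v
    unfold C3.resZ egRes
    simp
  rw [e] at h
  exact h

/-- L-ENT-FAC-COR: `e^{D(H,p)}` (`c.sites H ∪ c.sites p = c.sites (H ∪ p)`, `egSites T H ∪ egSites T p = egSites T (H ∪ p)`; positivity: `eg_gd`, `Pins.T32` / `fk_Z1_pos`) -/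
theorem eg_fac_xPin (hc : Whole c) (T : Top c) {b : ℝ} (hb : 0 < b) (H p : Finset c.I) :
    (mskT b T).xPin (c.sites H) (c.sites p) = Real.exp (T.law.dPin b (egSites T H) (egSites T p)) := by
  have p0 : 0 < (mskT b T).Z0 := by rw [eg_fac_Z0]; exact Zobs_pos hc T b hb 0 0
  have p1 := eg_fac_pin0_pos hc T hb H
  have p2 := eg_fac_pin0_pos hc T hb p
  have p3 := eg_fac_pin0_pos hc T hb (H ∪ p)
  unfold Fac.Msk.xPin HLaw.dPin HLaw.pPin
  rw [eg_fac_sites_union, eg_fac_egSites_union, ← eg_fac_pin0, ← eg_fac_pin0, ← eg_fac_pin0, ← eg_fac_Z0_law]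
  rw [Real.exp_sub, Real.exp_sub, Real.exp_log (div_pos p3 p0), Real.exp_log (div_pos p1 p0), Real.exp_log (div_pos p2 p0)]
  field_simp

/-! ## 2. Energies, positive factors -/

/-- L-ENT-FAC-E (copy of the proof of `Ent.id_En_real`: `F4a.Qf_quadratic`, `F4a.Qf_physical`) -/
theorem eg_fac_E (hc : Whole c) {a : ℝ} (ha : 0 < a) (R : ℕ) (b0 b : ℝ) (τ : Face c → ℤ) (T : Top c) (hT : T.Ok) (y : c.I → ℝ) :
    (xyPhy c R a b0 b τ).E T y = T.Eobs a τ y := by
  have hq := Qf_quadratic T a ha (wf c τ y)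
  rw [← Qf_physical hc T hT a τ y, hq.1]
  have hz := hq.2
  have h2 : ∀ f, ∑ f' ∈ T.faces, T.Qmat a f f' * wf c τ y f * wf c τ y f'
      = ∑ f', T.Qmat a f f' * wf c τ y f * wf c τ y f' := fun f =>
    Finset.sum_subset (Finset.subset_univ _) (fun f' _ hf' => by rw [hz f f' (Or.inr hf')]; ring)
  simp only [h2]
  have h3 : ∑ f ∈ T.faces, ∑ f', T.Qmat a f f' * wf c τ y f * wf c τ y f'
      = ∑ f, ∑ f', T.Qmat a f f' * wf c τ y f * wf c τ y f' :=
    Finset.sum_subset (Finset.subset_univ _)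
      (fun f _ hf => Finset.sum_eq_zero fun f' _ => by rw [hz f f' (Or.inl hf)]; ring)
  rw [h3]
  rfl

/-- L-ENT-FAC-E -/
theorem eg_fac_AT (hc : Whole c) {a : ℝ} (ha : 0 < a) (R : ℕ) (b0 b : ℝ) (τ : Face c → ℤ) (T : Top c) (hT : T.Ok) (y : c.I → ℝ) :
    (xyPhy c R a b0 b τ).AT T y = egA T b a τ y := by
  unfold Phy.AT egA
  rw [eg_fac_E hc ha R b0 b τ T hT y]
  have h0 : ((xyPhy c R a b0 b τ).M T).Z0 = T.Zobs b 0 0 := eg_fac_Z0 T b
  have h1 : (xyPhy c R a b0 b τ).Zh T y = T.Zhat b τ y := by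
    unfold Phy.Zh Phy.Xi
    have h2 : ((xyPhy c R a b0 b τ).M T).Z1 ((xyPhy c R a b0 b τ).D y) = T.Zobs b τ y := eg_fac_Z1 T b τ y
    rw [h2]
    unfold Top.Zhat
    exact mul_comm _ _
  rw [h0, h1]

/-- L-ENT-FAC-E: the tile factor at the base point -/
theorem eg_fac_tfac (hc : Whole c) {a : ℝ} (ha : 0 < a) (R : ℕ) (b0 : ℝ) (τ : Face c → ℤ) (t : Tile) (hT : (tileTop c R t).Ok) (y : c.I → ℝ) :
    (xyPhy c R a b0 b0 τ).tfac t y = egA (tileTop c R t) b0 a τ y := by
  rw [← eg_fac_AT hc ha R b0 b0 τ (tileTop c R t) hT y]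
  unfold Phy.tfac Phy.tdiv Phy.AT
  have h0 : ((xyPhy c R a b0 b0 τ).M (tileTop c R t)).Z0 = (tileTop c R t).Zobs b0 0 0 := eg_fac_Z0 _ b0
  have h1 : (xyPhy c R a b0 b0 τ).W.N (tileTop c (xyPhy c R a b0 b0 τ).R t) = (tileTop c R t).Zobs b0 0 0 := rfl
  have h2 : (xyPhy c R a b0 b0 τ).R = R := rfl
  rw [h1, h2, h0, neg_div, Real.exp_neg]
  field_simp

/-! ## 3. The masks -/

/-- a bond sees only its two end points -/
theorem eg_fac_d_ne (b : ℝ) (e : G.V × Bool) (v : G.V) (h : (facT c b).d e v ≠ 0) : v = e.1 ∨ v = stp e.1 e.2 := by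
  by_contra hc
  push Not at hc
  apply h
  show (if v = stp e.1 e.2 then (1 : ℤ) else 0) - (if v = e.1 then 1 else 0) = 0
  rw [if_neg hc.2, if_neg hc.1, sub_zero]

/-- a row sees only the sites of its cell -/
theorem eg_fac_r_ne (b : ℝ) (i : c.I) (v : G.V) (h : (facT c b).r i v ≠ 0) : c.blk v = i := by
  by_contra hc
  apply h
  show (if c.blk v = i then ((c.sites {i}).card : ℝ)⁻¹ else 0) = 0
  rw [if_neg hc]

theorem eg_fac_mem_sites (A : Finset c.I) (v : G.V) : v ∈ c.sites A ↔ c.blk v ∈ A := by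
  simp [Grid.sites]

theorem eg_fac_mem_E (b : ℝ) (T : Top c) (e : G.V × Bool) : e ∈ (mskT b T).E ↔ T.IsEdge e := by
  classical
  simp [mskT]

/-- the value of a bond on a real field -/
theorem eg_fac_d_sum (b : ℝ) (e : G.V × Bool) (u : G.V → ℝ) :
    ∑ v, ((facT c b).d e v : ℝ) * u v = u (stp e.1 e.2) - u e.1 := by
  have h : ∀ v, ((facT c b).d e v : ℝ) * u v
      = (if v = stp e.1 e.2 then u v else 0) - (if v = e.1 then u v else 0) := by
    intro v
    show (((if v = stp e.1 e.2 then (1 : ℤ) else 0) - (if v = e.1 then 1 else 0) : ℤ) : ℝ) * u v = _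
    split_ifs <;> simp
  simp only [h, Finset.sum_sub_distrib, Finset.sum_ite_eq', Finset.mem_univ, if_true]

/-- L-ENT-FAC-MSK: properness (every present cell carries its row; a real field on the sites of `T` with zero gradient on the bonds inside a cell and zero cell average vanishes; `Whole c`: the sites of a cell are connected by bonds inside the cell.
Cf. `law_proper`, `law_ok` used in `eg_gd`). -/
theorem eg_fac_ok (hc : Whole c) (T : Top c) {b : ℝ} (hb : 0 < b) : (mskT b T).Ok := by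
  classical
  refine ⟨fun _ _ => hb, fun u hu hE hO => ?_⟩
  have hg := tl_real_inj hc T (fun v => u v.1) (fun e => ?_) (fun o => ?_)
  · funext v
    by_cases hv : c.blk v ∈ T.cells
    · exact congrFun hg ⟨v, hv⟩
    · exact hu v (fun h => hv ((eg_fac_mem_sites _ _).1 h))
  · have h1 := hE e.1 ((eg_fac_mem_E b T e.1).2 e.2)
    rw [eg_fac_d_sum] at h1
    exact sub_eq_zero.1 h1
  · have h1 := hO o.1 o.2
    rw [← h1]
    have h2 : ∑ v : G.V, (facT c b).r o.1 v * u v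
        = ∑ v ∈ Finset.univ.filter (fun v : G.V => c.blk v ∈ T.cells), (facT c b).r o.1 v * u v := by
      symm
      refine Finset.sum_subset (Finset.subset_univ _) fun v _ hv => ?_
      rw [hu v (fun h => hv (Finset.mem_filter.2 ⟨Finset.mem_univ _, (eg_fac_mem_sites _ _).1 h⟩)), mul_zero]
    rw [h2]
    exact (Finset.sum_subtype (Finset.univ.filter (fun v : G.V => c.blk v ∈ T.cells)) (by simp)
      (fun v => (facT c b).r o.1 v * u v)).symm

/-- L-ENT-FAC-MSK: restoring faces = adding the bonds through them -/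
theorem eg_fac_add (hc : Whole c) (T : Top c) (F : Finset (Face c)) (hF : ∀ f ∈ F, IsFace c f ∧ f.1 ∈ T.cells ∧ fnb c f ∈ T.cells) (b : ℝ) :
    mskT b (T.glue F) = (mskT b (T.cut F)).add ((bondsF c F, ∅) : (facT c b).Fs) ∧ (mskT b (T.cut F)).New ((bondsF c F, ∅) : (facT c b).Fs) := by
  classical
  constructor
  · unfold mskT Fac.Msk.add
    simp only [Finset.union_empty]
    congr 1
    ext e
    simp only [Finset.mem_filter, Finset.mem_univ, true_and, Finset.mem_union, bondsF, Top.IsEdge, Top.glue, Top.cut,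
      Finset.mem_sdiff]
    constructor
    · rintro ⟨h1, h2, h3, h4⟩
      by_cases hb : c.blk (stp e.1 e.2) = c.blk e.1
      · exact Or.inl ⟨h1, h2, h3, Or.inl hb⟩
      · by_cases hf : (c.blk e.1, e.2) ∈ F
        · exact Or.inr ⟨h1, hb, hf⟩
        · rcases h4 with h4 | h4 | h4
          · exact absurd h4 hb
          · exact Or.inl ⟨h1, h2, h3, Or.inr ⟨h4, hf⟩⟩
          · exact absurd h4 hf
    · rintro (⟨h1, h2, h3, h4⟩ | ⟨h1, h2, h3⟩)
      · refine ⟨h1, h2, h3, ?_⟩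
        rcases h4 with h4 | h4
        · exact Or.inl h4
        · exact Or.inr (Or.inl h4.1)
      · obtain ⟨_, a2, a3⟩ := hF _ h3
        refine ⟨h1, a2, ?_, Or.inr (Or.inr h3)⟩
        rw [enb_blk_stp hc e.1 e.2 h2]
        exact a3
  · refine ⟨?_, Finset.disjoint_empty_left _⟩
    rw [Finset.disjoint_left]
    intro e he he'
    have h1 := (eg_fac_mem_E b (T.cut F) e).1 he'
    simp only [bondsF, Finset.mem_filter, Finset.mem_univ, true_and] at he
    rcases h1.2.2.2 with h | h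
    · exact he.2.1 h
    · exact (Finset.mem_sdiff.1 h).2 he.2.2

theorem eg_fac_bonds_biUnion (F : Finset (Face c)) : (F.biUnion fun f => bondsF c {f}) = bondsF c F := by
  classical
  ext e
  simp only [bondsF, Finset.mem_biUnion, Finset.mem_filter, Finset.mem_univ, true_and, Finset.mem_singleton]
  constructor
  · rintro ⟨f, hf, h1, h2, h3⟩
    exact ⟨h1, h2, h3 ▸ hf⟩
  · rintro ⟨h1, h2, h3⟩
    exact ⟨_, h3, h1, h2, rfl⟩

/-- L-ENT-FAC-MSK -/
theorem eg_fac_bU (R : ℕ) (a b0 b : ℝ) (τ : Face c → ℤ) (F : Finset (Face c)) : (xyPhy c R a b0 b τ).FFs F = (bondsF c F, ∅) := by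
  show ((F.biUnion fun f => bondsF c {f}, F.biUnion fun _ => (∅ : Finset c.I)) : Finset (G.V × Bool) × Finset c.I)
    = (bondsF c F, ∅)
  rw [eg_fac_bonds_biUnion]
  congr 1
  ext o
  simp

/-- L-ENT-FAC-MSK: the factors which touch the sites of `D` are not changed by the restriction to a patch which contains `D` and its neighbours -/
theorem eg_fac_loc (hc : Whole c) (T : Top c) (hT : T.Ok) (O D : Finset c.I) (hD : D ⊆ O)
    (hnb : ∀ f ∈ T.faces, (f.1 ∈ D → fnb c f ∈ O) ∧ (fnb c f ∈ D → f.1 ∈ O)) (b : ℝ) :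
    (mskT b (T.restr O)).loc (c.sites D) = (mskT b T).loc (c.sites D) := by
  classical
  unfold Fac.Msk.loc
  have hE : (mskT b (T.restr O)).EI (c.sites D) = (mskT b T).EI (c.sites D) := by
    unfold Fac.Msk.EI
    ext e
    rw [Finset.mem_filter, Finset.mem_filter, eg_fac_mem_E, eg_fac_mem_E]
    constructor
    · rintro ⟨⟨h1, h2, h3, h4⟩, h5⟩
      refine ⟨⟨h1, (Finset.mem_inter.1 h2).1, (Finset.mem_inter.1 h3).1, ?_⟩, h5⟩
      rcases h4 with h4 | h4
      · exact Or.inl h4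
      · exact Or.inr (Finset.mem_filter.1 h4).1
    · rintro ⟨⟨h1, h2, h3, h4⟩, h5⟩
      refine ⟨?_, h5⟩
      obtain ⟨v, hv, hdv⟩ := h5
      have hvD : c.blk v ∈ D := (eg_fac_mem_sites _ _).1 hv
      by_cases hb : c.blk (stp e.1 e.2) = c.blk e.1
      · have hO : c.blk e.1 ∈ O := by
          rcases eg_fac_d_ne b e v hdv with rfl | rfl
          · exact hD hvD
          · rw [← hb]; exact hD hvD
        exact ⟨h1, Finset.mem_inter.2 ⟨h2, hO⟩, Finset.mem_inter.2 ⟨h3, hb ▸ hO⟩, Or.inl hb⟩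
      · have hf : (c.blk e.1, e.2) ∈ T.faces := h4.resolve_left hb
        have hfn : fnb c (c.blk e.1, e.2) = c.blk (stp e.1 e.2) := (enb_blk_stp hc e.1 e.2 hb).symm
        obtain ⟨n1, n2⟩ := hnb _ hf
        have hOO : c.blk e.1 ∈ O ∧ c.blk (stp e.1 e.2) ∈ O := by
          rcases eg_fac_d_ne b e v hdv with rfl | rfl
          · exact ⟨hD hvD, hfn ▸ n1 hvD⟩
          · exact ⟨n2 (hfn.symm ▸ hvD), hD hvD⟩
        exact ⟨h1, Finset.mem_inter.2 ⟨h2, hOO.1⟩, Finset.mem_inter.2 ⟨h3, hOO.2⟩,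
          Or.inr (Finset.mem_filter.2 ⟨hf, hOO.1, hfn.symm ▸ hOO.2⟩)⟩
  have hO : (mskT b (T.restr O)).OI (c.sites D) = (mskT b T).OI (c.sites D) := by
    unfold Fac.Msk.OI
    ext o
    rw [Finset.mem_filter, Finset.mem_filter]
    constructor
    · rintro ⟨h1, h2⟩
      exact ⟨(Finset.mem_inter.1 h1).1, h2⟩
    · rintro ⟨h1, h2⟩
      refine ⟨Finset.mem_inter.2 ⟨h1, ?_⟩, h2⟩
      obtain ⟨v, hv, hr⟩ := h2
      rw [← eg_fac_r_ne b o v hr]
      exact hD ((eg_fac_mem_sites _ _).1 hv)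
  rw [hE, hO]

/-- L-ENT-FAC-MSK: after the pin on the guard no factor touches both the interior and the rest -/
theorem eg_fac_sep (hc : Whole c) (T : Top c) (hT : T.Ok) (D p : Finset c.I)
    (hsep : ∀ f ∈ T.faces, (f.1 ∈ D → fnb c f ∈ D ∪ p) ∧ (fnb c f ∈ D → f.1 ∈ D ∪ p)) (b : ℝ) :
    ((mskT b T).pin (c.sites p)).Sep (c.sites D) (((mskT b T).pin (c.sites p)).A \ c.sites D) := by
  classical
  have hJ : ∀ w ∈ ((mskT b T).pin (c.sites p)).A \ c.sites D, c.blk w ∉ D ∪ p := by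
    intro w hw
    obtain ⟨h1, h2⟩ := Finset.mem_sdiff.1 hw
    have h3 : w ∈ c.sites T.cells \ c.sites p := h1
    have h4 := (Finset.mem_sdiff.1 h3).2
    intro h
    rcases Finset.mem_union.1 h with h | h
    · exact h2 ((eg_fac_mem_sites _ _).2 h)
    · exact h4 ((eg_fac_mem_sites _ _).2 h)
  constructor
  · intro e he hv w hw
    obtain ⟨v, hv, hdv⟩ := hv
    have hvD : c.blk v ∈ D := (eg_fac_mem_sites _ _).1 hv
    have hwn := hJ w hw
    have hedge : T.IsEdge e := (eg_fac_mem_E b T e).1 he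
    by_contra hdw
    have hne : c.blk v ≠ c.blk w := fun h => hwn (Finset.mem_union_left _ (h ▸ hvD))
    rcases eg_fac_d_ne b e v hdv with rfl | rfl <;> rcases eg_fac_d_ne b e w hdw with rfl | rfl
    · exact hne rfl
    · have hb : c.blk (stp e.1 e.2) ≠ c.blk e.1 := fun h => hne h.symm
      have hf := hedge.2.2.2.resolve_left hb
      have := (hsep _ hf).1 hvD
      rw [← enb_blk_stp hc e.1 e.2 hb] at this
      exact hwn this
    · have hb : c.blk (stp e.1 e.2) ≠ c.blk e.1 := hne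
      have hf := hedge.2.2.2.resolve_left hb
      have := (hsep _ hf).2 (by rw [← enb_blk_stp hc e.1 e.2 hb]; exact hvD)
      exact hwn this
    · exact hne rfl
  · intro o _ hv w hw
    obtain ⟨v, hv, hr⟩ := hv
    have hvD : c.blk v ∈ D := (eg_fac_mem_sites _ _).1 hv
    have hwn := hJ w hw
    by_contra hrw
    have h1 := eg_fac_r_ne b o v hr
    have h2 := eg_fac_r_ne b o w hrw
    exact hwn (Finset.mem_union_left _ (by rw [h2, ← h1]; exact hvD))

/-! ## 4. The conditional fractions -/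

theorem eg_fac_mem_sites22 (c : Grid G) (p : Finset c.I) (v : G.V) : v ∈ c.sites p ↔ c.blk v ∈ p := by
  unfold Grid.sites
  simp

/-- a bond form sees only its two endpoints -/
theorem eg_fac_d_ne22 (c : Grid G) (b : ℝ) (e : G.V × Bool) (v : G.V) (h : (facT c b).d e v ≠ 0) : v = e.1 ∨ v = stp e.1 e.2 := by
  by_contra hne
  rw [not_or] at hne
  apply h
  show (if v = stp e.1 e.2 then (1 : ℤ) else 0) - (if v = e.1 then 1 else 0) = 0
  rw [if_neg hne.2, if_neg hne.1]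
  rfl

/-- a row sees only its cell -/
theorem eg_fac_r_ne22 (c : Grid G) (b : ℝ) (i : c.I) (v : G.V) (h : (facT c b).r i v ≠ 0) : c.blk v = i := by
  by_contra hne
  apply h
  show (if c.blk v = i then ((c.sites {i}).card : ℝ)⁻¹ else 0) = 0
  rw [if_neg hne]

/-- the restored bonds see only sites of the core -/
theorem eg_fac_bonds_off22 (hc : Whole c) (b : ℝ) (F : Finset (Face c)) (H : Finset c.I) (hF : ∀ f ∈ F, f.1 ∈ H ∧ fnb c f ∈ H) (J : Finset G.V)
    (hJ : ∀ v ∈ J, c.blk v ∉ H) : Fac.Fs.Off ((bondsF c F, ∅) : (facT c b).Fs) J := by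
  classical
  refine ⟨fun e he v hv => ?_, fun o ho => absurd ho (Finset.notMem_empty o)⟩
  by_contra hne
  obtain ⟨_, h1, h2, h3⟩ := Finset.mem_filter.1 he
  rcases eg_fac_d_ne22 c b e v hne with rfl | rfl
  · exact hJ _ hv (hF _ h3).1
  · have h4 := hJ _ hv
    rw [enb_blk_stp hc e.1 e.2 h2] at h4
    exact h4 (hF _ h3).2

theorem eg_fac_inv_mono22 {𝔉 : Fac} {B B' : Finset 𝔉.V} (hB : B' ⊆ B) {Ψ : 𝔉.Ht → ℝ} (h : 𝔉.Inv B Ψ) : 𝔉.Inv B' Ψ :=
  fun x n hn => h x n (fk_cmp_sup_mono hB hn)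

/-- the factors of a mask see only the sites of the present cells -/
theorem eg_fac_msk_in22 (b : ℝ) (T : Top c) :
    (∀ e ∈ (mskT b T).E, ∀ v, (facT c b).d e v ≠ 0 → c.blk v ∈ T.cells) ∧ ∀ o ∈ (mskT b T).O, ∀ v, (facT c b).r o v ≠ 0 → c.blk v ∈ T.cells := by
  classical
  refine ⟨fun e he v hv => ?_, fun o ho v hv => ?_⟩
  · have he' : T.IsEdge e := (Finset.mem_filter.1 he).2
    rcases eg_fac_d_ne22 c b e v hv with rfl | rfl
    · exact he'.2.1
    · exact he'.2.2.1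
  · rw [eg_fac_r_ne22 c b o v hv]
    exact ho

/-- the conditional expectation of the restored bonds in the interior depends only on the heights on the guard -/
theorem eg_fac_cE_inv22 (hc : Whole c) (T : Top c) (hT : T.Ok) (M : EgMark c) (R : ℕ) (hM : M.Geo T R) (b : ℝ) (D0 : (facT c b).Dat) :
    (facT c b).Inv (Finset.univ \ c.sites M.p)
      ((mskT b (T.cut M.F)).cE (c.sites M.D) D0 (Fac.rw ((bondsF c M.F, ∅) : (facT c b).Fs) D0)) := by
  classical
  have hTc : (T.cut M.F).Ok := fun f hf => hT f (Finset.mem_sdiff.1 hf).1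
  have hsep0 := eg_fac_sep hc (T.cut M.F) hTc M.D M.p
    (fun f hf => hM.sepG f (Finset.mem_union_left _ (Finset.mem_sdiff.1 hf).1)) b
  have hin := eg_fac_msk_in22 b (T.cut M.F)
  obtain ⟨J, hJ⟩ : ∃ J : Finset G.V, J = (Finset.univ \ c.sites M.p) \ c.sites M.D := ⟨_, rfl⟩
  have hJmem : ∀ v ∈ J, c.blk v ∉ M.p ∧ c.blk v ∉ M.D := by
    intro v hv
    rw [hJ, Finset.mem_sdiff, Finset.mem_sdiff, eg_fac_mem_sites22, eg_fac_mem_sites22] at hv
    exact ⟨hv.1.2, hv.2⟩
  have hJA : ∀ v ∈ J, c.blk v ∈ T.cells → v ∈ ((mskT b (T.cut M.F)).pin (c.sites M.p)).A \ c.sites M.D := by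
    intro v hv hcell
    show v ∈ (c.sites T.cells \ c.sites M.p) \ c.sites M.D
    rw [Finset.mem_sdiff, Finset.mem_sdiff, eg_fac_mem_sites22, eg_fac_mem_sites22, eg_fac_mem_sites22]
    exact ⟨⟨hcell, (hJmem v hv).1⟩, (hJmem v hv).2⟩
  have hsep : (mskT b (T.cut M.F)).Sep (c.sites M.D) J := by
    refine ⟨fun e he htouch v hv => ?_, fun o ho htouch v hv => ?_⟩
    · by_contra hne
      exact hne (hsep0.1 e he htouch v (hJA v hv (hin.1 e he v hne)))
    · by_contra hne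
      exact hne (hsep0.2 o ho htouch v (hJA v hv (hin.2 o ho v hne)))
  have hoff : Fac.Fs.Off ((bondsF c M.F, ∅) : (facT c b).Fs) J :=
    eg_fac_bonds_off22 hc b M.F M.H (fun f hf => (hM.face f hf).2) J fun v hv hH => (hJmem v hv).2 (hM.H_sub hH)
  have h1 := fk_cE_inv_self (mskT b (T.cut M.F)) (c.sites M.D) D0 (Fac.rw ((bondsF c M.F, ∅) : (facT c b).Fs) D0)
  have h2 := fk_cE_inv (mskT b (T.cut M.F)) (c.sites M.D) J hsep D0 _ (fk_mkv_rw_inv _ J hoff D0)
  refine eg_fac_inv_mono22 ?_ (fk_spl_inv_union _ _ _ h1 h2)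
  intro v hv
  by_cases hvD : v ∈ c.sites M.D
  · exact Finset.mem_union_left _ hvD
  · exact Finset.mem_union_right _ (by rw [hJ]; exact Finset.mem_sdiff.2 ⟨hv, hvD⟩)

/-- L-ENT-FAC-MKV.  **Markov property at the guard**: the quotient of the joint densities of the two adjacent topologies is the conditional expectation of the restored bonds in the interior model.
`eg_fac_J`; `eg_fac_add` + `fk_add_eq` (`J_o = (M_c.pin p).Z (rw F)`); `eg_fac_sep` + `fk_split_loc` / `fk_markov` (interior × exterior, the exterior sum cancels; `rw F` is `Inv` off the core);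
`(M.pin B).loc I = M.loc I` (`fk_pin_loc`);  the interior sums depend on the background only through the sites of `p` (`fk_bk_congr` + locality of the factors). -/
theorem eg_fac_ratio (hc : Whole c) (T : Top c) (hT : T.Ok) (M : EgMark c) (R : ℕ) (hM : M.Geo T R) {b : ℝ} (hb : 0 < b) (τ : Face c → ℤ) (y : c.I → ℝ)
    (h : G.V → ℤ) :
    egJ (T.glue M.F) b τ y M.p h / egJ (T.cut M.F) b τ y M.p h
      = (mskT b (T.cut M.F)).cE (c.sites M.D) (datT c b τ y) (Fac.rw ((bondsF c M.F, ∅) : (facT c b).Fs) (datT c b τ y)) h := by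
  classical
  have hsub : M.H ⊆ T.cells := hM.H_sub.trans (hM.D_sub.trans hM.O_sub)
  have hF : ∀ f ∈ M.F, IsFace c f ∧ f.1 ∈ T.cells ∧ fnb c f ∈ T.cells :=
    fun f hf => ⟨(hM.face f hf).1, hsub (hM.face f hf).2.1, hsub (hM.face f hf).2.2⟩
  obtain ⟨hadd, hnew⟩ := eg_fac_add hc T M.F hF b
  have hN : ((mskT b (T.cut M.F)).pin (c.sites M.p)).Ok := fk_ok_pin _ (eg_fac_ok hc (T.cut M.F) hb) _
  have hK := eg_fac_cE_inv22 hc T hT M R hM b (datT c b τ y)
  obtain ⟨Φ, hΦ⟩ : ∃ Φ : (facT c b).Ht → ℝ,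
      Φ = (mskT b (T.cut M.F)).cE (c.sites M.D) (datT c b τ y) (Fac.rw ((bondsF c M.F, ∅) : (facT c b).Fs) (datT c b τ y)) := ⟨_, rfl⟩
  rw [← hΦ] at hK ⊢
  obtain ⟨Dp, hDp⟩ : ∃ Dp : (facT c b).Dat, Dp = ⟨egCl c M.p h, connT c τ, y⟩ := ⟨_, rfl⟩
  have hI : c.sites M.D ⊆ ((mskT b (T.cut M.F)).pin (c.sites M.p)).A := by
    intro v hv
    show v ∈ c.sites T.cells \ c.sites M.p
    rw [eg_fac_mem_sites22] at hv
    rw [Finset.mem_sdiff, eg_fac_mem_sites22, eg_fac_mem_sites22]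
    exact ⟨hM.O_sub (hM.D_sub hv), fun hp => (Finset.disjoint_left.1 hM.disj hv) hp⟩
  have hpos : Fac.Fs.Pos ((bondsF c M.F, ∅) : (facT c b).Fs) := fun _ _ => hb
  have hgb : (facT c b).Bdd (Fac.rw ((bondsF c M.F, ∅) : (facT c b).Fs) Dp) :=
    ⟨1, fun x => by rw [abs_of_pos (fk_rw_mem _ hpos Dp x).1]; exact (fk_rw_mem _ hpos Dp x).2⟩
  have hmk := fk_markov ((mskT b (T.cut M.F)).pin (c.sites M.p)) hN (c.sites M.D) hI Dp (fun _ => 1)
    (Fac.rw ((bondsF c M.F, ∅) : (facT c b).Fs) Dp) ⟨1, fun _ => by simp⟩ hgb (fun _ _ _ => rfl)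
  have hcE : ((mskT b (T.cut M.F)).pin (c.sites M.p)).cE (c.sites M.D) Dp (Fac.rw ((bondsF c M.F, ∅) : (facT c b).Fs) Dp) = Φ := by
    rw [hΦ, hDp]
    rfl
  rw [hcE] at hmk
  have hinvA : (facT c b).Inv ((mskT b (T.cut M.F)).pin (c.sites M.p)).A Φ :=
    eg_fac_inv_mono22 (fun v hv => Finset.mem_sdiff.2 ⟨Finset.mem_univ _, (Finset.mem_sdiff.1 hv).2⟩) hK
  have hZ := fk_Z_inv ((mskT b (T.cut M.F)).pin (c.sites M.p)) Dp Φ (fun _ => 1) hinvA
  have hp := fk_Z1_pos _ hN Dp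
  have e1 : egJ (T.cut M.F) b τ y M.p h = ((mskT b (T.cut M.F)).pin (c.sites M.p)).Z1 Dp := by
    rw [hDp, eg_fac_J]
  have e2 : egJ (T.glue M.F) b τ y M.p h = Φ Dp.x * ((mskT b (T.cut M.F)).pin (c.sites M.p)).Z1 Dp := by
    rw [← eg_fac_J, hadd, ← hDp, fk_add_pin]
    unfold Fac.Msk.Z1
    rw [fk_add_eq ((mskT b (T.cut M.F)).pin (c.sites M.p)) _ (show ((mskT b (T.cut M.F)).pin (c.sites M.p)).New _ from hnew), hmk, ← hZ]
    refine congrArg _ (funext fun x => ?_)
    ring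
  rw [e1, e2, mul_div_assoc, div_self hp.ne', mul_one, hDp]
  -- the background
  have hn : h - egCl c M.p h ∈ (facT c b).sup (Finset.univ \ c.sites M.p) := by
    intro v hv
    have hv' : c.blk v ∈ M.p := by
      rw [Finset.mem_sdiff, not_and, not_not, eg_fac_mem_sites22] at hv
      exact hv (Finset.mem_univ _)
    show h v - egCl c M.p h v = 0
    unfold egCl
    rw [if_pos hv', sub_self]
  have := hK (egCl c M.p h) _ hn
  rw [add_sub_cancel] at this
  exact this.symm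

theorem eg_fac_dl_alg (x β : ℝ) (hβ : 0 < β) : egDl (x / β) = |x - β| / (x + β) := by
  unfold egDl
  have h1 : x / β - 1 = (x - β) / β := by field_simp
  have h2 : x / β + 1 = (x + β) / β := by field_simp
  rw [h1, h2, abs_div, abs_of_pos hβ, div_div_div_cancel_right₀ hβ.ne']

theorem eg_fac_rho {𝔉 : Fac} (M : 𝔉.Msk) (I : Finset 𝔉.V) (F : 𝔉.Fs) (χ : ℝ) (D : 𝔉.Dat) (h : 𝔉.Ht) :
    rho M I F χ D h = χ * M.cE I D (Fac.rw F D) h := by
  unfold rho Fac.Msk.cE Fac.Msk.Z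
  simp only [mul_assoc]
  rw [tsum_mul_left, mul_div_assoc]

/-- L-ENT-FAC-DLT.  **`δ` of NORM = `δ` of GOOD** (ambient = the cut box).  `egX = ρ / β` with `ρ = rho ..`, `β = egB > 0` (`eg_xi_ratio`, `eg_fac_ratio`); `|x/β - 1| / (x/β + 1) = |x - β| / (x + β)`. -/
theorem eg_fac_delta (hc : Whole c) (T : Top c) (hT : T.Ok) (M : EgMark c) (R : ℕ) (hM : M.Geo T R) {b : ℝ} (hb : 0 < b) (a : ℝ) (τ : Face c → ℤ)
    (y : c.I → ℝ) (h : G.V → ℤ) :
    dlt (mskT b (T.cut M.F)) (c.sites M.D) ((bondsF c M.F, ∅) : (facT c b).Fs) (egXiR M τ y) (egB T M b a τ y) (datT c b τ y) h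
      = egDelta T M b a τ y h := by
  have hβ : 0 < egB T M b a τ y := mul_pos (eg_one_C_pos hc T M hb) (Real.exp_pos _)
  have hΞ : 0 < egXi (T.cut M.F) τ y := eg_one_xi_pos hc _ τ y
  have hX : egX T M b a τ y h
      = (egXiR M τ y * (egJ (T.glue M.F) b τ y M.p h / egJ (T.cut M.F) b τ y M.p h)) / egB T M b a τ y := by
    unfold egX
    rw [eg_xi_ratio,
      show egJ (T.glue M.F) b τ y M.p h * (egXi (T.cut M.F) τ y * egXiR M τ y)
        = (egXiR M τ y * egJ (T.glue M.F) b τ y M.p h) * egXi (T.cut M.F) τ y by ring,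
      show egB T M b a τ y * (egJ (T.cut M.F) b τ y M.p h * egXi (T.cut M.F) τ y)
        = (egB T M b a τ y * egJ (T.cut M.F) b τ y M.p h) * egXi (T.cut M.F) τ y by ring,
      mul_div_mul_right _ _ hΞ.ne']
    simp only [div_eq_mul_inv, mul_inv]
    ring
  unfold dlt egDelta
  rw [eg_fac_rho, ← eg_fac_ratio hc T hT M R hM hb τ y h, hX, eg_fac_dl_alg _ _ hβ]

/-- L-ENT-FAC-DLT: the same with the cut open patch as ambient (`eg_fac_loc` with `T.cut M.F`, `O = M.O`, `D = M.D` (`sepG`, `p_sub`, `D_sub`) + `nm_dlt_congr`) -/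
theorem eg_fac_delta_patch (hc : Whole c) (T : Top c) (hT : T.Ok) (M : EgMark c) (R : ℕ) (hM : M.Geo T R) {b : ℝ} (hb : 0 < b) (a : ℝ) (τ : Face c → ℤ)
    (y : c.I → ℝ) (h : G.V → ℤ) :
    dlt (mskT b (egPc T M)) (c.sites M.D) ((bondsF c M.F, ∅) : (facT c b).Fs) (egXiR M τ y) (egB T M b a τ y) (datT c b τ y) h
      = egDelta T M b a τ y h := by
  have hloc : (mskT b (egPc T M)).loc (c.sites M.D) = (mskT b (T.cut M.F)).loc (c.sites M.D) :=
    eg_fac_loc hc (T.cut M.F) (eg_gau_ok_cut T hT M.F) M.O M.D hM.D_sub (fun f hf => by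
      have hf' : f ∈ T.faces ∪ M.F := Finset.mem_union_left _ (Finset.mem_sdiff.1 hf).1
      have hU : M.D ∪ M.p ⊆ M.O := Finset.union_subset hM.D_sub hM.p_sub
      exact ⟨fun h1 => hU ((hM.sepG f hf').1 h1), fun h1 => hU ((hM.sepG f hf').2 h1)⟩) b
  rw [← eg_fac_delta hc T hT M R hM hb a τ y h]
  exact congrFun (nm_dlt_congr _ _ _ _ hloc _ _ _ _ (fun _ _ => rfl) (fun _ _ => rfl)) h

end

end Claimed.Agent.R285.Entry
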