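import Claimed.Agent.R285.Entry.GoodGaGeo

/-!
# ROW 285, post BP-ENT-GOOD-GA, file 4 (INST): ASSEMBLY      (architect helper269; chief helper109)

```
eg_ga_moment (GoodGa) ⟸ ega_moment_big + ega_num_final [L-GA-NUM] + ega_gen_le_one (small R) + ega_geo_of_empty
ega_moment_big ⟸ ega_WG_eq (bridge, PROVED here from ega_lw_form, ega_up_form)  +  ega_gen_moment [GEN]  with the inputs
     EgaPair          ega_pair_inst      [L-GA-G10]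
     gVar f ≤ |y|²    ega_gVar_le_Y      (PROVED from ega_gEn_eq [L-GA-B2])
     (D1) E q ≤ ε₁    ega_loc_gap_mean   [L-GA-I1 ⟸ ega_law_gap_mean_le L-GA-DL2]
     (D2) q ≤ ε₂ Q_c  ega_loc_gap_le     [L-GA-I2 ⟸ ega_law_gap_le L-GA-DL1]
     (D4) |quad| ≤ ε₄ ega_quad_le        (PROVED from ega_four [L-GA-A1..A3], ega_four_inst [L-GA-G9], ega_box_gVar, ega_up_gVar [G4], ega_patch_gVar [G5], ega_patch_split, ega_rest_eq [G11 ⟸ A6], ega_cellTest_eq [G6], ega_WDE_eq)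
ega_gen_moment ⟸ (D3) ega_lin_sq_le [L-GA-D3a,b], (M) ega_gap_moment [L-GA-M1..M3], (END) ega_phi_point, ega_gap_add_le, ega_mean_form_le, ega_num_end [L-GA-END1..3]
eg_ga_pin  (GoodGa) ⟸ Sec.loc_gPin_le (proved) + ega_lw_gPin [L-GA-B1] + ega_num_pin [L-GA-NUM]
eg_ga_DE   (GoodGa) ⟸ ega_gEn_eq [L-GA-B2]
```
Everything in this file except `ega_num_final`, `ega_num_pin` is proved.
-/

set_option autoImplicit false

namespace Claimed.Agent.R285.Entry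

open scoped BigOperators Classical
open Claimed.Agent.R285 Claimed.Agent.R285.Pot Claimed.Agent.R285.Sec MeasureTheory

noncomputable section

variable {m₁ m₂ : ℕ}

/-! ## A. `egWG` in the vocabulary of POT-LIN -/

section Bridge

variable (T : Finset (C3.Cell m₁ m₂)) (cutF F : Finset (C3.Cell m₁ m₂ × Bool)) (s : ℕ) {a : ℝ}

theorem ega_gZ_lw (Γ : CGeom m₁ m₂) (a : ℝ) (P : Set (Γ.graph (egGr m₁ m₂ s)).V) (u : (Γ.graph (egGr m₁ m₂ s)).V → ℝ) (Fn : ((Γ.graph (egGr m₁ m₂ s)).V → ℝ) → ℝ) :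
    C3.gZ (egLw Γ s) a P u Fn = plZ (egaL Γ s) a P u Fn := ega_gZ_congr _ _ a (ega_lw_form _ s a) P u Fn

theorem ega_gcLap_eq (Γ : CGeom m₁ m₂) (a : ℝ) (P : Set (Γ.graph (egGr m₁ m₂ s)).V) (f u : (Γ.graph (egGr m₁ m₂ s)).V → ℝ) :
    C3.gcLap (egLw Γ s) a P f u = plcLap (egaL Γ s) a P f u := by
  unfold C3.gcLap plcLap
  rw [ega_gZ_lw, ega_gZ_lw]

theorem ega_grPin_eq (Γ : CGeom m₁ m₂) (a : ℝ) (P A : Set (Γ.graph (egGr m₁ m₂ s)).V) (u : (Γ.graph (egGr m₁ m₂ s)).V → ℝ) :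
    C3.grPin (egLw Γ s) a P A u = plrPin (egaL Γ s) a P A u := by
  unfold C3.grPin plrPin C3.gcPin plcPin
  rw [ega_gZ_lw, ega_gZ_lw, ega_gZ_lw, ega_gZ_lw]
  rfl

theorem ega_gExT_eq (Γ : CGeom m₁ m₂) (a : ℝ) (P : Set (Γ.graph (egGr m₁ m₂ s)).V) (f : (Γ.graph (egGr m₁ m₂ s)).V → ℝ) (Ψ : ((Γ.graph (egGr m₁ m₂ s)).V → ℝ) → ℝ) :
    C3.gExT (egLw Γ s) a P f Ψ = plExT (egaL Γ s) a P f Ψ := by
  unfold C3.gExT plExT
  rw [ega_gZ_lw, ega_gZ_lw]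

theorem ega_gZ_up (ha : 0 < a) (P : Set ((egSh T cutF).graph (egGr m₁ m₂ s)).V)
    (u : ((egSh T cutF).graph (egGr m₁ m₂ s)).V → ℝ) (Fn : (((egSh T cutF).graph (egGr m₁ m₂ s)).V → ℝ) → ℝ) :
    C3.gZ (G := (C3.uncut (egSh T cutF) F).graph (egGr m₁ m₂ s)) (C3.lawR (C3.uncut (egSh T cutF) F) (egGr m₁ m₂ s) (egRow (egSh T cutF))) a P u Fn
      = plZ (egaUp T (cutF \ F) s cutF a) a P u Fn := by
  have h1 : ∀ v : ((egSh T cutF).graph (egGr m₁ m₂ s)).V → ℝ,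
      (C3.lawR (C3.uncut (egSh T cutF) F) (egGr m₁ m₂ s) (egRow (egSh T cutF))).form a v = (egaUp T (cutF \ F) s cutF a).form a v := fun v =>
    (ega_lw_form (egSh T (cutF \ F)) s a v).trans (ega_up_form T (cutF \ F) s Finset.sdiff_subset ha v).symm
  have key : ∀ v : {x : ((egSh T cutF).graph (egGr m₁ m₂ s)).V // x ∉ P} → ℝ,
      Fn (C3.ext (G := (egSh T cutF).graph (egGr m₁ m₂ s)) P u v) *
        Real.exp (-((C3.lawR (C3.uncut (egSh T cutF) F) (egGr m₁ m₂ s) (egRow (egSh T cutF))).form a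
          (C3.ext (G := (egSh T cutF).graph (egGr m₁ m₂ s)) P u v)) / 2)
      = Fn (C3.ext P u v) * Real.exp (-((egaUp T (cutF \ F) s cutF a).form a (C3.ext P u v)) / 2) := fun v => by rw [h1]
  exact integral_congr_ae (Filter.Eventually.of_forall key)

theorem ega_gcLapU_eq (ha : 0 < a) (P : Set ((egSh T cutF).graph (egGr m₁ m₂ s)).V) (f u : ((egSh T cutF).graph (egGr m₁ m₂ s)).V → ℝ) :
    C3.gcLapU (egSh T cutF) F (egGr m₁ m₂ s) (egRow (egSh T cutF)) a P f u = plcLap (egaUp T (cutF \ F) s cutF a) a P f u := by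
  have h1 := ega_gZ_up T cutF F s ha P u (fun φ => Real.exp (HLaw.pair f φ))
  have h2 := ega_gZ_up T cutF F s ha P u (fun _ => 1)
  exact congrArg Real.log (congrArg₂ (· / ·) h1 h2)

theorem ega_gExU_eq (ha : 0 < a) (P : Set ((egSh T cutF).graph (egGr m₁ m₂ s)).V) (f : ((egSh T cutF).graph (egGr m₁ m₂ s)).V → ℝ)
    (Ψ : (((egSh T cutF).graph (egGr m₁ m₂ s)).V → ℝ) → ℝ) :
    C3.gExU (egSh T cutF) F (egGr m₁ m₂ s) (egRow (egSh T cutF)) a P f Ψ = plExT (egaUp T (cutF \ F) s cutF a) a P f Ψ := by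
  have h1 := ega_gZ_up T cutF F s ha P 0 (fun φ => Ψ φ * Real.exp (HLaw.pair f φ))
  have h2 := ega_gZ_up T cutF F s ha P 0 (fun φ => Real.exp (HLaw.pair f φ))
  exact congrArg₂ (· / ·) h1 h2

end Bridge

theorem ega_WG_eq (T : Finset (C3.Cell m₁ m₂)) (cutF : Finset (C3.Cell m₁ m₂ × Bool)) (M : EgWMark m₁ m₂) (s : ℕ) {a : ℝ} (ha : 0 < a)
    (top : Bool) (y : C3.Cell m₁ m₂ → ℝ) (Φ : ℝ → ℝ → ℝ → ℝ) :
    egWG (egSh T cutF) M s a top y Φ =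
      plExT (if top then egaUp T (cutF \ M.F) s cutF a else egaL (egSh T cutF) s) a ∅ ((egSh T cutF).cellTest (egGr m₁ m₂ s) y)
        fun φ => Φ (plcLap (egaL (egSh T cutF) s) a ((egSh T cutF).sites (egGr m₁ m₂ s) M.p) ((egSh T cutF).cellTest (egGr m₁ m₂ s) y) φ)
          (plcLap (egaUp T (cutF \ M.F) s cutF a) a ((egSh T cutF).sites (egGr m₁ m₂ s) M.p) ((egSh T cutF).cellTest (egGr m₁ m₂ s) y) φ)
          (plrPin (egaL (egSh T cutF) s) a ((egSh T cutF).sites (egGr m₁ m₂ s) M.p) ((egSh T cutF).sites (egGr m₁ m₂ s) M.H) φ) := by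
  have hpin : (egSh T cutF).sites (egGr m₁ m₂ s) (egSh T cutF).pin = ∅ := ega_sites_empty _ _
  unfold egWG
  rw [hpin, Set.empty_union]
  simp only [ega_gcLap_eq, ega_grPin_eq, ega_gcLapU_eq _ _ _ _ ha]
  cases top
  · simp only [Bool.false_eq_true, if_false]
    rw [ega_gExT_eq]
  · simp only [if_true]
    rw [ega_gExU_eq _ _ _ _ ha]

/-! ## B. The inputs of the generic estimate for a mark -/

section Inst

variable {T : Finset (C3.Cell m₁ m₂)} {cutF : Finset (C3.Cell m₁ m₂ × Bool)} {M : EgWMark m₁ m₂} {R : ℕ}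

/-- `gVar f ≤ |y|²` -/
theorem ega_gVar_le_Y (Γ : CGeom m₁ m₂) (hp : Γ.pin = ∅) (s : ℕ) {a : ℝ} (ha : 0 < a) (y : C3.Cell m₁ m₂ → ℝ) :
    (plPin (egaL Γ s) ∅).gVar a (Γ.cellTest (egGr m₁ m₂ s) y) ≤ ∑ κ ∈ Γ.T, y κ ^ 2 := by
  have h1 := ega_gEn_eq Γ s ha y
  have h2 := pl_gEn_nonneg (egLw Γ s) ha 0 (egCen Γ y)
  rw [ega_lw_gVar] at h1
  rw [← ega_L_eq_pin Γ s hp]
  linarith

/-- the proxy exponent through the variances of the two patches -/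
theorem ega_WDE_eq (T : Finset (C3.Cell m₁ m₂)) (cutF : Finset (C3.Cell m₁ m₂ × Bool)) (M : EgWMark m₁ m₂) (s : ℕ) {a : ℝ} (ha : 0 < a) (y : C3.Cell m₁ m₂ → ℝ) :
    egWDE (egSh T cutF) M a s y =
      (egLw (egSh (T ∩ M.O) cutF) s).gVar a ((egSh (T ∩ M.O) cutF).cellTest (egGr m₁ m₂ s) y)
        - (egLw (egSh (T ∩ M.O) (cutF \ M.F)) s).gVar a ((egSh (T ∩ M.O) (cutF \ M.F)).cellTest (egGr m₁ m₂ s) y) := by
  have h1 := ega_gEn_eq (egSh (T ∩ M.O) cutF) s ha y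
  have h2 := ega_gEn_eq (egSh (T ∩ M.O) (cutF \ M.F)) s ha y
  have h3 : egWDE (egSh T cutF) M a s y = (egLw (egSh (T ∩ M.O) (cutF \ M.F)) s).gEn a 0 (egCen (egSh (T ∩ M.O) (cutF \ M.F)) y)
      - (egLw (egSh (T ∩ M.O) cutF) s).gEn a 0 (egCen (egSh (T ∩ M.O) cutF) y) := rfl
  have h4 : (egSh (T ∩ M.O) cutF).T = (egSh (T ∩ M.O) (cutF \ M.F)).T := rfl
  rw [h3, h1, h2, h4]
  ring

/-- **(D4)** -/
theorem ega_quad_le (hM : M.Geo (egSh T cutF) R) {s : ℕ} (hs : 1 ≤ s) {a : ℝ} (ha : 0 < a) (y : C3.Cell m₁ m₂ → ℝ) :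
    |((plPin (egaUp T (cutF \ M.F) s cutF a) ((egSh T cutF).sites (egGr m₁ m₂ s) M.p)).gVar a ((egSh T cutF).cellTest (egGr m₁ m₂ s) y)
        - (plPin (egaL (egSh T cutF) s) ((egSh T cutF).sites (egGr m₁ m₂ s) M.p)).gVar a ((egSh T cutF).cellTest (egGr m₁ m₂ s) y)) / 2
      + egWDE (egSh T cutF) M a s y / 2|
      ≤ Real.sqrt (48 * pdM (locCP 1 a) (locK a) ^ 2 * pdE (locCP 1 a) (locK a) (R - 4)) * ((m₁ * m₂ : ℕ) : ℝ) * (∑ κ ∈ T, y κ ^ 2) / 2 := by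
  obtain ⟨U, hU⟩ := ega_exists_U hM
  have h4 := ega_four (ega_four_inst hM hU hs ha) (fun κ => if κ ∈ T then y κ else 0)
  rw [← ega_cellTest_eq T (cutF \ M.F) s y] at h4
  rw [ega_patch_split hU hs ha cutF, ega_patch_split hU hs ha (cutF \ M.F), ega_rest_eq hM hU hs ha] at h4
  have e1 := ega_box_gVar T (cutF \ M.F) hs (C := cutF) Finset.sdiff_subset ha ((egSh T cutF).sites (egGr m₁ m₂ s) M.p)
    ((egSh T cutF).cellTest (egGr m₁ m₂ s) y)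
  have e2 := ega_up_gVar T (cutF \ M.F) hs (C := cutF) Finset.sdiff_subset ha ((egSh T cutF).sites (egGr m₁ m₂ s) M.p)
    ((egSh T cutF).cellTest (egGr m₁ m₂ s) y)
  have e3 := ega_patch_gVar T (cutF \ M.F) hs (C := cutF) Finset.sdiff_subset M.O ha y
  have e4 := ega_patch_gVar T (cutF \ M.F) hs (C := cutF \ M.F) (Finset.Subset.refl _) M.O ha y
  have e1' : (egaSys T (cutF \ M.F) s a (egaXC T (cutF \ M.F) s cutF) ((egSh T (cutF \ M.F)).sites (egGr m₁ m₂ s) M.p)).gf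
      (pdRowF ((egSh T (cutF \ M.F)).cellTest (egGr m₁ m₂ s) y)) (pdRowF ((egSh T (cutF \ M.F)).cellTest (egGr m₁ m₂ s) y)) = _ := e1
  have e2' : (egaSys T (cutF \ M.F) s a (egaXC T (cutF \ M.F) s (cutF \ M.F)) ((egSh T (cutF \ M.F)).sites (egGr m₁ m₂ s) M.p)).gf
      (pdRowF ((egSh T (cutF \ M.F)).cellTest (egGr m₁ m₂ s) y)) (pdRowF ((egSh T (cutF \ M.F)).cellTest (egGr m₁ m₂ s) y)) = _ := e2
  rw [e1', e2', e3, e4] at h4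
  rw [ega_WDE_eq T cutF M s ha y]
  have hcard : (Fintype.card (C3.Cell m₁ m₂) : ℝ) = ((m₁ * m₂ : ℕ) : ℝ) := by
    rw [Fintype.card_prod, Fintype.card_fin, Fintype.card_fin]
  have hsum : ∑ κ, (if κ ∈ T then y κ else 0) ^ 2 = ∑ κ ∈ T, y κ ^ 2 := by
    rw [← Finset.sum_filter_add_sum_filter_not Finset.univ (· ∈ T), Finset.filter_mem_eq_inter, Finset.univ_inter]
    rw [Finset.sum_congr rfl (g := fun κ => y κ ^ 2) (fun κ hκ => by rw [if_pos hκ]),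
      Finset.sum_eq_zero (s := Finset.univ.filter (· ∉ T)) (fun κ hκ => by rw [if_neg (Finset.mem_filter.1 hκ).2]; simp), add_zero]
  rw [hcard, hsum] at h4
  rw [abs_le] at h4 ⊢
  constructor <;> linarith [h4.1, h4.2]

end Inst

/-! ## C. Exits -/

theorem ega_num_pdE (CP Kc : ℝ) (hM : 2 ≤ pdM CP Kc) (R : ℕ) (hR : 5 ≤ R) :
    pdE CP Kc (R - 4) = 3 * Real.exp (2 * (1 / (3 * (pdM CP Kc + 1)))) ^ 2 * Real.exp (-(1 / (3 * (pdM CP Kc + 1)) / 2) * R) ^ 2 := by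
  unfold pdE
  rw [Nat.cast_sub (by omega : 4 ≤ R), mul_assoc, ← Real.exp_nat_mul, ← Real.exp_nat_mul, ← Real.exp_add]
  congr 2
  have : pdM CP Kc + 1 ≠ 0 := by linarith
  push_cast
  field_simp
  ring

/-- the real inequality behind `ega_num_final` -/
theorem ega_num_core (M a2 C₁ e Nn rr Y θ₁ K : ℝ) (hM : 0 ≤ M) (ha2 : 0 ≤ a2) (he0 : 0 < e) (he1 : e ≤ 1) (hN : Nn = 0 ∨ 1 ≤ Nn) (hNY : Nn = 0 → Y = 0)
    (hrr : 1 ≤ rr) (hY : 0 ≤ Y) (hθ : 0 ≤ θ₁) (hC : 0 ≤ C₁) (hK : 6 * M * a2 + 1 / 2 + 6 * M * a2 ^ 2 + 96 * C₁ * a2 ^ 2 ≤ K) :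
    2 * (θ₁ + (12 * M * a2 * e) * Nn * Y / 2 + e * Y / 2
        + (1 + e⁻¹) * (M * (3 * a2 ^ 2 * e ^ 2) * Y + 16 * rr * (Nn * (3 * a2 ^ 2 * e ^ 2) * C₁)))
      ≤ 4 * (θ₁ + K * Nn ^ 2 * rr * e * (1 + Y)) := by
  have hN0 : 0 ≤ Nn := by rcases hN with h | h <;> linarith
  have hNN : Nn ≤ Nn ^ 2 := by
    rcases hN with h | h
    · rw [h]; norm_num
    · nlinarith
  obtain ⟨W, hW⟩ : ∃ W : ℝ, W = Nn ^ 2 * rr := ⟨_, rfl⟩
  have hW0 : 0 ≤ W := by rw [hW]; positivity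
  have h1 : rr * Nn ≤ W := by
    rw [hW, mul_comm]
    exact mul_le_mul_of_nonneg_right hNN (by linarith)
  have h2 : Nn ≤ W := le_trans (by nlinarith) h1
  have h3 : Nn * Y ≤ W * Y := mul_le_mul_of_nonneg_right h2 hY
  have h4 : Y ≤ W * Y := by
    rcases hN with h | h
    · rw [hNY h]; simp
    · have : 1 ≤ W := le_trans h h2
      nlinarith
  have e1 : (1 + e⁻¹) * (M * (3 * a2 ^ 2 * e ^ 2) * Y + 16 * rr * (Nn * (3 * a2 ^ 2 * e ^ 2) * C₁))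
      = (e ^ 2 + e) * (3 * a2 ^ 2 * (M * Y + 16 * C₁ * (rr * Nn))) := by
    field_simp
  have hX0 : 0 ≤ 3 * a2 ^ 2 * (M * Y + 16 * C₁ * (rr * Nn)) := by positivity
  have e2 : e ^ 2 + e ≤ 2 * e := by nlinarith
  have e3 : (e ^ 2 + e) * (3 * a2 ^ 2 * (M * Y + 16 * C₁ * (rr * Nn))) ≤ 2 * e * (3 * a2 ^ 2 * (M * Y + 16 * C₁ * (rr * Nn))) :=
    mul_le_mul_of_nonneg_right e2 hX0
  -- the bracket
  have b1 : 6 * M * a2 * (Nn * Y) ≤ 6 * M * a2 * (W * Y) := mul_le_mul_of_nonneg_left h3 (by positivity)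
  have b2 : 6 * M * a2 ^ 2 * Y ≤ 6 * M * a2 ^ 2 * (W * Y) := mul_le_mul_of_nonneg_left h4 (by positivity)
  have b3 : 96 * C₁ * a2 ^ 2 * (rr * Nn) ≤ 96 * C₁ * a2 ^ 2 * W := mul_le_mul_of_nonneg_left h1 (by positivity)
  have hWY : 0 ≤ W * Y := mul_nonneg hW0 hY
  have b4 : 6 * M * a2 * (Nn * Y) + Y / 2 + 6 * M * a2 ^ 2 * Y + 96 * C₁ * a2 ^ 2 * (rr * Nn) ≤ K * (W * (1 + Y)) := by
    have c1 : (6 * M * a2 + 1 / 2 + 6 * M * a2 ^ 2 + 96 * C₁ * a2 ^ 2) * (W * (1 + Y)) ≤ K * (W * (1 + Y)) :=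
      mul_le_mul_of_nonneg_right hK (by positivity)
    have c2 : 0 ≤ (6 * M * a2 + 1 / 2 + 6 * M * a2 ^ 2) * W := by positivity
    have c3 : 0 ≤ 96 * C₁ * a2 ^ 2 * (W * Y) := by positivity
    nlinarith
  have b5 := mul_le_mul_of_nonneg_left b4 he0.le
  rw [e1]
  have hK0 : 0 ≤ e * (K * (W * (1 + Y))) := le_trans (by positivity) b5
  have fin : K * Nn ^ 2 * rr * e * (1 + Y) = e * (K * (W * (1 + Y))) := by rw [hW]; ring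
  rw [fin]
  nlinarith

/-- L-GA-NUM, the numerics of the last step.   PLAN: `M = pdM CP Kc`, `c₁ = 1/(3 (M + 1))`, `c0 = c₁/2`, `e = exp (-c0 R) ≤ 1`, `μ = e`;  `pdE (R - 4) = 3 exp (4 c₁) e²` (`Nat.cast_sub`), `√(48 M² pdE) = 12 M exp (2 c₁) e`;
`1 + μ⁻¹ ≤ 2/e`;  `Y ≤ N Y` (`N = 0 → Y = 0`), `N ≤ N²`, `1 ≤ r²`;   `K = max (6 M e^{2c₁} + 1/2 + 6 M e^{4c₁} + 96 C₁ e^{4c₁}) (exp (5 c0))`. -/
theorem ega_num_final (CP Kc C₁ : ℝ) (hM : 2 ≤ pdM CP Kc) (hC : 0 ≤ C₁) : ∃ K c0 : ℝ, 0 ≤ K ∧ 0 < c0 ∧ (∀ R : ℕ, R < 5 → 1 ≤ K * Real.exp (-c0 * R)) ∧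
    ∀ (N R r : ℕ) (Y θ₁ : ℝ), 5 ≤ R → 1 ≤ r → 0 ≤ Y → (N = 0 → Y = 0) → 0 ≤ θ₁ → ∃ μ : ℝ, 0 < μ ∧
      2 * (θ₁ + Real.sqrt (48 * pdM CP Kc ^ 2 * pdE CP Kc (R - 4)) * (N : ℝ) * Y / 2 + μ * Y / 2
          + (1 + μ⁻¹) * (pdM CP Kc * pdE CP Kc (R - 4) * Y + 16 * (r : ℝ) ^ 2 * ((N : ℝ) * pdE CP Kc (R - 4) * C₁)))
        ≤ 4 * (θ₁ + K * (N : ℝ) ^ 2 * (r : ℝ) ^ 2 * Real.exp (-c0 * R) * (1 + Y)) := by
  obtain ⟨M, hMd⟩ : ∃ M : ℝ, M = pdM CP Kc := ⟨_, rfl⟩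
  obtain ⟨c₁, hc₁⟩ : ∃ c₁ : ℝ, c₁ = 1 / (3 * (pdM CP Kc + 1)) := ⟨_, rfl⟩
  have hc₁0 : 0 < c₁ := by rw [hc₁]; positivity
  obtain ⟨a2, ha2⟩ : ∃ a2 : ℝ, a2 = Real.exp (2 * c₁) := ⟨_, rfl⟩
  have ha20 : 0 < a2 := by rw [ha2]; exact Real.exp_pos _
  have hM0 : 0 ≤ pdM CP Kc := by linarith
  refine ⟨max (6 * pdM CP Kc * a2 + 1 / 2 + 6 * pdM CP Kc * a2 ^ 2 + 96 * C₁ * a2 ^ 2) (Real.exp (5 * (c₁ / 2))), c₁ / 2,
    le_trans (Real.exp_pos _).le (le_max_right _ _), by positivity, ?_, ?_⟩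
  · intro R hR
    have h1 : Real.exp (5 * (c₁ / 2)) * Real.exp (-(c₁ / 2) * R) ≤ max (6 * pdM CP Kc * a2 + 1 / 2 + 6 * pdM CP Kc * a2 ^ 2 + 96 * C₁ * a2 ^ 2) (Real.exp (5 * (c₁ / 2))) * Real.exp (-(c₁ / 2) * R) :=
      mul_le_mul_of_nonneg_right (le_max_right _ _) (Real.exp_pos _).le
    refine le_trans ?_ h1
    rw [← Real.exp_add]
    apply Real.one_le_exp
    have : (R : ℝ) ≤ 5 := by exact_mod_cast hR.le
    nlinarith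
  · intro N R r Y θ₁ hR hr hY hNY hθ
    obtain ⟨e, he⟩ : ∃ e : ℝ, e = Real.exp (-(c₁ / 2) * R) := ⟨_, rfl⟩
    have he0 : 0 < e := by rw [he]; exact Real.exp_pos _
    have he1 : e ≤ 1 := by
      rw [he, Real.exp_le_one_iff]
      have : (0 : ℝ) ≤ R := Nat.cast_nonneg _
      nlinarith
    have hE : pdE CP Kc (R - 4) = 3 * a2 ^ 2 * e ^ 2 := by
      rw [ega_num_pdE CP Kc hM R hR, ← hc₁, ← ha2, ← he]
    have hsq : Real.sqrt (48 * pdM CP Kc ^ 2 * pdE CP Kc (R - 4)) = 12 * pdM CP Kc * a2 * e := by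
      rw [hE]
      have : 48 * pdM CP Kc ^ 2 * (3 * a2 ^ 2 * e ^ 2) = (12 * pdM CP Kc * a2 * e) ^ 2 := by ring
      rw [this, Real.sqrt_sq (by positivity)]
    refine ⟨e, he0, ?_⟩
    rw [hsq, hE, ← he]
    refine ega_num_core (pdM CP Kc) a2 C₁ e N ((r : ℝ) ^ 2) Y θ₁ _ hM0 ha20.le he0 he1 ?_ ?_ ?_ hY hθ hC (le_max_left _ _)
    · rcases Nat.eq_zero_or_pos N with h | h
      · left; exact_mod_cast h
      · right; exact_mod_cast h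
    · intro h
      exact hNY (by exact_mod_cast h)
    · have : (1 : ℝ) ≤ r := by exact_mod_cast hr
      nlinarith

/-- L-GA-NUM.   `c0 = 1/(3 (M + 1))`, `K = 3 exp (4 c0) C₁ / 2`. -/
theorem ega_num_pin (CP Kc C₁ : ℝ) (hM : 2 ≤ pdM CP Kc) (hC : 0 ≤ C₁) : ∃ K c0 : ℝ, 0 ≤ K ∧ 0 < c0 ∧ ∀ N R : ℕ, 5 ≤ R →
    (N : ℝ) * pdE CP Kc (R - 4) * C₁ / 2 ≤ K * (N : ℝ) * Real.exp (-c0 * R) := by
  refine ⟨3 * Real.exp (2 * (1 / (3 * (pdM CP Kc + 1)))) ^ 2 * C₁ / 2, 1 / (3 * (pdM CP Kc + 1)), by positivity, by positivity, ?_⟩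
  intro N R hR
  rw [ega_num_pdE CP Kc hM R hR]
  refine le_of_eq ?_
  have : Real.exp (-(1 / (3 * (pdM CP Kc + 1)) / 2) * R) ^ 2 = Real.exp (-(1 / (3 * (pdM CP Kc + 1))) * R) := by
    rw [← Real.exp_nat_mul]
    congr 1
    push_cast
    ring
  rw [this]
  ring

theorem ega_sep {T : Finset (C3.Cell m₁ m₂)} {cutF : Finset (C3.Cell m₁ m₂ × Bool)} {M : EgWMark m₁ m₂} {R : ℕ} (hM : M.Geo (egSh T cutF) R) (hR : 5 ≤ R) :
    ∀ κ ∈ M.p, ∀ κ' ∈ M.H, (R - 4) + 4 ≤ geoDist κ' κ := by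
  intro κ hκ κ' hκ'
  obtain ⟨U, hU⟩ := ega_exists_U hM
  have h1 := hU.far κ' hκ' κ (hU.sub (hM.p_sub hκ)) (fun h => Finset.disjoint_left.1 hM.disj h hκ)
  rw [ega_wd_eq] at h1
  omega

/-- the estimate for `R ≥ 5`, before the numerics -/
theorem ega_moment_big {T : Finset (C3.Cell m₁ m₂)} {cutF : Finset (C3.Cell m₁ m₂ × Bool)} {M : EgWMark m₁ m₂} {R : ℕ} (hM : M.Geo (egSh T cutF) R) (hR : 5 ≤ R)
    {s : ℕ} (hs : 1 ≤ s) {a : ℝ} (ha : 0 < a) (top : Bool) (y : C3.Cell m₁ m₂ → ℝ) {θ₁ μ : ℝ} (hθ : 0 ≤ θ₁) (hμ : 0 < μ) (r : ℕ) (hr : 1 ≤ r) :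
    egWG (egSh T cutF) M s a top y (egPhi θ₁ (egWDE (egSh T cutF) M a s y / 2) r)
      ≤ (2 * (θ₁ + Real.sqrt (48 * pdM (locCP 1 a) (locK a) ^ 2 * pdE (locCP 1 a) (locK a) (R - 4)) * ((m₁ * m₂ : ℕ) : ℝ) * (∑ κ ∈ T, y κ ^ 2) / 2
          + μ * (∑ κ ∈ T, y κ ^ 2) / 2
          + (1 + μ⁻¹) * (pdM (locCP 1 a) (locK a) * pdE (locCP 1 a) (locK a) (R - 4) * (∑ κ ∈ T, y κ ^ 2) + 16 * (r : ℝ) ^ 2 *
            (((m₁ * m₂ : ℕ) : ℝ) * pdE (locCP 1 a) (locK a) (R - 4) * (pdM (locCP 1 a) (locK a) + 16 / 3 * (2 * locK a * locCR 1 a) ^ 2))))) ^ r := by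
  rw [ega_WG_eq T cutF M s ha]
  have hok := loc_ok (egSh T cutF) (g := egGr m₁ m₂ s) ∅ hs (ega_scale hs) ha
  refine ega_gen_moment (ega_pair_inst hM hs ha) top _ (ega_gVar_le_Y (egSh T cutF) rfl s ha y)
    (ega_loc_gap_mean (egSh T cutF) hs (ega_scale hs) ha M.p M.H (r := R - 4) (by omega) (ega_sep hM hR))
    (mul_nonneg (by linarith [pd_pdM_two_le hok]) (pdE_nonneg _ _ _))
    (ega_loc_gap_le (egSh T cutF) hs (ega_scale hs) ha M.p M.H (r := R - 4) (by omega) (ega_sep hM hR))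
    (ega_quad_le hM hs ha y) hθ hμ r hr

end

end Claimed.Agent.R285.Entry
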