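import Claimed.Agent.R285.Entry.GoodEx
import Claimed.Agent.R285.Entry.GoodGaInst

/-!
# ROW 285, post BP-ENT-GOOD, package GA: THE QUANTITATIVE GAUSSIAN ESTIMATES OF THE ONE-MARK IDENTITY      (contract: helper109)

[F] `cutoff-entry.tex` l.1853-1880, l.1930-1945 = [B] (9.23).   Window side only, DISCRETE Gaussian references on the graphs `Γ.graph (egGr m₁ m₂ s)`, uniformly in the mesh `s`, in the window and in the shape.  No lattice law, no limit.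
EXITS: `eg_ga_moment`, `eg_ga_pin`, `eg_ga_DE`.      ARCHITECT of the proofs: helper269 (18:30Z).  The three exits are PROVED below from the leaves `L-GA-*` of `Entry/GoodGaGen.lean` (generic), `GoodGaDec.lean` (decay core), `GoodGaGeo.lean` (window instances), `GoodGaInst.lean` (assembly; MAP in its header).

## Mathematics (complete; all forms on the sites of the box)
`Q_t = a⁻¹ 𝓔_t + |B·|²`, `t = c` (cut box `Γ`), `o` (restored, `C3.uncut Γ M.F`): `Q_o = Q_c + N`, `N ≥ 0` carried by the core `A = sites M.H`.   `P = sites M.p` (guard), `f = Γ.cellTest y = Bᵀ y`.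
POT-LIN (`Pot/LinCond.lean`, `LinMeas.lean`, `LinDet.lean`; `plZ = C3.gZ` etc. by `rfl`):
  `gcLap_t f u = ⟨f, plHarm_t P u⟩ + gVar (plPin H_t P) f / 2`,   `grPin u = exp (- q(u) / 2)`, `q = plGap H_c a P A ≥ 0`,   `gExT H a ∅ f Ψ = ∫ Ψ (φ + plGf H a ∅ f) d(plMeas H a ∅)`.
So  `x' - x + θ₂ = lin (y, u) + quad (y)`,  `lin = ⟨f, plHarm_o P u - plHarm_c P u⟩`,  `quad = ½ [gVar_o^P f - gVar_c^P f] + ½ [E_{o_i}(y) - E_{c_i}(y)]`,  `egLg (grPin u) ≤ q(u)/2`.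
 (D3) `lin² ≤ [gVar_c^P f - gVar_o^P f] · [plEn_o P u - plEn_c P u] ≤ |y|² q(u)`.   Proof: `J_t (σ) = min_{φ = u on P} Q_t φ - 2σ⟨f, φ⟩ = plEn_t P u - 2σ ⟨f, plHarm_t P u⟩ - σ² gVar_t^P f`; `J_o ≥ J_c` for all `σ` (`Q_o ≥ Q_c`): discriminant.
      `plEn_o P u ≤ Q_o (w) = Q_c (w)` for the minimiser `w` with the additional zero pin on `A` (`N w = 0`);  `gVar_c^P f ≤ |y|²` (`2⟨y, Bφ⟩ - |Bφ|² ≤ |y|²`).     GENERIC (no decay).   Hence `|lin| ≤ ½ (μ |y|² + q/μ)` for every `μ > 0`.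
 (D1) `∫ q(φ) d(plMeas H_top a ∅) ≤ ε₁ := K N^k e^{-c0 R}`.   `q(u) = min {Q_c v : v = 0 on P, v = - h_u on A} ≤ Q_c (χ h_u)`, `h_u = plHarm_c P u`, `χ` = cutoff of the cells of `A`.  For `top = c`: `φ ↦ h_φ` is the orthogonal projection on the
      harmonic predictions, `E Q_c (χ h_φ) = ∑_j Q_c (χ u_j)` over an orthonormal basis: `Pot.pd_trace_cut` (POT-DECAY v2, `Pot/DecHS.lean`).   For `top = o`: `q ∘ res_P` is a sum of squares of linear forms and `gVar_o ≤ gVar_c`.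
 (D2) `q (m) ≤ ε₂ |y|²`, `m = plGf H_top a ∅ f` (the mean of the tilted law): `q(m) ≤ Q_c (χ h_m) ≤ M · (energy of h_m near A) ≤ M pdE(r) Q_c (h_m)` (`pd_tail`: `h_m` is harmonic off `P`), `Q_c (h_m) ≤ Q_c (m) ≤ Q_top (m) = gVar_top f ≤ |y|²`.
 (D4) `|quad| ≤ ε₄ |y|²`: FOUR-GRAPH estimate.  `quad = -½ ∑_{j,j'} y_j y_j' D(j,j')`, `D = [𝒢_c^P - 𝒢_o^P] - [𝒢_{c_i} - 𝒢_{o_i}]` on the rows of the cells.   `Pot.pd_compare_entry` twice: pinned box / open patch AGREE on the cells of `M.D`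
      (`sepG`), cut / restored AGREE off the cells of `M.H`; so `|D(j,j')| ≤ 4M min (√(pdE b_j pdE b_j'), √(pdE d_j pdE d_j'))`, `b_j = dist (j, Dᶜ)`, `d_j = dist (j, H)`, `b_j + d_j ≥ R` (`far`), `min (x, y) ≤ √(x y)`.
 (M)  moments: `q (φ + m) ≤ 2 q(φ) + 2 q(m)`;  `q(φ) = ∑_k ⟨g_k, φ⟩²` (`pl_form_comp_eq`), `⟨g_k, φ⟩ ~ N(0, σ_k²)` (`pl_meas_map_pair`), `∑ σ_k² = E q`;  `(∑_k a_k)^r ≤ (∑ σ_k²)^{r-1} ∑_k σ_k² (a_k/σ_k²)^r`
      (`Real.inner_le_Lp_mul_Lq` / `Real.pow_arith_mean_le_arith_mean_pow`), `E g^{2r} ≤ (2r)! e^{1/2} σ^{2r}` (from the mgf: `x^{2r}/(2r)! ≤ cosh x`), so `E q^r ≤ (C r² E q)^r`.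
 (END) `egPhi θ₁ θ₂ r .. ≤ (θ₁ + q/2 + ½(μ|y|² + q/μ) + ε₄|y|²)^r`, `μ = √ε₁`-like; `(a+b+c+d)^r ≤ 4^{r-1} (a^r + ..)`; small `R`: `egPhi ≤ 1` and `K` large.
 (PIN) `gPin ≤ ½ ∫ plGap` (`Pot.pl_gPin_le_jensen`) `≤ ½ ε₁` in the cut open patch (same proof as (D1), `top = c`).
 (DE)  `0 ≤ E_o - E_c ≤ |y|²`-type bound (only boundedness is needed by the consumer): `gEn` is monotone in the form and `0 ≤ gEn a 0 c ≤ |c|²` (trial field `0`).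
**v2 (18:20Z) `far` is RELATIVE TO `U`** (geometry v2 of the engine: an isolated vertex tile touches the core of an edge event across a cut ring).  `U` = union of components of the restored geometry, `M.O ⊆ U`; the distances `b_j`, `d_j` are taken
      for the adjacency `adj' i j := adj i j ∧ (i ∈ U ↔ j ∈ U)` and the cutoffs `cut' J x := if blk x ∈ U then cut (J ∩ U) x else cut (J \ U) x`: no row of any of the four systems straddles `U` and `Uᶜ`, so `PdOk A S → PdOk A' S` (abstract lemma, row by row);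
      off `U` cut / restored box coincide and the patches are empty, so all differences vanish there.      [helper269: implemented differently, by decoupling of the Green forms: header of `Entry/GoodGaGeo.lean`.]
INSTANCE: `PdAmb`, `PdSys` for the laws `egLw Γ s` on the ambient sites of the window (absent cells pinned): `Pot/DecGeo.lean`, `Pot/DecLaw.lean` (helper126), `Pot/DecGraph.lean` (helper111).
-/

set_option autoImplicit false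

namespace Claimed.Agent.R285.Entry

open scoped BigOperators
open Claimed.Agent.R285

noncomputable section

theorem ega_pdM_two_le {a : ℝ} (ha : 0 < a) : 2 ≤ Pot.pdM (Sec.locCP 1 a) (Sec.locK a) := by
  have h1 : 0 ≤ Sec.locCP 1 a := by unfold Sec.locCP; positivity
  have h2 : 0 ≤ Sec.locK a := by unfold Sec.locK; positivity
  unfold Pot.pdM
  nlinarith [mul_nonneg h1 h2]

/-- an empty core is infinitely far from everything -/
theorem ega_geo_of_empty {m₁ m₂ : ℕ} {Γ : CGeom m₁ m₂} {M : EgWMark m₁ m₂} {R : ℕ} (hM : M.Geo Γ R) (hH : M.H = ∅) (R' : ℕ) : M.Geo Γ R' :=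
  { hM with far := hM.far.imp fun _ h => ⟨h.1, h.2.1, fun κ hκ => by rw [hH] at hκ; exact absurd hκ (Finset.notMem_empty κ)⟩ }

/-- **(ent:prediction) + the bound of `‖Θ^{up}_{i,g}‖_{L^r}`**, [F] l.1930-1945. -/
theorem eg_ga_moment (a : ℝ) (ha : 0 < a) : ∃ (K c0 : ℝ) (k : ℕ), 0 ≤ K ∧ 0 < c0 ∧ ∀ (m₁ m₂ s : ℕ), 1 ≤ s →
    ∀ (T : Finset (C3.Cell m₁ m₂)) (cutF : Finset (C3.Cell m₁ m₂ × Bool)) (M : EgWMark m₁ m₂) (R : ℕ), M.Geo (egSh T cutF) R →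
    ∀ (top : Bool) (y : C3.Cell m₁ m₂ → ℝ) (θ₁ : ℝ), 0 ≤ θ₁ → ∀ r : ℕ, 1 ≤ r →
      egWG (egSh T cutF) M s a top y (egPhi θ₁ (egWDE (egSh T cutF) M a s y / 2) r)
        ≤ (4 * (θ₁ + K * ((m₁ * m₂ : ℕ) : ℝ) ^ k * (r : ℝ) ^ k * Real.exp (-c0 * R) * (1 + ∑ κ ∈ T, y κ ^ 2))) ^ r := by
  have hM2 : 2 ≤ Pot.pdM (Sec.locCP 1 a) (Sec.locK a) := ega_pdM_two_le ha
  obtain ⟨K, c0, hK, hc0, hsmall, hbig⟩ := ega_num_final (Sec.locCP 1 a) (Sec.locK a)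
    (Pot.pdM (Sec.locCP 1 a) (Sec.locK a) + 16 / 3 * (2 * Sec.locK a * Sec.locCR 1 a) ^ 2) hM2 (by positivity)
  refine ⟨K, c0, 2, hK, hc0, ?_⟩
  intro m₁ m₂ s hs T cutF M R hM top y θ₁ hθ r hr
  have hY : 0 ≤ ∑ κ ∈ T, y κ ^ 2 := Finset.sum_nonneg fun κ _ => sq_nonneg _
  have hN0 : m₁ * m₂ = 0 → ∑ κ ∈ T, y κ ^ 2 = 0 := by
    intro h0
    have hemp : IsEmpty (C3.Cell m₁ m₂) := by
      rw [← Fintype.card_eq_zero_iff, Fintype.card_prod, Fintype.card_fin, Fintype.card_fin]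
      exact h0
    rw [Finset.eq_empty_of_isEmpty T, Finset.sum_empty]
  -- the estimate for a separation `R' ≥ 5`
  have main : ∀ R' : ℕ, 5 ≤ R' → M.Geo (egSh T cutF) R' →
      egWG (egSh T cutF) M s a top y (egPhi θ₁ (egWDE (egSh T cutF) M a s y / 2) r)
        ≤ (4 * (θ₁ + K * ((m₁ * m₂ : ℕ) : ℝ) ^ 2 * (r : ℝ) ^ 2 * Real.exp (-c0 * R') * (1 + ∑ κ ∈ T, y κ ^ 2))) ^ r := by
    intro R' hR' hM'
    obtain ⟨μ, hμ, hle⟩ := hbig (m₁ * m₂) R' r (∑ κ ∈ T, y κ ^ 2) θ₁ hR' hr hY hN0 hθ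
    refine (ega_moment_big hM' hR' hs ha top y hθ hμ r hr).trans (pow_le_pow_left₀ ?_ hle r)
    have h1 := Pot.pdE_nonneg (Sec.locCP 1 a) (Sec.locK a) (R' - 4)
    have h2 : 0 ≤ Pot.pdM (Sec.locCP 1 a) (Sec.locK a) := by linarith
    positivity
  by_cases hR : 5 ≤ R
  · exact main R hR hM
  · have hR := not_le.1 hR
    by_cases hH : M.H = ∅
    · refine (main 5 le_rfl (ega_geo_of_empty hM hH 5)).trans (pow_le_pow_left₀ (by positivity) ?_ r)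
      have h1 : Real.exp (-c0 * ((5 : ℕ) : ℝ)) ≤ Real.exp (-c0 * (R : ℝ)) := by
        apply Real.exp_le_exp.2
        have : (R : ℝ) ≤ ((5 : ℕ) : ℝ) := by exact_mod_cast hR.le
        nlinarith
      have h2 : 0 ≤ K * ((m₁ * m₂ : ℕ) : ℝ) ^ 2 * (r : ℝ) ^ 2 := by positivity
      have h3 : 0 ≤ 1 + ∑ κ ∈ T, y κ ^ 2 := by linarith
      have h4 := mul_le_mul_of_nonneg_right (mul_le_mul_of_nonneg_left h1 h2) h3
      linarith
    · obtain ⟨κ, _⟩ := Finset.nonempty_iff_ne_empty.2 hH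
      have hN : 1 ≤ m₁ * m₂ := by
        have h1 : 0 < Fintype.card (C3.Cell m₁ m₂) := Fintype.card_pos_iff.2 ⟨κ⟩
        rwa [Fintype.card_prod, Fintype.card_fin, Fintype.card_fin] at h1
      have h1 : egWG (egSh T cutF) M s a top y (egPhi θ₁ (egWDE (egSh T cutF) M a s y / 2) r) ≤ 1 := by
        rw [ega_WG_eq T cutF M s ha]
        exact ega_gen_le_one (ega_pair_inst hM hs ha) top _ hθ r
      refine h1.trans (one_le_pow₀ ?_)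
      have h2 := hsmall R hR
      have hN' : (1 : ℝ) ≤ ((m₁ * m₂ : ℕ) : ℝ) ^ 2 := one_le_pow₀ (by exact_mod_cast hN)
      have hr' : (1 : ℝ) ≤ (r : ℝ) ^ 2 := one_le_pow₀ (by exact_mod_cast hr)
      have h3 : 1 ≤ K * ((m₁ * m₂ : ℕ) : ℝ) ^ 2 * (r : ℝ) ^ 2 * Real.exp (-c0 * R) * (1 + ∑ κ ∈ T, y κ ^ 2) := by
        have e1 : K * ((m₁ * m₂ : ℕ) : ℝ) ^ 2 * (r : ℝ) ^ 2 * Real.exp (-c0 * R) * (1 + ∑ κ ∈ T, y κ ^ 2)
            = (K * Real.exp (-c0 * R)) * (((m₁ * m₂ : ℕ) : ℝ) ^ 2 * ((r : ℝ) ^ 2 * (1 + ∑ κ ∈ T, y κ ^ 2))) := by ring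
        rw [e1]
        have e2 : (1 : ℝ) ≤ (r : ℝ) ^ 2 * (1 + ∑ κ ∈ T, y κ ^ 2) := by nlinarith
        have e3 : (1 : ℝ) ≤ ((m₁ * m₂ : ℕ) : ℝ) ^ 2 * ((r : ℝ) ^ 2 * (1 + ∑ κ ∈ T, y κ ^ 2)) := by nlinarith
        nlinarith
      linarith

/-- **`d_{i,g} ≤ C e^{-cR}`** in the cut open patch. -/
theorem eg_ga_pin (a : ℝ) (ha : 0 < a) : ∃ (K c0 : ℝ) (k R1 : ℕ), 0 ≤ K ∧ 0 < c0 ∧ ∀ (m₁ m₂ s : ℕ), 1 ≤ s →
    ∀ (T : Finset (C3.Cell m₁ m₂)) (cutF : Finset (C3.Cell m₁ m₂ × Bool)) (M : EgWMark m₁ m₂) (R : ℕ), R1 ≤ R → M.Geo (egSh T cutF) R →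
      (egLw (egWPc (egSh T cutF) M) s).gPin a ((egWPc (egSh T cutF) M).sites (egGr m₁ m₂ s) (egWPc (egSh T cutF) M).pin)
          ((egWPc (egSh T cutF) M).sites (egGr m₁ m₂ s) M.H) ((egWPc (egSh T cutF) M).sites (egGr m₁ m₂ s) M.p)
        ≤ K * ((m₁ * m₂ : ℕ) : ℝ) ^ k * Real.exp (-c0 * R) := by
  have hM2 : 2 ≤ Pot.pdM (Sec.locCP 1 a) (Sec.locK a) := ega_pdM_two_le ha
  obtain ⟨K, c0, hK, hc0, hle⟩ := ega_num_pin (Sec.locCP 1 a) (Sec.locK a)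
    (Pot.pdM (Sec.locCP 1 a) (Sec.locK a) + 16 / 3 * (2 * Sec.locK a * Sec.locCR 1 a) ^ 2) hM2 (by positivity)
  refine ⟨K, c0, 1, 5, hK, hc0, ?_⟩
  intro m₁ m₂ s hs T cutF M R hR hM
  have hpin : (egWPc (egSh T cutF) M).sites (egGr m₁ m₂ s) (egWPc (egSh T cutF) M).pin = ∅ := ega_sites_empty _ _
  rw [hpin, ega_lw_gPin]
  have h1 := Sec.loc_gPin_le (egWPc (egSh T cutF) M) hs (ega_scale hs) ha M.H M.p (r := R - 4) (by omega)
    (fun κ hκ κ' hκ' => by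
      have h2 := ega_sep hM hR κ' hκ' κ hκ
      rwa [Pot.geo_dist_comm] at h2)
  refine h1.trans ?_
  rw [pow_one]
  exact hle (m₁ * m₂) R hR

/-- the proxy exponent is bounded on bounded data -/
theorem eg_ga_DE (a : ℝ) (ha : 0 < a) (m₁ m₂ s : ℕ) (T : Finset (C3.Cell m₁ m₂)) (cutF : Finset (C3.Cell m₁ m₂ × Bool)) (M : EgWMark m₁ m₂)
    (y : C3.Cell m₁ m₂ → ℝ) : |egWDE (egSh T cutF) M a s y| ≤ ∑ κ ∈ T, y κ ^ 2 := by
  have h3 : egWDE (egSh T cutF) M a s y = (egLw (egSh (T ∩ M.O) (cutF \ M.F)) s).gEn a 0 (egCen (egSh (T ∩ M.O) (cutF \ M.F)) y)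
      - (egLw (egSh (T ∩ M.O) cutF) s).gEn a 0 (egCen (egSh (T ∩ M.O) cutF) y) := rfl
  have key : ∀ C : Finset (C3.Cell m₁ m₂ × Bool), 0 ≤ (egLw (egSh (T ∩ M.O) C) s).gEn a 0 (egCen (egSh (T ∩ M.O) C) y) ∧
      (egLw (egSh (T ∩ M.O) C) s).gEn a 0 (egCen (egSh (T ∩ M.O) C) y) ≤ ∑ κ ∈ T, y κ ^ 2 := by
    intro C
    refine ⟨Pot.pl_gEn_nonneg _ ha _ _, ?_⟩
    have h1 := ega_gEn_eq (egSh (T ∩ M.O) C) s ha y
    have h2 := Pot.pl_gVar_nonneg (egLw (egSh (T ∩ M.O) C) s) ha ((egSh (T ∩ M.O) C).cellTest (egGr m₁ m₂ s) y)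
    have h4 : ∑ κ ∈ (egSh (T ∩ M.O) C).T, y κ ^ 2 ≤ ∑ κ ∈ T, y κ ^ 2 :=
      Finset.sum_le_sum_of_subset_of_nonneg Finset.inter_subset_left fun κ _ _ => sq_nonneg _
    linarith
  rw [h3, abs_le]
  constructor <;> linarith [(key cutF).1, (key cutF).2, (key (cutF \ M.F)).1, (key (cutF \ M.F)).2]

end

end Claimed.Agent.R285.Entry
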