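import Claimed.Agent.R285.Entry.GoodEx
import Claimed.Agent.R285.Read.C3
import Claimed.Agent.R285.Pot.LinMean
import Claimed.Agent.R285.Pot.LinOk
import Claimed.Agent.R285.Pot.LinDual
import Claimed.Agent.R285.Sec.Fin

/-!
# ROW 285, post BP-ENT-GOOD, package SOFT: THE SOFT INPUTS, UNIFORMLY ON COMPACT DATA AND FINITELY MANY SHAPES      (architect helper109)

Window side only (`egLw Γ s`, `Γ = egSh T cutF : CGeom m₁ m₂`).   `Read/C3.lean` gives limits along SEQUENCES (`mixed_tilt`, `pin_interaction`, `cond_transfer`: moving temperatures, moving bounded tests and centres, one fixed geometry, one fixed test function).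
Here: "there is `s0` such that for all `s ≥ s0`, all admissible temperatures, all shapes of the `m₁ × m₂` window, all data in a compact set …" ([F] l.1750-1760, l.1893-1905 "Compact subsequences … make this fixed-target conclusion uniform").
METHOD (all three): fix the finite data (`Filter.eventually_all` over the finite types of shapes, marks, `top`, `r ≤ rmax`); `eg_unif_of_seq`: if the claim fails for arbitrarily large `s`, choose `ν k → ∞`, `b k ∈ 𝔅 (ν k)` and data violating it;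
`h𝔅 ν b` is a `C3.Scen`; `g k = egGr m₁ m₂ (ν k)` is `Admissible 1 g ν'` with `ν' k = max (ν k) 1`  (`Scen` for `ν'`: `ν' = ν` eventually; simplest: choose `ν k ≥ k + 1`, so `ν' = ν`); the contract of `C3` contradicts the violation for large `k`.
Leaves: L-ENT-SOFT-OK, L-ENT-SOFT-A, L-ENT-SOFT-PIN, L-ENT-SOFT-GT.
-/

set_option autoImplicit false

namespace Claimed.Agent.R285.Entry

open scoped BigOperators
open Filter Topology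
open Claimed.Agent.R285

noncomputable section

/-- from sequences to thresholds -/
theorem eg_unif_of_seq (P : ℕ → Prop) (h : ∀ ν : ℕ → ℕ, (∀ k, k + 1 ≤ ν k) → ∃ k, P (ν k)) : ∃ s0 : ℕ, ∀ s ≥ s0, P s := by
  by_contra hcon
  push_neg at hcon
  choose ν hν hP using fun k => hcon (k + 1)
  obtain ⟨k, hk⟩ := h ν hν
  exact hP k hk

variable {m₁ m₂ : ℕ}

theorem eg_lw_B (Γ : CGeom m₁ m₂) (s : ℕ) (o : Fin Γ.T.card) (v : (Γ.graph (egGr m₁ m₂ s)).V) :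
    (egLw Γ s).B o v = Γ.avgRow (egGr m₁ m₂ s) {(Γ.T.equivFin.symm o).1} v := by
  show ∑ κ', egRow Γ o κ' * Γ.avgRow (egGr m₁ m₂ s) {κ'} v = _
  rw [Finset.sum_eq_single (Γ.T.equivFin.symm o).1]
  · simp [egRow]
  · intro κ' _ hne
    simp [egRow, hne]
  · intro h
    exact absurd (Finset.mem_univ _) h

/-- zero gradient inside the cells and zero cell averages: the function vanishes -/
theorem eg_lw_inj_aux (Γ : CGeom m₁ m₂) (g : DGrid m₁ m₂) (u : (Γ.graph g).V → ℝ)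
    (hu : ∀ e, u ((Γ.graph g).tgt e) = u ((Γ.graph g).src e))
    (ho : ∀ κ ∈ Γ.T, ∑ v, Γ.avgRow g {κ} v * u v = 0) : u = 0 := by
  funext x
  obtain ⟨κ, hκ, hx⟩ : ∃ κ ∈ Γ.T, domPos (D := g.region Γ.T) (cut := Γ.cutB g) x ∈ g.cell κ := Finset.mem_biUnion.1 x.2
  have h1 := ho κ hκ
  have hreg : g.region {κ} = g.cell κ := by simp [DGrid.region]
  have hmem : ∀ v : (Γ.graph g).V, v ∈ Γ.sites g {κ} ↔ domPos (D := g.region Γ.T) (cut := Γ.cutB g) v ∈ g.cell κ := by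
    intro v
    show domPos v ∈ (↑(g.region {κ}) : Set (ℤ × ℤ)) ↔ _
    rw [hreg, Finset.mem_coe]
  have hc : 0 < ((g.region ({κ} ∩ Γ.T)).card : ℝ)⁻¹ := by
    have e1 : ({κ} ∩ Γ.T : Finset (Fin m₁ × Fin m₂)) = {κ} := Finset.inter_eq_left.2 (Finset.singleton_subset_iff.2 hκ)
    rw [e1, hreg]
    exact inv_pos.2 (Nat.cast_pos.2 (Finset.card_pos.2 ⟨_, hx⟩))
  have h2 : ∀ v, Γ.avgRow g {κ} v * u v = Γ.avgRow g {κ} v * u x := by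
    intro v
    unfold CGeom.avgRow
    by_cases hv : v ∈ Γ.sites g {κ}
    · rw [if_pos hv, Sec.sec_cell_const Γ g u hu hκ v x ((hmem v).1 hv) hx]
    · rw [if_neg hv, zero_mul, zero_mul]
  simp only [h2] at h1
  rw [← Finset.sum_mul] at h1
  have h3 : 0 < ∑ v, Γ.avgRow g {κ} v := by
    refine Finset.sum_pos' (fun v _ => ?_) ⟨x, Finset.mem_univ _, ?_⟩
    · unfold CGeom.avgRow
      split_ifs
      exacts [hc.le, le_rfl]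
    · unfold CGeom.avgRow
      rw [if_pos ((hmem x).2 hx)]
      exact hc
  exact (mul_eq_zero.1 h1).resolve_left h3.ne'

theorem eg_lw_inj (Γ : CGeom m₁ m₂) (s : ℕ) (u : (Γ.graph (egGr m₁ m₂ s)).V → ℝ)
    (hu : ∀ e, u ((Γ.graph (egGr m₁ m₂ s)).tgt e) = u ((Γ.graph (egGr m₁ m₂ s)).src e))
    (ho : ∀ o, ∑ v, (egLw Γ s).B o v * u v = 0) : u = 0 := by
  refine eg_lw_inj_aux Γ _ u hu fun κ hκ => ?_
  have h1 := ho (Γ.T.equivFin ⟨κ, hκ⟩)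
  rw [← h1]
  refine Finset.sum_congr rfl fun v _ => ?_
  rw [eg_lw_B, Equiv.symm_apply_apply]

/-- integer version -/
theorem eg_lw_inj_int (Γ : CGeom m₁ m₂) (s : ℕ) (h : (Γ.graph (egGr m₁ m₂ s)).V → ℤ) (h0 : (egLw Γ s).coord h = 0) : h = 0 := by
  have h1 : ∀ e, h ((Γ.graph (egGr m₁ m₂ s)).tgt e) - h ((Γ.graph (egGr m₁ m₂ s)).src e) = 0 :=
    fun e => congrFun (congrArg Prod.fst h0) e
  have h2 : ∀ o, ∑ v, (egLw Γ s).B o v * (2 * Real.pi * (h v : ℝ)) = 0 := fun o => congrFun (congrArg Prod.snd h0) o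
  have h3 := eg_lw_inj Γ s (fun v => (h v : ℝ)) (fun e => by
    have := h1 e
    have h4 : h ((Γ.graph (egGr m₁ m₂ s)).tgt e) = h ((Γ.graph (egGr m₁ m₂ s)).src e) := by omega
    simp only [h4]) (fun o => by
    have := h2 o
    have e1 : ∑ v, (egLw Γ s).B o v * (2 * Real.pi * (h v : ℝ)) =
        2 * Real.pi * ∑ v, (egLw Γ s).B o v * (h v : ℝ) := by
      rw [Finset.mul_sum]
      exact Finset.sum_congr rfl fun v _ => by ring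
    rw [e1] at this
    exact (mul_eq_zero.1 this).resolve_left (by positivity))
  funext v
  have := congrFun h3 v
  simpa using this

/-- L-ENT-SOFT-OK: every constant is confined.  PLAN: as `F4a.tl_real_inj`, `law_proper`, `law_ok` (`F4a/Tilt.lean`): a real field with vanishing gradients on the bonds of the graph is constant on every cell (a cell is a rectangle
`Ico × Ico`; the bonds inside a cell are never in `Γ.cutB`: a cut bond leaves its cell), its cell average vanishes, so it is zero; `HLaw.ok_of_real_injective`. -/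
theorem eg_lw_gd (Γ : CGeom m₁ m₂) (hp : Γ.pin = ∅) (s : ℕ) {b : ℝ} (hb : 0 < b) : Pins.T32.Gd (egLw Γ s) b := by
  exact ⟨hb, fun h _ h0 => eg_lw_inj_int Γ s h h0,
    HLaw.ok_of_real_injective _ b hb fun u _ hu ho => eg_lw_inj Γ s u hu ho⟩

/-- L-ENT-SOFT-OK -/
theorem eg_gr_admissible (ν : ℕ → ℕ) (hν : ∀ k, k + 1 ≤ ν k) : Admissible 1 (fun k => egGr m₁ m₂ (ν k)) ν := by
  refine ⟨tendsto_atTop_mono (fun k => (Nat.le_succ k).trans (hν k)) tendsto_id, fun k => ?_⟩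
  have h1 : max (ν k) 1 = ν k := max_eq_left ((Nat.succ_le_succ (Nat.zero_le k)).trans (hν k))
  unfold egGr DGrid.SideGe DGrid.SideLe DGrid.unif
  simp only [h1, Fin.val_succ, Fin.val_castSucc]
  push_cast
  refine ⟨⟨fun i => ?_, fun j => ?_⟩, ⟨fun i => ?_, fun j => ?_⟩⟩ <;> linarith

/-- the quantity of `C3.mixed_tilt` at `t = 0`, `X = 0`, any law -/
theorem eg_sa_gen {G : HGraph} (H : HLaw G) (hP : H.Proper) {a : ℝ} (b : ℝ) (ha : 0 < a) (c : H.O → ℝ) :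
    2 * Real.log ((H.sys b).wT (HLaw.Aff.amb (H := H) ⟨0, 0, c⟩ b) 0 / (H.sys b).w 0) - H.gTilt a 0 c 0
      = 2 * Real.log (H.Z b ⟨0, 0, c⟩ (fun _ => 1) / H.Z b ⟨0, 0, 0⟩ fun _ => 1) + H.gEn a 0 c := by
  rw [HLaw.Z_eq_w _ hP, HLaw.Z_eq_w _ hP]
  have e2 : HLaw.Aff.amb (H := H) ⟨0, 0, 0⟩ b = 0 := by
    unfold HLaw.Aff.amb
    rw [map_zero, zero_add]
    refine Prod.ext rfl ?_
    funext o
    exact neg_zero
  have e3 : ∀ α, (H.sys b).wT α 0 = (H.sys b).w α := fun α => by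
    unfold LSys.wT LSys.w
    simp
  rw [e2, e3, Pot.pl_gTilt_test_zero _ ha, sub_neg_eq_add]

/-- the quantity of `C3.mixed_tilt` at `t = 0`, `X = 0` -/
theorem eg_sa_eq (Γ : CGeom m₁ m₂) (hp : Γ.pin = ∅) (s : ℕ) {a b : ℝ} (ha : 0 < a) (hb : 0 < b) (y : C3.Cell m₁ m₂ → ℝ) :
    2 * Real.log (((C3.lawR Γ (egGr m₁ m₂ s) (egRow Γ)).sys b).wT
          (HLaw.Aff.amb (H := C3.lawR Γ (egGr m₁ m₂ s) (egRow Γ)) ⟨0, 0, egCen Γ y⟩ b) 0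
            / ((C3.lawR Γ (egGr m₁ m₂ s) (egRow Γ)).sys b).w 0)
        - (C3.lawR Γ (egGr m₁ m₂ s) (egRow Γ)).gTilt a 0 (egCen Γ y) (Γ.cellTest (egGr m₁ m₂ s) 0)
      = 2 * Real.log ((egLw Γ s).Z b ⟨0, 0, egCen Γ y⟩ (fun _ => 1) / (egLw Γ s).Z b ⟨0, 0, egCen Γ 0⟩ fun _ => 1)
        + (egLw Γ s).gEn a 0 (egCen Γ y) := by
  have e1 : Γ.cellTest (egGr m₁ m₂ s) 0 = 0 := by
    funext v
    simp [CGeom.cellTest]
  have e2 : egCen Γ 0 = 0 := rfl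
  rw [e1, e2]
  exact eg_sa_gen (egLw Γ s) (eg_lw_gd Γ hp s hb).proper b ha (egCen Γ y)

/-- one shape -/
theorem eg_sa_one {a : ℝ} {𝔅 : ℕ → Set ℝ} (h𝔅 : EgTemp a 𝔅) (Γ : CGeom m₁ m₂) (hp : Γ.pin = ∅) (hΓ : Γ.NoDiag) (U ε : ℝ) (hε : 0 < ε) :
    ∃ s0 : ℕ, ∀ s ≥ s0, ∀ b ∈ 𝔅 s, ∀ y : C3.Cell m₁ m₂ → ℝ, (∀ κ, |y κ| ≤ U) →
        |2 * Real.log ((egLw Γ s).Z b ⟨0, 0, egCen Γ y⟩ (fun _ => 1) / (egLw Γ s).Z b ⟨0, 0, egCen Γ 0⟩ fun _ => 1)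
            + (egLw Γ s).gEn a 0 (egCen Γ y)| ≤ ε := by
  apply eg_unif_of_seq
  intro ν hν
  by_contra hcon
  push Not at hcon
  choose b hb y hy hbad using hcon
  have hadm := eg_gr_admissible (m₁ := m₁) (m₂ := m₂) ν hν
  have hS : C3.Scen a b ν := h𝔅 ν b hadm.1 hb
  obtain ⟨b₀, b₁, hb0, hbb⟩ := hS.b_cpt
  have hbpos : ∀ k, 0 < b k := fun k => lt_of_lt_of_le hb0 (hbb k).1
  have hlim := C3.mixed_tilt Γ (egRow Γ) hS hΓ 1 (fun k => egGr m₁ m₂ (ν k)) hadm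
    (fun k => (eg_lw_gd Γ hp (ν k) (hbpos k)).ok) (fun _ => 0) (fun k => egCen Γ (y k)) |U|
    (fun k κ => by simp) (fun k o => (hy k _).trans (le_abs_self U)) (fun _ => 0)
    (fun k h hh => by simp [CGeom.cellTest])
  simp only [eg_sa_eq Γ hp _ hS.a_pos (hbpos _)] at hlim
  have hev := (Metric.tendsto_atTop.1 hlim) ε hε
  obtain ⟨N, hN⟩ := hev
  have h1 := hN N le_rfl
  rw [Real.dist_eq, sub_zero] at h1
  exact absurd h1 (not_lt.2 (hbad N).le)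

/-- L-ENT-SOFT-A, **`𝒜 → 1` without the cutoffs**, from `C3.mixed_tilt` with `t = 0`, `X = 0`, `c k = egCen Γ (y k)`.
`wT α 0 = w α`, `HLaw.Z_eq_w` (proper), `gTilt a 0 c 0 = - gEn a 0 c` (`Pot.pl_gTilt_test_zero` or directly `Real.iSup_neg`-type manipulation; bounded below by `0`). -/
theorem eg_soft_A {a : ℝ} {𝔅 : ℕ → Set ℝ} (h𝔅 : EgTemp a 𝔅) (m₁ m₂ : ℕ) (U ε : ℝ) (hε : 0 < ε) :
    ∃ s0 : ℕ, ∀ s ≥ s0, ∀ b ∈ 𝔅 s, ∀ (T : Finset (C3.Cell m₁ m₂)) (cutF : Finset (C3.Cell m₁ m₂ × Bool)), (egSh T cutF).NoDiag →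
      ∀ y : C3.Cell m₁ m₂ → ℝ, (∀ κ, |y κ| ≤ U) →
        |2 * Real.log ((egLw (egSh T cutF) s).Z b ⟨0, 0, egCen (egSh T cutF) y⟩ (fun _ => 1)
              / (egLw (egSh T cutF) s).Z b ⟨0, 0, egCen (egSh T cutF) 0⟩ fun _ => 1)
            + (egLw (egSh T cutF) s).gEn a 0 (egCen (egSh T cutF) y)| ≤ ε := by
  have h1 : ∀ p : Finset (C3.Cell m₁ m₂) × Finset (C3.Cell m₁ m₂ × Bool), ∀ᶠ s in atTop, ∀ b ∈ 𝔅 s, (egSh p.1 p.2).NoDiag →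
      ∀ y : C3.Cell m₁ m₂ → ℝ, (∀ κ, |y κ| ≤ U) →
        |2 * Real.log ((egLw (egSh p.1 p.2) s).Z b ⟨0, 0, egCen (egSh p.1 p.2) y⟩ (fun _ => 1)
              / (egLw (egSh p.1 p.2) s).Z b ⟨0, 0, egCen (egSh p.1 p.2) 0⟩ fun _ => 1)
            + (egLw (egSh p.1 p.2) s).gEn a 0 (egCen (egSh p.1 p.2) y)| ≤ ε := by
    intro p
    by_cases hΓ : (egSh p.1 p.2).NoDiag
    · obtain ⟨s0, hs0⟩ := eg_sa_one h𝔅 (egSh p.1 p.2) rfl hΓ U ε hε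
      exact eventually_atTop.2 ⟨s0, fun s hs b hb _ => hs0 s hs b hb⟩
    · exact Eventually.of_forall fun s b _ h => absurd h hΓ
  obtain ⟨s0, hs0⟩ := eventually_atTop.1 (eventually_all.2 h1)
  exact ⟨s0, fun s hs b hb T cutF hΓ => hs0 s hs (T, cutF) b hb hΓ⟩

/-- one fixed shape and one fixed pair of pins -/
theorem eg_soft_pin_one {a : ℝ} {𝔅 : ℕ → Set ℝ} (h𝔅 : EgTemp a 𝔅) (ε : ℝ) (hε : 0 < ε)
    (Γ : CGeom m₁ m₂) (hp : Γ.pin = ∅) (hΓ : Γ.NoDiag) (A p : Finset (C3.Cell m₁ m₂)) (hsep : C3.Sep A p) :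
    ∃ s0 : ℕ, ∀ s ≥ s0, ∀ b ∈ 𝔅 s,
      |(egLw Γ s).dPin b (Γ.sites (egGr m₁ m₂ s) A) (Γ.sites (egGr m₁ m₂ s) p)
        - (egLw Γ s).gPin a (Γ.sites (egGr m₁ m₂ s) Γ.pin)
            (Γ.sites (egGr m₁ m₂ s) A) (Γ.sites (egGr m₁ m₂ s) p)| ≤ ε := by
  refine eg_unif_of_seq _ fun ν hν => ?_
  by_contra hcon
  push Not at hcon
  choose b hb hviol using hcon
  have hνt : Tendsto ν atTop atTop :=
    tendsto_atTop_mono (fun k => (Nat.le_succ k).trans (hν k)) tendsto_id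
  have hS : C3.Scen a b ν := h𝔅 ν b hνt hb
  obtain ⟨b₀, b₁, hb0, hbb⟩ := hS.b_cpt
  have hgd : ∀ k, Pins.T32.Gd (egLw Γ (ν k)) (b k) := fun k =>
    eg_lw_gd Γ hp (ν k) (hb0.trans_le (hbb k).1)
  have hlim := C3.pin_interaction Γ (egRow Γ) hS hΓ hp 1 (fun k => egGr m₁ m₂ (ν k))
    (eg_gr_admissible ν hν) (fun k => (hgd k).proper) (fun k => (hgd k).ok) A p hsep
  have hev := (Metric.tendsto_nhds.1 hlim) ε hε
  obtain ⟨k, hk⟩ := hev.exists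
  rw [Real.dist_eq, sub_zero] at hk
  exact absurd hk (not_lt.2 (hviol k).le)

/-- L-ENT-SOFT-PIN, **`d_{i,s} → d_{i,g}`**, from `C3.pin_interaction`. -/
theorem eg_soft_pin {a : ℝ} {𝔅 : ℕ → Set ℝ} (h𝔅 : EgTemp a 𝔅) (m₁ m₂ : ℕ) (ε : ℝ) (hε : 0 < ε) :
    ∃ s0 : ℕ, ∀ s ≥ s0, ∀ b ∈ 𝔅 s, ∀ (T : Finset (C3.Cell m₁ m₂)) (cutF : Finset (C3.Cell m₁ m₂ × Bool)), (egSh T cutF).NoDiag →
      ∀ A p : Finset (C3.Cell m₁ m₂), C3.Sep A p →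
        |(egLw (egSh T cutF) s).dPin b ((egSh T cutF).sites (egGr m₁ m₂ s) A) ((egSh T cutF).sites (egGr m₁ m₂ s) p)
          - (egLw (egSh T cutF) s).gPin a ((egSh T cutF).sites (egGr m₁ m₂ s) (egSh T cutF).pin)
              ((egSh T cutF).sites (egGr m₁ m₂ s) A) ((egSh T cutF).sites (egGr m₁ m₂ s) p)| ≤ ε := by
  have key : ∀ x : Finset (C3.Cell m₁ m₂) × Finset (C3.Cell m₁ m₂ × Bool) × Finset (C3.Cell m₁ m₂) ×
      Finset (C3.Cell m₁ m₂), ∀ᶠ s in atTop, ∀ b ∈ 𝔅 s, (egSh x.1 x.2.1).NoDiag → C3.Sep x.2.2.1 x.2.2.2 →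
        |(egLw (egSh x.1 x.2.1) s).dPin b ((egSh x.1 x.2.1).sites (egGr m₁ m₂ s) x.2.2.1)
            ((egSh x.1 x.2.1).sites (egGr m₁ m₂ s) x.2.2.2)
          - (egLw (egSh x.1 x.2.1) s).gPin a ((egSh x.1 x.2.1).sites (egGr m₁ m₂ s) (egSh x.1 x.2.1).pin)
              ((egSh x.1 x.2.1).sites (egGr m₁ m₂ s) x.2.2.1)
              ((egSh x.1 x.2.1).sites (egGr m₁ m₂ s) x.2.2.2)| ≤ ε := by
    rintro ⟨T, cutF, A, p⟩
    by_cases h1 : (egSh T cutF).NoDiag ∧ C3.Sep A p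
    · obtain ⟨s0, hs0⟩ := eg_soft_pin_one h𝔅 ε hε (egSh T cutF) rfl h1.1 A p h1.2
      exact eventually_atTop.2 ⟨s0, fun s hs b hb _ _ => hs0 s hs b hb⟩
    · exact Eventually.of_forall fun s b _ h2 h3 => absurd ⟨h2, h3⟩ h1
  obtain ⟨s0, hs0⟩ := eventually_atTop.1 (eventually_all.2 key)
  exact ⟨s0, fun s hs b hb T cutF hΓ A p hsep => hs0 s hs (T, cutF, A, p) b hb hΓ hsep⟩

/-- lattice expectations are `1`-Lipschitz for the sup norm -/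
theorem eg_gt_lat {G : HGraph} (H : HLaw G) {b : ℝ} (hG : Pins.T32.Gd H b) (fL : G.V → ℝ) (Ψ₁ Ψ₂ : (G.V → ℤ) → ℝ) (C δ : ℝ)
    (h1 : ∀ h, |Ψ₁ h| ≤ C) (h2 : ∀ h, |Ψ₂ h| ≤ C) (hd : ∀ h, |Ψ₁ h - Ψ₂ h| ≤ δ) :
    |C3.ExT H b fL Ψ₁ - C3.ExT H b fL Ψ₂| ≤ δ := by
  have hp := Pins.T32.pn_latM_prob H hG fL
  have e0 : ∀ h : G.V → ℤ, Real.exp (Pins.T32.lin 0 h) = 1 := by
    intro h
    simp [Pins.T32.lin, HLaw.pair]
  have i1 : MeasureTheory.Integrable Ψ₁ (Pins.T32.latM H b fL) :=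
    Pins.T32.pn_integrable H hG fL 0 C Ψ₁ fun h => by rw [e0, mul_one]; exact h1 h
  have i2 : MeasureTheory.Integrable Ψ₂ (Pins.T32.latM H b fL) :=
    Pins.T32.pn_integrable H hG fL 0 C Ψ₂ fun h => by rw [e0, mul_one]; exact h2 h
  rw [Pins.T32.pn_ExT_eq H hG, Pins.T32.pn_ExT_eq H hG, ← MeasureTheory.integral_sub i1 i2]
  have := MeasureTheory.norm_integral_le_of_norm_le_const (μ := Pins.T32.latM H b fL) (C := δ) (f := fun h => Ψ₁ h - Ψ₂ h)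
    (Eventually.of_forall hd)
  simpa using this

/-- Gaussian reference expectations are `1`-Lipschitz for the sup norm (on bounded continuous functionals) -/
theorem eg_gt_gau {G : HGraph} (H : HLaw G) {a : ℝ} (ha : 0 < a) {P : Set G.V} (h : Pot.plPD H P) (fL : G.V → ℝ)
    (Ψ₁ Ψ₂ : (G.V → ℝ) → ℝ) (C δ : ℝ) (c1 : Continuous Ψ₁) (c2 : Continuous Ψ₂)
    (h1 : ∀ φ, |Ψ₁ φ| ≤ C) (h2 : ∀ φ, |Ψ₂ φ| ≤ C) (hd : ∀ φ, |Ψ₁ φ - Ψ₂ φ| ≤ δ) :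
    |C3.gExT H a P fL Ψ₁ - C3.gExT H a P fL Ψ₂| ≤ δ := by
  have hp := Pot.pl_meas_prob H ha h
  show |Pot.plExT H a P fL Ψ₁ - Pot.plExT H a P fL Ψ₂| ≤ δ
  have i1 : MeasureTheory.Integrable (fun φ => Ψ₁ (φ + Pot.plGf H a P fL)) (Pot.plMeas H a P) :=
    MeasureTheory.Integrable.of_bound (c1.comp (continuous_id.add continuous_const)).aestronglyMeasurable C
      (Eventually.of_forall fun φ => h1 _)
  have i2 : MeasureTheory.Integrable (fun φ => Ψ₂ (φ + Pot.plGf H a P fL)) (Pot.plMeas H a P) :=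
    MeasureTheory.Integrable.of_bound (c2.comp (continuous_id.add continuous_const)).aestronglyMeasurable C
      (Eventually.of_forall fun φ => h2 _)
  rw [Pot.pl_ExT_eq H ha h, Pot.pl_ExT_eq H ha h, ← MeasureTheory.integral_sub i1 i2]
  have := MeasureTheory.norm_integral_le_of_norm_le_const (μ := Pot.plMeas H a P) (C := δ)
    (f := fun φ => Ψ₁ (φ + Pot.plGf H a P fL) - Ψ₂ (φ + Pot.plGf H a P fL)) (Eventually.of_forall fun φ => hd _)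
  simpa using this

theorem eg_gt_cLap_cont {G : HGraph} (H : HLaw G) {a : ℝ} (ha : 0 < a) {P : Set G.V} (h : Pot.plPD H P) (f : G.V → ℝ) :
    Continuous (C3.gcLap H a P f) := by
  have e : C3.gcLap H a P f = fun u => HLaw.pair f (Pot.plHarm H a P u) + (Pot.plPin H P).gVar a f / 2 := by
    funext u
    exact Pot.pl_cLap_eq H ha h f u
  rw [e]
  exact ((Pot.pl_pair_continuous f).comp (Pot.pl_harm_continuous H a P)).add continuous_const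

theorem eg_gt_rPin_cont {G : HGraph} (H : HLaw G) {a : ℝ} (ha : 0 < a) {P : Set G.V} (h : Pot.plPD H P) (A : Set G.V) :
    Continuous (C3.grPin H a P A) := by
  have e : C3.grPin H a P A = fun u => Real.exp (-(Pot.plGap H a P A u) / 2) := by
    funext u
    exact Pot.pl_rPin_eq H ha h A u
  rw [e]
  exact Real.continuous_exp.comp (((Pot.pl_gap_continuous H a P A).neg).div_const 2)


theorem eg_gt_WL_lip (Γ : CGeom m₁ m₂) (hp : Γ.pin = ∅) (M : EgWMark m₁ m₂) (s : ℕ) {b : ℝ} (hb : 0 < b) (top : Bool)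
    (y : C3.Cell m₁ m₂ → ℝ) (θ₁ θ₂ θ₁' θ₂' : ℝ) (h : 0 ≤ θ₁) (h' : 0 ≤ θ₁') (r : ℕ) :
    |egWL Γ M s b top y (egPhi θ₁ θ₂ r) - egWL Γ M s b top y (egPhi θ₁' θ₂' r)| ≤ r * (|θ₁ - θ₁'| + |θ₂ - θ₂'|) := by
  have hb1 : ∀ (t₁ t₂ : ℝ), 0 ≤ t₁ → ∀ x x' ρ : ℝ, |egPhi t₁ t₂ r x x' ρ| ≤ 1 := by
    intro t₁ t₂ ht x x' ρ
    have := eg_phi_mem t₁ t₂ ht r x x' ρ
    rw [abs_of_nonneg this.1]
    exact this.2
  unfold egWL
  cases top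
  · simp only [Bool.false_eq_true, if_false]
    exact eg_gt_lat (egLw Γ s) (eg_lw_gd Γ hp s hb) _ _ _ 1 _ (fun _ => hb1 _ _ h _ _ _) (fun _ => hb1 _ _ h' _ _ _)
      (fun _ => eg_phi_lip _ _ _ _ h h' r _ _ _)
  · simp only [if_true]
    exact eg_gt_lat (G := (C3.uncut Γ M.F).graph (egGr m₁ m₂ s)) (C3.lawR (C3.uncut Γ M.F) (egGr m₁ m₂ s) (egRow Γ))
      (eg_lw_gd (C3.uncut Γ M.F) hp s hb) _ _ _ 1 _ (fun _ => hb1 _ _ h _ _ _) (fun _ => hb1 _ _ h' _ _ _)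
      (fun _ => eg_phi_lip _ _ _ _ h h' r _ _ _)

theorem eg_gt_pd (Γ : CGeom m₁ m₂) (hp : Γ.pin = ∅) (s : ℕ) : Pot.plPD (egLw Γ s) (Γ.sites (egGr m₁ m₂ s) Γ.pin) :=
  Pot.pl_PD_of_ok (egLw Γ s) rfl 1 (eg_lw_gd Γ hp s one_pos).ok (eg_lw_gd Γ hp s one_pos).proper

theorem eg_gt_WG_cont (Γ : CGeom m₁ m₂) (hp : Γ.pin = ∅) (M : EgWMark m₁ m₂) (s : ℕ) {a : ℝ} (ha : 0 < a)
    (y : C3.Cell m₁ m₂ → ℝ) (θ₁ θ₂ : ℝ) (r : ℕ) :
    Continuous fun φ : (Γ.graph (egGr m₁ m₂ s)).V → ℝ =>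
      egPhi θ₁ θ₂ r (C3.gcLap (egLw Γ s) a (Γ.sites (egGr m₁ m₂ s) Γ.pin ∪ Γ.sites (egGr m₁ m₂ s) M.p) (Γ.cellTest (egGr m₁ m₂ s) y) φ)
        (C3.gcLapU Γ M.F (egGr m₁ m₂ s) (egRow Γ) a (Γ.sites (egGr m₁ m₂ s) Γ.pin ∪ Γ.sites (egGr m₁ m₂ s) M.p) (Γ.cellTest (egGr m₁ m₂ s) y) φ)
        (C3.grPin (egLw Γ s) a (Γ.sites (egGr m₁ m₂ s) Γ.pin ∪ Γ.sites (egGr m₁ m₂ s) M.p) (Γ.sites (egGr m₁ m₂ s) M.H) φ) := by
  have c1 := eg_gt_cLap_cont (egLw Γ s) ha (Pot.pl_PD_mono _ (eg_gt_pd Γ hp s) (Set.subset_union_left (t := Γ.sites (egGr m₁ m₂ s) M.p)))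
    (Γ.cellTest (egGr m₁ m₂ s) y)
  have c3 := eg_gt_rPin_cont (egLw Γ s) ha (Pot.pl_PD_mono _ (eg_gt_pd Γ hp s) (Set.subset_union_left (t := Γ.sites (egGr m₁ m₂ s) M.p)))
    (Γ.sites (egGr m₁ m₂ s) M.H)
  have c2 : Continuous (C3.gcLapU Γ M.F (egGr m₁ m₂ s) (egRow Γ) a (Γ.sites (egGr m₁ m₂ s) Γ.pin ∪ Γ.sites (egGr m₁ m₂ s) M.p)
      (Γ.cellTest (egGr m₁ m₂ s) y)) :=
    eg_gt_cLap_cont (G := (C3.uncut Γ M.F).graph (egGr m₁ m₂ s)) (egLw (C3.uncut Γ M.F) s) ha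
      (Pot.pl_PD_mono _ (eg_gt_pd (C3.uncut Γ M.F) hp s) (Set.subset_union_left (t := Γ.sites (egGr m₁ m₂ s) M.p)))
      (Γ.cellTest (egGr m₁ m₂ s) y)
  exact (eg_phi_continuous θ₁ θ₂ r).comp (c1.prodMk (c2.prodMk c3))

theorem eg_gt_WG_lip (Γ : CGeom m₁ m₂) (hp : Γ.pin = ∅) (M : EgWMark m₁ m₂) (s : ℕ) {a : ℝ} (ha : 0 < a) (top : Bool)
    (y : C3.Cell m₁ m₂ → ℝ) (θ₁ θ₂ θ₁' θ₂' : ℝ) (h : 0 ≤ θ₁) (h' : 0 ≤ θ₁') (r : ℕ) :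
    |egWG Γ M s a top y (egPhi θ₁ θ₂ r) - egWG Γ M s a top y (egPhi θ₁' θ₂' r)| ≤ r * (|θ₁ - θ₁'| + |θ₂ - θ₂'|) := by
  have hb1 : ∀ (t₁ t₂ : ℝ), 0 ≤ t₁ → ∀ x x' ρ : ℝ, |egPhi t₁ t₂ r x x' ρ| ≤ 1 := by
    intro t₁ t₂ ht x x' ρ
    have := eg_phi_mem t₁ t₂ ht r x x' ρ
    rw [abs_of_nonneg this.1]
    exact this.2
  have k1 := eg_gt_WG_cont Γ hp M s ha y θ₁ θ₂ r
  have k2 := eg_gt_WG_cont Γ hp M s ha y θ₁' θ₂' r
  unfold egWG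
  cases top
  · simp only [Bool.false_eq_true, if_false]
    exact eg_gt_gau (egLw Γ s) ha (eg_gt_pd Γ hp s) _ _ _ 1 _ k1 k2 (fun _ => hb1 _ _ h _ _ _) (fun _ => hb1 _ _ h' _ _ _)
      (fun _ => eg_phi_lip _ _ _ _ h h' r _ _ _)
  · simp only [if_true]
    exact eg_gt_gau (G := (C3.uncut Γ M.F).graph (egGr m₁ m₂ s)) (C3.lawR (C3.uncut Γ M.F) (egGr m₁ m₂ s) (egRow Γ)) ha
      (eg_gt_pd (C3.uncut Γ M.F) hp s) _ _ _ 1 _ k1 k2 (fun _ => hb1 _ _ h _ _ _) (fun _ => hb1 _ _ h' _ _ _)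
      (fun _ => eg_phi_lip _ _ _ _ h h' r _ _ _)

theorem eg_gt_core {a : ℝ} {𝔅 : ℕ → Set ℝ} (h𝔅 : EgTemp a 𝔅) (U η : ℝ) (hη : 0 < η) (Γ : CGeom m₁ m₂) (hp : Γ.pin = ∅)
    (hΓ : Γ.NoDiag) (M : EgWMark m₁ m₂) (hΓ' : (C3.uncut Γ M.F).NoDiag) (hsep : C3.Sep M.H M.p) (hF : ∀ f ∈ M.F, C3.FaceIn M.H f)
    (top : Bool) (r : ℕ) :
    ∃ s0 : ℕ, ∀ s ≥ s0, ∀ b ∈ 𝔅 s, ∀ y : C3.Cell m₁ m₂ → ℝ, (∀ κ, |y κ| ≤ U) → ∀ θ₁ θ₂ : ℝ, 0 ≤ θ₁ → θ₁ ≤ U → |θ₂| ≤ U →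
      egWL Γ M s b top y (egPhi θ₁ θ₂ r) ≤ egWG Γ M s a top y (egPhi θ₁ θ₂ r) + η := by
  apply eg_unif_of_seq
  intro ν hν
  by_contra hcon
  push Not at hcon
  choose b hb y hy θ₁ θ₂ h1 h2 h3 hv using hcon
  have hK : IsCompact (Set.Icc (0 : ℝ) U ×ˢ Set.Icc (-U) U) := isCompact_Icc.prod isCompact_Icc
  obtain ⟨⟨t₁, t₂⟩, ht, φ, hφ, hlim⟩ := hK.tendsto_subseq (x := fun k => (θ₁ k, θ₂ k))
    (fun k => ⟨⟨h1 k, h2 k⟩, abs_le.1 (h3 k)⟩)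
  have ht1 : 0 ≤ t₁ := ht.1.1
  have hl1 : Tendsto (fun k => θ₁ (φ k)) atTop (𝓝 t₁) := (continuous_fst.tendsto _).comp hlim
  have hl2 : Tendsto (fun k => θ₂ (φ k)) atTop (𝓝 t₂) := (continuous_snd.tendsto _).comp hlim
  have hν' : ∀ k, k + 1 ≤ ν (φ k) := fun k => (Nat.succ_le_succ (hφ.le_apply)).trans (hν (φ k))
  have htend : Tendsto (fun k => ν (φ k)) atTop atTop :=
    tendsto_atTop_mono (fun k => (Nat.le_succ k).trans (hν' k)) tendsto_id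
  have hS : C3.Scen a (fun k => b (φ k)) (fun k => ν (φ k)) := h𝔅 _ _ htend (fun k => hb (φ k))
  have ha : 0 < a := hS.a_pos
  obtain ⟨b₀, b₁, hb₀, hbb⟩ := hS.b_cpt
  have hbpos : ∀ k, 0 < b (φ k) := fun k => lt_of_lt_of_le hb₀ (hbb k).1
  have hGd : ∀ k, Pins.T32.Gd (egLw Γ (ν (φ k))) (b (φ k)) := fun k => eg_lw_gd Γ hp _ (hbpos k)
  have hΦc : Continuous fun x : (Fin 1 → ℝ) × (Fin 1 → ℝ) × ℝ => egPhi t₁ t₂ r (x.1 0) (x.2.1 0) x.2.2 :=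
    (eg_phi_continuous t₁ t₂ r).comp
      (f := fun x : (Fin 1 → ℝ) × (Fin 1 → ℝ) × ℝ => ((x.1 0, x.2.1 0, x.2.2) : ℝ × ℝ × ℝ)) (by fun_prop)
  have hΦb : ∀ x : (Fin 1 → ℝ) × (Fin 1 → ℝ) × ℝ, |egPhi t₁ t₂ r (x.1 0) (x.2.1 0) x.2.2| ≤ 1 := by
    intro x
    have := eg_phi_mem t₁ t₂ ht1 r (x.1 0) (x.2.1 0) x.2.2
    rw [abs_of_nonneg this.1]
    exact this.2
  have hct := C3.cond_transfer Γ (egRow Γ) hS hΓ hp 1 (fun k => egGr m₁ m₂ (ν (φ k))) (eg_gr_admissible _ hν')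
    (fun k => (hGd k).proper) (fun k => (hGd k).ok) M.H M.p hsep M.F hF hΓ' (N' := 0) (egRow Γ) (fun o => rfl) (fun o => o.elim0) top
    (J := 1) (J' := 1) (fun _ k => y (φ k)) (fun _ k => y (φ k)) (fun k => y (φ k)) U (fun _ k κ => hy (φ k) κ)
    (fun _ k κ => hy (φ k) κ) (fun k κ => hy (φ k) κ) (fun x => egPhi t₁ t₂ r (x.1 0) (x.2.1 0) x.2.2) hΦc ⟨1, hΦb⟩
  have hct' : Tendsto (fun k => egWL Γ M (ν (φ k)) (b (φ k)) top (y (φ k)) (egPhi t₁ t₂ r)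
      - egWG Γ M (ν (φ k)) a top (y (φ k)) (egPhi t₁ t₂ r)) atTop (𝓝 0) := hct
  have hδ : Tendsto (fun k => (r : ℝ) * (|θ₁ (φ k) - t₁| + |θ₂ (φ k) - t₂|)) atTop (𝓝 0) := by
    have d1 : Tendsto (fun k => |θ₁ (φ k) - t₁|) atTop (𝓝 0) := by
      have := (hl1.sub_const t₁).abs
      simpa using this
    have d2 : Tendsto (fun k => |θ₂ (φ k) - t₂|) atTop (𝓝 0) := by
      have := (hl2.sub_const t₂).abs
      simpa using this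
    have := (d1.add d2).const_mul (r : ℝ)
    simpa using this
  have e1 := hct'.eventually (gt_mem_nhds (show (0 : ℝ) < η / 3 by positivity))
  have e2 := hδ.eventually (gt_mem_nhds (show (0 : ℝ) < η / 3 by positivity))
  obtain ⟨k, hk1, hk2⟩ := (e1.and e2).exists
  have l1 := abs_le.1 (eg_gt_WL_lip Γ hp M (ν (φ k)) (hbpos k) top (y (φ k)) (θ₁ (φ k)) (θ₂ (φ k)) t₁ t₂ (h1 _) ht1 r)
  have l2 := abs_le.1 (eg_gt_WG_lip Γ hp M (ν (φ k)) ha top (y (φ k)) (θ₁ (φ k)) (θ₂ (φ k)) t₁ t₂ (h1 _) ht1 r)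
  have hvk := hv (φ k)
  linarith [l1.1, l1.2, l2.1, l2.2]

/-- L-ENT-SOFT-GT (v2, helper215 17:55Z: NEW HYPOTHESIS `(egSh T (cutF \ M.F)).NoDiag` = the RESTORED shape, required by `C3.cond_transfer` v2 `hΓ'`),
**the fixed-order passage to the sampled primary guards**, from `C3.cond_transfer` (`N' = 0`, `row' = row = egRow Γ`, `J = J' = 1`, `tX = tX' = tL = y k`).
The parameters `θ₁, θ₂` of the test function move: along the violating sequence pass to a subsequence with `θ k → θ̄` (`tendsto_subseq_of_bounded` in `ℝ × ℝ`, or twice in `ℝ`), apply `cond_transfer` with the FIXED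
`Φ = egPhi θ̄₁ θ̄₂ r` (`eg_phi_continuous`, `eg_phi_mem`), and replace `θ̄` by `θ k` on both sides with the error `r (|θ₁ - θ̄₁| + |θ₂ - θ̄₂|)` (`eg_phi_lip`; both sides are expectations: monotone, `E 1 = 1`:
lattice side `Pins.T32.pn_ExT_eq`, `pn_latM_prob`; Gaussian side `Pot.pl_ExT_eq`, `pl_meas_prob`, `Pot.pl_PD_of_ok`). -/
theorem eg_soft_transfer {a : ℝ} {𝔅 : ℕ → Set ℝ} (h𝔅 : EgTemp a 𝔅) (m₁ m₂ : ℕ) (U η : ℝ) (hη : 0 < η) (rmax : ℕ) :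
    ∃ s0 : ℕ, ∀ s ≥ s0, ∀ b ∈ 𝔅 s, ∀ (T : Finset (C3.Cell m₁ m₂)) (cutF : Finset (C3.Cell m₁ m₂ × Bool)), (egSh T cutF).NoDiag →
      ∀ M : EgWMark m₁ m₂, (egSh T (cutF \ M.F)).NoDiag → C3.Sep M.H M.p → (∀ f ∈ M.F, C3.FaceIn M.H f) →
      ∀ (top : Bool) (y : C3.Cell m₁ m₂ → ℝ), (∀ κ, |y κ| ≤ U) → ∀ θ₁ θ₂ : ℝ, 0 ≤ θ₁ → θ₁ ≤ U → |θ₂| ≤ U → ∀ r ≤ rmax,
        egWL (egSh T cutF) M s b top y (egPhi θ₁ θ₂ r) ≤ egWG (egSh T cutF) M s a top y (egPhi θ₁ θ₂ r) + η := by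
  classical
  have key : ∀ i : (Finset (C3.Cell m₁ m₂) × Finset (C3.Cell m₁ m₂ × Bool)) ×
      (Finset (C3.Cell m₁ m₂ × Bool) × Finset (C3.Cell m₁ m₂) × Finset (C3.Cell m₁ m₂) × Finset (C3.Cell m₁ m₂) × Finset (C3.Cell m₁ m₂)) ×
      Bool × Fin (rmax + 1),
      ∃ s0 : ℕ, ∀ s ≥ s0, (egSh i.1.1 i.1.2).NoDiag → (egSh i.1.1 (i.1.2 \ i.2.1.1)).NoDiag → C3.Sep i.2.1.2.1 i.2.1.2.2.2.1 →
        (∀ f ∈ i.2.1.1, C3.FaceIn i.2.1.2.1 f) →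
        ∀ b ∈ 𝔅 s, ∀ y : C3.Cell m₁ m₂ → ℝ, (∀ κ, |y κ| ≤ U) → ∀ θ₁ θ₂ : ℝ, 0 ≤ θ₁ → θ₁ ≤ U → |θ₂| ≤ U →
          egWL (egSh i.1.1 i.1.2) ⟨i.2.1.1, i.2.1.2.1, i.2.1.2.2.1, i.2.1.2.2.2.1, i.2.1.2.2.2.2⟩ s b i.2.2.1 y (egPhi θ₁ θ₂ i.2.2.2)
            ≤ egWG (egSh i.1.1 i.1.2) ⟨i.2.1.1, i.2.1.2.1, i.2.1.2.2.1, i.2.1.2.2.2.1, i.2.1.2.2.2.2⟩ s a i.2.2.1 y (egPhi θ₁ θ₂ i.2.2.2) + η := by
    rintro ⟨⟨T, cutF⟩, ⟨F, H, D, p, O⟩, top, r⟩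
    by_cases hc : (egSh T cutF).NoDiag ∧ (egSh T (cutF \ F)).NoDiag ∧ C3.Sep H p ∧ (∀ f ∈ F, C3.FaceIn H f)
    · obtain ⟨s0, hs0⟩ := eg_gt_core h𝔅 U η hη (egSh T cutF) rfl hc.1 ⟨F, H, D, p, O⟩ hc.2.1 hc.2.2.1 hc.2.2.2 top r
      exact ⟨s0, fun s hs _ _ _ _ => hs0 s hs⟩
    · exact ⟨0, fun s _ h1 h2 h3 h4 => absurd ⟨h1, h2, h3, h4⟩ hc⟩
  choose s0 hs0 using key
  refine ⟨Finset.univ.sup s0, ?_⟩
  intro s hs b hb T cutF hΓ M hΓ' hsep hF top y hy θ₁ θ₂ h1 h2 h3 r hr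
  exact hs0 ⟨⟨T, cutF⟩, ⟨M.F, M.H, M.D, M.p, M.O⟩, top, ⟨r, Nat.lt_succ_of_le hr⟩⟩ s
    ((Finset.le_sup (Finset.mem_univ _)).trans hs) hΓ hΓ' hsep hF b hb y hy θ₁ θ₂ h1 h2 h3

end

end Claimed.Agent.R285.Entry
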