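import Claimed.Agent.R285.Entry.GoodWin
import Claimed.Agent.R285.Entry.GoodSoft
import Claimed.Agent.R285.Entry.GoodGa

/-!
# ROW 285, post BP-ENT-GOOD: the centred pin interaction of a mark is small      (architect helper109)
Exit `eg_pin_small`: consumed by `eg_one_mark_moment` (`θ₁ ∋ d_{i,s}`) and by `BoxOK.pins` (`Entry/GoodBox.lean`: three shapes per event).
-/

set_option autoImplicit false

namespace Claimed.Agent.R285.Entry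

open scoped BigOperators
open Claimed.Agent.R285 Claimed.Agent.R285.RG Claimed.Agent.R285.F4a

noncomputable section

/-- finite maximum of thresholds (copy of `eg_glue_thr`, which lives downstream) -/
theorem eg_pin_thr (mm : ℕ) (P : ℕ → ℕ → ℕ → Prop) (h : ∀ m₁ m₂, ∃ s0 : ℕ, ∀ s ≥ s0, P m₁ m₂ s) :
    ∃ s0 : ℕ, ∀ s ≥ s0, ∀ m₁ ≤ mm, ∀ m₂ ≤ mm, P m₁ m₂ s := by
  choose s0 hs0 using h
  refine ⟨(Finset.range (mm + 1)).sup fun m₁ => (Finset.range (mm + 1)).sup fun m₂ => s0 m₁ m₂, fun s hs m₁ h1 m₂ h2 => hs0 m₁ m₂ s ?_⟩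
  refine le_trans ?_ hs
  refine le_trans ?_ (Finset.le_sup (f := fun m₁ => (Finset.range (mm + 1)).sup fun m₂ => s0 m₁ m₂) (Finset.mem_range.2 (Nat.lt_succ_of_le h1)))
  exact Finset.le_sup (f := fun m₂ => s0 m₁ m₂) (Finset.mem_range.2 (Nat.lt_succ_of_le h2))

/-- L-ENT-GOOD-PIN.  **`0 ≤ d_{i,s} ≤ K N^k e^{-c₀ R} + η`** for `s ≥ s₀ (mm, η)`.
`eg_win_Ds` (window form of `egDs`), `eg_geo_pull` (`(M.pull W).Geo (W.shape (T.cut M.F)) R` and `NoDiag` of the cut open patch `egWPc ..`), `eg_wgeo_sep` (`C3.Sep H p`, needs `2 ≤ R`: put `R1 ≥ 2`),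
`eg_soft_pin` at `ε = η` for each pair `m₁, m₂ ≤ mm` (finite maximum of the thresholds; `egWPc Γ M = egSh (Γ.T ∩ M.O) Γ.cutF` by `rfl`), `eg_ga_pin` (`W.shape _ = egSh _ _` by `rfl`; `(m₁ m₂)^k ≤ mm^{2k}`),
lower bound: `C3.dPin_nonneg` (`eg_lw_gd`: properness) or `Pins.T32.pn_gl_dPin_nonneg`;  positivity of `b`: `eg_temp_pos`. -/
theorem eg_pin_small {a : ℝ} (ha : 0 < a) {𝔅 : ℕ → Set ℝ} (h𝔅 : EgTemp a 𝔅) : ∃ (K c0 : ℝ) (k R1 : ℕ), 0 ≤ K ∧ 0 < c0 ∧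
    ∀ (mm : ℕ) (η : ℝ), 0 < η → ∃ s0 : ℕ, ∀ (G : Geom) (c : Grid G), Whole c → s0 ≤ c.m → ∀ b ∈ 𝔅 c.m, ∀ m₁ ≤ mm, ∀ m₂ ≤ mm,
      ∀ (W : EgWin c m₁ m₂) (T : Top c), T.Ok → W.Fits T → ∀ (M : EgMark c) (R : ℕ), R1 ≤ R → M.Ok W T R →
        0 ≤ egDs T M b ∧ egDs T M b ≤ K * (mm : ℝ) ^ k * Real.exp (-c0 * R) + η := by
  obtain ⟨Kp, cp, kp, R1p, hKp, hcp, hpin⟩ := eg_ga_pin a ha
  refine ⟨Kp, cp, 2 * kp, max R1p 2, hKp, hcp, fun mm η hη => ?_⟩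
  obtain ⟨sT, b0, b1, hb0, hbT⟩ := eg_temp_pos h𝔅
  obtain ⟨sP, hsP⟩ := eg_pin_thr mm _ fun m₁ m₂ => eg_soft_pin h𝔅 m₁ m₂ _ hη
  refine ⟨max sT sP, fun G c hc hs b hb m₁ h1 m₂ h2 W T hT hf M R hR hM => ?_⟩
  have hsT : sT ≤ c.m := (le_max_left _ _).trans hs
  have hsP' : sP ≤ c.m := (le_max_right _ _).trans hs
  have hbp : 0 < b := lt_of_lt_of_le hb0 (hbT _ hsT b hb).1
  have hm1 : 1 ≤ c.m := hc.pos
  obtain ⟨hgeo, hNP⟩ := eg_geo_pull hc W T hT hf M R hM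
  have hsep : C3.Sep (M.pull W).H (M.pull W).p := eg_wgeo_sep _ _ R (le_trans (le_max_right _ _) hR) hgeo
  obtain ⟨hC0, hCD⟩ := eg_cs_bound hc T hT M R hM.geo hbp
  refine ⟨hC0.trans hCD, ?_⟩
  have hpin' : (egLw (egWPc (W.shape (T.cut M.F)) (M.pull W)) c.m).gPin a
      ((egWPc (W.shape (T.cut M.F)) (M.pull W)).sites (egGr m₁ m₂ c.m) (egWPc (W.shape (T.cut M.F)) (M.pull W)).pin)
      ((egWPc (W.shape (T.cut M.F)) (M.pull W)).sites (egGr m₁ m₂ c.m) (M.pull W).H)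
      ((egWPc (W.shape (T.cut M.F)) (M.pull W)).sites (egGr m₁ m₂ c.m) (M.pull W).p)
        ≤ Kp * ((m₁ * m₂ : ℕ) : ℝ) ^ kp * Real.exp (-cp * R) :=
    hpin m₁ m₂ c.m hm1 _ _ (M.pull W) R (le_trans (le_max_left _ _) hR) hgeo
  have hsoftP : |(egLw (egWPc (W.shape (T.cut M.F)) (M.pull W)) c.m).dPin b
      ((egWPc (W.shape (T.cut M.F)) (M.pull W)).sites (egGr m₁ m₂ c.m) (M.pull W).H)
      ((egWPc (W.shape (T.cut M.F)) (M.pull W)).sites (egGr m₁ m₂ c.m) (M.pull W).p)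
      - (egLw (egWPc (W.shape (T.cut M.F)) (M.pull W)) c.m).gPin a
      ((egWPc (W.shape (T.cut M.F)) (M.pull W)).sites (egGr m₁ m₂ c.m) (egWPc (W.shape (T.cut M.F)) (M.pull W)).pin)
      ((egWPc (W.shape (T.cut M.F)) (M.pull W)).sites (egGr m₁ m₂ c.m) (M.pull W).H)
      ((egWPc (W.shape (T.cut M.F)) (M.pull W)).sites (egGr m₁ m₂ c.m) (M.pull W).p)| ≤ η :=
    hsP c.m hsP' m₁ h1 m₂ h2 b hb _ _ hNP (M.pull W).H (M.pull W).p hsep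
  have hDs : egDs T M b ≤ Kp * ((m₁ * m₂ : ℕ) : ℝ) ^ kp * Real.exp (-cp * R) + η := by
    rw [eg_win_Ds hc W T hT hf M R hM b]
    have := (abs_le.1 hsoftP).2
    linarith
  have hprod : ((m₁ * m₂ : ℕ) : ℝ) ≤ (mm : ℝ) ^ 2 := by
    have : m₁ * m₂ ≤ mm ^ 2 := by rw [sq]; exact Nat.mul_le_mul h1 h2
    exact_mod_cast this
  have e2 : ((m₁ * m₂ : ℕ) : ℝ) ^ kp ≤ (mm : ℝ) ^ (2 * kp) := by
    rw [pow_mul]
    exact pow_le_pow_left₀ (Nat.cast_nonneg _) hprod kp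
  have e3 : Kp * ((m₁ * m₂ : ℕ) : ℝ) ^ kp * Real.exp (-cp * R) ≤ Kp * (mm : ℝ) ^ (2 * kp) * Real.exp (-cp * R) :=
    mul_le_mul_of_nonneg_right (mul_le_mul_of_nonneg_left e2 hKp) (Real.exp_pos _).le
  linarith

end

end Claimed.Agent.R285.Entry
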