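import Claimed.Agent.R285.Entry.Good
import Claimed.Agent.R285.Entry.GoodPin
import Claimed.Agent.R285.Entry.GoodFac
import Claimed.Agent.R285.Ent.If
import Claimed.Agent.R285.Sec.Imp

/-!
# ROW 285, post BP-ENT-GOOD: `BoxOK` FOR THE CUTOFF XY LAW AT THE BASE POINT      (architect helper109)

```
eg_boxok0 : BoxOK (xyPhy c R a b0 b0 τ) ..   (τ = 0 and τ = tauU c),  eventually in s      PROVED (pins x for every x > 1, C0 = 6)
   ⟸ GoodGeo c R P, GoodGeoU c R P      the geometry of tiles / events / P-boxes read in windows            (OWED BY GEO: post BP-ENT-GOODGEO)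
   ⟸ Good.lean, GoodPin.lean            eg_good_box, eg_good_tile, eg_reserve, eg_pin_small                 (analysis)
   ⟸ GoodFac.lean                       Y.AT = egA, Y.dl = egDelta, xPin = exp dPin                          (bridge)
   ⟸ Sec.scen_fixed                     EgTemp a (fun _ => {b0})
```
Real `b ≠ b0`: post BP-ENT-PERT (helper221): `BoxOK` at `b0` + `eg_box_reserve` at `b` ⟹ `BoxOK` at `b`.
-/

set_option autoImplicit false

namespace Claimed.Agent.R285.Entry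

open scoped BigOperators
open Claimed.Agent.R285 Claimed.Agent.R285.RG Claimed.Agent.R285.F4a Claimed.Agent.R285.Ent

noncomputable section

variable {G : Geom}

/-! ## 1. The marks of the engine -/

/-- the mark of an event: designated faces, core, interior of the guard, guard, open patch -/
def evMark (c : Grid G) (R : ℕ) (k : EvId) : EgMark c := ⟨cutF c R k, core c R k, inner c R k, guard c R k, patch c R k⟩

/-- the auxiliary mark which tests the guard against the OUTER guard in a testing patch (no designated face): core = guard, interior = radius `3R/64`, guard = the rest of the testing patch -/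
def tsMark (c : Grid G) (R : ℕ) (k : EvId) : EgMark c :=
  ⟨∅, guard c R k, tpatch c R k ∩ nbh c (3 * (R / 64)) (core c R k), tpatch c R k \ nbh c (3 * (R / 64)) (core c R k), tpatch c R k⟩

/-- the piece of a halo topology in a box of the `P`-grid -/
abbrev hPiece (c : Grid G) (R P : ℕ) (S O : Finset EvId) (t b : ℕ × ℕ) : Top c := (pcut c P t).piece (halTop c R S O) b

/-- the original faces of the halo in the box (`= Phy.boxF`) -/
abbrev hFaces (c : Grid G) (R P : ℕ) (S : Finset EvId) (t b : ℕ × ℕ) : Finset (Face c) :=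
  ((pcut c P t).piece ((Top.full c).restr (halC c R S)) b).faces

/-- the four cells at the unit junction of `tauU c` -/
def egSrc (c : Grid G) : Finset c.I :=
  Finset.univ.filter fun i => ((i.1 : ℕ) + 1 = c.n / 2 ∨ (i.1 : ℕ) = c.n / 2) ∧ ((i.2 : ℕ) + 1 = c.n / 2 ∨ (i.2 : ℕ) = c.n / 2)

/-! ## 2. What GOOD needs from the geometry -/

/-- **the geometry of the engine, read in windows** (both boundary conditions, every sector).  `R / 64` = the separation core → guard.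
`EgMark.Ok W T r` = `Geo` (`cur, face, H_sub, D_sub, p_sub, O_sub, disj, sepG, far`) + `faceW` + `NoDiag` of the shapes of `T.cut F`, `T.glue F`, `(T.cut F).restr O`  (`GoodDefs.lean` s7). -/
structure GoodGeo (c : Grid G) (R P : ℕ) : Prop where
  /-- a piece of a halo in a `P`-box is carried by a window of side `≤ 2P`; its kept marks are deep marks; their patches are the patches of the path without marks -/
  box : ∀ (S O : Finset EvId) (t b : ℕ × ℕ), Valid c R S → O ⊆ S → t ∈ pcuts R P →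
    (hPiece c R P S O t b).Ok ∧ ∃ (m₁ m₂ : ℕ) (W : EgWin c m₁ m₂), m₁ ≤ 2 * P ∧ m₂ ≤ 2 * P ∧ W.Fits (hPiece c R P S O t b) ∧
      (W.shape (hPiece c R P S O t b)).NoDiag ∧
      ∀ k ∈ (pcut c P t).keptB R S b, (evMark c R k).Ok W (hPiece c R P S O t b) (R / 64) ∧
        egPo (hPiece c R P S O t b) (evMark c R k) = topO c R k ∧ egPc (hPiece c R P S O t b) (evMark c R k) = topC c R k
  /-- the original faces of the box -/
  faces : ∀ (S O : Finset EvId) (t b : ℕ × ℕ), Valid c R S → O ⊆ S → t ∈ pcuts R P →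
    (hPiece c R P S O t b).faces ⊆ hFaces c R P S t b ∧ (∀ k ∈ (pcut c P t).keptB R S b, cutF c R k ⊆ hFaces c R P S t b) ∧
      (hFaces c R P S t b).card ≤ 2 * (2 * P) ^ 2 ∧ ((pcut c P t).keptB R S b).card ≤ (2 * P) ^ 2
  /-- the three shapes of an event -/
  ev : ∀ k ∈ events c R, ∃ (m₁ m₂ : ℕ) (W : EgWin c m₁ m₂), m₁ ≤ 2 * R ∧ m₂ ≤ 2 * R ∧
    ((topC c R k).Ok ∧ W.Fits (topC c R k) ∧ (evMark c R k).Ok W (topC c R k) (R / 64) ∧ egPc (topC c R k) (evMark c R k) = topC c R k) ∧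
    ((tstO c R k).Ok ∧ W.Fits (tstO c R k) ∧ (tsMark c R k).Ok W (tstO c R k) (R / 64) ∧ egPc (tstO c R k) (tsMark c R k) = tstO c R k) ∧
    ((tstC c R k).Ok ∧ W.Fits (tstC c R k) ∧ (tsMark c R k).Ok W (tstC c R k) (R / 64) ∧ egPc (tstC c R k) (tsMark c R k) = tstC c R k)
  /-- isolated tiles -/
  tile : ∀ t ∈ tiles c R, (tileTop c R t).Ok ∧ ∃ (m₁ m₂ : ℕ) (W : EgWin c m₁ m₂), m₁ ≤ 2 * R ∧ m₂ ≤ 2 * R ∧ W.Fits (tileTop c R t) ∧
    (W.shape (tileTop c R t)).NoDiag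

/-- **the unit sector** (free square, `2R ∣ c.n`): boxes and tiles which miss the four source cells are source-free -/
structure GoodGeoU (c : Grid G) (R P : ℕ) : Prop where
  gaugeB : ∀ (S : Finset EvId) (t b : ℕ × ℕ), t ∈ pcuts R P → Disjoint ((pcut c P t).box b) (egSrc c) → EgGauge (hFaces c R P S t b) (tauU c)
  gaugeT : ∀ t ∈ tiles c R, Disjoint (cellsOf c R {t}) (egSrc c) → EgGauge (tileTop c R t).faces (tauU c)

/-! ## 3. Tools for GEO (generic, no tiles) -/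

variable {c : Grid G} {m₁ m₂ : ℕ}

/-- retained faces preserve the colour: adjacent cells of the shape have the same colour -/
theorem eg_col_adj {α : Type} (hc : Whole c) (W : EgWin c m₁ m₂) (T : Top c) (col : c.I → α)
    (h1 : ∀ f ∈ T.faces, col (fnb c f) = col f.1) {κ κ' : C3.Cell m₁ m₂} (h : (W.shape T).Adj κ κ') :
    col (W.emb κ) = col (W.emb κ') := by
  have key : ∀ (f : C3.Cell m₁ m₂ × Bool) (κ'' : C3.Cell m₁ m₂), egWnb f κ'' → f ∉ (W.shape T).cutF →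
      col (W.emb κ'') = col (W.emb f.1) := by
    intro f κ'' hw hf
    rw [eg_win_mem_shape_cut, not_not] at hf
    have := h1 _ hf
    rwa [(eg_win_fnb hc W f κ'' hw).1] at this
  obtain ⟨-, -, h | h | h | h⟩ := h
  · exact (key (κ, true) κ' (Or.inl ⟨rfl, h.1, h.2.1⟩) h.2.2).symm
  · exact (key (κ, false) κ' (Or.inr ⟨rfl, h.1, h.2.1⟩) h.2.2).symm
  · exact key (κ', true) κ (Or.inl ⟨rfl, h.1, h.2.1.symm⟩) h.2.2
  · exact key (κ', false) κ (Or.inr ⟨rfl, h.1.symm, h.2.1⟩) h.2.2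

/-- the colour is constant on the components of the shape -/
theorem eg_col_conn {α : Type} (hc : Whole c) (W : EgWin c m₁ m₂) (T : Top c) (col : c.I → α)
    (h1 : ∀ f ∈ T.faces, col (fnb c f) = col f.1) {κ κ' : C3.Cell m₁ m₂} (h : (W.shape T).Conn κ κ') :
    col (W.emb κ) = col (W.emb κ') := by
  induction h with
  | refl => rfl
  | tail _ hb ih => exact ih.trans (eg_col_adj hc W T col h1 hb)

/-- L-ENT-GEO-COL.  **Criterion for `NoDiag` by a colouring.**  `col` = a label which is constant on the components (retained faces preserve it) and separates the two cells of every removed face.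
(a) by induction along `CGeom.Conn` the colour is constant on components; (b) is asked only for diagonal cells of the same colour.
For the topologies of the engine: `col i = tile c R i` if this tile is isolated (a `V` or `E` tile whose event is cut), a default value otherwise. -/
theorem eg_nodiag_of_col {α : Type} (hc : Whole c) (W : EgWin c m₁ m₂) (T : Top c) (hf : W.Fits T) (col : c.I → α)
    (h1 : ∀ f ∈ T.faces, col (fnb c f) = col f.1)
    (h2 : ∀ f : Face c, W.FaceIn f → f.1 ∈ T.cells → fnb c f ∈ T.cells → f ∉ T.faces → col (fnb c f) ≠ col f.1)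
    (h3 : ∀ z : c.I, W.FaceIn (z, true) → W.FaceIn (z, false) → W.FaceIn (fnb c (z, true), false) → W.FaceIn (fnb c (z, false), true) →
      (z ∈ T.cells → fnb c (fnb c (z, true), false) ∈ T.cells → col (fnb c (fnb c (z, true), false)) = col z →
        ((z, true) ∈ T.faces ∧ (fnb c (z, true), false) ∈ T.faces) ∨ ((z, false) ∈ T.faces ∧ (fnb c (z, false), true) ∈ T.faces)) ∧
      (fnb c (z, true) ∈ T.cells → fnb c (z, false) ∈ T.cells → col (fnb c (z, true)) = col (fnb c (z, false)) →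
        ((z, true) ∈ T.faces ∧ (z, false) ∈ T.faces) ∨ ((fnb c (z, true), false) ∈ T.faces ∧ (fnb c (z, false), true) ∈ T.faces))) (hT : T.Ok) :
    (W.shape T).NoDiag := by
  have hcut : ∀ f : C3.Cell m₁ m₂ × Bool, W.embF f ∈ T.faces → f ∉ (W.shape T).cutF := fun f h => by
    rw [eg_win_mem_shape_cut, not_not]; exact h
  refine ⟨?_, ?_⟩
  · -- no slit
    have key : ∀ (f : C3.Cell m₁ m₂ × Bool) (κ' : C3.Cell m₁ m₂), egWnb f κ' → f.1 ∈ (W.shape T).T → κ' ∈ (W.shape T).T →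
        f ∈ (W.shape T).cutF → ¬ (W.shape T).Conn f.1 κ' := by
      intro f κ' hw hκ hκ' hfc hconn
      rw [eg_win_mem_shape_T] at hκ hκ'
      rw [eg_win_mem_shape_cut] at hfc
      obtain ⟨e1, e2⟩ := eg_win_fnb hc W f κ' hw
      have := h2 (W.embF f) ⟨f.1, e2, rfl⟩ hκ (by rw [e1]; exact hκ') hfc
      rw [e1] at this
      exact this (eg_col_conn hc W T col h1 hconn).symm
    intro κ κ' hκ hκ' h
    rcases h with h | h
    · exact key (κ, true) κ' (Or.inl ⟨rfl, h.1, h.2.1⟩) hκ hκ' h.2.2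
    · exact key (κ, false) κ' (Or.inr ⟨rfl, h.1, h.2.1⟩) hκ hκ' h.2.2
  · intro i j i' j' hi hj
    obtain ⟨a1, b1⟩ := eg_win_fnb hc W ((i, j), true) (i', j) (Or.inl ⟨rfl, hi, rfl⟩)
    obtain ⟨a2, b2⟩ := eg_win_fnb hc W ((i, j), false) (i, j') (Or.inr ⟨rfl, rfl, hj⟩)
    obtain ⟨a3, b3⟩ := eg_win_fnb hc W ((i', j), false) (i', j') (Or.inr ⟨rfl, rfl, hj⟩)
    obtain ⟨a4, b4⟩ := eg_win_fnb hc W ((i, j'), true) (i', j') (Or.inl ⟨rfl, hi, rfl⟩)
    have a1' : fnb c (W.emb (i, j), true) = W.emb (i', j) := a1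
    have a2' : fnb c (W.emb (i, j), false) = W.emb (i, j') := a2
    have a3' : fnb c (W.emb (i', j), false) = W.emb (i', j') := a3
    have a4' : fnb c (W.emb (i, j'), true) = W.emb (i', j') := a4
    have H := h3 (W.emb (i, j)) ⟨(i, j), b1, rfl⟩ ⟨(i, j), b2, rfl⟩ (by rw [a1']; exact ⟨(i', j), b3, rfl⟩)
      (by rw [a2']; exact ⟨(i, j'), b4, rfl⟩)
    rw [a1', a2', a3'] at H
    simp only [eg_win_mem_shape_T]
    refine ⟨fun hconn hz hz' => ?_, fun hconn hz hz' => ?_⟩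
    · rcases H.1 hz hz' (eg_col_conn hc W T col h1 hconn).symm with ⟨f1, f2⟩ | ⟨f1, f2⟩
      · left
        refine ⟨?_, hcut _ f1, hcut _ f2⟩
        have := (hT _ f1).2.2
        rwa [a1'] at this
      · right
        refine ⟨?_, hcut _ f1, hcut _ f2⟩
        have := (hT _ f1).2.2
        rwa [a2'] at this
    · rcases H.2 hz hz' (eg_col_conn hc W T col h1 hconn) with ⟨f1, f2⟩ | ⟨f1, f2⟩
      · left
        exact ⟨(hT _ f1).2.1, hcut _ f1, hcut _ f2⟩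
      · right
        refine ⟨?_, hcut _ f1, hcut _ f2⟩
        have := (hT _ f1).2.2
        rwa [a3'] at this

/-- L-ENT-GEO-CARD: a topology carried by a window is small (`W.emb` is injective: `eg_win_emb_inj` or the like in `GoodWin.lean`) -/
theorem eg_fits_card (hc : Whole c) (W : EgWin c m₁ m₂) (T : Top c) (hf : W.Fits T) : T.cells.card ≤ m₁ * m₂ ∧ T.faces.card ≤ 2 * (m₁ * m₂) := by
  classical
  refine ⟨?_, eg_glue_faces_card W T.faces hf.2⟩
  have hsub : T.cells ⊆ (Finset.univ : Finset (Fin m₁ × Fin m₂)).image W.emb := by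
    intro i hi
    obtain ⟨κ, hκ⟩ := hf.1 i hi
    exact Finset.mem_image.2 ⟨κ, Finset.mem_univ _, hκ.symm⟩
  refine (Finset.card_le_card hsub).trans (Finset.card_image_le.trans ?_)
  simp [Finset.card_univ, Fintype.card_prod]

/-- a face of a free square does not cross a wall -/
theorem eg_src_face (hfree : G.bc = BC.free) {f : Face c} (hf : IsFace c f) :
    if f.2 then (f.1.1 : ℕ) + 1 < c.n else (f.1.2 : ℕ) + 1 < c.n := by
  rcases hf with h | h
  · rw [hfree] at h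
    cases h
  · exact h

theorem eg_src_nx {n : ℕ} {i : Fin n} (h : (i : ℕ) + 1 < n) : ((nx i : Fin n) : ℕ) = (i : ℕ) + 1 := Nat.mod_eq_of_lt h

/-- L-ENT-GEO-SRC.  **Criterion for a source-free set of faces**: `𝓕` does not contain horizontal faces through BOTH halves of the vertical line through the source.
Upper half free: `κ i = 1` if `n/2 ≤ i.1 ∧ n/2 ≤ i.2`, else `0`;  lower half free: `κ i = -1` if `n/2 ≤ i.1 ∧ i.2 < n/2`, else `0`. -/
theorem eg_src_gauge (hfree : G.bc = BC.free) (𝓕 : Finset (Face c)) (hF : ∀ f ∈ 𝓕, IsFace c f)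
    (h : (∀ f ∈ 𝓕, f.2 = true → (f.1.1 : ℕ) + 1 = c.n / 2 → (f.1.2 : ℕ) < c.n / 2) ∨ (∀ f ∈ 𝓕, f.2 = true → (f.1.1 : ℕ) + 1 = c.n / 2 → c.n / 2 ≤ (f.1.2 : ℕ))) :
    EgGauge 𝓕 (tauU c) := by
  rcases h with h | h
  · refine ⟨fun i => if c.n / 2 ≤ (i.1 : ℕ) ∧ c.n / 2 ≤ (i.2 : ℕ) then 1 else 0, fun f hf => ?_⟩
    obtain ⟨⟨i1, i2⟩, d⟩ := f
    have h1 := eg_src_face hfree (hF _ hf)
    have h2 := h _ hf
    cases d
    · simp only [Bool.false_eq_true, if_false] at h1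
      have e := eg_src_nx h1
      simp only [tauU, fnb, Bool.false_eq_true, if_false, true_and, e]
      split_ifs <;> omega
    · simp only [if_true, forall_const] at h1 h2
      have e := eg_src_nx h1
      simp only [tauU, fnb, if_true, Bool.true_eq_false, false_and, if_false, e]
      split_ifs <;> omega
  · refine ⟨fun i => if c.n / 2 ≤ (i.1 : ℕ) ∧ (i.2 : ℕ) < c.n / 2 then -1 else 0, fun f hf => ?_⟩
    obtain ⟨⟨i1, i2⟩, d⟩ := f
    have h1 := eg_src_face hfree (hF _ hf)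
    have h2 := h _ hf
    cases d
    · simp only [Bool.false_eq_true, if_false] at h1
      have e := eg_src_nx h1
      simp only [tauU, fnb, Bool.false_eq_true, if_false, true_and, e]
      split_ifs <;> omega
    · simp only [if_true, forall_const] at h1 h2
      have e := eg_src_nx h1
      simp only [tauU, fnb, if_true, Bool.true_eq_false, false_and, if_false, e]
      split_ifs <;> omega

/-- the integer circulation of `tauU c` at a full junction -/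
theorem eg_src_circ_at (hfree : G.bc = BC.free) (T : Top c) (hT : T.Ok) {z : c.I} (hz : z ∈ T.V4) :
    tauU c (z, true) + tauU c (fnb c (z, true), false) - tauU c (fnb c (z, false), true) - tauU c (z, false)
      = if (z.1 : ℕ) + 1 = c.n / 2 ∧ (z.2 : ℕ) + 1 = c.n / 2 then 1 else 0 := by
  classical
  obtain ⟨z1, z2⟩ := z
  obtain ⟨a1, -, -, a4⟩ := (Finset.mem_filter.1 hz).2
  have h1 := eg_src_face hfree (hT _ a1).1
  have h4 := eg_src_face hfree (hT _ a4).1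
  simp only [if_true] at h1
  simp only [Bool.false_eq_true, if_false] at h4
  have e1 := eg_src_nx h1
  have e4 := eg_src_nx h4
  simp only [tauU, fnb, if_true, Bool.true_eq_false, false_and, if_false, Bool.false_eq_true, true_and, e1]
  split_ifs <;> omega

/-- L-ENT-GEO-SRC: no circulation off the source (`z ∈ T.V4` ⟹ the four cells at `z` are present, `T.Ok`; the integer circulation of `tauU c` at `z` vanishes unless `z = (n/2 - 1, n/2 - 1)`; cf. `F4a.sig_tauU`) -/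
theorem eg_src_circ (hfree : G.bc = BC.free) (T : Top c) (hT : T.Ok) :
    egCirc T (tauU c) ≤ 1 ∧ (Disjoint T.cells (egSrc c) → egCirc T (tauU c) = 0) := by
  classical
  have hsum : egCirc T (tauU c)
      = ∑ z ∈ T.V4, if (z.1 : ℕ) + 1 = c.n / 2 ∧ (z.2 : ℕ) + 1 = c.n / 2 then (1 : ℝ) else 0 := by
    unfold egCirc
    refine Finset.sum_congr rfl fun z hz => ?_
    rw [eg_src_circ_at hfree T hT hz]
    split_ifs <;> simp
  constructor
  · rw [hsum, ← Finset.sum_filter, Finset.sum_const, nsmul_eq_mul, mul_one]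
    have : (T.V4.filter fun z : c.I => (z.1 : ℕ) + 1 = c.n / 2 ∧ (z.2 : ℕ) + 1 = c.n / 2).card ≤ 1 := by
      rw [Finset.card_le_one]
      intro a ha b hb
      obtain ⟨a1, a2⟩ := (Finset.mem_filter.1 ha).2
      obtain ⟨b1, b2⟩ := (Finset.mem_filter.1 hb).2
      exact Prod.ext (Fin.ext (by omega)) (Fin.ext (by omega))
    exact_mod_cast this
  · intro hd
    rw [hsum]
    refine Finset.sum_eq_zero fun z hz => if_neg fun hz' => ?_
    have hzc : z ∈ T.cells := (hT _ (Finset.mem_filter.1 hz).2.1).2.1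
    refine Finset.disjoint_left.1 hd hzc ?_
    unfold egSrc
    rw [Finset.mem_filter]
    exact ⟨Finset.mem_univ _, Or.inl hz'.1, Or.inl hz'.2⟩

/-- L-ENT-GEO-SRC -/
theorem eg_circ_zero (T : Top c) : egCirc T 0 = 0 := by
  unfold egCirc
  simp

/-! ## 4. The temperature -/

/-- L-ENT-BOX-TEMP (`Sec.scen_fixed`; `b k ∈ {b0}` ⟹ `b = fun _ => b0`) -/
theorem eg_temp_fixed (b0 a : ℝ) (hb0 : 0 < b0) (ha : 0 < a) (hab : aLim b0 = a) : EgTemp a fun _ => {b0} := by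
  intro ν b hν hb
  have hbe : b = fun _ => b0 := funext fun k => hb k
  subst hab
  rw [hbe]
  exact Sec.scen_fixed b0 hb0 ha ν hν

/-! ## 5. The four fields of `BoxOK` -/

/-- L-ENT-BOX-DL.  `δ_k` of NORM = `δ` of GOOD for a kept mark of a piece, at the base point.
`Phy.dl`, `eg_fac_delta_patch` (with `egPc T M = topC c R k`), `eg_fac_bU`, `Phy.chiE = egXiR` (`rfl`), `Phy.prox = egB` (`egPo = topO`, `egPc = topC`, `eg_fac_E`; `W.N T = T.Zobs b0 0 0` by `rfl`), `Phy.st = c.sites` (`rfl`). -/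
theorem eg_box_dl (hc : Whole c) {a b0 : ℝ} (ha : 0 < a) (hb0 : 0 < b0) (R : ℕ) (τ : Face c → ℤ) (T : Top c) (hT : T.Ok) (k : EvId) (r : ℕ)
    (hM : (evMark c R k).Geo T r) (hO : egPo T (evMark c R k) = topO c R k) (hC : egPc T (evMark c R k) = topC c R k) (y : c.I → ℝ) (h : G.V → ℤ) :
    (xyPhy c R a b0 b0 τ).dl k y h = egDelta T (evMark c R k) b0 a τ y h := by
  have hsub : (evMark c R k).H ⊆ T.cells := hM.H_sub.trans (hM.D_sub.trans hM.O_sub)
  have hOk : (topO c R k).Ok := by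
    rw [← hO]
    exact eg_gau_ok_restr _ (eg_gau_ok_glue T hT _ fun f hf => ⟨(hM.face f hf).1, hsub (hM.face f hf).2.1, hsub (hM.face f hf).2.2⟩) _
  have hCk : (topC c R k).Ok := by
    rw [← hC]
    exact eg_gau_ok_restr _ (eg_gau_ok_cut T hT _) _
  rw [← eg_fac_delta_patch hc T hT (evMark c R k) r hM hb0 a τ y h]
  have hB : (xyPhy c R a b0 b0 τ).prox k y = egB T (evMark c R k) b0 a τ y := by
    unfold Phy.prox egB egC egDE Phy.Ck
    rw [hO, hC]
    have e1 := eg_fac_E hc ha R b0 b0 τ (topO c R k) hOk y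
    have e2 := eg_fac_E hc ha R b0 b0 τ (topC c R k) hCk y
    have hR : (xyPhy c R a b0 b0 τ).R = R := rfl
    rw [hR, e1, e2]
    rfl
  unfold Phy.dl
  rw [hB, hC]
  have hF : (xyPhy c R a b0 b0 τ).evF k = (bondsF c (cutF c R k), ∅) := eg_fac_bU R a b0 b0 τ _
  rw [hF]
  rfl

/-- L-ENT-BOX-DL.  `Q_b` of NORM = `egQ` (`eg_fac_AT`, `eg_fac_Ex`, `eg_box_dl`; `∏ k ∈ K` = `∏ k : K` by `Finset.prod_coe_sort` / `Finset.prod_attach`) -/
theorem eg_box_QT (hc : Whole c) {a b0 : ℝ} (ha : 0 < a) (hb0 : 0 < b0) (R : ℕ) (τ : Face c → ℤ) (T : Top c) (hT : T.Ok) (K : Finset EvId) (r : ℕ)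
    (hM : ∀ k ∈ K, (evMark c R k).Geo T r ∧ egPo T (evMark c R k) = topO c R k ∧ egPc T (evMark c R k) = topC c R k) (y : c.I → ℝ) :
    (xyPhy c R a b0 b0 τ).QT T K y = egQ T (fun k : K => evMark c R k.1) b0 a τ y := by
  unfold Phy.QT egQ Phy.ET
  rw [eg_fac_AT hc ha R b0 b0 τ T hT y]
  congr 1
  have h1 : (xyPhy c R a b0 b0 τ).dls K y = fun h => ∏ i : K, egDelta T (evMark c R i.1) b0 a τ y h := by
    funext h
    unfold Phy.dls
    rw [← Finset.prod_coe_sort K]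
    exact Finset.prod_congr rfl fun i _ => eg_box_dl hc ha hb0 R τ T hT i.1 r (hM i.1 i.2).1 (hM i.1 i.2).2.1 (hM i.1 i.2).2.2 y h
  rw [h1]
  exact eg_fac_Ex T b0 τ y _

theorem eg_bp_tp (c : Grid G) (R : ℕ) (k : EvId) :
    tpatch c R k \ (nbh c (3 * (R / 64)) (core c R k) ∩ ctl c R k) = tpatch c R k \ nbh c (3 * (R / 64)) (core c R k) := by
  ext i
  simp only [Finset.mem_sdiff, Finset.mem_inter, tpatch]
  tauto

theorem eg_bp_Ds (T : Top c) (M : EgMark c) (b : ℝ) (h : egPc T M = T) :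
    egDs T M b = T.law.dPin b (egSites T M.H) (egSites T M.p) := by
  unfold egDs
  rw [h]

/-- L-ENT-BOX-PINS.  The three pin interactions of every event and the (trivial at `b = b0`) normaliser ratios.
`eg_fac_xPin` (`Phy.evH k = c.sites (core ..)` etc. by `rfl`; `evQ k = c.sites (tpatch \ cJ)`), `egDs T M b = (egPc T M).law.dPin ..` with `egPc .. = topC / tstO / tstC` (`GoodGeo.ev`), `hd`; `nrmE`, `nrmT`: `eg_fac_Z0`, equality, `1 ≤ x`. -/
theorem eg_box_pins (hc : Whole c) {a b0 : ℝ} (hb0 : 0 < b0) (R P : ℕ) (hG : GoodGeo c R P) (τ : Face c → ℤ) (d : ℝ) (hd0 : 0 ≤ d)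
    (hd : ∀ m₁ ≤ 2 * R, ∀ m₂ ≤ 2 * R, ∀ (W : EgWin c m₁ m₂) (T : Top c), T.Ok → W.Fits T → ∀ M : EgMark c, M.Ok W T (R / 64) → egDs T M b0 ≤ d) :
    (xyPhy c R a b0 b0 τ).Pins (Real.exp d) := by
  have h1 : (1 : ℝ) ≤ Real.exp d := Real.one_le_exp hd0
  refine ⟨h1, ?_, ?_, ?_, ?_, ?_⟩
  · intro k hk
    obtain ⟨m₁, m₂, W, hm1, hm2, ⟨o1, o2, o3, o4⟩, -, -⟩ := hG.ev k hk
    have e := eg_fac_xPin hc (topC c R k) hb0 (core c R k) (guard c R k)
    have e2 := eg_bp_Ds (topC c R k) (evMark c R k) b0 o4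
    have e3 := hd m₁ hm1 m₂ hm2 W _ o1 o2 _ o3
    rw [e2] at e3
    refine le_trans (le_of_eq e) (Real.exp_le_exp.2 e3)
  · intro k hk
    obtain ⟨m₁, m₂, W, hm1, hm2, -, ⟨o1, o2, o3, o4⟩, -⟩ := hG.ev k hk
    have e := eg_fac_xPin hc (tstO c R k) hb0 (guard c R k) (tpatch c R k \ nbh c (3 * (R / 64)) (core c R k))
    have e2 := eg_bp_Ds (tstO c R k) (tsMark c R k) b0 o4
    have e3 := hd m₁ hm1 m₂ hm2 W _ o1 o2 _ o3
    rw [e2] at e3
    rw [← eg_bp_tp] at e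
    refine le_trans (le_of_eq e) (Real.exp_le_exp.2 ?_)
    rw [eg_bp_tp]
    exact e3
  · intro k hk
    obtain ⟨m₁, m₂, W, hm1, hm2, -, -, ⟨o1, o2, o3, o4⟩⟩ := hG.ev k hk
    have e := eg_fac_xPin hc (tstC c R k) hb0 (guard c R k) (tpatch c R k \ nbh c (3 * (R / 64)) (core c R k))
    have e2 := eg_bp_Ds (tstC c R k) (tsMark c R k) b0 o4
    have e3 := hd m₁ hm1 m₂ hm2 W _ o1 o2 _ o3
    rw [e2] at e3
    rw [← eg_bp_tp] at e
    refine le_trans (le_of_eq e) (Real.exp_le_exp.2 ?_)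
    rw [eg_bp_tp]
    exact e3
  · intro k hk
    have e1 : ((xyPhy c R a b0 b0 τ).M (topO c R k)).Z0 = (topO c R k).Zobs b0 0 0 := eg_fac_Z0 _ b0
    have e2 : ((xyPhy c R a b0 b0 τ).M (topC c R k)).Z0 = (topC c R k).Zobs b0 0 0 := eg_fac_Z0 _ b0
    have e3 : (xyPhy c R a b0 b0 τ).Ck k = (topO c R k).Zobs b0 0 0 / (topC c R k).Zobs b0 0 0 := rfl
    change ((xyPhy c R a b0 b0 τ).M (topO c R k)).Z0 / ((xyPhy c R a b0 b0 τ).M (topC c R k)).Z0 ≤ _
    rw [e1, e2, e3]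
    have p : 0 ≤ (topO c R k).Zobs b0 0 0 / (topC c R k).Zobs b0 0 0 :=
      (div_pos (Zobs_pos hc _ b0 hb0 0 0) (Zobs_pos hc _ b0 hb0 0 0)).le
    nlinarith
  · intro t ht
    have e1 : ((xyPhy c R a b0 b0 τ).M (tileTop c R t)).Z0 = (tileTop c R t).Zobs b0 0 0 := eg_fac_Z0 _ b0
    have e3 : (xyPhy c R a b0 b0 τ).W.N (tileTop c R t) = (tileTop c R t).Zobs b0 0 0 := rfl
    change ((xyPhy c R a b0 b0 τ).M (tileTop c R t)).Z0 ≤ _ * (xyPhy c R a b0 b0 τ).W.N (tileTop c R t)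
    rw [e1, e3]
    have p := (Zobs_pos hc (tileTop c R t) b0 hb0 0 0).le
    nlinarith

/-- **the reserve at every real parameter** (input of PERT too).  L-ENT-BOX-RES: `eg_reserve` + `eg_fac_AT`. -/
theorem eg_box_reserve (a b1 : ℝ) (ha : 0 < a) : ∃ (cstar Cu : ℝ) (s1 n1 : ℕ), 0 < cstar ∧ cstar < 1 ∧ 0 ≤ Cu ∧ ∀ (G : Geom) (c : Grid G), Whole c → s1 ≤ c.m → n1 ≤ c.n →
    ∀ (R : ℕ) (b0 b : ℝ), 0 < b → b ≤ b1 → ∀ (τ : Face c → ℤ) (T : Top c), T.Ok → ∀ y : c.I → ℝ,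
      (xyPhy c R a b0 b τ).AT T y ≤ Real.exp (Cu * Real.log (2 + c.m) * egCirc T τ) * Real.exp ((1 - cstar) / 2 * T.Eobs a τ y) := by
  obtain ⟨cstar, C, s1, n1, h1, h2, h⟩ := eg_reserve a b1 ha
  refine ⟨cstar, |C|, s1, n1, h1, h2, abs_nonneg _, fun G c hc hs hn R b0 b hb hb1 τ T hT y => ?_⟩
  rw [eg_fac_AT hc ha R b0 b τ T hT y, ← Real.exp_add]
  refine (h G c hc hs hn T hT b hb hb1 τ y).trans (Real.exp_le_exp.2 ?_)
  have hl : 0 ≤ Real.log (2 + c.m) := Real.log_nonneg (by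
    have : (0 : ℝ) ≤ c.m := Nat.cast_nonneg _
    linarith)
  have hcirc : 0 ≤ egCirc T τ := Finset.sum_nonneg fun _ _ => sq_nonneg _
  have h3 : C * Real.log (2 + c.m) * egCirc T τ ≤ |C| * Real.log (2 + c.m) * egCirc T τ :=
    mul_le_mul_of_nonneg_right (mul_le_mul_of_nonneg_right (le_abs_self C) hl) hcirc
  linarith

/-! ## 6. Exit -/

/-- the assembly of `BoxOK` at the base point in ONE volume and ONE sector, from the analytic bounds read in this volume -/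
theorem eg_boxok_core {c : Grid G} (hc : Whole c) {a b0 : ℝ} (ha : 0 < a) (hb0 : 0 < b0) (R P : ℕ) (hG : GoodGeo c R P)
    (x cstar Cu U γ ea bg : ℝ) (hx : 1 ≤ x) (τ : Face c → ℤ) (Zs : Finset c.I)
    (hres : ∀ T : Top c, T.Ok → ∀ y : c.I → ℝ,
      (xyPhy c R a b0 b0 τ).AT T y ≤ Real.exp (Cu * Real.log (2 + c.m) * egCirc T τ) * Real.exp ((1 - cstar) / 2 * T.Eobs a τ y))
    (hbox : ∀ m₁ ≤ 2 * P, ∀ m₂ ≤ 2 * P, ∀ (W : EgWin c m₁ m₂) (T : Top c), T.Ok → W.Fits T → (W.shape T).NoDiag →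
      ∀ {ι : Type} [Fintype ι] (Ms : ι → EgMark c), (∀ i, (Ms i).Ok W T (R / 64)) → Fintype.card ι ≤ (2 * P) ^ 2 →
      ∀ 𝓕 : Finset (Face c), T.faces ⊆ 𝓕 → (∀ i, (Ms i).F ⊆ 𝓕) → 𝓕.card ≤ 2 * (2 * P) ^ 2 → EgGauge 𝓕 τ → ∀ y : c.I → ℝ, egE 𝓕 τ y ≤ U ^ 2 →
        egQ T Ms b0 a τ y ≤ 6 * γ ^ Fintype.card ι * Real.exp (ea * egE 𝓕 τ y))
    (htile : ∀ m₁ ≤ 2 * R, ∀ m₂ ≤ 2 * R, ∀ (W : EgWin c m₁ m₂) (T : Top c), T.Ok → W.Fits T → (W.shape T).NoDiag →
      ∀ 𝓕 : Finset (Face c), T.faces ⊆ 𝓕 → 𝓕.card ≤ 2 * (2 * R) ^ 2 → EgGauge 𝓕 τ → ∀ y : c.I → ℝ, egE 𝓕 τ y ≤ U ^ 2 → |egA T b0 a τ y - 1| ≤ γ)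
    (hpin : ∀ m₁ ≤ 2 * R, ∀ m₂ ≤ 2 * R, ∀ (W : EgWin c m₁ m₂) (T : Top c), T.Ok → W.Fits T → ∀ M : EgMark c, M.Ok W T (R / 64) →
      egDs T M b0 ≤ Real.log x)
    (hgB : ∀ (S : Finset EvId) (t b : ℕ × ℕ), t ∈ pcuts R P → Disjoint ((pcut c P t).box b) Zs → EgGauge (hFaces c R P S t b) τ)
    (hgT : ∀ t ∈ tiles c R, Disjoint (cellsOf c R {t}) Zs → EgGauge (tileTop c R t).faces τ)
    (hc0 : ∀ T : Top c, T.Ok → Disjoint T.cells Zs → egCirc T τ = 0)
    (hc1 : ∀ T : Top c, T.Ok → Real.exp (Cu * Real.log (2 + c.m) * egCirc T τ) ≤ bg) :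
    BoxOK (xyPhy c R a b0 b0 τ) a P Zs x cstar U γ 6 ea bg := by
  refine ⟨?_, ?_, ?_, ?_, ?_⟩
  · have h := eg_box_pins (a := a) hc hb0 R P hG τ (Real.log x) (Real.log_nonneg hx) hpin
    rwa [Real.exp_log (by linarith)] at h
  · intro S O t b hV hO ht hdis y hE
    obtain ⟨hOk, m₁, m₂, W, h1, h2, hfit, hnd, hmk⟩ := hG.box S O t b hV hO ht
    obtain ⟨hf1, hf2, hf3, hf4⟩ := hG.faces S O t b hV hO ht
    have hQ := eg_box_QT hc ha hb0 R τ (hPiece c R P S O t b) hOk ((pcut c P t).keptB R S b) (R / 64)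
      (fun k hk => ⟨(hmk k hk).1.geo, (hmk k hk).2.1, (hmk k hk).2.2⟩) y
    have h := hbox m₁ h1 m₂ h2 W (hPiece c R P S O t b) hOk hfit hnd (fun k : ((pcut c P t).keptB R S b) => evMark c R k.1)
      (fun k => (hmk k.1 k.2).1) (by rw [Fintype.card_coe]; exact hf4) (hFaces c R P S t b) hf1 (fun k => hf2 k.1 k.2) hf3
      (hgB S t b ht hdis) y hE
    rw [Fintype.card_coe] at h
    exact hQ.trans_le h
  · intro T hT hdis y
    have h := hres T hT y
    rw [hc0 T hT hdis, mul_zero, Real.exp_zero, one_mul] at h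
    exact h
  · intro T hT y
    exact (hres T hT y).trans (mul_le_mul_of_nonneg_right (hc1 T hT) (Real.exp_pos _).le)
  · intro t ht hdis y hE
    obtain ⟨hOk, m₁, m₂, W, h1, h2, hfit, hnd⟩ := hG.tile t ht
    have e : (xyPhy c R a b0 b0 τ).tfac t y = egA (tileTop c R t) b0 a τ y := eg_fac_tfac hc ha R b0 τ t hOk y
    rw [e]
    refine htile m₁ h1 m₂ h2 W _ hOk hfit hnd _ (Finset.Subset.refl _) ?_ (hgT t ht hdis) y hE
    refine (eg_fits_card hc W _ hfit).2.trans ?_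
    have : m₁ * m₂ ≤ (2 * R) * (2 * R) := Nat.mul_le_mul h1 h2
    nlinarith

/-- `BoxOK` is monotone in the source cells, the gain, the constant of a good box, the allowance and the price of the source -/
theorem eg_boxok_mono {c : Grid G} {Y : Phy c} {a : ℝ} {P : ℕ} {Zs Zs' : Finset c.I} {x cstar U γ γ' C0 C0' ea ea' bg bg' : ℝ}
    (h : BoxOK Y a P Zs x cstar U γ C0 ea bg) (hZ : Zs ⊆ Zs') (hγ0 : 0 ≤ γ) (hγ : γ ≤ γ') (hC0 : 0 ≤ C0) (hC : C0 ≤ C0') (he : ea ≤ ea') (hb : bg ≤ bg') :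
    BoxOK Y a P Zs' x cstar U γ' C0' ea' bg' := by
  refine ⟨h.pins, ?_, ?_, ?_, ?_⟩
  · intro S O t b hV hO ht hd y hE
    refine (h.good S O t b hV hO ht (Finset.disjoint_of_subset_right hZ hd) y hE).trans ?_
    have hE0 : 0 ≤ Y.boxE S (pcut c P t) b y := Finset.sum_nonneg fun f _ => sq_nonneg _
    have h1 : γ ^ ((pcut c P t).keptB Y.R S b).card ≤ γ' ^ ((pcut c P t).keptB Y.R S b).card := pow_le_pow_left₀ hγ0 hγ _
    have h2 : Real.exp (ea * Y.boxE S (pcut c P t) b y) ≤ Real.exp (ea' * Y.boxE S (pcut c P t) b y) :=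
      Real.exp_le_exp.2 (mul_le_mul_of_nonneg_right he hE0)
    have h3 : 0 ≤ γ ^ ((pcut c P t).keptB Y.R S b).card := pow_nonneg hγ0 _
    exact mul_le_mul (mul_le_mul hC h1 h3 (hC0.trans hC)) h2 (Real.exp_pos _).le (mul_nonneg (hC0.trans hC) (h3.trans h1))
  · intro T hT hd y
    exact h.reserve T hT (Finset.disjoint_of_subset_right hZ hd) y
  · intro T hT y
    exact (h.reserveZ T hT y).trans (mul_le_mul_of_nonneg_right hb (Real.exp_pos _).le)
  · intro t ht hd y hE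
    exact (h.tile t ht (Finset.disjoint_of_subset_right hZ hd) y hE).trans hγ

/-- the four source cells lie in the zone of radius one -/
theorem eg_src_zone (c : Grid G) : egSrc c ⊆ zone c 1 := by
  intro i hi
  simp only [egSrc, zone, Finset.mem_filter, Finset.mem_univ, true_and] at hi ⊢
  omega

/-- numerics of `eg_boxok0` -/
theorem eg_boxok_num1 (j : ℕ) (hj : 1 ≤ j) : 2 * (2 ^ (j + 6)) ^ 5 ≤ (2 ^ j) ^ 36 := by
  rw [← pow_mul, ← pow_mul, ← pow_succ']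
  exact Nat.pow_le_pow_right (by norm_num) (by omega)

theorem eg_boxok_num2 (j kE : ℕ) (hj : 1 ≤ j) : ((2 : ℝ) ^ (j + 6)) ^ kE ≤ (((2 ^ j : ℕ) : ℝ)) ^ (7 * kE) := by
  push_cast
  rw [← pow_mul, ← pow_mul]
  refine pow_le_pow_right₀ (by norm_num) ?_
  nlinarith [Nat.zero_le kE]

theorem eg_boxok_div (j : ℕ) : 2 ^ (j + 6) / 64 = 2 ^ j := by
  rw [pow_add]; norm_num

/-- **`BoxOK` at the base point, eventually in `s`.**  Order: `c_*`, `C_u`; the exponent `kE` of the allowance; `c_g`, `R` large; `U`; `s` large; the volume. -/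
theorem eg_boxok0 (b0 a : ℝ) (hb0 : 0 < b0) (ha : 0 < a) (hab : aLim b0 = a) : ∃ cstar Cu : ℝ, 0 < cstar ∧ cstar < 1 ∧ 0 ≤ Cu ∧
    ∀ kE : ℕ, ∃ cg : ℝ, 0 < cg ∧ ∀ x : ℝ, 1 < x → ∃ k1 : ℕ, ∀ kR ≥ k1, ∀ U : ℝ, ∃ k0 : ℕ, ∀ ks ≥ k0, ∀ (G : Geom) (c : Grid G), GeoOK c (2 ^ kR) → c.m = 2 ^ ks →
      (2 ^ kR) ^ 5 ≤ c.n → GoodGeo c (2 ^ kR) ((2 ^ kR) ^ 5) →
      BoxOK (xyPhy c (2 ^ kR) a b0 b0 0) a ((2 ^ kR) ^ 5) ∅ x cstar U (Real.exp (-cg * 2 ^ kR)) 6 (1 / ((2 : ℝ) ^ kR) ^ kE) 1 ∧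
      (G.bc = BC.free → GoodGeoU c (2 ^ kR) ((2 ^ kR) ^ 5) →
        BoxOK (xyPhy c (2 ^ kR) a b0 b0 (tauU c)) a ((2 ^ kR) ^ 5) (egSrc c) x cstar U (Real.exp (-cg * 2 ^ kR)) 6 (1 / ((2 : ℝ) ^ kR) ^ kE)
          (Real.exp (Cu * Real.log (2 + c.m)))) := by
  have hT := eg_temp_fixed b0 a hb0 ha hab
  obtain ⟨cstar, Cu, s1, n1, hcs0, hcs1, hCu, hres⟩ := eg_box_reserve a b0 ha
  obtain ⟨Kp, cp, kp, R1, hKp, hcp, hpin⟩ := eg_pin_small ha hT
  refine ⟨cstar, Cu, hcs0, hcs1, hCu, fun kE => ?_⟩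
  obtain ⟨cg', R0, hcg', hbox⟩ := eg_good_box ha hT 36 (7 * kE)
  refine ⟨cg' / 64, by positivity, fun x hx => ?_⟩
  have hL : 0 < Real.log x := Real.log_pos hx
  obtain ⟨R2, hR21, hR2⟩ := eg_numeric_R0 (Kp * 128 ^ kp * (2 / Real.log x)) cp kp (by positivity) hcp
  refine ⟨R0 + R1 + R2 + n1 + 7, fun kR hkR U => ?_⟩
  obtain ⟨j, rfl⟩ : ∃ j, kR = j + 6 := ⟨kR - 6, by omega⟩
  have hj1 : 1 ≤ j := by omega
  have hjr : j ≤ 2 ^ j := Nat.lt_two_pow_self.le
  obtain ⟨sB, hsB⟩ := hbox (2 ^ j) (by omega) U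
  obtain ⟨sTl, hsT⟩ := eg_good_tile hT (2 * 2 ^ (j + 6)) U (Real.exp (-(cg' / 64) * 2 ^ (j + 6))) (Real.exp_pos _)
  obtain ⟨sP, hsP⟩ := hpin (2 * 2 ^ (j + 6)) (Real.log x / 2) (by positivity)
  refine ⟨sB + sTl + sP + s1, fun ks hks G c hgeo hm hn hG => ?_⟩
  have hc : Whole c := hgeo.whole
  have hmks : ks ≤ c.m := by rw [hm]; exact Nat.lt_two_pow_self.le
  have hn1 : n1 ≤ c.n := by
    have h1 : j + 6 ≤ 2 ^ (j + 6) := Nat.lt_two_pow_self.le
    have h2 : 2 ^ (j + 6) ≤ (2 ^ (j + 6)) ^ 5 := Nat.le_self_pow (by norm_num) _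
    omega
  have hP2 : (2 * (2 ^ (j + 6)) ^ 5) ^ 2 ≤ (2 ^ j) ^ (2 * 36) := by
    rw [mul_comm 2 36, pow_mul]
    exact Nat.pow_le_pow_left (eg_boxok_num1 j hj1) 2
  have key : ∀ (τ : Face c → ℤ) (Zs : Finset c.I) (bg : ℝ),
      (∀ (S : Finset EvId) (t b : ℕ × ℕ), t ∈ pcuts (2 ^ (j + 6)) ((2 ^ (j + 6)) ^ 5) → Disjoint ((pcut c ((2 ^ (j + 6)) ^ 5) t).box b) Zs →
        EgGauge (hFaces c (2 ^ (j + 6)) ((2 ^ (j + 6)) ^ 5) S t b) τ) →
      (∀ t ∈ tiles c (2 ^ (j + 6)), Disjoint (cellsOf c (2 ^ (j + 6)) {t}) Zs → EgGauge (tileTop c (2 ^ (j + 6)) t).faces τ) →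
      (∀ T : Top c, T.Ok → Disjoint T.cells Zs → egCirc T τ = 0) →
      (∀ T : Top c, T.Ok → Real.exp (Cu * Real.log (2 + c.m) * egCirc T τ) ≤ bg) →
      BoxOK (xyPhy c (2 ^ (j + 6)) a b0 b0 τ) a ((2 ^ (j + 6)) ^ 5) Zs x cstar U (Real.exp (-(cg' / 64) * 2 ^ (j + 6))) 6
        (1 / ((2 : ℝ) ^ (j + 6)) ^ kE) bg := by
    intro τ Zs bg hgB hgT hc0 hc1
    refine eg_boxok_core hc ha hb0 _ _ hG x cstar Cu U _ _ bg hx.le τ Zs
      (fun T hT' y => hres G c hc (by omega) hn1 _ b0 b0 hb0 le_rfl τ T hT' y) ?_ ?_ ?_ hgB hgT hc0 hc1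
    · intro m₁ h1 m₂ h2 W T hT' hfit hnd ι _ Ms hMs hcard 𝓕 hT𝓕 hM𝓕 h𝓕 hτ y hE
      rw [eg_boxok_div] at hMs
      have h := hsB G c hc (by omega) b0 (Set.mem_singleton b0) m₁ (h1.trans (eg_boxok_num1 j hj1)) m₂ (h2.trans (eg_boxok_num1 j hj1))
        W T hT' hfit hnd Ms hMs (hcard.trans hP2) 𝓕 hT𝓕 hM𝓕 (h𝓕.trans (Nat.mul_le_mul_left 2 hP2)) τ hτ y hE
      refine h.trans ?_
      have hE0 : 0 ≤ egE 𝓕 τ y := Finset.sum_nonneg fun f _ => sq_nonneg _
      have e0 : 6 * Real.exp (-(cg' / 64) * 2 ^ (j + 6)) ^ Fintype.card ι * Real.exp (1 / ((2 : ℝ) ^ (j + 6)) ^ kE * egE 𝓕 τ y)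
          = 6 * Real.exp ((Fintype.card ι : ℝ) * (-(cg' / 64) * 2 ^ (j + 6)) + 1 / ((2 : ℝ) ^ (j + 6)) ^ kE * egE 𝓕 τ y) := by
        rw [Real.exp_add, Real.exp_nat_mul, mul_assoc]
      rw [e0]
      refine mul_le_mul_of_nonneg_left (Real.exp_le_exp.2 ?_) (by norm_num)
      have e1 : -cg' * ((2 ^ j : ℕ) : ℝ) * (Fintype.card ι : ℝ) = (Fintype.card ι : ℝ) * (-(cg' / 64) * 2 ^ (j + 6)) := by
        push_cast; rw [pow_add]; ring
      have e2 : egE 𝓕 τ y / (((2 ^ j : ℕ) : ℝ)) ^ (7 * kE) ≤ 1 / ((2 : ℝ) ^ (j + 6)) ^ kE * egE 𝓕 τ y := by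
        rw [div_eq_mul_inv, mul_comm, one_div]
        refine mul_le_mul_of_nonneg_right ?_ hE0
        exact inv_anti₀ (by positivity) (eg_boxok_num2 j kE hj1)
      rw [e1]
      linarith
    · intro m₁ h1 m₂ h2 W T hT' hfit hnd 𝓕 hT𝓕 h𝓕 hτ y hE
      exact hsT G c hc (by omega) b0 (Set.mem_singleton b0) m₁ h1 m₂ h2 W T hT' hfit hnd 𝓕 hT𝓕 h𝓕 τ hτ y hE
    · intro m₁ h1 m₂ h2 W T hT' hfit M hM
      rw [eg_boxok_div] at hM
      have h := (hsP G c hc (by omega) b0 (Set.mem_singleton b0) m₁ h1 m₂ h2 W T hT' hfit M (2 ^ j) (by omega) hM).2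
      have h3 := hR2 (2 ^ j) (by omega)
      have h4 : Real.exp (-(cp / 2) * ((2 ^ j : ℕ) : ℝ)) ≤ 1 := by
        rw [Real.exp_le_one_iff]
        have : (0 : ℝ) ≤ ((2 ^ j : ℕ) : ℝ) := Nat.cast_nonneg _
        nlinarith
      have h5 : Kp * ((2 * 2 ^ (j + 6) : ℕ) : ℝ) ^ kp * Real.exp (-cp * ((2 ^ j : ℕ) : ℝ)) ≤ Real.log x / 2 := by
        have e : Kp * ((2 * 2 ^ (j + 6) : ℕ) : ℝ) ^ kp * Real.exp (-cp * ((2 ^ j : ℕ) : ℝ))
            = (Kp * 128 ^ kp * (2 / Real.log x) * ((2 ^ j : ℕ) : ℝ) ^ kp * Real.exp (-cp * ((2 ^ j : ℕ) : ℝ))) * (Real.log x / 2) := by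
          have e0 : ((2 * 2 ^ (j + 6) : ℕ) : ℝ) = 128 * ((2 ^ j : ℕ) : ℝ) := by push_cast; rw [pow_add]; ring
          rw [e0, mul_pow]
          field_simp
        rw [e]
        calc _ ≤ 1 * (Real.log x / 2) := mul_le_mul_of_nonneg_right (h3.trans h4) (by positivity)
          _ = _ := one_mul _
      linarith
  have hL0 : 0 ≤ Real.log (2 + c.m) := Real.log_nonneg (by have : (0 : ℝ) ≤ c.m := Nat.cast_nonneg _; linarith)
  refine ⟨?_, fun hfree hU => ?_⟩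
  · refine key 0 ∅ 1 (fun S t b _ _ => ⟨0, fun f _ => by simp⟩) (fun t _ _ => ⟨0, fun f _ => by simp⟩) (fun T _ _ => eg_circ_zero T) (fun T _ => ?_)
    rw [eg_circ_zero, mul_zero, Real.exp_zero]
  · refine key (tauU c) (egSrc c) _ (fun S t b ht hd => hU.gaugeB S t b ht hd) (fun t ht hd => hU.gaugeT t ht hd)
      (fun T hT' hd => (eg_src_circ hfree T hT').2 hd) (fun T hT' => Real.exp_le_exp.2 ?_)
    have h1 := (eg_src_circ hfree T hT').1
    have : 0 ≤ Cu * Real.log (2 + c.m) := mul_nonneg hCu hL0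
    nlinarith


end

end Claimed.Agent.R285.Entry
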