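import Claimed.Agent.R285.Pot.DecLaw
import Claimed.Agent.R285.Pot.DecHS

/-!
# ROW 285, post BP-ENT-GOOD-GA, file 2 (DEC): ADDITIONS TO THE DECAY CORE      (architect helper269; chief helper109)

Paper-free, no geometry.  Vocabulary and tools: `Pot/DecDefs.lean`, `DecCore.lean`, `DecGreen.lean`, `DecHS.lean`, `DecLaw.lean` (all proved).  Prefix `ega`.
* `ega_compare_entry` = `pd_compare_entry` without `1 ≤ r`;  `ega_four` = the FOUR-GRAPH estimate ((D4) of `Entry/GoodGa.lean`);  `ega_agree` = agreement of cut + pinned versions of one system;  `ega_gf_congr`, `ega_gf_split` = decoupling of the Green form;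
  `ega_gf_eq_gVar` = Green form of a system = Gaussian variance of a law with the same energy space (also on another vertex set);
* `ega_law_gap_le` (D2), `ega_law_gap_mean_le` (D1): the gap `plGap` of far additional pins, deterministic and in the mean.
RULES FOR LEAVES `L-GA-*`: as in `Entry/GoodGaGen.lean`.
-/

set_option autoImplicit false

namespace Claimed.Agent.R285.Entry

open scoped BigOperators Classical
open Claimed.Agent.R285 Claimed.Agent.R285.Pot MeasureTheory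

noncomputable section

section Abs

variable {V I : Type} [Fintype V] [Fintype I] {A : PdAmb V I} {S : PdSys V I} {σ CP K : ℝ}

/-- the diagonal bound, for every `r` -/
theorem ega_a1_diag (h : PdOk A S σ CP K) (P : Set V) {f : (V → ℝ) →ₗ[ℝ] ℝ} {J : Set I} (hf : A.Carried J f) {ρ : I → ℕ} (hρ : A.Lay ρ) (h0 : ∀ i ∈ J, ρ i = 0)
    {r : ℕ} (hfar : A.nb (A.nb (A.cellsV P)) ⊆ A.far ρ r) :
    S.gf f f - (S.addPin P).gf f f ≤ pdM CP K * pdE CP K r * S.gf f f := by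
  have h' := pd_ok_addPin h P
  have hM : 2 ≤ pdM CP K := pd_pdM_two_le h
  have hE : 0 ≤ pdE CP K r := pdE_nonneg CP K r
  have m1 := pd_pin_mono h P f
  have n1 : 0 ≤ (S.addPin P).gf f f := pd_gf_nonneg h' f
  have g0 : 0 ≤ S.gf f f := pd_gf_nonneg h f
  rcases Nat.eq_zero_or_pos r with rfl | hr
  · have e : pdE CP K 0 = 3 := by
      unfold pdE
      simp
    rw [e]
    nlinarith
  · exact (pd_pin_le h P hf hρ h0 hr hfar).trans (mul_le_mul_of_nonneg_left m1 (by positivity))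

/-- L-GA-A1.  `pd_pin_entry` without `1 ≤ r`.   PLAN: copy the proof of `Pot.pd_pin_entry`; the only use of `hr` is `b1 : gf - gf_pin ≤ M pdE(r) gf`; for `r = 0` it follows from `0 ≤ gf_pin`, `2 ≤ M`, `pdE 0 = 3`. -/
theorem ega_pin_entry (h : PdOk A S σ CP K) (P : Set V) {f₁ f₂ : (V → ℝ) →ₗ[ℝ] ℝ} {J₁ J₂ : Set I} (hf₁ : A.Carried J₁ f₁) (hf₂ : A.Carried J₂ f₂) {ρ₁ ρ₂ : I → ℕ}
    (hρ₁ : A.Lay ρ₁) (hρ₂ : A.Lay ρ₂) (h01 : ∀ i ∈ J₁, ρ₁ i = 0) (h02 : ∀ i ∈ J₂, ρ₂ i = 0) {r₁ r₂ : ℕ}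
    (hfar₁ : A.nb (A.nb (A.cellsV P)) ⊆ A.far ρ₁ r₁) (hfar₂ : A.nb (A.nb (A.cellsV P)) ⊆ A.far ρ₂ r₂) :
    (S.gf f₁ f₂ - (S.addPin P).gf f₁ f₂) ^ 2 ≤ pdM CP K ^ 2 * (pdE CP K r₁ * pdE CP K r₂) * (S.gf f₁ f₁ * S.gf f₂ f₂) := by
  have h' := pd_ok_addPin h P
  have hcs : (S.gf f₁ f₂ - (S.addPin P).gf f₁ f₂) ^ 2 ≤
      (S.gf f₁ f₁ - (S.addPin P).gf f₁ f₁) * (S.gf f₂ f₂ - (S.addPin P).gf f₂ f₂) := by
    refine pd_cs_aux fun t => ?_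
    have h1 := pd_pin_mono h P (t • f₁ + f₂)
    rw [pd_gf_line h, pd_gf_line h'] at h1
    linarith
  have m1 := pd_pin_mono h P f₁
  have m2 := pd_pin_mono h P f₂
  have b1 := ega_a1_diag h P hf₁ hρ₁ h01 hfar₁
  have b2 := ega_a1_diag h P hf₂ hρ₂ h02 hfar₂
  calc (S.gf f₁ f₂ - (S.addPin P).gf f₁ f₂) ^ 2
      ≤ (S.gf f₁ f₁ - (S.addPin P).gf f₁ f₁) * (S.gf f₂ f₂ - (S.addPin P).gf f₂ f₂) := hcs
    _ ≤ (pdM CP K * pdE CP K r₁ * S.gf f₁ f₁) * (pdM CP K * pdE CP K r₂ * S.gf f₂ f₂) :=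
        mul_le_mul b1 b2 (by linarith) (le_trans (by linarith) b1)
    _ = _ := by ring

/-- L-GA-A1.  `pd_compare_entry` without `1 ≤ r` (copy of its proof, with `ega_pin_entry`). -/
theorem ega_compare_entry (S' : PdSys V I) (h : PdOk A S σ CP K) (h' : PdOk A S' σ CP K) {Y : Set I} (hag : PdAgree A S S' Y)
    {f₁ f₂ : (V → ℝ) →ₗ[ℝ] ℝ} {J₁ J₂ : Set I} (hf₁ : A.Carried J₁ f₁) (hf₂ : A.Carried J₂ f₂) {ρ₁ ρ₂ : I → ℕ}
    (hρ₁ : A.Lay ρ₁) (hρ₂ : A.Lay ρ₂) (h01 : ∀ i ∈ J₁, ρ₁ i = 0) (h02 : ∀ i ∈ J₂, ρ₂ i = 0) {r₁ r₂ : ℕ}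
    (hfar₁ : A.nb (A.nb Yᶜ) ⊆ A.far ρ₁ r₁) (hfar₂ : A.nb (A.nb Yᶜ) ⊆ A.far ρ₂ r₂)
    {Γ₁ Γ₂ : ℝ} (hΓ₁ : S.gf f₁ f₁ ≤ Γ₁) (hΓ₁' : S'.gf f₁ f₁ ≤ Γ₁) (hΓ₂ : S.gf f₂ f₂ ≤ Γ₂) (hΓ₂' : S'.gf f₂ f₂ ≤ Γ₂) :
    (S.gf f₁ f₂ - S'.gf f₁ f₂) ^ 2 ≤ 4 * pdM CP K ^ 2 * (pdE CP K r₁ * pdE CP K r₂) * (Γ₁ * Γ₂) := by
  have hsub : A.nb (A.nb (A.cellsV (A.sitesOf Yᶜ))) ⊆ A.nb (A.nb Yᶜ) :=
    pd_nb_mono A (pd_nb_mono A (pd_cellsV_sitesOf A _))
  have hE₁ : 0 ≤ pdE CP K r₁ := pdE_nonneg CP K r₁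
  have hE₂ : 0 ≤ pdE CP K r₂ := pdE_nonneg CP K r₂
  have a1 := ega_pin_entry h (A.sitesOf Yᶜ) hf₁ hf₂ hρ₁ hρ₂ h01 h02 (hsub.trans hfar₁) (hsub.trans hfar₂)
  have a2 := ega_pin_entry h' (A.sitesOf Yᶜ) hf₁ hf₂ hρ₁ hρ₂ h01 h02 (hsub.trans hfar₁) (hsub.trans hfar₂)
  rw [← pd_agree_gf h h' hag f₁ f₂] at a2
  have c0 : 0 ≤ pdM CP K ^ 2 * (pdE CP K r₁ * pdE CP K r₂) := by positivity
  have b1 : S.gf f₁ f₁ * S.gf f₂ f₂ ≤ Γ₁ * Γ₂ :=
    mul_le_mul hΓ₁ hΓ₂ (pd_gf_nonneg h f₂) ((pd_gf_nonneg h f₁).trans hΓ₁)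
  have b2 : S'.gf f₁ f₁ * S'.gf f₂ f₂ ≤ Γ₁ * Γ₂ :=
    mul_le_mul hΓ₁' hΓ₂' (pd_gf_nonneg h' f₂) ((pd_gf_nonneg h' f₁).trans hΓ₁')
  have d1 := a1.trans (mul_le_mul_of_nonneg_left b1 c0)
  have d2 := a2.trans (mul_le_mul_of_nonneg_left b2 c0)
  set G₀ := (S.addPin (A.sitesOf Yᶜ)).gf f₁ f₂
  nlinarith [sq_nonneg ((S.gf f₁ f₂ - G₀) + (S'.gf f₁ f₂ - G₀))]

/-- the hypotheses of the four-graph estimate: `S₁, S₂` and `S₁', S₂'` agree on `Y`; `S₁, S₁'` and `S₂, S₂'` agree on `Z`; every cell is far from `Yᶜ` or far from `Zᶜ`. -/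
structure EgaFour (A : PdAmb V I) (S₁ S₁' S₂ S₂' : PdSys V I) (σ CP K : ℝ) (f : I → (V → ℝ) →ₗ[ℝ] ℝ) (R : ℕ) : Prop where
  ok₁ : PdOk A S₁ σ CP K
  ok₁' : PdOk A S₁' σ CP K
  ok₂ : PdOk A S₂ σ CP K
  ok₂' : PdOk A S₂' σ CP K
  car : ∀ i, A.Carried {i} (f i)
  g₁ : ∀ i, S₁.gf (f i) (f i) ≤ 1
  g₁' : ∀ i, S₁'.gf (f i) (f i) ≤ 1
  g₂ : ∀ i, S₂.gf (f i) (f i) ≤ 1
  g₂' : ∀ i, S₂'.gf (f i) (f i) ≤ 1
  far : ∃ (Y Z : Set I) (d : I → I → ℕ) (β δ : I → ℕ), PdAgree A S₁ S₂ Y ∧ PdAgree A S₁' S₂' Y ∧ PdAgree A S₁ S₁' Z ∧ PdAgree A S₂ S₂' Z ∧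
    (∀ i, A.Lay (d i)) ∧ (∀ i, d i i = 0) ∧ (∀ i, A.nb (A.nb Yᶜ) ⊆ A.far (d i) (β i)) ∧ (∀ i, A.nb (A.nb Zᶜ) ⊆ A.far (d i) (δ i)) ∧ ∀ i, R ≤ β i + δ i

/-- `pdE` decreases -/
theorem ega_a2_pdE_anti (h : PdOk A S σ CP K) {r r' : ℕ} (hr : r ≤ r') : pdE CP K r' ≤ pdE CP K r := by
  have hM := pd_pdM_two_le h
  unfold pdE
  have h3 : (0 : ℝ) < 3 * (pdM CP K + 1) := by linarith
  have hr' : (r : ℝ) ≤ r' := by exact_mod_cast hr
  refine mul_le_mul_of_nonneg_left (Real.exp_le_exp.2 ?_) (by norm_num)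
  exact div_le_div_of_nonneg_right (by linarith) h3.le

theorem ega_a2_sq_min {x a b c : ℝ} (ha : x ^ 2 ≤ a) (hb : x ^ 2 ≤ b) (hc0 : 0 ≤ c) (hab : a * b ≤ c ^ 2) : x ^ 2 ≤ c := by
  have h0 := sq_nonneg x
  have h1 : (x ^ 2) ^ 2 ≤ c ^ 2 := by
    calc (x ^ 2) ^ 2 = x ^ 2 * x ^ 2 := by ring
      _ ≤ a * b := mul_le_mul ha hb h0 (h0.trans ha)
      _ ≤ c ^ 2 := hab
  exact abs_le_of_sq_le_sq' h1 hc0 |>.2

/-- L-GA-A2, **the four-graph estimate, entries**.   PLAN: `D = (g₁ - g₂) - (g₁' - g₂') = (g₁ - g₁') - (g₂ - g₂')`; `ega_compare_entry` four times (`Γ = 1`, `J = {i}`, `ρ = d i`): with `X = pdE β_i pdE β_j`, `Z = pdE δ_i pdE δ_j`: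
`D² ≤ 2 (..)² + 2 (..)² ≤ 16 M² X` and `≤ 16 M² Z`;  `min (X, Z)² ≤ X Z = (pdE β_i pdE δ_i)(pdE β_j pdE δ_j) = 9 pdE (β_i + δ_i) pdE (β_j + δ_j) ≤ (3 pdE R)²` (`pdE_add`; `pdE` is antitone in `r`: `Real.exp_le_exp`). -/
theorem ega_four_entry {S₁ S₁' S₂ S₂' : PdSys V I} {f : I → (V → ℝ) →ₗ[ℝ] ℝ} {R : ℕ} (h : EgaFour A S₁ S₁' S₂ S₂' σ CP K f R) (i j : I) :
    ((S₁.gf (f i) (f j) - S₁'.gf (f i) (f j)) - (S₂.gf (f i) (f j) - S₂'.gf (f i) (f j))) ^ 2 ≤ 48 * pdM CP K ^ 2 * pdE CP K R := by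
  obtain ⟨Y, Z, d, β, δ, aY, aY', aZ, aZ', hd, hd0, hβ, hδ, hR⟩ := h.far
  have z0 : ∀ k : I, ∀ l ∈ ({k} : Set I), d k l = 0 := fun k l hl => by
    rw [Set.mem_singleton_iff] at hl
    rw [hl]
    exact hd0 k
  have cY := ega_compare_entry S₂ h.ok₁ h.ok₂ aY (h.car i) (h.car j) (hd i) (hd j) (z0 i) (z0 j) (hβ i) (hβ j) (h.g₁ i) (h.g₂ i) (h.g₁ j) (h.g₂ j)
  have cY' := ega_compare_entry S₂' h.ok₁' h.ok₂' aY' (h.car i) (h.car j) (hd i) (hd j) (z0 i) (z0 j) (hβ i) (hβ j) (h.g₁' i) (h.g₂' i) (h.g₁' j) (h.g₂' j)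
  have cZ := ega_compare_entry S₁' h.ok₁ h.ok₁' aZ (h.car i) (h.car j) (hd i) (hd j) (z0 i) (z0 j) (hδ i) (hδ j) (h.g₁ i) (h.g₁' i) (h.g₁ j) (h.g₁' j)
  have cZ' := ega_compare_entry S₂' h.ok₂ h.ok₂' aZ' (h.car i) (h.car j) (hd i) (hd j) (z0 i) (z0 j) (hδ i) (hδ j) (h.g₂ i) (h.g₂' i) (h.g₂ j) (h.g₂' j)
  set x₁ := S₁.gf (f i) (f j)
  set x₁' := S₁'.gf (f i) (f j)
  set x₂ := S₂.gf (f i) (f j)
  set x₂' := S₂'.gf (f i) (f j)
  set M := pdM CP K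
  have bY : ((x₁ - x₁') - (x₂ - x₂')) ^ 2 ≤ 16 * M ^ 2 * (pdE CP K (β i) * pdE CP K (β j)) := by
    nlinarith [sq_nonneg ((x₁ - x₂) + (x₁' - x₂'))]
  have bZ : ((x₁ - x₁') - (x₂ - x₂')) ^ 2 ≤ 16 * M ^ 2 * (pdE CP K (δ i) * pdE CP K (δ j)) := by
    nlinarith [sq_nonneg ((x₁ - x₁') + (x₂ - x₂'))]
  have hE : 0 ≤ pdE CP K R := pdE_nonneg CP K R
  refine ega_a2_sq_min bY bZ (by positivity) ?_
  have e1 : pdE CP K (β i) * pdE CP K (δ i) ≤ 3 * pdE CP K R := by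
    rw [pdE_add]
    exact mul_le_mul_of_nonneg_left (ega_a2_pdE_anti h.ok₁ (hR i)) (by norm_num)
  have e2 : pdE CP K (β j) * pdE CP K (δ j) ≤ 3 * pdE CP K R := by
    rw [pdE_add]
    exact mul_le_mul_of_nonneg_left (ega_a2_pdE_anti h.ok₁ (hR j)) (by norm_num)
  have e3 : (pdE CP K (β i) * pdE CP K (δ i)) * (pdE CP K (β j) * pdE CP K (δ j)) ≤ (3 * pdE CP K R) * (3 * pdE CP K R) :=
    mul_le_mul e1 e2 (mul_nonneg (pdE_nonneg _ _ _) (pdE_nonneg _ _ _)) (by positivity)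
  calc 16 * M ^ 2 * (pdE CP K (β i) * pdE CP K (β j)) * (16 * M ^ 2 * (pdE CP K (δ i) * pdE CP K (δ j)))
      = 256 * M ^ 4 * ((pdE CP K (β i) * pdE CP K (δ i)) * (pdE CP K (β j) * pdE CP K (δ j))) := by ring
    _ ≤ 256 * M ^ 4 * ((3 * pdE CP K R) * (3 * pdE CP K R)) := mul_le_mul_of_nonneg_left e3 (by positivity)
    _ = (48 * M ^ 2 * pdE CP K R) ^ 2 := by ring

/-- L-GA-A3, bilinearity of the Green form (`pd_sol_sum`, `pd_sol_smul`, `map_sum`, `LinearMap.sum_apply`, `LinearMap.smul_apply`). -/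
theorem ega_gf_sum (h : PdOk A S σ CP K) (f : I → (V → ℝ) →ₗ[ℝ] ℝ) (y : I → ℝ) :
    S.gf (∑ i, y i • f i) (∑ i, y i • f i) = ∑ i, ∑ j, y i * y j * S.gf (f i) (f j) := by
  unfold PdSys.gf
  rw [pd_sol_sum h, map_sum]
  refine Finset.sum_congr rfl fun i _ => ?_
  rw [pd_sol_smul h, map_smul, LinearMap.sum_apply, smul_eq_mul, Finset.mul_sum]
  refine Finset.sum_congr rfl fun j _ => ?_
  rw [LinearMap.smul_apply, smul_eq_mul]
  ring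

/-- L-GA-A3, **the four-graph estimate**.   PLAN: `ega_gf_sum` four times; `|∑_{ij} y_i y_j D_ij| ≤ Dmax (∑ |y_i|)² ≤ Dmax |I| ∑ y_i²` (`Finset.abs_sum_le_sum_abs`, `sq_sum_le_card_mul_sum_sq`), `Dmax = √(48 M² pdE R)` (`Real.abs_le_sqrt`). -/
theorem ega_four {S₁ S₁' S₂ S₂' : PdSys V I} {f : I → (V → ℝ) →ₗ[ℝ] ℝ} {R : ℕ} (h : EgaFour A S₁ S₁' S₂ S₂' σ CP K f R) (y : I → ℝ) :
    |(S₁.gf (∑ i, y i • f i) (∑ i, y i • f i) - S₁'.gf (∑ i, y i • f i) (∑ i, y i • f i))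
        - (S₂.gf (∑ i, y i • f i) (∑ i, y i • f i) - S₂'.gf (∑ i, y i • f i) (∑ i, y i • f i))|
      ≤ Real.sqrt (48 * pdM CP K ^ 2 * pdE CP K R) * Fintype.card I * ∑ i, y i ^ 2 := by
  rw [ega_gf_sum h.ok₁, ega_gf_sum h.ok₁', ega_gf_sum h.ok₂, ega_gf_sum h.ok₂']
  set Dm : ℝ := Real.sqrt (48 * pdM CP K ^ 2 * pdE CP K R) with hDm
  have hD0 : 0 ≤ Dm := Real.sqrt_nonneg _
  have hent : ∀ i j, |(S₁.gf (f i) (f j) - S₁'.gf (f i) (f j)) - (S₂.gf (f i) (f j) - S₂'.gf (f i) (f j))| ≤ Dm :=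
    fun i j => Real.abs_le_sqrt (ega_four_entry h i j)
  have e1 : (∑ i, ∑ j, y i * y j * S₁.gf (f i) (f j) - ∑ i, ∑ j, y i * y j * S₁'.gf (f i) (f j))
        - (∑ i, ∑ j, y i * y j * S₂.gf (f i) (f j) - ∑ i, ∑ j, y i * y j * S₂'.gf (f i) (f j))
      = ∑ i, ∑ j, y i * y j * ((S₁.gf (f i) (f j) - S₁'.gf (f i) (f j)) - (S₂.gf (f i) (f j) - S₂'.gf (f i) (f j))) := by
    simp only [← Finset.sum_sub_distrib]
    refine Finset.sum_congr rfl fun i _ => Finset.sum_congr rfl fun j _ => by ring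
  rw [e1]
  calc |∑ i, ∑ j, y i * y j * ((S₁.gf (f i) (f j) - S₁'.gf (f i) (f j)) - (S₂.gf (f i) (f j) - S₂'.gf (f i) (f j)))|
      ≤ ∑ i, ∑ j, |y i| * |y j| * Dm := by
        refine (Finset.abs_sum_le_sum_abs _ _).trans (Finset.sum_le_sum fun i _ => ?_)
        refine (Finset.abs_sum_le_sum_abs _ _).trans (Finset.sum_le_sum fun j _ => ?_)
        rw [abs_mul, abs_mul]
        exact mul_le_mul_of_nonneg_left (hent i j) (by positivity)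
    _ = Dm * (∑ i, |y i|) ^ 2 := by
        rw [sq, Finset.sum_mul_sum, Finset.mul_sum]
        refine Finset.sum_congr rfl fun i _ => ?_
        rw [Finset.mul_sum]
        refine Finset.sum_congr rfl fun j _ => by ring
    _ ≤ Dm * (Fintype.card I * ∑ i, y i ^ 2) := by
        refine mul_le_mul_of_nonneg_left ?_ hD0
        have := sq_sum_le_card_mul_sum_sq (s := (Finset.univ : Finset I)) (f := fun i => |y i|)
        simpa [Finset.card_univ, sq_abs] using this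
    _ = Dm * Fintype.card I * ∑ i, y i ^ 2 := by ring

/-- L-GA-A4, agreement of two cut and pinned versions of one system.   PLAN: `pd_addPin_adm`; the form of `addPin` is the form (`rfl`/`pd_addPin_bil`, `pd_form_eq_bil`); `pd_cutT_form`; the two sums differ only in rows with `t ∈ D ↔ t ∉ D'`. -/
theorem ega_agree (S : PdSys V I) (D D' : Set S.Tm) (P' P'' : Set V) (Y : Set I)
    (hP : ∀ v, A.SuppIn Y v → ((∀ x ∈ P', v x = 0) ↔ ∀ x ∈ P'', v x = 0))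
    (hD : ∀ t, (t ∈ D ↔ t ∉ D') → ∀ v, A.SuppIn Y v → S.row v t = 0) :
    PdAgree A ((S.cutT D).addPin P') ((S.cutT D').addPin P'') Y := by
  intro v hv
  constructor
  · rw [pd_addPin_adm, pd_addPin_adm, hP v hv]
    exact Iff.rfl
  · have e1 : ((S.cutT D).addPin P').form v = (S.cutT D).form v := rfl
    have e2 : ((S.cutT D').addPin P'').form v = (S.cutT D').form v := rfl
    rw [e1, e2, pd_cutT_form, pd_cutT_form]
    congr 1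
    refine Finset.sum_congr rfl fun t _ => ?_
    by_cases h1 : t ∈ D <;> by_cases h2 : t ∈ D'
    · rw [if_pos h1, if_pos h2]
    · rw [if_pos h1, if_neg h2, hD t ⟨fun _ => h2, fun _ => h1⟩ v hv]
      norm_num
    · rw [if_neg h1, if_pos h2, hD t ⟨fun h => absurd h h1, fun h => absurd h2 h⟩ v hv]
      norm_num
    · rw [if_neg h1, if_neg h2]

/-- L-GA-A6, the Green form depends only on the admissible space and on the form there.   PLAN: `v = S.sol F`: `S.gf F F = 2 F v - S.form v` (`pd_gf_self`, `pd_sol_spec`) `= 2 F v - S'.form v ≤ S'.gf F F` (`pd_two_apply_sub_le`); symmetric. -/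
theorem ega_gf_congr {S' : PdSys V I} (h : PdOk A S σ CP K) (h' : PdOk A S' σ CP K) (hA : ∀ v, S.Adm v ↔ S'.Adm v) (hF : ∀ v, S.Adm v → S.form v = S'.form v)
    (F : (V → ℝ) →ₗ[ℝ] ℝ) : S.gf F F = S'.gf F F := by
  exact pd_gf_congr h h' hA hF F F

/-- fields carried by `Qᶜ` and by `Q` are orthogonal if no row sees both sides -/
theorem ega_a6_bil_zero (S : PdSys V I) (Q : Set V) (hrow : ∀ t, (∀ x ∈ Q, S.R t x = 0) ∨ (∀ x, x ∉ Q → S.R t x = 0))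
    {v₁ v₂ : V → ℝ} (h1 : ∀ x ∈ Q, v₁ x = 0) (h2 : ∀ x, x ∉ Q → v₂ x = 0) : S.bil v₁ v₂ = 0 := by
  unfold PdSys.bil
  refine Finset.sum_eq_zero fun t _ => ?_
  rcases hrow t with ht | ht
  · have e : S.row v₂ t = 0 := by
      unfold PdSys.row
      refine Finset.sum_eq_zero fun x _ => ?_
      by_cases hx : x ∈ Q
      · rw [ht x hx, zero_mul]
      · rw [h2 x hx, mul_zero]
    rw [e, mul_zero]
  · have e : S.row v₁ t = 0 := by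
      unfold PdSys.row
      refine Finset.sum_eq_zero fun x _ => ?_
      by_cases hx : x ∈ Q
      · rw [h1 x hx, mul_zero]
      · rw [ht x hx, zero_mul]
    rw [e, zero_mul]

/-- the value of the variational problem at the solution -/
theorem ega_a6_opt (h : PdOk A S σ CP K) (F : (V → ℝ) →ₗ[ℝ] ℝ) : S.gf F F = 2 * F (S.sol F) - S.form (S.sol F) := by
  have h1 := pd_gf_self h F
  have h2 : S.gf F F = F (S.sol F) := rfl
  linarith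

/-- L-GA-A6, **decoupling**: no row of `S` sees both `Q` and `Qᶜ`; `Sa` = `S` pinned on `Q`, `Sb` = `S` pinned on `Qᶜ`.
PLAN: `gf = max_v (2 F v - form v)` (`pd_gf_self`, `pd_sol_spec`, `pd_two_apply_sub_le`).   `≤`: `v = S.sol F = v₁ + v₂`, `v₁ = v` off `Q`, `v₂ = v` on `Q`; for every row `row v₁ t = 0` or `row v₂ t = 0`, so `form v = form v₁ + form v₂`.
`≥`: `v = Sa.sol F + Sb.sol F`, the same identity. -/
theorem ega_gf_split {Sa Sb : PdSys V I} (h : PdOk A S σ CP K) (ha : PdOk A Sa σ CP K) (hb : PdOk A Sb σ CP K) (Q : Set V)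
    (hAa : ∀ v, Sa.Adm v ↔ S.Adm v ∧ ∀ x ∈ Q, v x = 0) (hAb : ∀ v, Sb.Adm v ↔ S.Adm v ∧ ∀ x, x ∉ Q → v x = 0)
    (hFa : ∀ v, Sa.form v = S.form v) (hFb : ∀ v, Sb.form v = S.form v)
    (hrow : ∀ t, (∀ x ∈ Q, S.R t x = 0) ∨ (∀ x, x ∉ Q → S.R t x = 0)) (F : (V → ℝ) →ₗ[ℝ] ℝ) :
    S.gf F F = Sa.gf F F + Sb.gf F F := by
  apply le_antisymm
  · obtain ⟨v, hv⟩ : ∃ v, v = S.sol F := ⟨_, rfl⟩
    have hadm : S.Adm v := by
      rw [hv]
      exact (pd_sol_spec h F).1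
    obtain ⟨v₁, hv₁⟩ : ∃ v₁ : V → ℝ, v₁ = fun x => if x ∈ Q then 0 else v x := ⟨_, rfl⟩
    obtain ⟨v₂, hv₂⟩ : ∃ v₂ : V → ℝ, v₂ = fun x => if x ∈ Q then v x else 0 := ⟨_, rfl⟩
    have e : v = v₁ + v₂ := by
      funext x
      rw [hv₁, hv₂, Pi.add_apply]
      by_cases hx : x ∈ Q
      · simp only [if_pos hx, zero_add]
      · simp only [if_neg hx, add_zero]
    have z1 : ∀ x ∈ Q, v₁ x = 0 := fun x hx => by
      rw [hv₁]
      simp only [if_pos hx]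
    have z2 : ∀ x, x ∉ Q → v₂ x = 0 := fun x hx => by
      rw [hv₂]
      simp only [if_neg hx]
    have a1 : S.Adm v₁ := fun x hx => by
      rw [hv₁]
      by_cases hq : x ∈ Q
      · simp only [if_pos hq]
      · simp only [if_neg hq]
        exact hadm x hx
    have a2 : S.Adm v₂ := fun x hx => by
      rw [hv₂]
      by_cases hq : x ∈ Q
      · simp only [if_pos hq]
        exact hadm x hx
      · simp only [if_neg hq]
    have b1 := pd_two_apply_sub_le ha F ((hAa v₁).2 ⟨a1, z1⟩)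
    have b2 := pd_two_apply_sub_le hb F ((hAb v₂).2 ⟨a2, z2⟩)
    rw [hFa] at b1
    rw [hFb] at b2
    have h3 := ega_a6_opt h F
    rw [← hv, e, pd_form_add, ega_a6_bil_zero S Q hrow z1 z2, map_add] at h3
    linarith
  · have sa := (hAa _).1 (pd_sol_spec ha F).1
    have sb := (hAb _).1 (pd_sol_spec hb F).1
    have b := pd_two_apply_sub_le h F (pd_adm_add S sa.1 sb.1)
    rw [pd_form_add, ega_a6_bil_zero S Q hrow sa.2 sb.2, map_add] at b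
    have h1 := ega_a6_opt ha F
    have h2 := ega_a6_opt hb F
    rw [hFa] at h1
    rw [hFb] at h2
    linarith

/-- L-GA-A5, **the Green form of a system is the Gaussian variance of a law with the same energy space** (possibly on another vertex set: `res` restricts, `ext` extends).
PLAN: `v = S.sol F`: `gf = F v = S.form v` (`pd_gf_self`, `pd_sol_spec`), so `gf = 2 F v - form v ≤ 2 ⟨f', res v⟩ - H.form (res v) ≤ gVar` (`pl_le_gVar (plPin H P')`, `pl_adm_of_PD`, `pl_mem_rspan_pin`, `pl_pin_form`).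
Conversely `w = plGf H a P' f'`: `gVar = 2⟨f', w⟩ - H.form w` (`pl_Gf_opt`, `pl_gVar_eq_form`, `pl_gVar_eq_pair`) `≤ 2 F (ext w) - S.form (ext w) ≤ gf` (`pd_two_apply_sub_le`). -/
theorem ega_gf_eq_gVar (h : PdOk A S σ CP K) {G' : HGraph} (H : HLaw G') {a : ℝ} (ha : 0 < a) {P' : Set G'.V} (hPD : plPD H P')
    (F : (V → ℝ) →ₗ[ℝ] ℝ) (f' : G'.V → ℝ) (res : (V → ℝ) → G'.V → ℝ) (ext : (G'.V → ℝ) → V → ℝ)
    (hr0 : ∀ v, S.Adm v → ∀ x ∈ P', res v x = 0) (hr1 : ∀ v, S.Adm v → H.form a (res v) ≤ S.form v) (hr2 : ∀ v, S.Adm v → F v = HLaw.pair f' (res v))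
    (he0 : ∀ w, (∀ x ∈ P', w x = 0) → S.Adm (ext w)) (he1 : ∀ w, (∀ x ∈ P', w x = 0) → S.form (ext w) ≤ H.form a w)
    (he2 : ∀ w, (∀ x ∈ P', w x = 0) → F (ext w) = HLaw.pair f' w) :
    S.gf F F = (plPin H P').gVar a f' := by
  apply le_antisymm
  · have hv := (pd_sol_spec h F).1
    have h1 : S.gf F F = F (S.sol F) := rfl
    have h2 : S.gf F F = S.form (S.sol F) := pd_gf_self h F
    have h3 := pl_le_gVar (plPin H P') ha (pl_adm_of_PD H hPD f') ((pl_mem_rspan_pin H P' (res (S.sol F))).2 (hr0 _ hv))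
    rw [pl_pin_form, ← hr2 _ hv] at h3
    have h4 := hr1 _ hv
    linarith
  · have hopt := pl_Gf_opt H ha hPD f'
    have hw := (pl_mem_rspan_pin H P' _).1 hopt.1
    have h1 := pl_gVar_eq_form (plPin H P') ha hopt
    have h2 := pl_gVar_eq_pair (plPin H P') ha hopt
    rw [pl_pin_form] at h1
    have h3 := pd_two_apply_sub_le h F (he0 _ hw)
    rw [he2 _ hw] at h3
    have h4 := he1 _ hw
    linarith

end Abs

section Law

variable {G : HGraph} {H : HLaw G} {I : Type} [Fintype I]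

/-- L-GA-DL1, **(D2): the gap of far additional pins is a small multiple of the energy of the data.**   `P` = guard (data), `A₁` = additional zero pins.
PLAN: `S = (pdLawGr H P₀ cel).sys A a`, `w = plHarm H a (P₀ ∪ P) u`; `S.HarmOff P w` (`pl_harm_of_mem`, `pl_harm_orth`, `pd_law_bil`); trial field `g = A.cut (A.cellsV A₁) * w` in `pl_gap_le` (as in the proof of `Pot.pd_law_gPin_le`);
`pd_form_cut_le`, `pd_enT_mono hfar`, `pd_harmOff_tail`; `pd_law_form`. -/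
theorem ega_law_gap_le {A : PdAmb G.V I} {P₀ : Set G.V} {cel : H.O → I} {a σ CP K : ℝ} (ha : 0 < a)
    (h : PdOk A ((pdLawGr H P₀ cel).sys A a) σ CP K) (P A₁ : Set G.V)
    {ρ : I → ℕ} (hρ : A.Lay ρ) (h0 : ∀ i ∈ A.cellsV P, ρ i = 0) {r : ℕ} (hr : 1 ≤ r)
    (hfar : A.nb (A.nb (A.cellsV A₁)) ⊆ A.far ρ r) (u : G.V → ℝ) (hu : ∀ x ∈ P₀, u x = 0) :
    plGap H a (P₀ ∪ P) A₁ u ≤ pdM CP K * pdE CP K r * plEn H a (P₀ ∪ P) u := by
  have hPD0 : plPD H P₀ := pd_law_PD ha h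
  have hPD : plPD H (P₀ ∪ P) := pl_PD_mono H hPD0 Set.subset_union_left
  obtain ⟨w, hw⟩ : ∃ w, w = plHarm H a (P₀ ∪ P) u := ⟨_, rfl⟩
  have hadm : ((pdLawGr H P₀ cel).sys A a).Adm w := by
    rw [pd_law_adm]
    intro x hx
    rw [hw, pl_harm_of_mem H a u (Or.inl hx), hu x hx]
  have hharm : ((pdLawGr H P₀ cel).sys A a).HarmOff P w := by
    refine ⟨hadm, fun φ hφ hφP => ?_⟩
    rw [pd_law_bil H A P₀ cel ha, hw]
    exact pl_harm_orth H ha hPD u fun x hx => hx.elim (hφ x) (hφP x)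
  have hnb : ∀ x ∈ P, A.blk x ∉ A.nb (A.cellsV A₁) := fun x hx hmem => by
    have h1 : A.blk x ∈ A.far ρ r := hfar (pd_subset_nb h _ hmem)
    have h2 : ρ (A.blk x) = 0 := h0 _ ⟨x, hx, rfl⟩
    have h3 : r ≤ ρ (A.blk x) := h1
    omega
  have hM : 0 ≤ pdM CP K := le_trans (by norm_num) (pd_pdM_two_le h)
  have hgap : plGap H a (P₀ ∪ P) A₁ u ≤ ((pdLawGr H P₀ cel).sys A a).form (A.cut (A.cellsV A₁) * w) := by
    rw [pd_law_form H A P₀ cel ha]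
    refine pl_gap_le H ha hPD A₁ u (fun x hx => ?_) (fun x hx _ => ?_)
    · rcases hx with hx | hx
      · rw [Pi.mul_apply, hadm x hx, mul_zero]
      · rw [Pi.mul_apply, h.amb.cut_zero _ x (hnb x hx), zero_mul]
    · rw [Pi.mul_apply, h.amb.cut_one (A.cellsV A₁) x ⟨x, hx, rfl⟩, one_mul, hw]
  have h1 := pd_form_cut_le h hadm (A.cellsV A₁)
  have h2 := pd_enT_mono ((pdLawGr H P₀ cel).sys A a) hfar w
  have h3 := pd_harmOff_tail h hharm hρ h0 r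
  have h4 : ((pdLawGr H P₀ cel).sys A a).form w = plEn H a (P₀ ∪ P) u := by
    rw [pd_law_form H A P₀ cel ha, hw]
    rfl
  rw [h4] at h3
  calc plGap H a (P₀ ∪ P) A₁ u ≤ pdM CP K * ((pdLawGr H P₀ cel).sys A a).enT (A.nb (A.nb (A.cellsV A₁))) w := hgap.trans h1
    _ ≤ pdM CP K * (pdE CP K r * plEn H a (P₀ ∪ P) u) := mul_le_mul_of_nonneg_left (h2.trans h3) hM
    _ = pdM CP K * pdE CP K r * plEn H a (P₀ ∪ P) u := by ring

/-- L-GA-DL2, **(D1): the Gaussian mean of the gap.**   PLAN: the proof of `Pot.pd_law_gPin_le` with `pl_onb_exists H ha hPD (P₀ ∪ P)`, `pl_gap_eq_form_L`, `pl_form_comp_mean_eq_sum` (+ `pl_gapL_of_zero`) instead of `pl_gPin_le_sum`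
(see the proof of `Pot.pl_gPin_le_sum_of_onb`): `∫ plGap = ∑_j plGap (u j) ≤ ∑_j form (χ u_j) ≤` `pd_trace_cut`. -/
theorem ega_law_gap_mean_le {A : PdAmb G.V I} {P₀ : Set G.V} {cel : H.O → I} {a σ CP K CR : ℝ} (ha : 0 < a)
    (h : PdOk A ((pdLawGr H P₀ cel).sys A a) σ CP K) (hCR : 0 ≤ CR) (hR : PdRes A ((pdLawGr H P₀ cel).sys A a) σ CR)
    (P A₁ : Set G.V) {ρ : I → ℕ} (hρ : A.Lay ρ) (h0 : ∀ i ∈ A.cellsV P, ρ i = 0) {r : ℕ} (hr : 1 ≤ r)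
    (Q : Finset I) (hQ : A.nb (A.nb (A.nb (A.nb (A.cellsV A₁)))) ⊆ (Q : Set I)) (hfar : (Q : Set I) ⊆ A.far ρ r) :
    ∫ φ, plGap H a (P₀ ∪ P) A₁ φ ∂plMeas H a P₀ ≤ Q.card * pdE CP K r * (pdM CP K + 16 / 3 * (2 * K * CR) ^ 2) := by
  have hPD : plPD H P₀ := pd_law_PD ha h
  have hPA : plPD H (P₀ ∪ P) := pl_PD_mono H hPD Set.subset_union_left
  have hnb : ∀ x ∈ P, A.blk x ∉ A.nb (A.cellsV A₁) := fun x hx hmem => by
    have h1 : A.blk x ∈ A.far ρ r :=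
      hfar (hQ (pd_subset_nb h _ (pd_subset_nb h _ (pd_subset_nb h _ hmem))))
    have h2 : ρ (A.blk x) = 0 := h0 _ ⟨x, hx, rfl⟩
    have h3 : r ≤ ρ (A.blk x) := h1
    omega
  obtain ⟨n, u, hu⟩ := pl_onb_exists H ha hPD (P₀ ∪ P)
  have huP : ∀ j, ∀ x ∈ P₀, u j x = 0 := fun j => (hu.mem j).1
  have huo : ∀ j (w : G.V → ℝ), (∀ x ∈ P₀ ∪ P, w x = 0) → plB H a (u j) w = 0 := fun j => (hu.mem j).2
  have htr := pd_trace_cut h hCR hR (P := P) (J := A.cellsV A₁) hρ h0 hr Q hQ hfar u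
    (fun j => ⟨huP j, fun φ hφ hφA => by
      rw [pd_law_bil H A P₀ cel ha]
      exact huo j φ fun x hx => hx.elim (hφ x) (hφA x)⟩)
    (fun i j => by rw [pd_law_bil H A P₀ cel ha]; exact hu.orth i j)
  have hgap : ∀ j, plGap H a (P₀ ∪ P) A₁ (u j) ≤ ((pdLawGr H P₀ cel).sys A a).form (A.cut (A.cellsV A₁) * u j) := fun j => by
    rw [pd_law_form H A P₀ cel ha]
    refine pl_gap_le H ha hPA A₁ (u j) (fun x hx => ?_) (fun x hx _ => ?_)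
    · rcases hx with hx | hx
      · rw [Pi.mul_apply, huP j x hx, mul_zero]
      · rw [Pi.mul_apply, h.amb.cut_zero _ x (hnb x hx), zero_mul]
    · rw [Pi.mul_apply, h.amb.cut_one (A.cellsV A₁) x ⟨x, hx, rfl⟩, one_mul,
        ← pl_harm_unique H ha hPA (u j) (v := u j) (fun _ _ => rfl) (huo j)]
  have hmean : ∫ φ, plGap H a (P₀ ∪ P) A₁ φ ∂plMeas H a P₀ = ∑ j, plGap H a (P₀ ∪ P) A₁ (u j) := by
    simp only [pl_gap_eq_form_L H ha hPA]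
    exact pl_form_comp_mean_eq_sum H ha hPD Set.subset_union_left hu _ fun w hw => pl_gapL_of_zero H ha hPA A₁ hw
  rw [hmean]
  exact (Finset.sum_le_sum fun j _ => hgap j).trans htr

end Law

end

end Claimed.Agent.R285.Entry
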