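import Claimed.Agent.R285.Entry.GoodEx
import Claimed.Agent.R285.Pot.LinSum
import Claimed.Agent.R285.Pot.DecGreen

/-!
# ROW 285, post BP-ENT-GOOD-GA, file 1 (GEN): THE GENERIC ONE-MARK GAUSSIAN ESTIMATE      (architect helper269; chief helper109)

Paper-free.  ONE graph `G`, TWO laws `Hc` (cut), `Ho` (restored) on it with `Q_c ≤ Q_o`, equality on the fields vanishing on the core `A` (`EgaPair`); guard `P`; test `f`.  Only the POT-LIN calculus (`Pot/Lin*.lean`, all proved) is used.  Prefix `ega`.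
(The restored law lives on another graph with the same vertices; it is read on the graph of the cut law as `egaAdd Hc R`: the restored bonds become observation rows `a^{-1/2} ∇_e`.  All Gaussian functionals depend on a law only through `form`.)
EXIT: `ega_gen_moment` (+ `ega_gen_le_one`).      Map of the package: header of `Entry/GoodGaInst.lean`.
RULES FOR LEAVES `L-GA-*` (name in the docstring): prove IN PLACE only your theorems, statements verbatim, auxiliary lemmas directly above your theorem with the prefix `ega_<leaf>_`; everything else is a black box; `git pull --rebase` before landing.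
-/

set_option autoImplicit false

namespace Claimed.Agent.R285.Entry

open scoped BigOperators Classical
open Claimed.Agent.R285 Claimed.Agent.R285.Pot MeasureTheory

noncomputable section

variable {G : HGraph}

/-- a law with additional observation rows -/
def egaAdd (H : HLaw G) {K : Type} [Fintype K] (R : K → G.V → ℝ) : HLaw G :=
  @HLaw.mk G H.Λ (H.O ⊕ K) inferInstance (Sum.elim H.B R)

theorem ega_add_form (H : HLaw G) {K : Type} [Fintype K] (R : K → G.V → ℝ) (a : ℝ) (v : G.V → ℝ) :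
    (egaAdd H R).form a v = H.form a v + ∑ k, HLaw.pair (R k) v ^ 2 := by
  unfold HLaw.form
  rw [add_assoc]
  congr 1
  exact Fintype.sum_sum_type _

theorem ega_gZ_congr (H H' : HLaw G) (a : ℝ) (hf : ∀ v, H.form a v = H'.form a v) (P : Set G.V) (u : G.V → ℝ) (F : (G.V → ℝ) → ℝ) :
    C3.gZ H a P u F = C3.gZ H' a P u F := by
  unfold C3.gZ
  simp only [hf]

/-- **the standing hypotheses of the generic one-mark estimate**: `Q_c ≤ Q_o` with equality on the fields vanishing on the core `A`; the guard `P` does not meet the core; `Q_c` is definite. -/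
structure EgaPair (Hc Ho : HLaw G) (a : ℝ) (P A : Set G.V) : Prop where
  a_pos : 0 < a
  pd : plPD Hc ∅
  le : ∀ v, Hc.form a v ≤ Ho.form a v
  eq : ∀ v, (∀ x ∈ A, v x = 0) → Ho.form a v = Hc.form a v
  disj : ∀ x ∈ A, x ∉ P

variable {Hc Ho : HLaw G} {a : ℝ} {P A : Set G.V}

/-- a larger form is definite -/
theorem ega_pd_of_le {H H' : HLaw G} {a : ℝ} (ha : 0 < a) {Q : Set G.V} (h : plPD H Q) (hle : ∀ v, H.form a v ≤ H'.form a v) : plPD H' Q := by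
  intro v hv h1 h2
  have h0 : H'.form a v = 0 := (pl_form_eq_zero_iff H' ha v).2 ⟨h1, h2⟩
  exact pl_PD_form H h ha hv (le_antisymm ((hle v).trans h0.le) (pl_form_nonneg H ha v))

/-- a larger form has smaller variances -/
theorem ega_gVar_anti {H H' : HLaw G} {a : ℝ} (ha : 0 < a) {Q : Set G.V} (h : plPD H Q) (hle : ∀ v, H.form a v ≤ H'.form a v) (g : G.V → ℝ) :
    (plPin H' Q).gVar a g ≤ (plPin H Q).gVar a g := by
  refine pl_gVar_compare (plPin H Q) (plPin H' Q) ha (pl_adm_of_PD H h g) g id (fun v hv => ?_) (fun v _ => ?_) (fun v _ => rfl)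
  · rw [pl_mem_rspan_pin] at hv ⊢
    exact hv
  · rw [pl_pin_form, pl_pin_form]
    exact hle v

/-- L-GA-D3a.  `J(σ) = min_{φ = u on P} Q φ - 2σ⟨f, φ⟩ = plEn P u - 2σ⟨f, plHarm P u⟩ - σ² gVar^P f`, lower bound.
PLAN: `w = φ - plHarm P u` vanishes on `P`; `pl_form_eq_en_add`; `pl_le_gVar (plPin H P)` for the test `σ • f` (`pl_adm_of_PD`, `pl_mem_rspan_pin`, `pl_gVar_smul`, `pl_pin_form`). -/
theorem ega_J_le (H : HLaw G) {a : ℝ} (ha : 0 < a) {P : Set G.V} (h : plPD H P) (f u φ : G.V → ℝ) (hφ : ∀ x ∈ P, φ x = u x) (σ : ℝ) :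
    plEn H a P u - 2 * σ * HLaw.pair f (plHarm H a P u) - σ ^ 2 * (plPin H P).gVar a f ≤ H.form a φ - 2 * σ * HLaw.pair f φ := by
  have hw : ∀ x ∈ P, (φ - plHarm H a P u) x = 0 := fun x hx => by
    rw [Pi.sub_apply, pl_harm_of_mem H a u hx, hφ x hx, sub_self]
  have e1 := pl_form_eq_en_add H ha h u hφ
  have e2 : HLaw.pair f φ = HLaw.pair f (plHarm H a P u) + HLaw.pair f (φ - plHarm H a P u) := by
    rw [← pl_pair_add_right]
    congr 1
    abel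
  have e3 := pl_le_gVar (plPin H P) ha (pl_adm_of_PD H h (σ • f)) ((pl_mem_rspan_pin H P _).2 hw)
  rw [pl_gVar_smul (plPin H P) ha, pl_pin_form, pl_pair_smul_left] at e3
  rw [e1, e2]
  linarith

/-- L-GA-D3a.  The minimum is attained at `φ = plHarm P u + σ • plGf P f` (`pl_Gf_opt`, `pl_gVar_eq_form`, `pl_gVar_eq_pair`, `pl_harm_orth`, `pl_form_add`). -/
theorem ega_J_att (H : HLaw G) {a : ℝ} (ha : 0 < a) {P : Set G.V} (h : plPD H P) (f u : G.V → ℝ) (σ : ℝ) :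
    ∃ φ : G.V → ℝ, (∀ x ∈ P, φ x = u x) ∧
      H.form a φ - 2 * σ * HLaw.pair f φ = plEn H a P u - 2 * σ * HLaw.pair f (plHarm H a P u) - σ ^ 2 * (plPin H P).gVar a f := by
  have hopt := pl_Gf_opt H ha h f
  have h0 : ∀ x ∈ P, plGf H a P f x = 0 := (pl_mem_rspan_pin H P _).1 hopt.1
  have h0' : ∀ x ∈ P, (σ • plGf H a P f) x = 0 := fun x hx => by
    rw [Pi.smul_apply, h0 x hx, smul_zero]
  refine ⟨plHarm H a P u + σ • plGf H a P f, fun x hx => ?_, ?_⟩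
  · rw [Pi.add_apply, h0' x hx, add_zero, pl_harm_of_mem H a u hx]
  · have e1 := pl_gVar_eq_form (plPin H P) ha hopt
    have e2 := pl_gVar_eq_pair (plPin H P) ha hopt
    rw [pl_pin_form] at e1
    rw [pl_form_add, pl_harm_orth H ha h u h0', pl_form_smul, pl_pair_add_right, pl_pair_smul_right, ← e1, ← e2, plEn]
    ring

/-- L-GA-D3b.  `plEn_o P u ≤ Q_o w = Q_c w`, `w = plHarm_c (P ∪ A) (plRes P u)` (`= u` on `P`, `= 0` on `A`): `pl_en_le`, `pl_harm_of_mem`, `h.eq`. -/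
theorem ega_en_le (h : EgaPair Hc Ho a P A) (u : G.V → ℝ) : plEn Ho a P u - plEn Hc a P u ≤ plGap Hc a P A u := by
  have hPc : plPD Hc P := pl_PD_mono Hc h.pd (Set.empty_subset P)
  have hPo : plPD Ho P := ega_pd_of_le h.a_pos hPc h.le
  have h1 : plEn Ho a P u ≤ Ho.form a (plHarm Hc a (P ∪ A) (plRes P u)) :=
    pl_en_le Ho h.a_pos hPo u fun x hx => by
      rw [pl_harm_of_mem Hc a _ (Or.inl hx), pl_res_of_mem u hx]
  have h2 : Ho.form a (plHarm Hc a (P ∪ A) (plRes P u)) = Hc.form a (plHarm Hc a (P ∪ A) (plRes P u)) :=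
    h.eq _ fun x hx => by
      rw [pl_harm_of_mem Hc a _ (Or.inr hx), pl_res_of_not_mem u (h.disj x hx)]
  rw [h2] at h1
  unfold plGap
  have h3 : plEn Hc a (P ∪ A) (plRes P u) = Hc.form a (plHarm Hc a (P ∪ A) (plRes P u)) := rfl
  linarith

/-- L-GA-D3b, **(D3)**.  `J_o (σ) ≥ J_c (σ)` for all `σ` (`ega_J_att` for `Ho`, `h.le`, `ega_J_le` for `Hc`): discriminant (`Pot.pd_cs_aux`):
`lin² ≤ (gVar_c^P f - gVar_o^P f) (plEn_o - plEn_c)`; `ega_en_le`; `gVar_o^P ≥ 0`; `gVar_c^P f ≤ gVar_c^∅ f` (`pl_gVar_total` + `pl_en_nonneg`). -/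
theorem ega_lin_sq_le (h : EgaPair Hc Ho a P A) (f u : G.V → ℝ) :
    (HLaw.pair f (plHarm Ho a P u) - HLaw.pair f (plHarm Hc a P u)) ^ 2 ≤ (plPin Hc ∅).gVar a f * plGap Hc a P A u := by
  have ha := h.a_pos
  have hPc : plPD Hc P := pl_PD_mono Hc h.pd (Set.empty_subset P)
  have hPo : plPD Ho P := ega_pd_of_le ha hPc h.le
  have hq : ∀ σ : ℝ, 0 ≤ ((plPin Hc P).gVar a f - (plPin Ho P).gVar a f) * σ ^ 2
      + 2 * (HLaw.pair f (plHarm Hc a P u) - HLaw.pair f (plHarm Ho a P u)) * σ + (plEn Ho a P u - plEn Hc a P u) := by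
    intro σ
    obtain ⟨φ, hφ, e⟩ := ega_J_att Ho ha hPo f u σ
    have h1 := ega_J_le Hc ha hPc f u φ hφ σ
    have h2 := h.le φ
    nlinarith [h1, h2, e]
  have h1 := pd_cs_aux hq
  have hx0 : 0 ≤ (plPin Hc P).gVar a f - (plPin Ho P).gVar a f := sub_nonneg.2 (ega_gVar_anti ha hPc h.le f)
  have hY0 : 0 ≤ plGap Hc a P A u := pl_gap_nonneg Hc ha hPc A u
  have hVo : 0 ≤ (plPin Ho P).gVar a f := pl_gVar_nonneg _ ha f
  have hVc : (plPin Hc P).gVar a f ≤ (plPin Hc ∅).gVar a f := by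
    rw [pl_gVar_total Hc ha h.pd (Set.empty_subset P) f]
    linarith [pl_en_nonneg Hc ha P (plGf Hc a ∅ f)]
  have hy := ega_en_le h u
  calc (HLaw.pair f (plHarm Ho a P u) - HLaw.pair f (plHarm Hc a P u)) ^ 2
      = (HLaw.pair f (plHarm Hc a P u) - HLaw.pair f (plHarm Ho a P u)) ^ 2 := by ring
    _ ≤ ((plPin Hc P).gVar a f - (plPin Ho P).gVar a f) * (plEn Ho a P u - plEn Hc a P u) := h1
    _ ≤ ((plPin Hc P).gVar a f - (plPin Ho P).gVar a f) * plGap Hc a P A u := mul_le_mul_of_nonneg_left hy hx0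
    _ ≤ (plPin Hc ∅).gVar a f * plGap Hc a P A u := mul_le_mul_of_nonneg_right (by linarith) hY0

theorem ega_m1_point (x t : ℝ) (ht : 0 < t) (r : ℕ) :
    x ^ (2 * r) ≤ ((2 * r).factorial : ℝ) / t ^ (2 * r) * (Real.exp (t * x) + Real.exp (-t * x)) := by
  have h1 := Real.pow_div_factorial_le_exp |t * x| (abs_nonneg _) (2 * r)
  have h2 : Real.exp |t * x| ≤ Real.exp (t * x) + Real.exp (-t * x) := by
    rcases abs_cases (t * x) with ⟨h, _⟩ | ⟨h, _⟩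
    · rw [h]
      have := Real.exp_pos (-t * x)
      linarith
    · rw [h, neg_mul]
      have := Real.exp_pos (t * x)
      linarith
  have h3 : |t * x| ^ (2 * r) = t ^ (2 * r) * x ^ (2 * r) := by
    rw [Even.pow_abs (even_two_mul r), mul_pow]
  have hf : (0 : ℝ) < ((2 * r).factorial : ℝ) := by exact_mod_cast Nat.factorial_pos _
  have htp : 0 < t ^ (2 * r) := pow_pos ht _
  rw [h3, div_le_iff₀ hf] at h1
  rw [div_mul_eq_mul_div, le_div_iff₀ htp]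
  nlinarith [h1, h2, hf]

theorem ega_m1_exp_half : Real.exp (1 / 2) ≤ 2 := by
  have h1 : Real.exp (1 / 2) * Real.exp (1 / 2) = Real.exp 1 := by
    rw [← Real.exp_add]
    norm_num
  have h2 := Real.exp_one_lt_d9
  have h3 := Real.exp_pos (1 / 2)
  nlinarith

/-- L-GA-M1, **even moments of a linear statistic**.  PLAN: `σ² = gVar g`.  `σ² = 0`: `∫ pair² = 0` (`pl_meas_sq`), so `pair g φ = 0` a.e.  Otherwise `t = 1/σ`:  `x^{2r}/(2r)! ≤ exp |x| ≤ exp x + exp (-x)`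
(`Real.pow_div_factorial_le_exp`), `∫ exp (± t pair g) = exp (t² σ²/2) = e^{1/2} ≤ 2` (`pl_meas_mgf` for `±t • g`, `pl_gVar_smul`, `pl_pair_smul_left`);  integrability: `pl_meas_pair_memLp` or domination by `pl_meas_exp_integrable`. -/
theorem ega_pair_moment (H : HLaw G) {a : ℝ} (ha : 0 < a) {P : Set G.V} (h : plPD H P) (g : G.V → ℝ) (r : ℕ) :
    Integrable (fun φ => HLaw.pair g φ ^ (2 * r)) (plMeas H a P) ∧
      ∫ φ, HLaw.pair g φ ^ (2 * r) ∂plMeas H a P ≤ 4 * ((2 * r).factorial : ℝ) * (plPin H P).gVar a g ^ r := by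
  have hprob := pl_meas_prob H ha h
  have hV0 : 0 ≤ (plPin H P).gVar a g := pl_gVar_nonneg _ ha g
  have hf : (0 : ℝ) < ((2 * r).factorial : ℝ) := by exact_mod_cast Nat.factorial_pos _
  have hpt : ∀ t : ℝ, 0 < t → ∀ φ, HLaw.pair g φ ^ (2 * r) ≤ ((2 * r).factorial : ℝ) / t ^ (2 * r) *
      (Real.exp (HLaw.pair (t • g) φ) + Real.exp (HLaw.pair ((-t) • g) φ)) := by
    intro t ht φ
    rw [pl_pair_smul_left, pl_pair_smul_left]
    exact ega_m1_point _ t ht r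
  have hdom : ∀ t : ℝ, Integrable (fun φ => ((2 * r).factorial : ℝ) / t ^ (2 * r) *
      (Real.exp (HLaw.pair (t • g) φ) + Real.exp (HLaw.pair ((-t) • g) φ))) (plMeas H a P) := fun t =>
    ((pl_meas_exp_integrable H ha h (t • g)).add (pl_meas_exp_integrable H ha h ((-t) • g))).const_mul _
  have hint : Integrable (fun φ => HLaw.pair g φ ^ (2 * r)) (plMeas H a P) := by
    refine (hdom 1).mono' ((pl_pair_continuous g).pow _).aestronglyMeasurable (Filter.Eventually.of_forall fun φ => ?_)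
    rw [Real.norm_of_nonneg (Even.pow_nonneg (even_two_mul r) _)]
    exact hpt 1 one_pos φ
  refine ⟨hint, ?_⟩
  rcases hV0.eq_or_lt with hV | hV
  · -- degenerate
    rw [← hV]
    rcases Nat.eq_zero_or_pos r with rfl | hr
    · simp
    · have h2 : ∫ φ, HLaw.pair g φ ^ 2 ∂plMeas H a P = 0 := by rw [pl_meas_sq H ha h, ← hV]
      have h3 := (integral_eq_zero_iff_of_nonneg (fun φ => sq_nonneg (HLaw.pair g φ)) (pl_meas_sq_integrable H ha h g)).1 h2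
      have h4 : (fun φ => HLaw.pair g φ ^ (2 * r)) =ᵐ[plMeas H a P] 0 := by
        filter_upwards [h3] with φ hφ
        have hφ' : HLaw.pair g φ ^ 2 = 0 := hφ
        show HLaw.pair g φ ^ (2 * r) = 0
        rw [pow_mul, hφ', zero_pow hr.ne']
      rw [integral_congr_ae h4, zero_pow hr.ne']
      simp
  · set V := (plPin H P).gVar a g with hVdef
    set t : ℝ := (Real.sqrt V)⁻¹ with ht
    have hs : 0 < Real.sqrt V := Real.sqrt_pos.2 hV
    have ht0 : 0 < t := inv_pos.2 hs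
    have ht2 : t ^ 2 * V = 1 := by
      rw [ht, inv_pow, Real.sq_sqrt hV.le, inv_mul_cancel₀ hV.ne']
    have hm1 : ∫ φ, Real.exp (HLaw.pair (t • g) φ) ∂plMeas H a P = Real.exp (1 / 2) := by
      rw [pl_meas_mgf H ha h, pl_gVar_smul _ ha, ← hVdef, ht2]
    have hm2 : ∫ φ, Real.exp (HLaw.pair ((-t) • g) φ) ∂plMeas H a P = Real.exp (1 / 2) := by
      rw [pl_meas_mgf H ha h, pl_gVar_smul _ ha, ← hVdef, neg_sq, ht2]
    have hfac : ((2 * r).factorial : ℝ) / t ^ (2 * r) = ((2 * r).factorial : ℝ) * V ^ r := by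
      have e : t ^ (2 * r) * V ^ r = 1 := by rw [pow_mul, ← mul_pow, ht2, one_pow]
      rw [div_eq_iff (pow_pos ht0 _).ne', mul_assoc, mul_comm (V ^ r), e, mul_one]
    calc ∫ φ, HLaw.pair g φ ^ (2 * r) ∂plMeas H a P
        ≤ ∫ φ, ((2 * r).factorial : ℝ) / t ^ (2 * r) *
            (Real.exp (HLaw.pair (t • g) φ) + Real.exp (HLaw.pair ((-t) • g) φ)) ∂plMeas H a P :=
          integral_mono hint (hdom t) (hpt t ht0)
      _ = ((2 * r).factorial : ℝ) * V ^ r * (Real.exp (1 / 2) + Real.exp (1 / 2)) := by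
          rw [integral_const_mul, integral_add (pl_meas_exp_integrable H ha h _) (pl_meas_exp_integrable H ha h _), hm1, hm2, hfac]
      _ ≤ ((2 * r).factorial : ℝ) * V ^ r * (2 + 2) :=
          mul_le_mul_of_nonneg_left (add_le_add ega_m1_exp_half ega_m1_exp_half) (mul_nonneg hf.le (pow_nonneg hV.le _))
      _ = 4 * ((2 * r).factorial : ℝ) * V ^ r := by ring

/-- L-GA-M2, pointwise weighted Jensen: `(∑ x_k)^r ≤ (∑ w_k)^{r-1} ∑ w_k^{1-r} x_k^r` for positive weights.   PLAN: `inner_le_Lp_mul_Lq` or `(convexOn_pow r).map_sum_le` with the weights `w_k / ∑ w`, points `x_k ∑ w / w_k`. -/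
theorem ega_jensen {K : Type} [Fintype K] (x w : K → ℝ) (hx : ∀ k, 0 ≤ x k) (hw : ∀ k, 0 < w k) (r : ℕ) (hr : 1 ≤ r) :
    (∑ k, x k) ^ r ≤ (∑ k, w k) ^ (r - 1) * ∑ k, x k ^ r / w k ^ (r - 1) := by
  obtain ⟨n, rfl⟩ : ∃ n, r = n + 1 := ⟨r - 1, by omega⟩
  rw [Nat.add_sub_cancel]
  rcases isEmpty_or_nonempty K with hK | hK
  · simp
  have hW : 0 < ∑ k, w k := Finset.sum_pos (fun k _ => hw k) Finset.univ_nonempty
  have key := (convexOn_pow (n + 1)).map_sum_le (t := Finset.univ) (w := fun k => w k / ∑ j, w j)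
    (p := fun k => x k * (∑ j, w j) / w k) (fun k _ => (div_pos (hw k) hW).le)
    (by rw [← Finset.sum_div, div_self hW.ne'])
    (fun k _ => Set.mem_Ici.2 (div_nonneg (mul_nonneg (hx k) hW.le) (hw k).le))
  have e1 : ∑ k, (w k / ∑ j, w j) • (x k * (∑ j, w j) / w k) = ∑ k, x k := by
    refine Finset.sum_congr rfl fun k _ => ?_
    have := (hw k).ne'
    rw [smul_eq_mul]
    field_simp
  have e2 : ∑ k, (w k / ∑ j, w j) • (x k * (∑ j, w j) / w k) ^ (n + 1) = (∑ k, w k) ^ n * ∑ k, x k ^ (n + 1) / w k ^ n := by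
    rw [Finset.mul_sum]
    refine Finset.sum_congr rfl fun k _ => ?_
    have := (hw k).ne'
    rw [smul_eq_mul, div_pow, mul_pow, pow_succ (∑ j, w j) n, pow_succ (w k) n]
    field_simp
  rw [e1, e2] at key
  exact key

/-- L-GA-M2, **moments of a sum of squares of linear statistics**.  PLAN: `ega_jensen` with `x_k = pair (g k) φ ^ 2`, `w_k = gVar (g k) + δ`, `δ > 0`; `ega_pair_moment`: `∫ x_k^r ≤ C w_k^r`; so `∫ (∑ x)^r ≤ C (∑ gVar + |K| δ)^r`; `δ → 0`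
(`ge_of_tendsto'` / `le_of_forall_pos_le_add` + continuity).   Integrability: continuous (`pl_pair_continuous`), dominated by the right side of `ega_jensen` with `δ = 1`. -/
theorem ega_sq_sum_moment (H : HLaw G) {a : ℝ} (ha : 0 < a) {P : Set G.V} (h : plPD H P) {K : Type} [Fintype K] (g : K → G.V → ℝ) (r : ℕ) (hr : 1 ≤ r) :
    Integrable (fun φ => (∑ k, HLaw.pair (g k) φ ^ 2) ^ r) (plMeas H a P) ∧
      ∫ φ, (∑ k, HLaw.pair (g k) φ ^ 2) ^ r ∂plMeas H a P ≤ 4 * ((2 * r).factorial : ℝ) * (∑ k, (plPin H P).gVar a (g k)) ^ r := by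
  have hV0 : ∀ k, 0 ≤ (plPin H P).gVar a (g k) := fun k => pl_gVar_nonneg _ ha (g k)
  have hf : (0 : ℝ) < ((2 * r).factorial : ℝ) := by exact_mod_cast Nat.factorial_pos _
  -- the majorant
  have hpt : ∀ δ : ℝ, 0 < δ → ∀ φ, (∑ k, HLaw.pair (g k) φ ^ 2) ^ r ≤ (∑ k, ((plPin H P).gVar a (g k) + δ)) ^ (r - 1) *
      ∑ k, HLaw.pair (g k) φ ^ (2 * r) / ((plPin H P).gVar a (g k) + δ) ^ (r - 1) := by
    intro δ hδ φ
    have := ega_jensen (fun k => HLaw.pair (g k) φ ^ 2) (fun k => (plPin H P).gVar a (g k) + δ) (fun k => sq_nonneg _)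
      (fun k => add_pos_of_nonneg_of_pos (hV0 k) hδ) r hr
    simpa only [← pow_mul] using this
  have hdom : ∀ δ : ℝ, Integrable (fun φ => (∑ k, ((plPin H P).gVar a (g k) + δ)) ^ (r - 1) *
      ∑ k, HLaw.pair (g k) φ ^ (2 * r) / ((plPin H P).gVar a (g k) + δ) ^ (r - 1)) (plMeas H a P) := fun δ =>
    (integrable_finsetSum _ fun k _ => ((ega_pair_moment H ha h (g k) r).1.div_const _)).const_mul _
  have hcont : Continuous fun φ : G.V → ℝ => (∑ k, HLaw.pair (g k) φ ^ 2) ^ r :=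
    (continuous_finsetSum _ fun k _ => (pl_pair_continuous (g k)).pow 2).pow r
  have hint : Integrable (fun φ => (∑ k, HLaw.pair (g k) φ ^ 2) ^ r) (plMeas H a P) := by
    refine (hdom 1).mono' hcont.aestronglyMeasurable (Filter.Eventually.of_forall fun φ => ?_)
    rw [Real.norm_of_nonneg (pow_nonneg (Finset.sum_nonneg fun k _ => sq_nonneg _) _)]
    exact hpt 1 one_pos φ
  refine ⟨hint, ?_⟩
  have hδ : ∀ δ : ℝ, 0 < δ → ∫ φ, (∑ k, HLaw.pair (g k) φ ^ 2) ^ r ∂plMeas H a P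
      ≤ 4 * ((2 * r).factorial : ℝ) * (∑ k, ((plPin H P).gVar a (g k) + δ)) ^ r := by
    intro δ hδ
    have hw : ∀ k, 0 < (plPin H P).gVar a (g k) + δ := fun k => add_pos_of_nonneg_of_pos (hV0 k) hδ
    have hW : 0 ≤ ∑ k, ((plPin H P).gVar a (g k) + δ) := Finset.sum_nonneg fun k _ => (hw k).le
    calc ∫ φ, (∑ k, HLaw.pair (g k) φ ^ 2) ^ r ∂plMeas H a P
        ≤ ∫ φ, (∑ k, ((plPin H P).gVar a (g k) + δ)) ^ (r - 1) *
            ∑ k, HLaw.pair (g k) φ ^ (2 * r) / ((plPin H P).gVar a (g k) + δ) ^ (r - 1) ∂plMeas H a P :=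
          integral_mono hint (hdom δ) (hpt δ hδ)
      _ = (∑ k, ((plPin H P).gVar a (g k) + δ)) ^ (r - 1) *
            ∑ k, (∫ φ, HLaw.pair (g k) φ ^ (2 * r) ∂plMeas H a P) / ((plPin H P).gVar a (g k) + δ) ^ (r - 1) := by
          rw [integral_const_mul, integral_finsetSum _ fun k _ => ((ega_pair_moment H ha h (g k) r).1.div_const _)]
          simp only [integral_div]
      _ ≤ (∑ k, ((plPin H P).gVar a (g k) + δ)) ^ (r - 1) *
            ∑ k, 4 * ((2 * r).factorial : ℝ) * ((plPin H P).gVar a (g k) + δ) := by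
          refine mul_le_mul_of_nonneg_left (Finset.sum_le_sum fun k _ => ?_) (pow_nonneg hW _)
          rw [div_le_iff₀ (pow_pos (hw k) _)]
          have h1 := (ega_pair_moment H ha h (g k) r).2
          have h2 : (plPin H P).gVar a (g k) ^ r ≤ ((plPin H P).gVar a (g k) + δ) ^ r :=
            pow_le_pow_left₀ (hV0 k) (by linarith) r
          have h3 : ((plPin H P).gVar a (g k) + δ) * ((plPin H P).gVar a (g k) + δ) ^ (r - 1) = ((plPin H P).gVar a (g k) + δ) ^ r := by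
            rw [← pow_succ', Nat.sub_add_cancel hr]
          calc _ ≤ 4 * ((2 * r).factorial : ℝ) * (plPin H P).gVar a (g k) ^ r := h1
            _ ≤ 4 * ((2 * r).factorial : ℝ) * ((plPin H P).gVar a (g k) + δ) ^ r :=
                mul_le_mul_of_nonneg_left h2 (by positivity)
            _ = _ := by rw [← h3]; ring
      _ = 4 * ((2 * r).factorial : ℝ) * (∑ k, ((plPin H P).gVar a (g k) + δ)) ^ r := by
          rw [← Finset.mul_sum]
          have h3 : (∑ k, ((plPin H P).gVar a (g k) + δ)) ^ (r - 1) * (∑ k, ((plPin H P).gVar a (g k) + δ))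
              = (∑ k, ((plPin H P).gVar a (g k) + δ)) ^ r := by
            rw [← pow_succ, Nat.sub_add_cancel hr]
          rw [← h3]
          ring
  have hF : Continuous fun δ : ℝ => 4 * ((2 * r).factorial : ℝ) * (∑ k, ((plPin H P).gVar a (g k) + δ)) ^ r := by
    fun_prop
  have ht : Filter.Tendsto (fun δ : ℝ => 4 * ((2 * r).factorial : ℝ) * (∑ k, ((plPin H P).gVar a (g k) + δ)) ^ r)
      (nhdsWithin 0 (Set.Ioi 0)) (nhds (4 * ((2 * r).factorial : ℝ) * (∑ k, ((plPin H P).gVar a (g k) + 0)) ^ r)) :=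
    (hF.tendsto 0).mono_left nhdsWithin_le_nhds
  have := ge_of_tendsto ht (eventually_nhdsWithin_of_forall fun δ hδ' => hδ δ hδ')
  simpa only [add_zero] using this

/-- L-GA-M3, **moments of the gap under a law with a larger form**.  PLAN: `plGap Hc a P A φ = Hc.form a (L φ)`, `L = plGapL Hc ha hP A` (`pl_gap_eq_form_L`, `hP = pl_PD_mono .. (Set.empty_subset P)`); `pl_form_comp_eq`: a sum of squares of
`pair (g k) φ`, `k : G.E ⊕ Hc.O`, `g (inl e) = (√a)⁻¹ • plPull L (plDiv (Pi.single e 1))`, `g (inr o) = plPull L (Hc.B o)`;  `ega_sq_sum_moment` for `Ht`;  `ega_gVar_anti`;  `∑_k gVar_c (g k) = ∫ plGap dμ_c` (`pl_meas_sq`, `integral_finsetSum`, `pl_meas_sq_integrable`). -/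
theorem ega_gap_moment (Hc Ht : HLaw G) {a : ℝ} (ha : 0 < a) (hpd : plPD Hc ∅) (hle : ∀ v, Hc.form a v ≤ Ht.form a v) (P A : Set G.V) (r : ℕ) (hr : 1 ≤ r) :
    Integrable (fun φ => plGap Hc a P A φ ^ r) (plMeas Ht a ∅) ∧
      ∫ φ, plGap Hc a P A φ ^ r ∂plMeas Ht a ∅ ≤ 4 * ((2 * r).factorial : ℝ) * (∫ φ, plGap Hc a P A φ ∂plMeas Hc a ∅) ^ r := by
  have hP : plPD Hc P := pl_PD_mono Hc hpd (Set.empty_subset P)
  have hpt : plPD Ht ∅ := ega_pd_of_le ha hpd hle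
  set L := plGapL Hc ha hP A with hL
  set g : G.E ⊕ Hc.O → G.V → ℝ := Sum.elim (fun e => (Real.sqrt a)⁻¹ • plPull L (plDiv (Pi.single e 1))) (fun o => plPull L (Hc.B o)) with hg
  have hgap : ∀ φ, plGap Hc a P A φ = ∑ k, HLaw.pair (g k) φ ^ 2 := by
    intro φ
    rw [pl_gap_eq_form_L Hc ha hP A φ, pl_form_comp_eq, Fintype.sum_sum_type, Finset.mul_sum]
    congr 1
    refine Finset.sum_congr rfl fun e _ => ?_
    show _ = HLaw.pair ((Real.sqrt a)⁻¹ • plPull L (plDiv (Pi.single e 1))) φ ^ 2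
    rw [pl_pair_smul_left, mul_pow, inv_pow, Real.sq_sqrt ha.le]
  have hm := ega_sq_sum_moment Ht ha hpt g r hr
  simp only [hgap]
  refine ⟨hm.1, hm.2.trans ?_⟩
  have hf : (0 : ℝ) ≤ 4 * ((2 * r).factorial : ℝ) := by positivity
  refine mul_le_mul_of_nonneg_left ?_ hf
  refine pow_le_pow_left₀ (Finset.sum_nonneg fun k _ => pl_gVar_nonneg _ ha (g k)) ?_ r
  rw [integral_finsetSum _ fun k _ => pl_meas_sq_integrable Hc ha hpd (g k)]
  refine Finset.sum_le_sum fun k _ => ?_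
  rw [pl_meas_sq Hc ha hpd]
  exact ega_gVar_anti ha hpd hle (g k)

/-- L-GA-END1, the pointwise bound of the test function.  `q = plGap Hc a P A φ`.   PLAN: `eg_phi_le`; `pl_rPin_eq`, `eg_lg_eq`: `egLg ρ = min 1 (q/2) ≤ q/2`; `pl_cLap_eq` for both laws; `ega_lin_sq_le`;
`|lin| ≤ (μ Y + q/μ)/2` because `4 lin² ≤ 4 Y q ≤ (μ Y + q/μ)²` (`abs_le_of_sq_le_sq'`/`abs_le_abs`, `pow_le_pow_left₀`). -/
theorem ega_phi_point (h : EgaPair Hc Ho a P A) (f : G.V → ℝ) {Y E4 θ₁ θ₂ μ : ℝ} (hY : (plPin Hc ∅).gVar a f ≤ Y)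
    (h4 : |((plPin Ho P).gVar a f - (plPin Hc P).gVar a f) / 2 + θ₂| ≤ E4) (hθ : 0 ≤ θ₁) (hμ : 0 < μ) (r : ℕ) (φ : G.V → ℝ) :
    egPhi θ₁ θ₂ r (plcLap Hc a P f φ) (plcLap Ho a P f φ) (plrPin Hc a P A φ)
      ≤ (θ₁ + E4 + μ * Y / 2 + (1 + μ⁻¹) / 2 * plGap Hc a P A φ) ^ r := by
  have ha := h.a_pos
  have hP : plPD Hc P := pl_PD_mono Hc h.pd (Set.empty_subset P)
  have hPo : plPD Ho P := ega_pd_of_le ha hP h.le
  set q : ℝ := plGap Hc a P A φ with hq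
  have hq0 : 0 ≤ q := pl_gap_nonneg Hc ha hP A φ
  have hY0 : 0 ≤ Y := (pl_gVar_nonneg (plPin Hc ∅) ha f).trans hY
  refine (eg_phi_le θ₁ θ₂ hθ r _ _ _).trans ?_
  have hlg : egLg (plrPin Hc a P A φ) ≤ q / 2 := by
    rw [eg_lg_eq _ (pl_rPin_pos Hc ha hP A φ) (pl_rPin_le_one Hc ha hP A φ), pl_rPin_eq Hc ha hP, Real.log_exp]
    refine (min_le_right _ _).trans (le_of_eq ?_)
    rw [← hq]; ring
  set lin : ℝ := HLaw.pair f (plHarm Ho a P φ) - HLaw.pair f (plHarm Hc a P φ) with hlin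
  have hsq : lin ^ 2 ≤ Y * q := (ega_lin_sq_le h f φ).trans (mul_le_mul_of_nonneg_right hY hq0)
  have hμi : 0 < μ⁻¹ := inv_pos.2 hμ
  have hB0 : 0 ≤ (μ * Y + μ⁻¹ * q) / 2 := by positivity
  have hlinle : |lin| ≤ (μ * Y + μ⁻¹ * q) / 2 := by
    refine abs_le_of_sq_le_sq ?_ hB0
    have e : ((μ * Y + μ⁻¹ * q) / 2) ^ 2 = Y * q * (μ * μ⁻¹) + ((μ * Y - μ⁻¹ * q) / 2) ^ 2 := by ring
    rw [e, mul_inv_cancel₀ hμ.ne', mul_one]
    nlinarith [sq_nonneg ((μ * Y - μ⁻¹ * q) / 2)]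
  have hx : |plcLap Ho a P f φ - plcLap Hc a P f φ + θ₂| ≤ (μ * Y + μ⁻¹ * q) / 2 + E4 := by
    rw [pl_cLap_eq Ho ha hPo, pl_cLap_eq Hc ha hP]
    have e : HLaw.pair f (plHarm Ho a P φ) + (plPin Ho P).gVar a f / 2 - (HLaw.pair f (plHarm Hc a P φ) + (plPin Hc P).gVar a f / 2) + θ₂
        = lin + (((plPin Ho P).gVar a f - (plPin Hc P).gVar a f) / 2 + θ₂) := by rw [hlin]; ring
    rw [e]
    exact (abs_add_le _ _).trans (add_le_add hlinle h4)
  refine pow_le_pow_left₀ (eg_EL1_arg θ₁ θ₂ hθ _ _ _) ?_ r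
  have e : θ₁ + E4 + μ * Y / 2 + (1 + μ⁻¹) / 2 * q = θ₁ + q / 2 + ((μ * Y + μ⁻¹ * q) / 2 + E4) := by ring
  rw [e]
  exact add_le_add (add_le_add le_rfl hlg) hx

/-- L-GA-END1.  `q (φ + m) ≤ 2 q φ + 2 q m` (`pl_gap_eq_form_L`, `map_add`, `pl_form_add`, `pl_form_sub`, `pl_form_nonneg`). -/
theorem ega_gap_add_le (H : HLaw G) {a : ℝ} (ha : 0 < a) {P : Set G.V} (h : plPD H P) (A : Set G.V) (φ m : G.V → ℝ) :
    plGap H a P A (φ + m) ≤ 2 * plGap H a P A φ + 2 * plGap H a P A m := by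
  rw [pl_gap_eq_form_L H ha h, pl_gap_eq_form_L H ha h, pl_gap_eq_form_L H ha h, map_add]
  have h1 := pl_form_add H a (plGapL H ha h A φ) (plGapL H ha h A m)
  have h2 := pl_form_sub H a (plGapL H ha h A φ) (plGapL H ha h A m)
  have h3 := pl_form_nonneg H ha (plGapL H ha h A φ - plGapL H ha h A m)
  linarith

/-- L-GA-END1.  the energy of the mean of the tilted law: `Q_c (m) ≤ Q_t (m) = gVar_t f ≤ gVar_c f` (`pl_Gf_opt`, `pl_gVar_eq_form`, `pl_pin_form`, `ega_gVar_anti`). -/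
theorem ega_mean_form_le (Hc Ht : HLaw G) {a : ℝ} (ha : 0 < a) (hpd : plPD Hc ∅) (hle : ∀ v, Hc.form a v ≤ Ht.form a v) (f : G.V → ℝ) :
    Hc.form a (plGf Ht a ∅ f) ≤ (plPin Hc ∅).gVar a f := by
  have hpt : plPD Ht ∅ := ega_pd_of_le ha hpd hle
  have e := pl_gVar_eq_form (plPin Ht ∅) ha (pl_Gf_opt Ht ha hpt f)
  rw [pl_pin_form] at e
  calc Hc.form a (plGf Ht a ∅ f) ≤ Ht.form a (plGf Ht a ∅ f) := hle _
    _ = (plPin Ht ∅).gVar a f := e.symm
    _ ≤ (plPin Hc ∅).gVar a f := ega_gVar_anti ha hpd hle f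

/-- L-GA-END2, numerics: `2^{r-1} (α^r + β^r 4 (2r)! ε^r) ≤ (2 (α + 16 r² β ε))^r`.   PLAN: `(2r)! ≤ (2r)^{2r} = (4r²)^r` (`Nat.factorial_le_pow`), `4 ≤ 4^r`; `x^r + y^r ≤ (x+y)^r` (`pow_add_pow_le`/`add_pow_le_pow_mul_pow_of_sq_le_sq`…:
for `x, y ≥ 0`: `x^r ≤ x (x+y)^{r-1}`), `2^{r-1} ≤ 2^r`. -/
theorem ega_num_end (α β ε : ℝ) (hα : 0 ≤ α) (hβ : 0 ≤ β) (hε : 0 ≤ ε) (r : ℕ) (hr : 1 ≤ r) :
    2 ^ (r - 1) * (α ^ r + β ^ r * (4 * ((2 * r).factorial : ℝ) * ε ^ r)) ≤ (2 * (α + 16 * (r : ℝ) ^ 2 * β * ε)) ^ r := by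
  have hf : ((2 * r).factorial : ℝ) ≤ (4 * (r : ℝ) ^ 2) ^ r := by
    have h1 : (2 * r).factorial ≤ (2 * r) ^ (2 * r) := Nat.factorial_le_pow _
    have h2 : ((2 * r).factorial : ℝ) ≤ ((2 * r : ℕ) : ℝ) ^ (2 * r) := by exact_mod_cast h1
    have e : ((2 * r : ℕ) : ℝ) ^ (2 * r) = (4 * (r : ℝ) ^ 2) ^ r := by
      push_cast
      rw [pow_mul]
      congr 1
      ring
    rwa [e] at h2
  have h4 : (4 : ℝ) ≤ 4 ^ r := by
    calc (4 : ℝ) = 4 ^ 1 := (pow_one _).symm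
      _ ≤ 4 ^ r := pow_le_pow_right₀ (by norm_num) hr
  have hy : β ^ r * (4 * ((2 * r).factorial : ℝ) * ε ^ r) ≤ (16 * (r : ℝ) ^ 2 * β * ε) ^ r := by
    have h5 : 4 * ((2 * r).factorial : ℝ) ≤ 4 ^ r * (4 * (r : ℝ) ^ 2) ^ r :=
      mul_le_mul h4 hf (by positivity) (by positivity)
    calc β ^ r * (4 * ((2 * r).factorial : ℝ) * ε ^ r) ≤ β ^ r * ((4 ^ r * (4 * (r : ℝ) ^ 2) ^ r) * ε ^ r) := by gcongr
      _ = (16 * (r : ℝ) ^ 2 * β * ε) ^ r := by
          rw [← mul_pow, ← mul_pow, ← mul_pow]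
          congr 1
          ring
  have h6 : α ^ r + (16 * (r : ℝ) ^ 2 * β * ε) ^ r ≤ (α + 16 * (r : ℝ) ^ 2 * β * ε) ^ r :=
    pow_add_pow_le hα (by positivity) (by omega)
  have h7 : (2 : ℝ) ^ (r - 1) ≤ 2 ^ r := pow_le_pow_right₀ (by norm_num) (Nat.sub_le _ _)
  calc 2 ^ (r - 1) * (α ^ r + β ^ r * (4 * ((2 * r).factorial : ℝ) * ε ^ r))
      ≤ 2 ^ r * (α + 16 * (r : ℝ) ^ 2 * β * ε) ^ r :=
        mul_le_mul h7 ((add_le_add_right hy _).trans h6) (by positivity) (by positivity)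
    _ = _ := (mul_pow _ _ _).symm

theorem ega_end3_top (h : EgaPair Hc Ho a P A) (top : Bool) :
    plPD (if top then Ho else Hc) ∅ ∧ ∀ v, Hc.form a v ≤ (if top then Ho else Hc).form a v := by
  cases top
  · exact ⟨h.pd, fun _ => le_rfl⟩
  · exact ⟨ega_pd_of_le h.a_pos h.pd h.le, h.le⟩


/-- L-GA-END3, **the generic one-mark estimate**.   PLAN: `Ht = if top then Ho else Hc` (`cases top`): `plPD Ht ∅` (`ega_pd_of_le`), `Hc.form ≤ Ht.form`.   `pl_ExT_eq`: the left side is `∫ Ψ (φ + m) dμ_t`, `m = plGf Ht a ∅ f`.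
`ega_phi_point` at `φ + m`, `ega_gap_add_le`, `h2 m`, `ega_mean_form_le`:  `Ψ (φ + m) ≤ (α + β S φ)^r`, `S = plGap Hc a P A`, `β = 1 + μ⁻¹`, `α = θ₁ + E4 + μ Y/2 + β ε₂ Y`;  `(x + y)^r ≤ 2^{r-1} (x^r + y^r)` (`add_pow_le_pow_mul_pow_of_add_eq_one`… or `inner_le_nnorm`: Mathlib `add_pow_le_pow_mul_pow_of_sq_le_sq`; simplest: `Real.add_pow_le_pow_mul_pow_of_add_eq_one`/`(convexOn_pow r)`);
`integral_mono_of_nonneg` (`eg_phi_mem`; the majorant is integrable by `ega_gap_moment`; `pl_meas_prob`), `ega_gap_moment`, `ega_num_end`. -/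
theorem ega_gen_moment (h : EgaPair Hc Ho a P A) (top : Bool) (f : G.V → ℝ) {Y ε₁ ε₂ E4 θ₁ θ₂ μ : ℝ}
    (hY : (plPin Hc ∅).gVar a f ≤ Y) (h1 : ∫ φ, plGap Hc a P A φ ∂plMeas Hc a ∅ ≤ ε₁) (hε₂ : 0 ≤ ε₂) (h2 : ∀ u, plGap Hc a P A u ≤ ε₂ * Hc.form a u)
    (h4 : |((plPin Ho P).gVar a f - (plPin Hc P).gVar a f) / 2 + θ₂| ≤ E4) (hθ : 0 ≤ θ₁) (hμ : 0 < μ) (r : ℕ) (hr : 1 ≤ r) :
    plExT (if top then Ho else Hc) a ∅ f (fun φ => egPhi θ₁ θ₂ r (plcLap Hc a P f φ) (plcLap Ho a P f φ) (plrPin Hc a P A φ))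
      ≤ (2 * (θ₁ + E4 + μ * Y / 2 + (1 + μ⁻¹) * (ε₂ * Y + 16 * (r : ℝ) ^ 2 * ε₁))) ^ r := by
  obtain ⟨hpdt, hlet⟩ := ega_end3_top h top
  obtain ⟨Ht, hHt⟩ : ∃ Ht : HLaw G, Ht = if top then Ho else Hc := ⟨_, rfl⟩
  rw [← hHt] at hpdt hlet ⊢
  have ha := h.a_pos
  have hP : plPD Hc P := pl_PD_mono Hc h.pd (Set.empty_subset P)
  have : IsProbabilityMeasure (plMeas Ht a ∅) := pl_meas_prob Ht ha hpdt
  have : IsProbabilityMeasure (plMeas Hc a ∅) := pl_meas_prob Hc ha h.pd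
  obtain ⟨m, hm⟩ : ∃ m : G.V → ℝ, m = plGf Ht a ∅ f := ⟨_, rfl⟩
  obtain ⟨β, hβ⟩ : ∃ β : ℝ, β = 1 + μ⁻¹ := ⟨_, rfl⟩
  have hβ0 : 0 ≤ β := by
    rw [hβ]
    positivity
  have hY0 : 0 ≤ Y := (pl_gVar_nonneg _ ha f).trans hY
  have hE4 : 0 ≤ E4 := (abs_nonneg _).trans h4
  obtain ⟨α, hα⟩ : ∃ α : ℝ, α = θ₁ + E4 + μ * Y / 2 + β * (ε₂ * Y) := ⟨_, rfl⟩
  have hα0 : 0 ≤ α := by
    rw [hα]
    positivity
  have hS0 : ∀ φ, 0 ≤ plGap Hc a P A φ := fun φ => pl_gap_nonneg Hc ha hP A φ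
  have hε₁ : 0 ≤ ε₁ := (integral_nonneg hS0).trans h1
  have hSm : plGap Hc a P A m ≤ ε₂ * Y := by
    refine (h2 m).trans (mul_le_mul_of_nonneg_left ?_ hε₂)
    rw [hm]
    exact (ega_mean_form_le Hc Ht ha h.pd hlet f).trans hY
  obtain ⟨gi, gm⟩ := ega_gap_moment Hc Ht ha h.pd hlet P A r hr
  rw [pl_ExT_eq Ht ha hpdt f, ← hm]
  have hpt : ∀ φ : G.V → ℝ, egPhi θ₁ θ₂ r (plcLap Hc a P f (φ + m)) (plcLap Ho a P f (φ + m)) (plrPin Hc a P A (φ + m))
      ≤ 2 ^ (r - 1) * (α ^ r + β ^ r * plGap Hc a P A φ ^ r) := by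
    intro φ
    refine (ega_phi_point h f hY h4 hθ hμ r (φ + m)).trans ?_
    have h5 := ega_gap_add_le Hc ha hP A φ m
    have h6 : θ₁ + E4 + μ * Y / 2 + (1 + μ⁻¹) / 2 * plGap Hc a P A (φ + m) ≤ α + β * plGap Hc a P A φ := by
      rw [← hβ, hα]
      have h7 : β / 2 * plGap Hc a P A (φ + m) ≤ β / 2 * (2 * plGap Hc a P A φ + 2 * (ε₂ * Y)) :=
        mul_le_mul_of_nonneg_left (h5.trans (by linarith)) (by positivity)
      linarith
    have h8 : 0 ≤ θ₁ + E4 + μ * Y / 2 + (1 + μ⁻¹) / 2 * plGap Hc a P A (φ + m) := by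
      have := hS0 (φ + m)
      positivity
    refine (pow_le_pow_left₀ h8 h6 r).trans ?_
    have h9 := add_pow_le hα0 (mul_nonneg hβ0 (hS0 φ)) r
    rwa [mul_pow] at h9
  have hint : Integrable (fun φ => 2 ^ (r - 1) * (α ^ r + β ^ r * plGap Hc a P A φ ^ r)) (plMeas Ht a ∅) :=
    ((integrable_const _).add (gi.const_mul _)).const_mul _
  calc ∫ φ, egPhi θ₁ θ₂ r (plcLap Hc a P f (φ + m)) (plcLap Ho a P f (φ + m)) (plrPin Hc a P A (φ + m)) ∂plMeas Ht a ∅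
      ≤ ∫ φ, 2 ^ (r - 1) * (α ^ r + β ^ r * plGap Hc a P A φ ^ r) ∂plMeas Ht a ∅ :=
        integral_mono_of_nonneg (Filter.Eventually.of_forall fun φ => (eg_phi_mem θ₁ θ₂ hθ r _ _ _).1) hint
          (Filter.Eventually.of_forall hpt)
    _ = 2 ^ (r - 1) * (α ^ r + β ^ r * ∫ φ, plGap Hc a P A φ ^ r ∂plMeas Ht a ∅) := by
        rw [integral_const_mul, integral_add (integrable_const _) (gi.const_mul _), integral_const_mul, integral_const]
        simp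
    _ ≤ 2 ^ (r - 1) * (α ^ r + β ^ r * (4 * ((2 * r).factorial : ℝ) * ε₁ ^ r)) := by
        have h10 : ∫ φ, plGap Hc a P A φ ^ r ∂plMeas Ht a ∅ ≤ 4 * ((2 * r).factorial : ℝ) * ε₁ ^ r :=
          gm.trans (mul_le_mul_of_nonneg_left (pow_le_pow_left₀ (integral_nonneg hS0) h1 r) (by positivity))
        gcongr
    _ ≤ (2 * (α + 16 * (r : ℝ) ^ 2 * β * ε₁)) ^ r := ega_num_end α β ε₁ hα0 hβ0 hε₁ r hr
    _ = _ := by
        rw [hα, hβ]
        congr 1
        ring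

/-- the trivial bound -/
theorem ega_gen_le_one (h : EgaPair Hc Ho a P A) (top : Bool) (f : G.V → ℝ) {θ₁ θ₂ : ℝ} (hθ : 0 ≤ θ₁) (r : ℕ) :
    plExT (if top then Ho else Hc) a ∅ f (fun φ => egPhi θ₁ θ₂ r (plcLap Hc a P f φ) (plcLap Ho a P f φ) (plrPin Hc a P A φ)) ≤ 1 := by
  obtain ⟨hpdt, -⟩ := ega_end3_top h top
  have : IsProbabilityMeasure (plMeas (if top then Ho else Hc) a ∅) := pl_meas_prob _ h.a_pos hpdt
  rw [pl_ExT_eq _ h.a_pos hpdt f]
  have h1 := integral_mono_of_nonneg (μ := plMeas (if top then Ho else Hc) a ∅)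
    (f := fun φ => egPhi θ₁ θ₂ r (plcLap Hc a P f (φ + plGf (if top then Ho else Hc) a ∅ f))
      (plcLap Ho a P f (φ + plGf (if top then Ho else Hc) a ∅ f)) (plrPin Hc a P A (φ + plGf (if top then Ho else Hc) a ∅ f)))
    (g := fun _ => (1 : ℝ))
    (Filter.Eventually.of_forall fun φ => (eg_phi_mem θ₁ θ₂ hθ r _ _ _).1) (integrable_const _)
    (Filter.Eventually.of_forall fun φ => (eg_phi_mem θ₁ θ₂ hθ r _ _ _).2)
  simpa using h1

end

end Claimed.Agent.R285.Entry
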