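import Claimed.Agent.R285.Entry.GoodEx
import Claimed.Agent.R285.Sec.LocSys
import Claimed.Agent.R285.Entry.GoodGaGen
import Claimed.Agent.R285.Entry.GoodGaDec

/-!
# ROW 285, post BP-ENT-GOOD-GA, file 3 (GEO): THE WINDOW LAWS AS INSTANCES      (architect helper269; chief helper109)

Paper-free.  `g = egGr m₁ m₂ s` (uniform grid of side `s ≥ 1`), shapes `egSh T C` (`T` cells, `C` removed coarse faces).  The instance of the decay core for ANY geometry is `Sec/LocSys.lean` (proved, law `rlaw Γ g cellRow`): `locAmb`, `locGr`, `loc_ok`, `loc_res`,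
`locBlk`, `locPos`, `locExt`, `loc_sum_V`, `loc_sum_E`, `loc_obs`, `loc_mem_sites`, `locRho`, ...;  plane geometry: `Pot/DecGeo.lean` (`geo_mem_cell`, `geo_cell_unique`, `geoDist`, ...).
* `egaL Γ s = rlaw Γ g cellRow` has the same `form` as `egLw Γ s` (section 1).
* ALL graphs `(egSh T C).graph g` with the same `T` have DEFINITIONALLY the same vertex type, `sites`, `avgRow`, `cellTest` (only the bonds differ): statements mix them freely; in proofs use `show`/`change` or state intermediate facts with explicit types.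
* ONE base system `egaS0 T Co s a` (`Co` = the SMALLEST set of cuts = restored geometry);  `egaSys T Co s a X P'` = the bonds of `X` removed, sites of `P'` pinned:
  box `(T, C)` with pins `P'`: `X = egaXC C`;   open patch `(T ∩ O, C)`: `X = egaXC C ∪ egaXO O`, `P' = egaOut O`  (`ega_box_gVar`, `ega_up_gVar`, `ega_patch_gVar`).
* GEOMETRY v2 (18:20Z, `EgWMark.Geo.far` is relative to a union `U ⊇ O` of components of the restored geometry, `EgaU`): cells outside `U` may touch the core across a wall.  The four-graph estimate is applied to the two pinned boxes and to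
  the two systems "patch + the part of the box outside `U`" (`X = egaXC C ∪ egaXO O`, `P' = egaOutU U O`): they agree with the boxes on `Y = D ∪ Uᶜ`, and `Yᶜ = U \ D` is far from the core.   By decoupling (`ega_gf_split`) their Green forms are
  `patch + rest`, and the rest (`P' = egaIn U`) does not see the restored bonds (`ega_patch_split`, `ega_rest_eq`).
RULES FOR LEAVES `L-GA-*`: as in `Entry/GoodGaGen.lean`.
-/

set_option autoImplicit false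

namespace Claimed.Agent.R285.Entry

open scoped BigOperators Classical
open Claimed.Agent.R285 Claimed.Agent.R285.Pot Claimed.Agent.R285.Sec MeasureTheory

noncomputable section

variable {m₁ m₂ : ℕ}

/-! ## 0. Definitions -/

/-- the reference law: one unit observation per cell of the array (absent cells: zero rows) -/
def egaL (Γ : CGeom m₁ m₂) (s : ℕ) : HLaw (Γ.graph (egGr m₁ m₂ s)) := S23.rlaw Γ (egGr m₁ m₂ s) S23.cellRow

section Sys

variable (T : Finset (C3.Cell m₁ m₂)) (Co : Finset (C3.Cell m₁ m₂ × Bool)) (s : ℕ)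

/-- the bonds of the graph `(T, Co)` which are cut in `(T, C)` -/
def egaXC (C : Finset (C3.Cell m₁ m₂ × Bool)) : Set ((egSh T Co).graph (egGr m₁ m₂ s)).E :=
  {e | domBond e ∈ (egSh T C).cutB (egGr m₁ m₂ s)}

/-- the bonds of the graph `(T, Co)` between a cell of `O` and a cell outside `O` -/
def egaXO (O : Finset (C3.Cell m₁ m₂)) : Set ((egSh T Co).graph (egGr m₁ m₂ s)).E :=
  {e | ¬ (locBlk (egSh T Co) (egGr m₁ m₂ s) (((egSh T Co).graph (egGr m₁ m₂ s)).src e) ∈ O ↔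
      locBlk (egSh T Co) (egGr m₁ m₂ s) (((egSh T Co).graph (egGr m₁ m₂ s)).tgt e) ∈ O)}

/-- the sites outside the cells of `O` -/
def egaOut (O : Finset (C3.Cell m₁ m₂)) : Set ((egSh T Co).graph (egGr m₁ m₂ s)).V := {x | locBlk (egSh T Co) (egGr m₁ m₂ s) x ∉ O}

/-- the sites of the cells of `U` outside `O` -/
def egaOutU (U O : Finset (C3.Cell m₁ m₂)) : Set ((egSh T Co).graph (egGr m₁ m₂ s)).V :=
  {x | locBlk (egSh T Co) (egGr m₁ m₂ s) x ∈ U ∧ locBlk (egSh T Co) (egGr m₁ m₂ s) x ∉ O}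

/-- the sites of the cells of `U` -/
def egaIn (U : Finset (C3.Cell m₁ m₂)) : Set ((egSh T Co).graph (egGr m₁ m₂ s)).V := {x | locBlk (egSh T Co) (egGr m₁ m₂ s) x ∈ U}

/-- the ambient data -/
def egaAmb : PdAmb ((egSh T Co).graph (egGr m₁ m₂ s)).V (C3.Cell m₁ m₂) := locAmb (egSh T Co) (egGr m₁ m₂ s) s

/-- the base system: the law `egaL (egSh T Co) s` without pins -/
def egaS0 (a : ℝ) : PdSys ((egSh T Co).graph (egGr m₁ m₂ s)).V (C3.Cell m₁ m₂) :=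
  (locGr (egSh T Co) (egGr m₁ m₂ s) ∅).sys (locAmb (egSh T Co) (egGr m₁ m₂ s) s) a

/-- the rows of a set of bonds -/
def egaRows (a : ℝ) (X : Set ((egSh T Co).graph (egGr m₁ m₂ s)).E) : Set (egaS0 T Co s a).Tm := {t | ∃ e ∈ X, t = Sum.inl e}

/-- the base system with the bonds of `X` removed and the additional pins `P'` -/
def egaSys (a : ℝ) (X : Set ((egSh T Co).graph (egGr m₁ m₂ s)).E) (P' : Set ((egSh T Co).graph (egGr m₁ m₂ s)).V) :
    PdSys ((egSh T Co).graph (egGr m₁ m₂ s)).V (C3.Cell m₁ m₂) :=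
  ((egaS0 T Co s a).cutT (egaRows T Co s a X)).addPin P'

/-- the functional "average over the cell `κ`" -/
def egaF (κ : C3.Cell m₁ m₂) : (((egSh T Co).graph (egGr m₁ m₂ s)).V → ℝ) →ₗ[ℝ] ℝ := pdRowF ((egSh T Co).avgRow (egGr m₁ m₂ s) {κ})

/-- index type of the restored bonds -/
def egaX (C : Finset (C3.Cell m₁ m₂ × Bool)) : Type := {e : ((egSh T Co).graph (egGr m₁ m₂ s)).E // e ∈ egaXC T Co s C}

instance (C : Finset (C3.Cell m₁ m₂ × Bool)) : Fintype (egaX T Co s C) := by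
  unfold egaX; infer_instance

/-- the rows `a^{-1/2} ∇_e` of the restored bonds, read on the graph `(T, C)` -/
def egaR (C : Finset (C3.Cell m₁ m₂ × Bool)) (a : ℝ) : egaX T Co s C → ((egSh T C).graph (egGr m₁ m₂ s)).V → ℝ :=
  fun k => (Real.sqrt a)⁻¹ • plDiv (G := (egSh T Co).graph (egGr m₁ m₂ s)) (Pi.single k.1 1)

/-- the law of `(T, Co)`, read on the graph of `(T, C)` -/
def egaUp (C : Finset (C3.Cell m₁ m₂ × Bool)) (a : ℝ) : HLaw ((egSh T C).graph (egGr m₁ m₂ s)) :=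
  egaAdd (egaL (egSh T C) s) (egaR T Co s C a)

end Sys

/-! ## 1. The two presentations of the rows (`egLw`: one row per PRESENT cell; `egaL`: one row per cell of the array) -/

section Rows

variable (Γ : CGeom m₁ m₂) (s : ℕ)

/-- L-GA-B1 -/
theorem ega_avgRow_absent (g : DGrid m₁ m₂) {κ : C3.Cell m₁ m₂} (hκ : κ ∉ Γ.T) : Γ.avgRow g {κ} = 0 := by
  funext v
  have h1 : ({κ} : Finset (Fin m₁ × Fin m₂)) ∩ Γ.T = ∅ := Finset.singleton_inter_of_notMem hκ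
  simp only [CGeom.avgRow, h1, DGrid.region, Finset.biUnion_empty, Finset.card_empty, Nat.cast_zero, inv_zero, ite_self,
    Pi.zero_apply]

/-- L-GA-B1 -/
theorem ega_lw_B (o : Fin Γ.T.card) : (egLw Γ s).B o = Γ.avgRow (egGr m₁ m₂ s) {(Γ.T.equivFin.symm o).1} := by
  funext v
  show ∑ κ, egRow Γ o κ * Γ.avgRow (egGr m₁ m₂ s) {κ} v = _
  rw [Finset.sum_eq_single (Γ.T.equivFin.symm o).1]
  · simp only [egRow, if_true, one_mul]
  · intro κ _ hκ
    simp only [egRow, if_neg hκ, zero_mul]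
  · intro h
    exact absurd (Finset.mem_univ _) h

/-- L-GA-B1 -/
theorem ega_L_B (o : Fin (m₁ * m₂)) : (egaL Γ s).B o = Γ.avgRow (egGr m₁ m₂ s) {locCel o} := by
  funext v
  show ∑ κ, S23.cellRow o κ * Γ.avgRow (egGr m₁ m₂ s) {κ} v = _
  rw [Finset.sum_eq_single (locCel o)]
  · simp only [S23.cellRow, locCel, if_true, one_mul]
  · intro κ _ hκ
    have : ¬ κ = finProdFinEquiv.symm o := hκ
    simp only [S23.cellRow, if_neg this, zero_mul]
  · intro h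
    exact absurd (Finset.mem_univ _) h

/-- L-GA-B1: sums over the rows of `egLw` -/
theorem ega_lw_sum (Φ : ((Γ.graph (egGr m₁ m₂ s)).V → ℝ) → ℝ) :
    ∑ o : Fin Γ.T.card, Φ ((egLw Γ s).B o) = ∑ κ ∈ Γ.T, Φ (Γ.avgRow (egGr m₁ m₂ s) {κ}) := by
  have h1 : ∀ o : Fin Γ.T.card, Φ ((egLw Γ s).B o) = Φ (Γ.avgRow (egGr m₁ m₂ s) {(Γ.T.equivFin.symm o).1}) := fun o => by
    rw [ega_lw_B]
  rw [Finset.sum_congr rfl fun o _ => h1 o]
  rw [Equiv.sum_comp Γ.T.equivFin.symm (fun x : {x // x ∈ Γ.T} => Φ (Γ.avgRow (egGr m₁ m₂ s) {x.1}))]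
  exact Finset.sum_coe_sort Γ.T (fun κ => Φ (Γ.avgRow (egGr m₁ m₂ s) {κ}))

/-- L-GA-B1: sums over the rows of `egaL` -/
theorem ega_L_sum (Φ : ((Γ.graph (egGr m₁ m₂ s)).V → ℝ) → ℝ) (h0 : Φ 0 = 0) :
    ∑ o : Fin (m₁ * m₂), Φ ((egaL Γ s).B o) = ∑ κ ∈ Γ.T, Φ (Γ.avgRow (egGr m₁ m₂ s) {κ}) := by
  have h1 : ∀ o : Fin (m₁ * m₂), Φ ((egaL Γ s).B o) = Φ (Γ.avgRow (egGr m₁ m₂ s) {finProdFinEquiv.symm o}) := fun o => by
    rw [ega_L_B]
    rfl
  rw [Finset.sum_congr rfl fun o _ => h1 o]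
  rw [Equiv.sum_comp finProdFinEquiv.symm (fun x : Fin m₁ × Fin m₂ => Φ (Γ.avgRow (egGr m₁ m₂ s) {x}))]
  symm
  apply Finset.sum_subset (Finset.subset_univ _)
  intro κ _ hκ
  rw [ega_avgRow_absent Γ _ hκ, h0]

/-- L-GA-B1 -/
theorem ega_lw_form (a : ℝ) (v : (Γ.graph (egGr m₁ m₂ s)).V → ℝ) : (egLw Γ s).form a v = (egaL Γ s).form a v := by
  have h1 := ega_lw_sum Γ s (fun r => (∑ x, r x * v x) ^ 2)
  have h2 := ega_L_sum Γ s (fun r => (∑ x, r x * v x) ^ 2) (by simp)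
  show a⁻¹ * HLaw.en v 0 + ∑ o : Fin Γ.T.card, (∑ x, (egLw Γ s).B o x * v x) ^ 2
    = a⁻¹ * HLaw.en v 0 + ∑ o : Fin (m₁ * m₂), (∑ x, (egaL Γ s).B o x * v x) ^ 2
  rw [h1, h2]

/-- L-GA-B1 -/
theorem ega_lw_prec (a : ℝ) : (egLw Γ s).prec a = (egaL Γ s).prec a := by
  funext x y
  have h1 := ega_lw_sum Γ s (fun r => r x * r y)
  have h2 := ega_L_sum Γ s (fun r => r x * r y) (by simp)
  have h3 : ∑ o : Fin Γ.T.card, (egLw Γ s).B o x * (egLw Γ s).B o y = ∑ o : Fin (m₁ * m₂), (egaL Γ s).B o x * (egaL Γ s).B o y := by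
    rw [h1, h2]
  unfold HLaw.prec
  exact congrArg (fun t => _ + t) h3

/-- L-GA-B1 (same lattice, same form) -/
theorem ega_lw_gVar (a : ℝ) (f : (Γ.graph (egGr m₁ m₂ s)).V → ℝ) : (egLw Γ s).gVar a f = (egaL Γ s).gVar a f := by
  unfold HLaw.gVar
  exact iSup_congr fun v => by rw [ega_lw_form]

/-- L-GA-B1 -/
theorem ega_lw_gPin (a : ℝ) (P A A' : Set (Γ.graph (egGr m₁ m₂ s)).V) : (egLw Γ s).gPin a P A A' = (egaL Γ s).gPin a P A A' := by
  unfold HLaw.gPin HLaw.detOff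
  rw [ega_lw_prec]

theorem ega_sites_empty (g : DGrid m₁ m₂) : Γ.sites g ∅ = ∅ := by
  ext v
  constructor
  · intro h
    have h1 : domPos v ∈ (↑(g.region ∅) : Set (ℤ × ℤ)) := h
    simp [DGrid.region] at h1
  · intro h; exact h.elim

/-- L-GA-B1 (`Pot.pl_law_eq_pin`, `ega_sites_empty`) -/
theorem ega_L_eq_pin (hp : Γ.pin = ∅) : egaL Γ s = plPin (egaL Γ s) ∅ := by
  apply pl_law_eq_pin
  show HLaw.pinned (Γ.sites (egGr m₁ m₂ s) Γ.pin) = _
  rw [hp, ega_sites_empty]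

/-- sums over the present cells, through `equivFin` -/
theorem ega_b2_sum (F : C3.Cell m₁ m₂ → ℝ) : ∑ o : Fin Γ.T.card, F (Γ.T.equivFin.symm o).1 = ∑ κ ∈ Γ.T, F κ := by
  rw [Equiv.sum_comp Γ.T.equivFin.symm (fun κ : Γ.T => F κ.1), Finset.sum_coe_sort Γ.T F]

/-- L-GA-B2, **the Gaussian cost of the observation centres through the variance of the cell test**.   PLAN: `Pot.pl_gEn_eq`; `plCst H a 0 c = ∑_o c_o²`, `ega_lw_sum`-type reindexing (`Γ.T.equivFin`);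
`plRow H a 0 c = plObsT H c = Γ.cellTest g y` (`plDiv 0 = 0`; `ega_lw_B`, `ega_avgRow_absent`). -/
theorem ega_gEn_eq {a : ℝ} (ha : 0 < a) (y : C3.Cell m₁ m₂ → ℝ) :
    (egLw Γ s).gEn a 0 (egCen Γ y) = ∑ κ ∈ Γ.T, y κ ^ 2 - (egLw Γ s).gVar a (Γ.cellTest (egGr m₁ m₂ s) y) := by
  refine (pl_gEn_eq (egLw Γ s) ha 0 (egCen Γ y)).trans ?_
  have e1 : plCst (egLw Γ s) a 0 (egCen Γ y) = ∑ κ ∈ Γ.T, y κ ^ 2 := by
    unfold plCst
    have h0 : ∑ e : (Γ.graph (egGr m₁ m₂ s)).E, ((0 : (Γ.graph (egGr m₁ m₂ s)).E → ℝ) e) ^ 2 = 0 := by simp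
    rw [h0, mul_zero, zero_add]
    exact ega_b2_sum Γ (fun κ => y κ ^ 2)
  have e2 : plRow (egLw Γ s) a 0 (egCen Γ y) = Γ.cellTest (egGr m₁ m₂ s) y := by
    funext x
    have h0 : plDiv (G := Γ.graph (egGr m₁ m₂ s)) 0 = 0 := by
      funext x
      simp [plDiv]
    unfold plRow
    rw [h0, smul_zero, sub_zero]
    have h1 : plObsT (egLw Γ s) (egCen Γ y) x = ∑ o : Fin Γ.T.card, egCen Γ y o * (egLw Γ s).B o x := rfl
    rw [h1]
    have h2 : ∀ o : Fin Γ.T.card, egCen Γ y o * (egLw Γ s).B o x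
        = (fun κ => y κ * Γ.avgRow (egGr m₁ m₂ s) {κ} x) (Γ.T.equivFin.symm o).1 := by
      intro o
      rw [ega_lw_B]
      rfl
    rw [Finset.sum_congr rfl fun o _ => h2 o, ega_b2_sum Γ (fun κ => y κ * Γ.avgRow (egGr m₁ m₂ s) {κ} x)]
    unfold CGeom.cellTest
    refine Finset.sum_subset (Finset.subset_univ _) fun κ _ hκ => ?_
    rw [ega_avgRow_absent Γ _ hκ]
    simp
  rw [e1, e2]

/-- the average over a present cell, in the plane -/
theorem ega_g0_pair {κ : C3.Cell m₁ m₂} (hκ : κ ∈ Γ.T) (g : DGrid m₁ m₂) (v : (Γ.graph g).V → ℝ) :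
    ∑ x, Γ.avgRow g {κ} x * v x = ((g.cell κ).card : ℝ)⁻¹ * ∑ p ∈ g.cell κ, locExt Γ g v p := by
  have h := loc_obs Γ g (o := finProdFinEquiv κ) (by rw [loc_cel_equiv]; exact hκ) v
  rw [loc_cel_equiv] at h
  rw [← h]
  unfold HLaw.obs
  refine Finset.sum_congr rfl fun x _ => ?_
  congr 1
  have h1 : (S23.rlaw Γ g S23.cellRow).B (finProdFinEquiv κ) x = ∑ κ', S23.cellRow (finProdFinEquiv κ) κ' * Γ.avgRow g {κ'} x := rfl
  rw [h1, Finset.sum_eq_single κ]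
  · have h2 : S23.cellRow (finProdFinEquiv κ) κ = 1 := if_pos (by simp)
    rw [h2, one_mul]
  · intro κ' _ hne
    have h2 : S23.cellRow (finProdFinEquiv κ) κ' = 0 := if_neg (by simpa using hne)
    rw [h2, zero_mul]
  · intro h
    exact absurd (Finset.mem_univ _) h

/-- L-GA-G0, **the form in the plane**, `w = locExt Γ g v` (`HLaw.form`, `HLaw.en`, `loc_sum_E`, `loc_pos_src`, `loc_pos_tgt`, `loc_ext_pos`; rows: `ega_L_sum`-type reindexing + `loc_obs`, `loc_obs_not`, `loc_cel_equiv`). -/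
theorem ega_L_form_plane (a : ℝ) (v : (Γ.graph (egGr m₁ m₂ s)).V → ℝ) :
    (egaL Γ s).form a v = a⁻¹ * ∑ e ∈ domBonds ((egGr m₁ m₂ s).region Γ.T) (Γ.cutB (egGr m₁ m₂ s)),
        (locExt Γ (egGr m₁ m₂ s) v e.snd - locExt Γ (egGr m₁ m₂ s) v e.1) ^ 2
      + ∑ κ ∈ Γ.T, ((((egGr m₁ m₂ s).cell κ).card : ℝ)⁻¹ * ∑ p ∈ (egGr m₁ m₂ s).cell κ, locExt Γ (egGr m₁ m₂ s) v p) ^ 2 := by
  unfold HLaw.form
  congr 1
  · congr 1
    rw [← loc_sum_E Γ (egGr m₁ m₂ s) fun e => (locExt Γ (egGr m₁ m₂ s) v e.snd - locExt Γ (egGr m₁ m₂ s) v e.1) ^ 2]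
    unfold HLaw.en
    refine Finset.sum_congr rfl fun e _ => ?_
    rw [← loc_pos_src, ← loc_pos_tgt, loc_ext_pos, loc_ext_pos]
    simp
  · have h := ega_L_sum Γ s (fun r => (∑ x, r x * v x) ^ 2) (by simp)
    have h1 : ∑ o : (egaL Γ s).O, (egaL Γ s).obs v o ^ 2 = ∑ o : Fin (m₁ * m₂), (fun r => (∑ x, r x * v x) ^ 2) ((egaL Γ s).B o) := rfl
    rw [h1, h]
    refine Finset.sum_congr rfl fun κ hκ => ?_
    rw [ega_g0_pair Γ hκ]

/-- L-GA-G0, the cell test in the plane -/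
theorem ega_cellTest_plane (y : C3.Cell m₁ m₂ → ℝ) (v : (Γ.graph (egGr m₁ m₂ s)).V → ℝ) :
    HLaw.pair (Γ.cellTest (egGr m₁ m₂ s) y) v
      = ∑ κ ∈ Γ.T, y κ * ((((egGr m₁ m₂ s).cell κ).card : ℝ)⁻¹ * ∑ p ∈ (egGr m₁ m₂ s).cell κ, locExt Γ (egGr m₁ m₂ s) v p) := by
  unfold HLaw.pair CGeom.cellTest
  simp only [Finset.sum_mul]
  rw [Finset.sum_comm]
  have h1 : ∀ κ : C3.Cell m₁ m₂, ∑ x, y κ * Γ.avgRow (egGr m₁ m₂ s) {κ} x * v x = y κ * ∑ x, Γ.avgRow (egGr m₁ m₂ s) {κ} x * v x := by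
    intro κ
    rw [Finset.mul_sum]
    refine Finset.sum_congr rfl fun x _ => ?_
    ring
  rw [Finset.sum_congr rfl fun κ _ => h1 κ]
  symm
  rw [Finset.sum_congr rfl fun κ hκ => by rw [← ega_g0_pair Γ hκ]]
  refine Finset.sum_subset (Finset.subset_univ _) fun κ _ hκ => ?_
  rw [ega_avgRow_absent Γ _ hκ]
  simp

end Rows

/-- L-GA-B1 -/
theorem ega_scale {s : ℕ} (hs : 1 ≤ s) : S23.Scale 1 (egGr m₁ m₂ s) s := by
  have hm : max s 1 = s := max_eq_left hs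
  refine ⟨⟨fun i => ?_, fun j => ?_⟩, ⟨fun i => ?_, fun j => ?_⟩⟩
  · show (s : ℤ) ≤ ((max s 1 : ℕ) : ℤ) * ((i.succ.1 : ℕ) : ℤ) - ((max s 1 : ℕ) : ℤ) * ((i.castSucc.1 : ℕ) : ℤ)
    rw [hm, Fin.val_succ, Fin.val_castSucc]
    push_cast
    linarith
  · show (s : ℤ) ≤ ((max s 1 : ℕ) : ℤ) * ((j.succ.1 : ℕ) : ℤ) - ((max s 1 : ℕ) : ℤ) * ((j.castSucc.1 : ℕ) : ℤ)
    rw [hm, Fin.val_succ, Fin.val_castSucc]
    push_cast
    linarith
  · show ((max s 1 : ℕ) : ℤ) * ((i.succ.1 : ℕ) : ℤ) - ((max s 1 : ℕ) : ℤ) * ((i.castSucc.1 : ℕ) : ℤ) ≤ ((1 * s : ℕ) : ℤ)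
    rw [hm, Fin.val_succ, Fin.val_castSucc]
    push_cast
    linarith
  · show ((max s 1 : ℕ) : ℤ) * ((j.succ.1 : ℕ) : ℤ) - ((max s 1 : ℕ) : ℤ) * ((j.castSucc.1 : ℕ) : ℤ) ≤ ((1 * s : ℕ) : ℤ)
    rw [hm, Fin.val_succ, Fin.val_castSucc]
    push_cast
    linarith

/-- L-GA-B1: the two sup-distances of cells -/
theorem ega_wd_eq (κ κ' : C3.Cell m₁ m₂) : egWd κ κ' = geoDist κ κ' := by
  unfold egWd geoDist Nat.dist
  omega

/-! ## 2. Bonds and faces -/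

/-- L-GA-G1, **a bond between two different cells crosses the face between them**.   PLAN: `geo_mem_cell`; `e.2 = true`: `e.snd = (x+1, y)`; the second indices agree (`geo_line_lt` twice / `geo_cell_unique` in one coordinate), the first ones differ by one
(`x < x₁ κ.1.succ`, `x₁ κ'.1.castSucc ≤ x + 1`, monotonicity).   Not cut: otherwise `e ∈ cutB` with `f = (κ, e.2)` (`geo_cell_unique`). -/
theorem ega_bond_face (g : DGrid m₁ m₂) {e : Bond} {κ κ' : C3.Cell m₁ m₂} (h1 : e.1 ∈ g.cell κ) (h2 : e.snd ∈ g.cell κ') (hne : κ ≠ κ') : egWnb (κ, e.2) κ' := by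
  rw [geo_mem_cell] at h1 h2
  obtain ⟨⟨x, y⟩, d⟩ := e
  cases d
  · have e1 : (Bond.snd ((x, y), false)) = (x, y + 1) := by simp [Bond.snd]
    rw [e1] at h2
    simp only at h1 h2
    have a1 := geo_line_lt g.mono₁ h1.1.2 h2.1.1 le_rfl
    have a2 := geo_line_lt g.mono₁ h2.1.2 h1.1.1 le_rfl
    have b1 := geo_line_lt g.mono₂ h2.2.2 h1.2.1 (by omega)
    have b2 := geo_line_le g.mono₂ (i := κ.2) (i' := κ'.2) (by omega)
    have hk1 : κ.1 = κ'.1 := Fin.ext (by omega)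
    refine Or.inr ⟨rfl, hk1, ?_⟩
    have hk2 : κ.2.1 ≠ κ'.2.1 := fun h => hne (Prod.ext hk1 (Fin.ext h))
    show κ.2.1 + 1 = κ'.2.1
    omega
  · have e1 : (Bond.snd ((x, y), true)) = (x + 1, y) := by simp [Bond.snd]
    rw [e1] at h2
    simp only at h1 h2
    have a1 := geo_line_lt g.mono₂ h1.2.2 h2.2.1 le_rfl
    have a2 := geo_line_lt g.mono₂ h2.2.2 h1.2.1 le_rfl
    have b1 := geo_line_lt g.mono₁ h2.1.2 h1.1.1 (by omega)
    have b2 := geo_line_le g.mono₁ (i := κ.1) (i' := κ'.1) (by omega)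
    have hk2 : κ.2 = κ'.2 := Fin.ext (by omega)
    refine Or.inl ⟨rfl, ?_, hk2⟩
    have hk1 : κ.1.1 ≠ κ'.1.1 := fun h => hne (Prod.ext (Fin.ext h) hk2)
    show κ.1.1 + 1 = κ'.1.1
    omega

/-- L-GA-G1 -/
theorem ega_mem_cutB (Γ : CGeom m₁ m₂) (g : DGrid m₁ m₂) {e : Bond} {κ : C3.Cell m₁ m₂} (h1 : e.1 ∈ g.cell κ) :
    e ∈ Γ.cutB g ↔ (κ, e.2) ∈ Γ.cutF ∧ e.snd ∉ g.cell κ := by
  constructor
  · rintro ⟨f, hf, h2, h3, h4⟩
    have hk : κ = f.1 := geo_cell_unique g h1 h3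
    have hf' : f = (κ, e.2) := Prod.ext hk.symm h2.symm
    rw [← hf', hk]
    exact ⟨hf, h4⟩
  · rintro ⟨hf, h4⟩
    exact ⟨(κ, e.2), hf, rfl, h1, h4⟩

/-! ## 3. The systems -/

section Sys

variable (T : Finset (C3.Cell m₁ m₂)) (Co : Finset (C3.Cell m₁ m₂ × Bool)) (s : ℕ)

/-- L-GA-G2 (`pd_ok_addPin`, `pd_ok_cutT`, `loc_ok`, `ega_scale`; `pd_graph_cs_inl`) -/
theorem ega_sys_ok {s : ℕ} (hs : 1 ≤ s) {a : ℝ} (ha : 0 < a) (X : Set ((egSh T Co).graph (egGr m₁ m₂ s)).E)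
    (hX : ∀ e ∈ X, locBlk (egSh T Co) (egGr m₁ m₂ s) (((egSh T Co).graph (egGr m₁ m₂ s)).src e) ≠
      locBlk (egSh T Co) (egGr m₁ m₂ s) (((egSh T Co).graph (egGr m₁ m₂ s)).tgt e))
    (P' : Set ((egSh T Co).graph (egGr m₁ m₂ s)).V) :
    PdOk (egaAmb T Co s) (egaSys T Co s a X P') (((s : ℕ) : ℝ) ^ 2)⁻¹ (locCP 1 a) (locK a) := by
  have h0 : PdOk (egaAmb T Co s) (egaS0 T Co s a) (((s : ℕ) : ℝ) ^ 2)⁻¹ (locCP 1 a) (locK a) :=
    loc_ok (egSh T Co) ∅ hs (ega_scale hs) ha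
  refine pd_ok_addPin (pd_ok_cutT h0 _ ?_) P'
  rintro t ⟨e, he, rfl⟩ i hi
  have h1 : locBlk (egSh T Co) (egGr m₁ m₂ s) (((egSh T Co).graph (egGr m₁ m₂ s)).src e) ∈ ({i} : Set (C3.Cell m₁ m₂)) :=
    hi (Or.inl rfl)
  have h2 : locBlk (egSh T Co) (egGr m₁ m₂ s) (((egSh T Co).graph (egGr m₁ m₂ s)).tgt e) ∈ ({i} : Set (C3.Cell m₁ m₂)) :=
    hi (Or.inr rfl)
  exact hX e he (h1.trans h2.symm)

/-- L-GA-G2 -/
theorem ega_XC_ne (C : Finset (C3.Cell m₁ m₂ × Bool)) : ∀ e ∈ egaXC T Co s C,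
    locBlk (egSh T Co) (egGr m₁ m₂ s) (((egSh T Co).graph (egGr m₁ m₂ s)).src e) ≠
      locBlk (egSh T Co) (egGr m₁ m₂ s) (((egSh T Co).graph (egGr m₁ m₂ s)).tgt e) := by
  rintro e ⟨f, -, -, h1, h2⟩ heq
  have e1 : locBlk (egSh T Co) (egGr m₁ m₂ s) (((egSh T Co).graph (egGr m₁ m₂ s)).src e) = f.1 :=
    (loc_blk_eq_iff _ _ _ _).2 h1
  rw [e1] at heq
  exact h2 ((loc_blk_eq_iff _ _ _ _).1 heq.symm)

/-- L-GA-G2 -/
theorem ega_XO_ne (O : Finset (C3.Cell m₁ m₂)) : ∀ e ∈ egaXO T Co s O,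
    locBlk (egSh T Co) (egGr m₁ m₂ s) (((egSh T Co).graph (egGr m₁ m₂ s)).src e) ≠
      locBlk (egSh T Co) (egGr m₁ m₂ s) (((egSh T Co).graph (egGr m₁ m₂ s)).tgt e) := by
  intro e he heq
  exact he (by rw [heq])

/-- L-GA-G2 -/
theorem ega_sys_adm (a : ℝ) (X : Set ((egSh T Co).graph (egGr m₁ m₂ s)).E) (P' : Set ((egSh T Co).graph (egGr m₁ m₂ s)).V)
    (v : ((egSh T Co).graph (egGr m₁ m₂ s)).V → ℝ) : (egaSys T Co s a X P').Adm v ↔ ∀ x ∈ P', v x = 0 := by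
  unfold egaSys
  rw [pd_addPin_adm]
  exact ⟨fun h => h.2, fun h => ⟨fun x hx => hx.elim, h⟩⟩

/-- L-GA-G2 (`pd_cutT_form`, `pd_law_form`, `pd_graph_row_inl`, `pd_sqrt_inv_mul`) -/
theorem ega_sys_form {a : ℝ} (ha : 0 < a) (X : Set ((egSh T Co).graph (egGr m₁ m₂ s)).E) (P' : Set ((egSh T Co).graph (egGr m₁ m₂ s)).V)
    (v : ((egSh T Co).graph (egGr m₁ m₂ s)).V → ℝ) :
    (egaSys T Co s a X P').form v = (egaL (egSh T Co) s).form a v - a⁻¹ * ∑ e, if e ∈ X then plGrad v e ^ 2 else 0 := by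
  have h1 : (egaSys T Co s a X P').form v = ((egaS0 T Co s a).cutT (egaRows T Co s a X)).form v := rfl
  have h2 : (egaS0 T Co s a).form v = (egaL (egSh T Co) s).form a v :=
    pd_law_form (S23.rlaw (egSh T Co) (egGr m₁ m₂ s) S23.cellRow) _ ∅ locCel ha v
  rw [h1, pd_cutT_form, h2]
  congr 1
  have h3 := pd_graph_sum (locAmb (egSh T Co) (egGr m₁ m₂ s) s) (locGr (egSh T Co) (egGr m₁ m₂ s) ∅) a
    (fun t => if t ∈ egaRows T Co s a X then (egaS0 T Co s a).row v t ^ 2 else 0)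
  refine h3.trans ?_
  have h4 : ∑ o : (locGr (egSh T Co) (egGr m₁ m₂ s) ∅).O,
      (if (Sum.inr o : (egaS0 T Co s a).Tm) ∈ egaRows T Co s a X then (egaS0 T Co s a).row v (Sum.inr o) ^ 2 else 0) = 0 := by
    refine Finset.sum_eq_zero fun o _ => if_neg ?_
    rintro ⟨e, -, he⟩
    exact Sum.inr_ne_inl he
  rw [h4, add_zero, Finset.mul_sum]
  have key : ∀ e : ((egSh T Co).graph (egGr m₁ m₂ s)).E,
      (if (Sum.inl e : (egaS0 T Co s a).Tm) ∈ egaRows T Co s a X then (egaS0 T Co s a).row v (Sum.inl e) ^ 2 else 0)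
        = a⁻¹ * (if e ∈ X then plGrad v e ^ 2 else 0) := by
    intro e
    have h5 : ((Sum.inl e : (egaS0 T Co s a).Tm) ∈ egaRows T Co s a X) ↔ e ∈ X :=
      ⟨fun ⟨e', he', h⟩ => by rw [Sum.inl_injective h]; exact he', fun h => ⟨e, h, rfl⟩⟩
    by_cases he : e ∈ X
    · rw [if_pos (h5.2 he), if_pos he]
      have h6 : (egaS0 T Co s a).row v (Sum.inl e) = (Real.sqrt a)⁻¹ * plGrad v e :=
        pd_graph_row_inl (locAmb (egSh T Co) (egGr m₁ m₂ s) s) (locGr (egSh T Co) (egGr m₁ m₂ s) ∅) a v e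
      rw [h6, mul_pow, sq (Real.sqrt a)⁻¹, pd_sqrt_inv_mul ha]
    · rw [if_neg (fun h => he (h5.1 h)), if_neg he, mul_zero]
  exact Finset.sum_congr rfl fun e _ => key e

/-- the bond energy of a shape in the plane -/
theorem ega_g3_en (Γ : CGeom m₁ m₂) (g : DGrid m₁ m₂) (v : (Γ.graph g).V → ℝ) (p : Bond → Prop) :
    ∑ e : (Γ.graph g).E, (if p (domBond (D := g.region Γ.T) (cut := Γ.cutB g) e) then plGrad v e ^ 2 else 0)
      = ∑ e ∈ domBonds (g.region Γ.T) (Γ.cutB g), if p e then (locExt Γ g v e.snd - locExt Γ g v e.1) ^ 2 else 0 := by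
  rw [← loc_sum_E Γ g (fun e => if p e then (locExt Γ g v e.snd - locExt Γ g v e.1) ^ 2 else 0)]
  refine Finset.sum_congr rfl fun e _ => ?_
  rw [← loc_pos_src, ← loc_pos_tgt, loc_ext_pos, loc_ext_pos]
  rfl

theorem ega_g3_bonds {C : Finset (C3.Cell m₁ m₂ × Bool)} (hC : Co ⊆ C) (g : DGrid m₁ m₂) :
    domBonds (g.region T) ((egSh T C).cutB g) = (domBonds (g.region T) ((egSh T Co).cutB g)).filter fun e => e ∉ (egSh T C).cutB g := by
  ext e
  simp only [domBonds, Finset.mem_filter, Finset.mem_product, Finset.mem_univ, and_true]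
  constructor
  · rintro ⟨h1, h2, h3⟩
    refine ⟨⟨h1, h2, fun h => h3 ?_⟩, h3⟩
    obtain ⟨f, hf, h⟩ := h
    exact ⟨f, hC hf, h⟩
  · rintro ⟨⟨h1, h2, -⟩, h3⟩
    exact ⟨h1, h2, h3⟩

/-- L-GA-G3, **cutting more faces removes bonds**.   PLAN: the rows agree (`rfl`: `avgRow` does not see the cuts); `HLaw.en`, `loc_sum_E` on both graphs with `F e = (w e.snd - w e.1)²`, `w = locExt`;
`domBonds D (cutB C) = (domBonds D (cutB Co)).filter (· ∉ cutB C)` because `cutB Co ⊆ cutB C`; `Finset.sum_filter`. -/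
theorem ega_form_cut {C : Finset (C3.Cell m₁ m₂ × Bool)} (hC : Co ⊆ C) (a : ℝ) (v : ((egSh T Co).graph (egGr m₁ m₂ s)).V → ℝ) :
    (egaL (egSh T C) s).form a v = (egaL (egSh T Co) s).form a v - a⁻¹ * ∑ e, if e ∈ egaXC T Co s C then plGrad v e ^ 2 else 0 := by
  have f1 : (egaL (egSh T C) s).form a v
      = a⁻¹ * ∑ e, plGrad (G := (egSh T C).graph (egGr m₁ m₂ s)) v e ^ 2 + ∑ o, (egaL (egSh T C) s).obs v o ^ 2 :=
    pl_form_expand (egaL (egSh T C) s) a v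
  have f2 : (egaL (egSh T Co) s).form a v
      = a⁻¹ * ∑ e, plGrad (G := (egSh T Co).graph (egGr m₁ m₂ s)) v e ^ 2 + ∑ o, (egaL (egSh T Co) s).obs v o ^ 2 :=
    pl_form_expand (egaL (egSh T Co) s) a v
  have hobs : ∑ o, (egaL (egSh T C) s).obs v o ^ 2 = ∑ o, (egaL (egSh T Co) s).obs v o ^ 2 := rfl
  have e1 := ega_g3_en (egSh T C) (egGr m₁ m₂ s) v (fun _ => True)
  have e2 := ega_g3_en (egSh T Co) (egGr m₁ m₂ s) v (fun _ => True)
  have e3 := ega_g3_en (egSh T Co) (egGr m₁ m₂ s) v (fun e => e ∈ (egSh T C).cutB (egGr m₁ m₂ s))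
  simp only [if_true] at e1 e2
  have e3' : ∑ e, (if e ∈ egaXC T Co s C then plGrad v e ^ 2 else 0)
      = ∑ e ∈ domBonds ((egGr m₁ m₂ s).region T) ((egSh T Co).cutB (egGr m₁ m₂ s)),
        if e ∈ (egSh T C).cutB (egGr m₁ m₂ s) then
          (locExt (egSh T Co) (egGr m₁ m₂ s) v e.snd - locExt (egSh T Co) (egGr m₁ m₂ s) v e.1) ^ 2 else 0 := e3
  have e1' : ∑ e, plGrad (G := (egSh T C).graph (egGr m₁ m₂ s)) v e ^ 2
      = ∑ e ∈ domBonds ((egGr m₁ m₂ s).region T) ((egSh T C).cutB (egGr m₁ m₂ s)),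
          (locExt (egSh T Co) (egGr m₁ m₂ s) v e.snd - locExt (egSh T Co) (egGr m₁ m₂ s) v e.1) ^ 2 := e1
  have e2' : ∑ e, plGrad (G := (egSh T Co).graph (egGr m₁ m₂ s)) v e ^ 2
      = ∑ e ∈ domBonds ((egGr m₁ m₂ s).region T) ((egSh T Co).cutB (egGr m₁ m₂ s)),
          (locExt (egSh T Co) (egGr m₁ m₂ s) v e.snd - locExt (egSh T Co) (egGr m₁ m₂ s) v e.1) ^ 2 := e2
  have this : ∀ (S : Finset Bond) (F : Bond → ℝ) (p : Bond → Prop),
      ∑ e ∈ S, (if ¬ p e then F e else 0) = ∑ e ∈ S, F e - ∑ e ∈ S, if p e then F e else 0 := by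
    intro S F p
    rw [← Finset.sum_sub_distrib]
    refine Finset.sum_congr rfl fun e _ => ?_
    by_cases h : p e <;> simp [h]
  rw [ega_g3_bonds T Co hC, Finset.sum_filter, this] at e1'
  rw [f1, f2, hobs, e1', e2', e3']
  ring

/-- L-GA-G3 (`ega_add_form`, `ega_form_cut`, `pl_grad_eq_pair`, `pl_pair_smul_left`, `pd_sqrt_inv_mul`, `Finset.sum_subtype`/`Finset.sum_coe_sort`-type reindexing of `egaX`) -/
theorem ega_up_form {C : Finset (C3.Cell m₁ m₂ × Bool)} (hC : Co ⊆ C) {a : ℝ} (ha : 0 < a) (v : ((egSh T C).graph (egGr m₁ m₂ s)).V → ℝ) :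
    (egaUp T Co s C a).form a v = (egaL (egSh T Co) s).form a v := by
  unfold egaUp
  rw [ega_add_form, ega_form_cut T Co s hC a v]
  have h1 : ∀ k : egaX T Co s C, HLaw.pair (egaR T Co s C a k) v ^ 2
      = a⁻¹ * plGrad (G := (egSh T Co).graph (egGr m₁ m₂ s)) v k.1 ^ 2 := by
    intro k
    have h2 : HLaw.pair (egaR T Co s C a k) v
        = (Real.sqrt a)⁻¹ * HLaw.pair (G := (egSh T Co).graph (egGr m₁ m₂ s)) (plDiv (Pi.single k.1 1)) v :=
      pl_pair_smul_left (G := (egSh T Co).graph (egGr m₁ m₂ s)) _ _ v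
    have h4 : plGrad (G := (egSh T Co).graph (egGr m₁ m₂ s)) v k.1
        = HLaw.pair (G := (egSh T Co).graph (egGr m₁ m₂ s)) (plDiv (Pi.single k.1 1)) v :=
      pl_grad_eq_pair (G := (egSh T Co).graph (egGr m₁ m₂ s)) v k.1
    rw [h2, ← h4, mul_pow, sq (Real.sqrt a)⁻¹, pd_sqrt_inv_mul ha]
  rw [Finset.sum_congr rfl fun k _ => h1 k, ← Finset.mul_sum]
  have h3 : ∑ k : egaX T Co s C, plGrad (G := (egSh T Co).graph (egGr m₁ m₂ s)) v k.1 ^ 2
      = ∑ e, if e ∈ egaXC T Co s C then plGrad (G := (egSh T Co).graph (egGr m₁ m₂ s)) v e ^ 2 else 0 := by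
    rw [← Finset.sum_filter]
    exact (Finset.sum_subtype (Finset.univ.filter fun e => e ∈ egaXC T Co s C) (fun e => by simp)
      (fun e => plGrad (G := (egSh T Co).graph (egGr m₁ m₂ s)) v e ^ 2)).symm
  rw [h3]
  ring

theorem ega_g4_pd {s : ℕ} (hs : 1 ≤ s) (C : Finset (C3.Cell m₁ m₂ × Bool)) {a : ℝ} (ha : 0 < a) (P' : Set ((egSh T C).graph (egGr m₁ m₂ s)).V) :
    plPD (egaL (egSh T C) s) P' :=
  pl_PD_mono _ (pd_law_PD ha (loc_ok (egSh T C) ∅ hs (ega_scale hs) ha)) (Set.empty_subset _)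

/-- L-GA-G4 (`ega_gf_eq_gVar` with `res = ext = id`; `ega_sys_adm`, `ega_sys_form`, `ega_form_cut`; `plPD` from `pd_law_PD`/`loc_ok` + `pl_PD_mono`) -/
theorem ega_box_gVar {s : ℕ} (hs : 1 ≤ s) {C : Finset (C3.Cell m₁ m₂ × Bool)} (hC : Co ⊆ C) {a : ℝ} (ha : 0 < a) (P' : Set ((egSh T C).graph (egGr m₁ m₂ s)).V)
    (f : ((egSh T C).graph (egGr m₁ m₂ s)).V → ℝ) :
    (egaSys T Co s a (egaXC T Co s C) P').gf (pdRowF f) (pdRowF f) = (plPin (egaL (egSh T C) s) P').gVar a f := by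
  have hok := ega_sys_ok T Co hs ha (egaXC T Co s C) (ega_XC_ne T Co s C) P'
  have hform : ∀ v : ((egSh T Co).graph (egGr m₁ m₂ s)).V → ℝ,
      (egaSys T Co s a (egaXC T Co s C) P').form v = (egaL (egSh T C) s).form a v := fun v =>
    (ega_sys_form T Co s ha (egaXC T Co s C) P' v).trans (ega_form_cut T Co s hC a v).symm
  refine ega_gf_eq_gVar hok (egaL (egSh T C) s) ha (ega_g4_pd T hs C ha P') (pdRowF f) f id id ?_ ?_ ?_ ?_ ?_ ?_
  · intro v hv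
    exact (ega_sys_adm T Co s a (egaXC T Co s C) P' v).1 hv
  · intro v _
    exact (hform v).ge
  · intro v _
    rfl
  · intro w hw
    exact (ega_sys_adm T Co s a (egaXC T Co s C) P' w).2 hw
  · intro w _
    exact (hform w).le
  · intro w _
    rfl

theorem ega_g4_XC_self : egaXC T Co s Co = ∅ := by
  ext e
  constructor
  · intro h
    have h1 : domBond e ∈ domBonds ((egGr m₁ m₂ s).region T) ((egSh T Co).cutB (egGr m₁ m₂ s)) :=
      Subtype.property (p := fun e => e ∈ domBonds ((egGr m₁ m₂ s).region T) ((egSh T Co).cutB (egGr m₁ m₂ s))) e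
    exact ((Finset.mem_filter.1 h1).2.2 h).elim
  · intro h
    exact h.elim

/-- L-GA-G4 (the same with `H = egaUp T Co s C a`, `X = egaXC T Co s Co`; `ega_up_form`; `egaXC T Co s Co = ∅`) -/
theorem ega_up_gVar {s : ℕ} (hs : 1 ≤ s) {C : Finset (C3.Cell m₁ m₂ × Bool)} (hC : Co ⊆ C) {a : ℝ} (ha : 0 < a) (P' : Set ((egSh T C).graph (egGr m₁ m₂ s)).V)
    (f : ((egSh T C).graph (egGr m₁ m₂ s)).V → ℝ) :
    (egaSys T Co s a (egaXC T Co s Co) P').gf (pdRowF f) (pdRowF f) = (plPin (egaUp T Co s C a) P').gVar a f := by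
  have hok := ega_sys_ok T Co hs ha (egaXC T Co s Co) (ega_XC_ne T Co s Co) P'
  have hform : ∀ v : ((egSh T Co).graph (egGr m₁ m₂ s)).V → ℝ,
      (egaSys T Co s a (egaXC T Co s Co) P').form v = (egaUp T Co s C a).form a v := fun v => by
    refine (ega_sys_form T Co s ha (egaXC T Co s Co) P' v).trans ((ega_up_form T Co s hC ha v).trans ?_).symm
    rw [ega_g4_XC_self]
    simp
  have hPD : plPD (egaUp T Co s C a) P' := by
    refine ega_pd_of_le ha (ega_g4_pd T hs C ha P') fun v => ?_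
    unfold egaUp
    rw [ega_add_form]
    have : 0 ≤ ∑ k, HLaw.pair (egaR T Co s C a k) v ^ 2 := Finset.sum_nonneg fun k _ => sq_nonneg _
    linarith
  refine ega_gf_eq_gVar hok (egaUp T Co s C a) ha hPD (pdRowF f) f id id ?_ ?_ ?_ ?_ ?_ ?_
  · intro v hv
    exact (ega_sys_adm T Co s a (egaXC T Co s Co) P' v).1 hv
  · intro v _
    exact (hform v).ge
  · intro v _
    rfl
  · intro w hw
    exact (ega_sys_adm T Co s a (egaXC T Co s Co) P' w).2 hw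
  · intro w _
    exact (hform w).le
  · intro w _
    rfl

/-- the extension of the restriction of a plane function -/
theorem ega_g5_ext_fn (Γ : CGeom m₁ m₂) (g : DGrid m₁ m₂) (F : ℤ × ℤ → ℝ) (p : ℤ × ℤ) :
    locExt Γ g (fun x => F (locPos Γ g x)) p = if p ∈ g.region Γ.T then F p else 0 := by
  unfold locExt
  by_cases h : p ∈ g.region Γ.T
  · rw [dif_pos h, if_pos h]; rfl
  · rw [dif_neg h, if_neg h]

theorem ega_g5_ext_out (Γ : CGeom m₁ m₂) (g : DGrid m₁ m₂) (v : (Γ.graph g).V → ℝ) {p : ℤ × ℤ} (h : p ∉ g.region Γ.T) : locExt Γ g v p = 0 := by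
  unfold locExt
  rw [dif_neg h]

/-- the cell of a site lies in `O` iff its position lies in the region of `T ∩ O` -/
theorem ega_g5_blk_mem (Γ : CGeom m₁ m₂) (g : DGrid m₁ m₂) (O : Finset (C3.Cell m₁ m₂)) (x : (Γ.graph g).V) :
    locBlk Γ g x ∈ O ↔ locPos Γ g x ∈ g.region (Γ.T ∩ O) := by
  constructor
  · intro h
    exact Finset.mem_biUnion.2 ⟨_, Finset.mem_inter.2 ⟨(loc_blk_spec Γ g x).1, h⟩, (loc_blk_spec Γ g x).2⟩
  · intro h
    obtain ⟨κ, hκ, hp⟩ := Finset.mem_biUnion.1 h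
    rw [(loc_blk_eq_iff Γ g x κ).2 hp]
    exact (Finset.mem_inter.1 hκ).2

/-- the bonds of a subregion with more cuts -/
theorem ega_g5_bonds {D D' : Finset (ℤ × ℤ)} (hD : D' ⊆ D) {cut cut' : Set Bond} (hc : cut ⊆ cut') (f : Bond → ℝ)
    (hf : ∀ e : Bond, e.1 ∉ D' → e.snd ∉ D' → f e = 0) :
    ∑ e ∈ domBonds D cut, (if e ∈ cut' ∨ ¬ (e.1 ∈ D' ↔ e.snd ∈ D') then 0 else f e) = ∑ e ∈ domBonds D' cut', f e := by
  have h1 : domBonds D' cut' = (domBonds D cut).filter fun e => e.1 ∈ D' ∧ e.snd ∈ D' ∧ e ∉ cut' := by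
    ext e
    simp only [domBonds, Finset.mem_filter, Finset.mem_product, Finset.mem_univ, and_true]
    constructor
    · rintro ⟨a, b, c⟩
      exact ⟨⟨hD a, hD b, fun q => c (hc q)⟩, a, b, c⟩
    · rintro ⟨_, a, b, c⟩
      exact ⟨a, b, c⟩
  rw [h1, Finset.sum_filter]
  refine Finset.sum_congr rfl fun e _ => ?_
  by_cases hcut : e ∈ cut'
  · rw [if_pos (Or.inl hcut), if_neg (fun q => q.2.2 hcut)]
  · by_cases h1 : e.1 ∈ D' <;> by_cases h2 : e.snd ∈ D'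
    · rw [if_neg (by simp [hcut, h1, h2]), if_pos ⟨h1, h2, hcut⟩]
    · rw [if_pos (by simp [h1, h2]), if_neg (fun q => h2 q.2.1)]
    · rw [if_pos (by simp [h1, h2]), if_neg (fun q => h1 q.1)]
    · rw [if_neg (by simp [hcut, h1, h2]), if_neg (fun q => h1 q.1), hf e h1 h2]

/-- a plane function which vanishes off the region of `T ∩ O` has no average over the cells outside `O` -/
theorem ega_g5_cells (g : DGrid m₁ m₂) (T O : Finset (C3.Cell m₁ m₂)) (w : ℤ × ℤ → ℝ) (hw : ∀ p, p ∉ g.region (T ∩ O) → w p = 0)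
    (Φ : C3.Cell m₁ m₂ → ℝ → ℝ) (h0 : ∀ κ, Φ κ 0 = 0) :
    ∑ κ ∈ T, Φ κ (((g.cell κ).card : ℝ)⁻¹ * ∑ p ∈ g.cell κ, w p) = ∑ κ ∈ T ∩ O, Φ κ (((g.cell κ).card : ℝ)⁻¹ * ∑ p ∈ g.cell κ, w p) := by
  symm
  refine Finset.sum_subset Finset.inter_subset_left fun κ hκ hκ' => ?_
  have : ∑ p ∈ g.cell κ, w p = 0 := by
    refine Finset.sum_eq_zero fun p hp => hw p fun q => ?_
    obtain ⟨κ', hκ'', hp'⟩ := Finset.mem_biUnion.1 q
    rw [geo_cell_unique g hp hp'] at hκ'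
    exact hκ' hκ''
  rw [this, mul_zero, h0]

theorem ega_g5_sum_compl (S : Finset Bond) (p : Bond → Prop) [DecidablePred p] (f : Bond → ℝ) :
    ∑ e ∈ S, f e - ∑ e ∈ S, (if p e then f e else 0) = ∑ e ∈ S, (if p e then 0 else f e) := by
  rw [← Finset.sum_sub_distrib]
  refine Finset.sum_congr rfl fun e _ => ?_
  by_cases h : p e <;> simp [h]

/-- the form of the pinned and cut box in the plane -/
theorem ega_g5_sys_plane {a : ℝ} (ha : 0 < a) (C : Finset (C3.Cell m₁ m₂ × Bool)) (O : Finset (C3.Cell m₁ m₂))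
    (P' : Set ((egSh T Co).graph (egGr m₁ m₂ s)).V) (v : ((egSh T Co).graph (egGr m₁ m₂ s)).V → ℝ) :
    (egaSys T Co s a (egaXC T Co s C ∪ egaXO T Co s O) P').form v
      = a⁻¹ * ∑ e ∈ domBonds ((egGr m₁ m₂ s).region T) ((egSh T Co).cutB (egGr m₁ m₂ s)),
          (if e ∈ (egSh T C).cutB (egGr m₁ m₂ s) ∨ ¬ (e.1 ∈ (egGr m₁ m₂ s).region (T ∩ O) ↔ e.snd ∈ (egGr m₁ m₂ s).region (T ∩ O)) then 0
            else (locExt (egSh T Co) (egGr m₁ m₂ s) v e.snd - locExt (egSh T Co) (egGr m₁ m₂ s) v e.1) ^ 2)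
        + ∑ κ ∈ T, ((((egGr m₁ m₂ s).cell κ).card : ℝ)⁻¹ * ∑ p ∈ (egGr m₁ m₂ s).cell κ, locExt (egSh T Co) (egGr m₁ m₂ s) v p) ^ 2 := by
  generalize hXdef : egaXC T Co s C ∪ egaXO T Co s O = X
  have hL : (egaL (egSh T Co) s).form a v = a⁻¹ * ∑ e ∈ domBonds ((egGr m₁ m₂ s).region T) ((egSh T Co).cutB (egGr m₁ m₂ s)),
        (locExt (egSh T Co) (egGr m₁ m₂ s) v e.snd - locExt (egSh T Co) (egGr m₁ m₂ s) v e.1) ^ 2
      + ∑ κ ∈ T, ((((egGr m₁ m₂ s).cell κ).card : ℝ)⁻¹ * ∑ p ∈ (egGr m₁ m₂ s).cell κ, locExt (egSh T Co) (egGr m₁ m₂ s) v p) ^ 2 :=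
    ega_L_form_plane (egSh T Co) s a v
  rw [ega_sys_form T Co s ha, hL]
  have h1 : ∑ e : ((egSh T Co).graph (egGr m₁ m₂ s)).E, (if e ∈ X then plGrad v e ^ 2 else 0)
      = ∑ e ∈ domBonds ((egGr m₁ m₂ s).region T) ((egSh T Co).cutB (egGr m₁ m₂ s)),
          (if e ∈ (egSh T C).cutB (egGr m₁ m₂ s) ∨ ¬ (e.1 ∈ (egGr m₁ m₂ s).region (T ∩ O) ↔ e.snd ∈ (egGr m₁ m₂ s).region (T ∩ O))
            then (locExt (egSh T Co) (egGr m₁ m₂ s) v e.snd - locExt (egSh T Co) (egGr m₁ m₂ s) v e.1) ^ 2 else 0) := by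
    refine Eq.trans ?_ (loc_sum_E (egSh T Co) (egGr m₁ m₂ s) (fun e => if e ∈ (egSh T C).cutB (egGr m₁ m₂ s) ∨ ¬ (e.1 ∈ (egGr m₁ m₂ s).region (T ∩ O) ↔ e.snd ∈ (egGr m₁ m₂ s).region (T ∩ O))
            then (locExt (egSh T Co) (egGr m₁ m₂ s) v e.snd - locExt (egSh T Co) (egGr m₁ m₂ s) v e.1) ^ 2 else 0))
    refine Finset.sum_congr rfl fun e _ => ?_
    have hg : plGrad v e = locExt (egSh T Co) (egGr m₁ m₂ s) v (domBond e).snd - locExt (egSh T Co) (egGr m₁ m₂ s) v (domBond e).1 := by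
      rw [← loc_pos_tgt (egSh T Co) (egGr m₁ m₂ s) e, ← loc_pos_src (egSh T Co) (egGr m₁ m₂ s) e, loc_ext_pos, loc_ext_pos]
      rfl
    have hX : e ∈ X ↔ (domBond e ∈ (egSh T C).cutB (egGr m₁ m₂ s) ∨
        ¬ ((domBond e).1 ∈ (egGr m₁ m₂ s).region (T ∩ O) ↔ (domBond e).snd ∈ (egGr m₁ m₂ s).region (T ∩ O))) := by
      rw [← hXdef, Set.mem_union]
      refine or_congr Iff.rfl ?_
      show ¬ (_ ↔ _) ↔ _
      rw [ega_g5_blk_mem (egSh T Co) (egGr m₁ m₂ s) O, ega_g5_blk_mem (egSh T Co) (egGr m₁ m₂ s) O, loc_pos_src, loc_pos_tgt]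
      rfl
    rw [hg]
    exact loc_ite_congr hX _ _
  rw [h1]
  rw [← ega_g5_sum_compl]
  ring

/-- the two systems on a field carried by the patch -/
theorem ega_g5_core {a : ℝ} (ha : 0 < a) {C : Finset (C3.Cell m₁ m₂ × Bool)} (hC : Co ⊆ C) (O : Finset (C3.Cell m₁ m₂))
    (P' : Set ((egSh T Co).graph (egGr m₁ m₂ s)).V) (y : C3.Cell m₁ m₂ → ℝ) (v : ((egSh T Co).graph (egGr m₁ m₂ s)).V → ℝ)
    (hv : ∀ p, p ∉ (egGr m₁ m₂ s).region (T ∩ O) → locExt (egSh T Co) (egGr m₁ m₂ s) v p = 0)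
    (v' : ((egSh (T ∩ O) C).graph (egGr m₁ m₂ s)).V → ℝ)
    (hv' : locExt (egSh (T ∩ O) C) (egGr m₁ m₂ s) v' = locExt (egSh T Co) (egGr m₁ m₂ s) v) :
    (egaSys T Co s a (egaXC T Co s C ∪ egaXO T Co s O) P').form v = (egaL (egSh (T ∩ O) C) s).form a v' ∧
      HLaw.pair ((egSh T Co).cellTest (egGr m₁ m₂ s) y) v = HLaw.pair ((egSh (T ∩ O) C).cellTest (egGr m₁ m₂ s) y) v' := by
  constructor
  · have hL : (egaL (egSh (T ∩ O) C) s).form a v' = a⁻¹ * ∑ e ∈ domBonds ((egGr m₁ m₂ s).region (T ∩ O)) ((egSh T C).cutB (egGr m₁ m₂ s)),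
          (locExt (egSh (T ∩ O) C) (egGr m₁ m₂ s) v' e.snd - locExt (egSh (T ∩ O) C) (egGr m₁ m₂ s) v' e.1) ^ 2
        + ∑ κ ∈ T ∩ O, ((((egGr m₁ m₂ s).cell κ).card : ℝ)⁻¹ * ∑ p ∈ (egGr m₁ m₂ s).cell κ, locExt (egSh (T ∩ O) C) (egGr m₁ m₂ s) v' p) ^ 2 :=
      ega_L_form_plane (egSh (T ∩ O) C) s a v'
    rw [hL, hv', ega_g5_sys_plane T Co s ha C O P' v]
    have hc : (egSh T Co).cutB (egGr m₁ m₂ s) ⊆ (egSh T C).cutB (egGr m₁ m₂ s) := by
      rintro e ⟨f, hf, h⟩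
      exact ⟨f, hC hf, h⟩
    have hsub : (egGr m₁ m₂ s).region (T ∩ O) ⊆ (egGr m₁ m₂ s).region T :=
      Finset.biUnion_subset_biUnion_of_subset_left _ Finset.inter_subset_left
    rw [ega_g5_bonds hsub hc
      (fun e => (locExt (egSh T Co) (egGr m₁ m₂ s) v e.snd - locExt (egSh T Co) (egGr m₁ m₂ s) v e.1) ^ 2)
      (fun e h1 h2 => by simp only [hv _ h1, hv _ h2]; norm_num)]
    rw [ega_g5_cells (egGr m₁ m₂ s) T O _ hv (fun _ t => t ^ 2) (fun _ => by norm_num)]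
  · have h1 : HLaw.pair ((egSh T Co).cellTest (egGr m₁ m₂ s) y) v
        = ∑ κ ∈ T, y κ * ((((egGr m₁ m₂ s).cell κ).card : ℝ)⁻¹ * ∑ p ∈ (egGr m₁ m₂ s).cell κ, locExt (egSh T Co) (egGr m₁ m₂ s) v p) :=
      ega_cellTest_plane (egSh T Co) s y v
    have h2 : HLaw.pair ((egSh (T ∩ O) C).cellTest (egGr m₁ m₂ s) y) v'
        = ∑ κ ∈ T ∩ O, y κ * ((((egGr m₁ m₂ s).cell κ).card : ℝ)⁻¹ * ∑ p ∈ (egGr m₁ m₂ s).cell κ, locExt (egSh (T ∩ O) C) (egGr m₁ m₂ s) v' p) :=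
      ega_cellTest_plane (egSh (T ∩ O) C) s y v'
    rw [h1, h2, hv']
    exact ega_g5_cells (egGr m₁ m₂ s) T O _ hv (fun κ t => y κ * t) (fun _ => by norm_num)

/-- L-GA-G5, **the open patch inside the box**: the patch `(T ∩ O, C)` is the box `(T, Co)` with the bonds of `C` and the bonds leaving `O` removed and the sites outside `O` pinned.
PLAN: `ega_gf_eq_gVar` with `G' = (egSh (T ∩ O) C).graph g`, `H = egaL (egSh (T ∩ O) C) s`, `P' = ∅` (`ega_lw_gVar`, `ega_L_eq_pin`), `res v x = v ⟨x.1, _⟩`, `ext w = ` extension by zero.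
Both forms in the plane (`locExt`, `loc_sum_E`, `loc_obs`): `domBonds (region (T ∩ O)) cut = (domBonds (region T) cut).filter (both ends in region (T ∩ O))`; a bond of `(T, Co)` which is not in `egaXC ∪ egaXO` has both ends in `O`
or both ends outside `O` (there the field vanishes). -/
theorem ega_patch_gVar {s : ℕ} (hs : 1 ≤ s) {C : Finset (C3.Cell m₁ m₂ × Bool)} (hC : Co ⊆ C) (O : Finset (C3.Cell m₁ m₂)) {a : ℝ} (ha : 0 < a) (y : C3.Cell m₁ m₂ → ℝ) :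
    (egaSys T Co s a (egaXC T Co s C ∪ egaXO T Co s O) (egaOut T Co s O)).gf
        (pdRowF ((egSh T Co).cellTest (egGr m₁ m₂ s) y)) (pdRowF ((egSh T Co).cellTest (egGr m₁ m₂ s) y))
      = (egLw (egSh (T ∩ O) C) s).gVar a ((egSh (T ∩ O) C).cellTest (egGr m₁ m₂ s) y) := by
  have hsub : (egGr m₁ m₂ s).region (T ∩ O) ⊆ (egGr m₁ m₂ s).region T :=
    Finset.biUnion_subset_biUnion_of_subset_left _ Finset.inter_subset_left
  have hok := ega_sys_ok T Co hs ha (egaXC T Co s C ∪ egaXO T Co s O)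
    (fun e he => he.elim (ega_XC_ne T Co s C e) (ega_XO_ne T Co s O e)) (egaOut T Co s O)
  have hPD : plPD (egaL (egSh (T ∩ O) C) s) ∅ := pd_law_PD ha (loc_ok (egSh (T ∩ O) C) ∅ hs (ega_scale hs) ha)
  -- admissible fields vanish off the patch
  have hadm : ∀ v, (egaSys T Co s a (egaXC T Co s C ∪ egaXO T Co s O) (egaOut T Co s O)).Adm v →
      ∀ p, p ∉ (egGr m₁ m₂ s).region (T ∩ O) → locExt (egSh T Co) (egGr m₁ m₂ s) v p = 0 := by
    intro v hv p hp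
    by_cases h : p ∈ (egGr m₁ m₂ s).region (egSh T Co).T
    · have h1 : locExt (egSh T Co) (egGr m₁ m₂ s) v p = v ⟨p, h⟩ := by unfold locExt; rw [dif_pos h]
      rw [h1]
      refine (ega_sys_adm T Co s a _ _ v).1 hv _ ?_
      show locBlk (egSh T Co) (egGr m₁ m₂ s) _ ∉ O
      intro q
      exact hp ((ega_g5_blk_mem (egSh T Co) (egGr m₁ m₂ s) O _).1 q)
    · exact ega_g5_ext_out _ _ v h
  have hres : ∀ v, (egaSys T Co s a (egaXC T Co s C ∪ egaXO T Co s O) (egaOut T Co s O)).Adm v →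
      locExt (egSh (T ∩ O) C) (egGr m₁ m₂ s) (fun x => locExt (egSh T Co) (egGr m₁ m₂ s) v (locPos (egSh (T ∩ O) C) (egGr m₁ m₂ s) x))
        = locExt (egSh T Co) (egGr m₁ m₂ s) v := by
    intro v hv
    funext p
    rw [ega_g5_ext_fn]
    by_cases h : p ∈ (egGr m₁ m₂ s).region (egSh (T ∩ O) C).T
    · rw [if_pos h]
    · rw [if_neg h, hadm v hv p h]
  have hext : ∀ w : ((egSh (T ∩ O) C).graph (egGr m₁ m₂ s)).V → ℝ,
      locExt (egSh T Co) (egGr m₁ m₂ s) (fun x => locExt (egSh (T ∩ O) C) (egGr m₁ m₂ s) w (locPos (egSh T Co) (egGr m₁ m₂ s) x))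
        = locExt (egSh (T ∩ O) C) (egGr m₁ m₂ s) w := by
    intro w
    funext p
    rw [ega_g5_ext_fn]
    by_cases h : p ∈ (egGr m₁ m₂ s).region (egSh T Co).T
    · rw [if_pos h]
    · rw [if_neg h, ega_g5_ext_out _ _ w (fun q => h (hsub q))]
  have hextA : ∀ w : ((egSh (T ∩ O) C).graph (egGr m₁ m₂ s)).V → ℝ,
      (egaSys T Co s a (egaXC T Co s C ∪ egaXO T Co s O) (egaOut T Co s O)).Adm
        (fun x => locExt (egSh (T ∩ O) C) (egGr m₁ m₂ s) w (locPos (egSh T Co) (egGr m₁ m₂ s) x)) := by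
    intro w
    refine (ega_sys_adm T Co s a _ _ _).2 fun x hx => ?_
    refine ega_g5_ext_out _ _ w fun q => hx ?_
    exact (ega_g5_blk_mem (egSh T Co) (egGr m₁ m₂ s) O x).2 q
  have key := ega_gf_eq_gVar hok (egaL (egSh (T ∩ O) C) s) ha hPD (pdRowF ((egSh T Co).cellTest (egGr m₁ m₂ s) y))
    ((egSh (T ∩ O) C).cellTest (egGr m₁ m₂ s) y)
    (fun v x => locExt (egSh T Co) (egGr m₁ m₂ s) v (locPos (egSh (T ∩ O) C) (egGr m₁ m₂ s) x))
    (fun w x => locExt (egSh (T ∩ O) C) (egGr m₁ m₂ s) w (locPos (egSh T Co) (egGr m₁ m₂ s) x))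
    (fun v _ x hx => hx.elim)
    (fun v hv => (ega_g5_core T Co s ha hC O (egaOut T Co s O) y v (hadm v hv) _ (hres v hv)).1.ge)
    (fun v hv => (ega_g5_core T Co s ha hC O (egaOut T Co s O) y v (hadm v hv) _ (hres v hv)).2)
    (fun w _ => hextA w)
    (fun w _ => (ega_g5_core T Co s ha hC O (egaOut T Co s O) y _ (hadm _ (hextA w)) w (hext w).symm).1.le)
    (fun w _ => (ega_g5_core T Co s ha hC O (egaOut T Co s O) y _ (hadm _ (hextA w)) w (hext w).symm).2)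
  rw [key, ← ega_L_eq_pin (egSh (T ∩ O) C) s rfl, ega_lw_gVar]

/-- L-GA-G6 (`loc_mem_sites`-type: `avgRow {κ} x ≠ 0 → locBlk x = κ`) -/
theorem ega_F_carried (κ : C3.Cell m₁ m₂) : (egaAmb T Co s).Carried {κ} (egaF T Co s κ) := by

  intro φ hφ
  show ∑ x, (egSh T Co).avgRow (egGr m₁ m₂ s) {κ} x * φ x = 0
  refine Finset.sum_eq_zero fun x _ => ?_
  by_cases hx : x ∈ (egSh T Co).sites (egGr m₁ m₂ s) {κ}
  · have h1 : locBlk (egSh T Co) (egGr m₁ m₂ s) x = κ := Finset.mem_singleton.1 ((loc_mem_sites _ _ _ x).1 hx)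
    rw [hφ x h1, mul_zero]
  · have h2 : (egSh T Co).avgRow (egGr m₁ m₂ s) {κ} x = 0 := if_neg hx
    rw [h2, zero_mul]

/-- L-GA-G6.   PLAN: `pd_gf_le_of_bound`: `egaF κ φ ^ 2 = obs φ (finProdFinEquiv κ) ^ 2 ≤ ∑_o obs² ≤ form` (`ega_sys_form`, `pl_form_expand`: the removed bonds are part of the bond energy; `ega_L_B`, `loc_cel_equiv`). -/
theorem ega_F_gf_le {s : ℕ} (hs : 1 ≤ s) {a : ℝ} (ha : 0 < a) (X : Set ((egSh T Co).graph (egGr m₁ m₂ s)).E)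
    (hX : ∀ e ∈ X, locBlk (egSh T Co) (egGr m₁ m₂ s) (((egSh T Co).graph (egGr m₁ m₂ s)).src e) ≠
      locBlk (egSh T Co) (egGr m₁ m₂ s) (((egSh T Co).graph (egGr m₁ m₂ s)).tgt e))
    (P' : Set ((egSh T Co).graph (egGr m₁ m₂ s)).V) (κ : C3.Cell m₁ m₂) :
    (egaSys T Co s a X P').gf (egaF T Co s κ) (egaF T Co s κ) ≤ 1 := by

  refine pd_gf_le_of_bound (ega_sys_ok T Co hs ha X hX P') zero_le_one fun φ _ => ?_
  rw [one_mul, ega_sys_form T Co s ha X P' φ, pl_form_expand]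
  have h1 : egaF T Co s κ φ = (egaL (egSh T Co) s).obs φ (finProdFinEquiv κ) := by
    show ∑ x, (egSh T Co).avgRow (egGr m₁ m₂ s) {κ} x * φ x = ∑ x, (egaL (egSh T Co) s).B (finProdFinEquiv κ) x * φ x
    rw [ega_L_B, loc_cel_equiv]
  have h2 : (egaL (egSh T Co) s).obs φ (finProdFinEquiv κ) ^ 2 ≤ ∑ o, (egaL (egSh T Co) s).obs φ o ^ 2 :=
    Finset.single_le_sum (f := fun o => (egaL (egSh T Co) s).obs φ o ^ 2) (fun o _ => sq_nonneg _) (Finset.mem_univ _)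
  have h3 : (∑ e, if e ∈ X then plGrad φ e ^ 2 else 0) ≤ ∑ e, plGrad φ e ^ 2 := by
    refine Finset.sum_le_sum fun e _ => ?_
    split_ifs
    · exact le_rfl
    · exact sq_nonneg _
  have h4 : a⁻¹ * (∑ e, if e ∈ X then plGrad φ e ^ 2 else 0) ≤ a⁻¹ * ∑ e, plGrad φ e ^ 2 :=
    mul_le_mul_of_nonneg_left h3 (inv_nonneg.2 ha.le)
  rw [h1]
  linarith

/-- L-GA-G6 (`ega_avgRow_absent`; linearity of `pdRowF`) -/
theorem ega_cellTest_eq (y : C3.Cell m₁ m₂ → ℝ) :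
    pdRowF ((egSh T Co).cellTest (egGr m₁ m₂ s) y) = ∑ κ, (if κ ∈ T then y κ else 0) • egaF T Co s κ := by

  refine LinearMap.ext fun φ => ?_
  rw [LinearMap.sum_apply]
  show ∑ x, (∑ κ, y κ * (egSh T Co).avgRow (egGr m₁ m₂ s) {κ} x) * φ x
    = ∑ κ, (if κ ∈ T then y κ else 0) * ∑ x, (egSh T Co).avgRow (egGr m₁ m₂ s) {κ} x * φ x
  simp only [Finset.sum_mul, Finset.mul_sum]
  rw [Finset.sum_comm]
  refine Finset.sum_congr rfl fun κ _ => Finset.sum_congr rfl fun x _ => ?_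
  by_cases hκ : κ ∈ T
  · rw [if_pos hκ, mul_assoc]
  · have h0 : (egSh T Co).avgRow (egGr m₁ m₂ s) {κ} = 0 := ega_avgRow_absent (egSh T Co) (egGr m₁ m₂ s) hκ
    rw [if_neg hκ, h0]
    simp

end Sys

/-! ## 4. The geometry of a mark -/

section Mark

variable {T : Finset (C3.Cell m₁ m₂)} {cutF : Finset (C3.Cell m₁ m₂ × Bool)} {M : EgWMark m₁ m₂} {R : ℕ}

/-- the union of components of `EgWMark.Geo.far` -/
structure EgaU (T : Finset (C3.Cell m₁ m₂)) (cutF : Finset (C3.Cell m₁ m₂ × Bool)) (M : EgWMark m₁ m₂) (R : ℕ) (U : Finset (C3.Cell m₁ m₂)) : Prop where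
  sub : M.O ⊆ U
  comp : ∀ f κ', egWnb f κ' → f.1 ∈ T → κ' ∈ T → f ∉ cutF \ M.F → (f.1 ∈ U ↔ κ' ∈ U)
  far : ∀ κ ∈ M.H, ∀ κ' ∈ U, κ' ∉ M.D → R ≤ egWd κ κ'

theorem ega_exists_U (hM : M.Geo (egSh T cutF) R) : ∃ U, EgaU T cutF M R U := by
  obtain ⟨U, h1, h2, h3⟩ := hM.far
  exact ⟨U, h1, h2, h3⟩

/-- a bond of the graph `(T, Co)` between two different cells crosses an uncut face -/
theorem ega_bond_nb (T : Finset (C3.Cell m₁ m₂)) (Co : Finset (C3.Cell m₁ m₂ × Bool)) (s : ℕ) (e : ((egSh T Co).graph (egGr m₁ m₂ s)).E)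
    (hne : locBlk (egSh T Co) (egGr m₁ m₂ s) (((egSh T Co).graph (egGr m₁ m₂ s)).src e) ≠
      locBlk (egSh T Co) (egGr m₁ m₂ s) (((egSh T Co).graph (egGr m₁ m₂ s)).tgt e)) :
    egWnb (locBlk (egSh T Co) (egGr m₁ m₂ s) (((egSh T Co).graph (egGr m₁ m₂ s)).src e), (domBond e).2)
        (locBlk (egSh T Co) (egGr m₁ m₂ s) (((egSh T Co).graph (egGr m₁ m₂ s)).tgt e)) ∧
      (locBlk (egSh T Co) (egGr m₁ m₂ s) (((egSh T Co).graph (egGr m₁ m₂ s)).src e), (domBond e).2) ∉ Co := by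
  have h1 : (domBond e).1 ∈ (egGr m₁ m₂ s).cell (locBlk (egSh T Co) (egGr m₁ m₂ s) (((egSh T Co).graph (egGr m₁ m₂ s)).src e)) :=
    (loc_blk_spec (egSh T Co) (egGr m₁ m₂ s) _).2
  have h2 : (domBond e).snd ∈ (egGr m₁ m₂ s).cell (locBlk (egSh T Co) (egGr m₁ m₂ s) (((egSh T Co).graph (egGr m₁ m₂ s)).tgt e)) :=
    (loc_blk_spec (egSh T Co) (egGr m₁ m₂ s) _).2
  refine ⟨ega_bond_face _ h1 h2 hne, fun hc => ?_⟩
  have h3 : domBond e ∈ domBonds ((egGr m₁ m₂ s).region (egSh T Co).T) ((egSh T Co).cutB (egGr m₁ m₂ s)) :=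
    Subtype.property (p := fun e => e ∈ domBonds ((egGr m₁ m₂ s).region (egSh T Co).T) ((egSh T Co).cutB (egGr m₁ m₂ s))) e
  have h4 : domBond e ∉ (egSh T Co).cutB (egGr m₁ m₂ s) := (Finset.mem_filter.1 h3).2.2
  exact h4 ((ega_mem_cutB (egSh T Co) _ h1).2 ⟨hc, fun h5 => hne (geo_cell_unique _ h5 h2)⟩)

/-- L-GA-G7, the restored bonds join two cells of the core.   PLAN: `e` is a bond of `(T, cutF \ F)` which lies in `cutB cutF`: `ega_mem_cutB` on both (`κ = locBlk (src e)`, `loc_blk_spec`): `(κ, e.2) ∈ cutF`, `∉ cutF \ F`, so `∈ F`;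
`hM.face`: `C3.FaceIn M.H (κ, e.2)`; `ega_bond_face` gives the hypothesis on the second cell (`egWnb` unfolds to the disjunction of `C3.FaceIn`). -/
theorem ega_XC_core (hM : M.Geo (egSh T cutF) R) (s : ℕ) : ∀ e ∈ egaXC T (cutF \ M.F) s cutF,
    locBlk (egSh T (cutF \ M.F)) (egGr m₁ m₂ s) (((egSh T (cutF \ M.F)).graph (egGr m₁ m₂ s)).src e) ∈ M.H ∧
      locBlk (egSh T (cutF \ M.F)) (egGr m₁ m₂ s) (((egSh T (cutF \ M.F)).graph (egGr m₁ m₂ s)).tgt e) ∈ M.H := by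
  intro e he
  have hne := ega_XC_ne T (cutF \ M.F) s cutF e he
  obtain ⟨hnb, hnc⟩ := ega_bond_nb T (cutF \ M.F) s e hne
  have h1 : (domBond e).1 ∈ (egGr m₁ m₂ s).cell (locBlk (egSh T (cutF \ M.F)) (egGr m₁ m₂ s) (((egSh T (cutF \ M.F)).graph (egGr m₁ m₂ s)).src e)) :=
    (loc_blk_spec (egSh T (cutF \ M.F)) (egGr m₁ m₂ s) _).2
  have he' : domBond e ∈ (egSh T cutF).cutB (egGr m₁ m₂ s) := he
  have h2 : (locBlk (egSh T (cutF \ M.F)) (egGr m₁ m₂ s) (((egSh T (cutF \ M.F)).graph (egGr m₁ m₂ s)).src e), (domBond e).2) ∈ cutF :=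
    ((ega_mem_cutB (egSh T cutF) _ h1).1 he').1
  have h3 : (locBlk (egSh T (cutF \ M.F)) (egGr m₁ m₂ s) (((egSh T (cutF \ M.F)).graph (egGr m₁ m₂ s)).src e), (domBond e).2) ∈ M.F := by
    by_contra h
    exact hnc (Finset.mem_sdiff.2 ⟨h2, h⟩)
  have h4 := hM.face _ h3
  exact ⟨h4.1, h4.2 _ hnb⟩

/-- L-GA-G7, a bond which leaves the patch does not touch the interior of the guard.   PLAN: `κ = locBlk (src e) ≠ κ' = locBlk (tgt e)`; `ega_bond_face`; `(κ, e.2) ∉ cutF \ F` (`ega_mem_cutB`, the bond is not cut); `hM.sepG`;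
`hM.D_sub`, `hM.p_sub`. -/
theorem ega_XO_off (hM : M.Geo (egSh T cutF) R) (s : ℕ) : ∀ e ∈ egaXO T (cutF \ M.F) s M.O,
    locBlk (egSh T (cutF \ M.F)) (egGr m₁ m₂ s) (((egSh T (cutF \ M.F)).graph (egGr m₁ m₂ s)).src e) ∉ M.D ∧
      locBlk (egSh T (cutF \ M.F)) (egGr m₁ m₂ s) (((egSh T (cutF \ M.F)).graph (egGr m₁ m₂ s)).tgt e) ∉ M.D := by
  intro e he
  have hne := ega_XO_ne T (cutF \ M.F) s M.O e he
  obtain ⟨hnb, hnc⟩ := ega_bond_nb T (cutF \ M.F) s e hne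
  have hT1 : locBlk (egSh T (cutF \ M.F)) (egGr m₁ m₂ s) (((egSh T (cutF \ M.F)).graph (egGr m₁ m₂ s)).src e) ∈ T :=
    (loc_blk_spec (egSh T (cutF \ M.F)) (egGr m₁ m₂ s) _).1
  have hT2 : locBlk (egSh T (cutF \ M.F)) (egGr m₁ m₂ s) (((egSh T (cutF \ M.F)).graph (egGr m₁ m₂ s)).tgt e) ∈ T :=
    (loc_blk_spec (egSh T (cutF \ M.F)) (egGr m₁ m₂ s) _).1
  have hs := hM.sepG _ _ hnb hT1 hT2 hnc
  have he' : ¬ (locBlk (egSh T (cutF \ M.F)) (egGr m₁ m₂ s) (((egSh T (cutF \ M.F)).graph (egGr m₁ m₂ s)).src e) ∈ M.O ↔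
      locBlk (egSh T (cutF \ M.F)) (egGr m₁ m₂ s) (((egSh T (cutF \ M.F)).graph (egGr m₁ m₂ s)).tgt e) ∈ M.O) := he
  have hDp : ∀ κ, κ ∈ M.D ∪ M.p → κ ∈ M.O := fun κ h => (Finset.mem_union.1 h).elim (fun h => hM.D_sub h) (fun h => hM.p_sub h)
  constructor
  · intro h
    exact he' ⟨fun _ => hDp _ (hs.1 h), fun _ => hM.D_sub h⟩
  · intro h
    exact he' ⟨fun _ => hM.D_sub h, fun _ => hDp _ (hs.2 h)⟩

/-- L-GA-G7, no bond of the restored graph leaves `U`.   PLAN: `κ = locBlk (src e)`, `κ' = locBlk (tgt e)`; if `κ = κ'` trivial; else `ega_bond_face`, `(κ, e.2) ∉ cutF \ F` (`ega_mem_cutB`: the bond is not cut), `κ, κ' ∈ T` (`loc_blk_spec`), `hU.comp`. -/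
theorem ega_bond_U {U : Finset (C3.Cell m₁ m₂)} (hU : EgaU T cutF M R U) (s : ℕ) (e : ((egSh T (cutF \ M.F)).graph (egGr m₁ m₂ s)).E) :
    locBlk (egSh T (cutF \ M.F)) (egGr m₁ m₂ s) (((egSh T (cutF \ M.F)).graph (egGr m₁ m₂ s)).src e) ∈ U ↔
      locBlk (egSh T (cutF \ M.F)) (egGr m₁ m₂ s) (((egSh T (cutF \ M.F)).graph (egGr m₁ m₂ s)).tgt e) ∈ U := by
  by_cases hne : locBlk (egSh T (cutF \ M.F)) (egGr m₁ m₂ s) (((egSh T (cutF \ M.F)).graph (egGr m₁ m₂ s)).src e) =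
      locBlk (egSh T (cutF \ M.F)) (egGr m₁ m₂ s) (((egSh T (cutF \ M.F)).graph (egGr m₁ m₂ s)).tgt e)
  · rw [hne]
  · obtain ⟨hnb, hnc⟩ := ega_bond_nb T (cutF \ M.F) s e hne
    exact hU.comp _ _ hnb (loc_blk_spec (egSh T (cutF \ M.F)) (egGr m₁ m₂ s) _).1 (loc_blk_spec (egSh T (cutF \ M.F)) (egGr m₁ m₂ s) _).1 hnc

/-- L-GA-G8, every cell is far from the core or far from `U \ D` (`hU.far`, `ega_wd_eq`, `geo_dist_triangle`, `geo_dist_comm`, `loc_rho_spec`). -/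
theorem ega_rho_add {U : Finset (C3.Cell m₁ m₂)} (hU : EgaU T cutF M R U) (κ : C3.Cell m₁ m₂) : R ≤ locRho (U \ M.D) R κ + locRho M.H R κ := by
  rcases loc_rho_spec (U \ M.D) R κ with h1 | ⟨κ₁, hκ₁, h1⟩
  · omega
  rcases loc_rho_spec M.H R κ with h2 | ⟨κ₂, hκ₂, h2⟩
  · omega
  have h3 := hU.far κ₂ hκ₂ κ₁ (Finset.mem_sdiff.1 hκ₁).1 (Finset.mem_sdiff.1 hκ₁).2
  rw [ega_wd_eq] at h3
  have h4 := geo_dist_triangle κ₂ κ κ₁
  have h5 := geo_dist_comm κ₂ κ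
  omega

/-- L-GA-G8 (`loc_rho_le`, `geo_adj_iff`, `geo_dist_triangle`) -/
theorem ega_nb_far (Tc : Finset (C3.Cell m₁ m₂)) (Co : Finset (C3.Cell m₁ m₂ × Bool)) (s : ℕ) (B : Finset (C3.Cell m₁ m₂)) (R : ℕ) (κ : C3.Cell m₁ m₂) :
    (egaAmb Tc Co s).nb ((egaAmb Tc Co s).nb (↑B : Set (C3.Cell m₁ m₂))) ⊆ (egaAmb Tc Co s).far (fun κ' => geoDist κ κ') (locRho B R κ - 2) := by
  rintro i ⟨j, ⟨k, hk, hjk⟩, hij⟩
  have hjk' : geoAdj j k := hjk
  have hij' : geoAdj i j := hij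
  have h1 := (geo_adj_iff j k).1 hjk'
  have h2 := (geo_adj_iff i j).1 hij'
  have h3 : locRho B R κ ≤ geoDist κ k := loc_rho_le B R κ (Or.inr ⟨k, Finset.mem_coe.1 hk, le_rfl⟩)
  have h4 := geo_dist_triangle κ i k
  have h5 := geo_dist_triangle i j k
  show locRho B R κ - 2 ≤ geoDist κ i
  omega

theorem ega_g9_row_zero (T : Finset (C3.Cell m₁ m₂)) (Co : Finset (C3.Cell m₁ m₂ × Bool)) (s : ℕ) (a : ℝ)
    (e : ((egSh T Co).graph (egGr m₁ m₂ s)).E) (v : ((egSh T Co).graph (egGr m₁ m₂ s)).V → ℝ)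
    (h1 : v (((egSh T Co).graph (egGr m₁ m₂ s)).src e) = 0) (h2 : v (((egSh T Co).graph (egGr m₁ m₂ s)).tgt e) = 0) :
    (egaS0 T Co s a).row v (Sum.inl e) = 0 := by
  have h := pd_graph_row_inl (locAmb (egSh T Co) (egGr m₁ m₂ s) s) (locGr (egSh T Co) (egGr m₁ m₂ s) ∅) a v e
  have hg : (locGr (egSh T Co) (egGr m₁ m₂ s) ∅).grad v e = 0 := by
    show v (((egSh T Co).graph (egGr m₁ m₂ s)).tgt e) - v (((egSh T Co).graph (egGr m₁ m₂ s)).src e) = 0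
    rw [h1, h2, sub_zero]
  rw [hg, mul_zero] at h
  exact h

/-- two cut and pinned versions of the base system agree on `Y` if the bonds and the pins in which they differ do not touch `Y` -/
theorem ega_g9_agree (T : Finset (C3.Cell m₁ m₂)) (Co : Finset (C3.Cell m₁ m₂ × Bool)) (s : ℕ) (a : ℝ)
    (X X' : Set ((egSh T Co).graph (egGr m₁ m₂ s)).E) (P' P'' : Set ((egSh T Co).graph (egGr m₁ m₂ s)).V) (Y : Set (C3.Cell m₁ m₂))
    (hP : ∀ x, (x ∈ P' ↔ x ∉ P'') → locBlk (egSh T Co) (egGr m₁ m₂ s) x ∉ Y)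
    (hX : ∀ e, (e ∈ X ↔ e ∉ X') → locBlk (egSh T Co) (egGr m₁ m₂ s) (((egSh T Co).graph (egGr m₁ m₂ s)).src e) ∉ Y ∧
      locBlk (egSh T Co) (egGr m₁ m₂ s) (((egSh T Co).graph (egGr m₁ m₂ s)).tgt e) ∉ Y) :
    PdAgree (egaAmb T Co s) (egaSys T Co s a X P') (egaSys T Co s a X' P'') Y := by
  refine ega_agree (egaS0 T Co s a) (egaRows T Co s a X) (egaRows T Co s a X') P' P'' Y (fun v hv => ?_) (fun t ht v hv => ?_)
  · constructor
    · intro h x hx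
      by_cases hx' : x ∈ P'
      · exact h x hx'
      · exact hv x (hP x ⟨fun h' => absurd h' hx', fun h' => absurd hx h'⟩)
    · intro h x hx
      by_cases hx' : x ∈ P''
      · exact h x hx'
      · exact hv x (hP x ⟨fun _ => hx', fun _ => hx⟩)
  · rcases t with e | o
    · have e1 : ∀ X₀ : Set ((egSh T Co).graph (egGr m₁ m₂ s)).E, (Sum.inl e : (egaS0 T Co s a).Tm) ∈ egaRows T Co s a X₀ ↔ e ∈ X₀ := by
        intro X₀
        constructor
        · rintro ⟨e', he', h⟩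
          rw [Sum.inl.inj h]
          exact he'
        · intro h
          exact ⟨e, h, rfl⟩
      have ht' : e ∈ X ↔ e ∉ X' :=
        ⟨fun h h' => ht.1 ((e1 X).2 h) ((e1 X').2 h'), fun h => (e1 X).1 (ht.2 fun h' => h ((e1 X').1 h'))⟩
      obtain ⟨h1, h2⟩ := hX e ht'
      exact ega_g9_row_zero T Co s a e v (hv _ h1) (hv _ h2)
    · exfalso
      have n1 : ∀ X₀ : Set ((egSh T Co).graph (egGr m₁ m₂ s)).E, (Sum.inr o : (egaS0 T Co s a).Tm) ∉ egaRows T Co s a X₀ := by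
        rintro X₀ ⟨e', _, h⟩
        exact Sum.inr_ne_inl h
      exact n1 X (ht.2 (n1 X'))

/-- no bond of a graph is cut in it -/
theorem ega_g9_XC_self (T : Finset (C3.Cell m₁ m₂)) (Co : Finset (C3.Cell m₁ m₂ × Bool)) (s : ℕ) (e : ((egSh T Co).graph (egGr m₁ m₂ s)).E) :
    e ∉ egaXC T Co s Co := by
  intro h
  have h1 : domBond e ∈ domBonds ((egGr m₁ m₂ s).region (egSh T Co).T) ((egSh T Co).cutB (egGr m₁ m₂ s)) :=
    Subtype.property (p := fun e => e ∈ domBonds ((egGr m₁ m₂ s).region (egSh T Co).T) ((egSh T Co).cutB (egGr m₁ m₂ s))) e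
  exact (Finset.mem_filter.1 h1).2.2 h

/-- a bond which leaves the patch joins two cells of `U \ D` -/
theorem ega_g9_XO_Y (hM : M.Geo (egSh T cutF) R) {U : Finset (C3.Cell m₁ m₂)} (hU : EgaU T cutF M R U) (s : ℕ)
    (e : ((egSh T (cutF \ M.F)).graph (egGr m₁ m₂ s)).E) (he : e ∈ egaXO T (cutF \ M.F) s M.O) :
    locBlk (egSh T (cutF \ M.F)) (egGr m₁ m₂ s) (((egSh T (cutF \ M.F)).graph (egGr m₁ m₂ s)).src e) ∉ (↑M.D ∪ (↑U)ᶜ : Set (C3.Cell m₁ m₂)) ∧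
      locBlk (egSh T (cutF \ M.F)) (egGr m₁ m₂ s) (((egSh T (cutF \ M.F)).graph (egGr m₁ m₂ s)).tgt e) ∉ (↑M.D ∪ (↑U)ᶜ : Set (C3.Cell m₁ m₂)) := by
  obtain ⟨d1, d2⟩ := ega_XO_off hM s e he
  have hb := ega_bond_U hU s e
  have hu : locBlk (egSh T (cutF \ M.F)) (egGr m₁ m₂ s) (((egSh T (cutF \ M.F)).graph (egGr m₁ m₂ s)).src e) ∈ U := by
    by_cases h1 : locBlk (egSh T (cutF \ M.F)) (egGr m₁ m₂ s) (((egSh T (cutF \ M.F)).graph (egGr m₁ m₂ s)).src e) ∈ M.O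
    · exact hU.sub h1
    · by_cases h2 : locBlk (egSh T (cutF \ M.F)) (egGr m₁ m₂ s) (((egSh T (cutF \ M.F)).graph (egGr m₁ m₂ s)).tgt e) ∈ M.O
      · exact hb.2 (hU.sub h2)
      · exact absurd ⟨fun h => absurd h h1, fun h => absurd h h2⟩ he
  refine ⟨?_, ?_⟩
  · rintro (h | h)
    · exact d1 h
    · exact h hu
  · rintro (h | h)
    · exact d2 h
    · exact h (hb.1 hu)

/-- box against (patch + rest), on `Y = D ∪ Uᶜ` -/
theorem ega_g9_agreeY (hM : M.Geo (egSh T cutF) R) {U : Finset (C3.Cell m₁ m₂)} (hU : EgaU T cutF M R U) (s : ℕ) (a : ℝ)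
    (C : Finset (C3.Cell m₁ m₂ × Bool)) :
    PdAgree (egaAmb T (cutF \ M.F) s)
      (egaSys T (cutF \ M.F) s a (egaXC T (cutF \ M.F) s C) ((egSh T (cutF \ M.F)).sites (egGr m₁ m₂ s) M.p))
      (egaSys T (cutF \ M.F) s a (egaXC T (cutF \ M.F) s C ∪ egaXO T (cutF \ M.F) s M.O) (egaOutU T (cutF \ M.F) s U M.O))
      (↑M.D ∪ (↑U)ᶜ : Set (C3.Cell m₁ m₂)) := by
  refine ega_g9_agree T (cutF \ M.F) s a _ _ _ _ _ (fun x hx => ?_) (fun e he => ?_)
  · by_cases h1 : x ∈ (egSh T (cutF \ M.F)).sites (egGr m₁ m₂ s) M.p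
    · have h2 : locBlk (egSh T (cutF \ M.F)) (egGr m₁ m₂ s) x ∈ M.p := (loc_mem_sites _ _ _ x).1 h1
      rintro (h | h)
      · exact Finset.disjoint_left.1 hM.disj h h2
      · exact h (hU.sub (hM.p_sub h2))
    · have h2 : x ∈ egaOutU T (cutF \ M.F) s U M.O := by
        by_contra h3
        exact h1 (hx.2 h3)
      rintro (h | h)
      · exact h2.2 (hM.D_sub h)
      · exact h h2.1
  · refine ega_g9_XO_Y hM hU s e ?_
    by_cases h1 : e ∈ egaXC T (cutF \ M.F) s C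
    · exact absurd (Or.inl h1) (he.1 h1)
    · have h2 : e ∈ egaXC T (cutF \ M.F) s C ∪ egaXO T (cutF \ M.F) s M.O := by
        by_contra h3
        exact h1 (he.2 h3)
      exact h2.resolve_left h1

/-- cut against restored, on `Z = Hᶜ` -/
theorem ega_g9_agreeZ (hM : M.Geo (egSh T cutF) R) (s : ℕ) (a : ℝ) (X₀ : Set ((egSh T (cutF \ M.F)).graph (egGr m₁ m₂ s)).E)
    (P' : Set ((egSh T (cutF \ M.F)).graph (egGr m₁ m₂ s)).V) :
    PdAgree (egaAmb T (cutF \ M.F) s)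
      (egaSys T (cutF \ M.F) s a (egaXC T (cutF \ M.F) s cutF ∪ X₀) P')
      (egaSys T (cutF \ M.F) s a (egaXC T (cutF \ M.F) s (cutF \ M.F) ∪ X₀) P')
      ((↑M.H)ᶜ : Set (C3.Cell m₁ m₂)) := by
  refine ega_g9_agree T (cutF \ M.F) s a _ _ _ _ _ (fun x hx => ?_) (fun e he => ?_)
  · exfalso
    by_cases h : x ∈ P'
    · exact hx.1 h h
    · exact h (hx.2 h)
  · have h1 : e ∈ egaXC T (cutF \ M.F) s cutF := by
      by_cases h0 : e ∈ X₀
      · exact absurd (Or.inr h0) (he.1 (Or.inr h0))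
      · by_cases h2 : e ∈ egaXC T (cutF \ M.F) s cutF
        · exact h2
        · exfalso
          have h3 : e ∉ egaXC T (cutF \ M.F) s cutF ∪ X₀ := fun h => h.elim h2 h0
          have h4 : e ∉ egaXC T (cutF \ M.F) s (cutF \ M.F) ∪ X₀ := fun h => h.elim (ega_g9_XC_self T (cutF \ M.F) s e) h0
          exact h3 (he.2 h4)
    obtain ⟨c1, c2⟩ := ega_XC_core hM s e h1
    exact ⟨fun h => h c1, fun h => h c2⟩

/-- L-GA-G9, **the four systems of a mark**: pinned box / (open patch + rest of the box outside `U`), cut / restored.   PLAN: `ega_sys_ok` (`ega_XC_ne`, `ega_XO_ne`), `ega_F_carried`, `ega_F_gf_le`;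
`Y = ↑M.D ∪ (↑U)ᶜ`, `Z = (↑M.H)ᶜ`, `d κ κ' = geoDist κ κ'`, `β κ = locRho (U \ M.D) R κ - 2`, `δ κ = locRho M.H R κ - 2`;  the four agreements: `ega_agree` with `ega_XO_off` + `ega_bond_U` + `hU.sub` (a bond which leaves `O` joins two cells of `U \ D`;
rows: `pd_graph_row_inl`; a field carried by `Y` vanishes at both ends), `ega_XC_core`;  pins: `loc_mem_sites`, `hM.disj`, `hM.D_sub`, `hM.p_sub`, `hU.sub` (the cells of `p` and of `U \ O` lie in `U \ D`);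
`ega_nb_far` (`Yᶜ = ↑(U \ M.D)`, `Zᶜ = ↑M.H`), `ega_rho_add`;  `Lay`: `geo_adj_iff`, `geo_dist_triangle`. -/
theorem ega_four_inst (hM : M.Geo (egSh T cutF) R) {U : Finset (C3.Cell m₁ m₂)} (hU : EgaU T cutF M R U) {s : ℕ} (hs : 1 ≤ s) {a : ℝ} (ha : 0 < a) :
    EgaFour (egaAmb T (cutF \ M.F) s)
      (egaSys T (cutF \ M.F) s a (egaXC T (cutF \ M.F) s cutF) ((egSh T (cutF \ M.F)).sites (egGr m₁ m₂ s) M.p))
      (egaSys T (cutF \ M.F) s a (egaXC T (cutF \ M.F) s (cutF \ M.F)) ((egSh T (cutF \ M.F)).sites (egGr m₁ m₂ s) M.p))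
      (egaSys T (cutF \ M.F) s a (egaXC T (cutF \ M.F) s cutF ∪ egaXO T (cutF \ M.F) s M.O) (egaOutU T (cutF \ M.F) s U M.O))
      (egaSys T (cutF \ M.F) s a (egaXC T (cutF \ M.F) s (cutF \ M.F) ∪ egaXO T (cutF \ M.F) s M.O) (egaOutU T (cutF \ M.F) s U M.O))
      (((s : ℕ) : ℝ) ^ 2)⁻¹ (locCP 1 a) (locK a) (egaF T (cutF \ M.F) s) (R - 4) := by
  have hXC : ∀ C : Finset (C3.Cell m₁ m₂ × Bool), ∀ e ∈ egaXC T (cutF \ M.F) s C ∪ egaXO T (cutF \ M.F) s M.O,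
      locBlk (egSh T (cutF \ M.F)) (egGr m₁ m₂ s) (((egSh T (cutF \ M.F)).graph (egGr m₁ m₂ s)).src e) ≠
        locBlk (egSh T (cutF \ M.F)) (egGr m₁ m₂ s) (((egSh T (cutF \ M.F)).graph (egGr m₁ m₂ s)).tgt e) :=
    fun C e he => he.elim (ega_XC_ne T (cutF \ M.F) s C e) (ega_XO_ne T (cutF \ M.F) s M.O e)
  refine ⟨ega_sys_ok T (cutF \ M.F) hs ha _ (ega_XC_ne T (cutF \ M.F) s cutF) _,
    ega_sys_ok T (cutF \ M.F) hs ha _ (ega_XC_ne T (cutF \ M.F) s (cutF \ M.F)) _,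
    ega_sys_ok T (cutF \ M.F) hs ha _ (hXC cutF) _, ega_sys_ok T (cutF \ M.F) hs ha _ (hXC (cutF \ M.F)) _,
    ega_F_carried T (cutF \ M.F) s,
    ega_F_gf_le T (cutF \ M.F) hs ha _ (ega_XC_ne T (cutF \ M.F) s cutF) _,
    ega_F_gf_le T (cutF \ M.F) hs ha _ (ega_XC_ne T (cutF \ M.F) s (cutF \ M.F)) _,
    ega_F_gf_le T (cutF \ M.F) hs ha _ (hXC cutF) _, ega_F_gf_le T (cutF \ M.F) hs ha _ (hXC (cutF \ M.F)) _, ?_⟩
  refine ⟨(↑M.D ∪ (↑U)ᶜ : Set (C3.Cell m₁ m₂)), ((↑M.H)ᶜ : Set (C3.Cell m₁ m₂)), fun κ κ' => geoDist κ κ',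
    fun κ => locRho (U \ M.D) R κ - 2, fun κ => locRho M.H R κ - 2,
    ega_g9_agreeY hM hU s a cutF, ega_g9_agreeY hM hU s a (cutF \ M.F), ?_, ega_g9_agreeZ hM s a _ _, ?_, fun i => geo_dist_self i, ?_, ?_, ?_⟩
  · have h := ega_g9_agreeZ hM s a ∅ ((egSh T (cutF \ M.F)).sites (egGr m₁ m₂ s) M.p)
    rw [Set.union_empty, Set.union_empty] at h
    exact h
  · intro i j k hjk
    have h1 : geoDist j k ≤ 1 := (geo_adj_iff j k).1 hjk
    have h2 := geo_dist_triangle i k j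
    rw [geo_dist_comm k j] at h2
    show geoDist i j ≤ geoDist i k + 1
    omega
  · intro i
    have e : ((↑M.D ∪ (↑U)ᶜ : Set (C3.Cell m₁ m₂)))ᶜ = (↑(U \ M.D) : Set (C3.Cell m₁ m₂)) := by
      ext κ
      simp only [Set.mem_compl_iff, Set.mem_union, Finset.mem_coe, Finset.mem_sdiff, not_or, not_not]
      exact and_comm
    rw [e]
    exact ega_nb_far T (cutF \ M.F) s (U \ M.D) R i
  · intro i
    rw [compl_compl]
    exact ega_nb_far T (cutF \ M.F) s M.H R i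
  · intro i
    have := ega_rho_add hU i
    show R - 4 ≤ (locRho (U \ M.D) R i - 2) + (locRho M.H R i - 2)
    omega

/-- the bonds removed in the patch systems join different cells -/
theorem ega_XCO_ne (T : Finset (C3.Cell m₁ m₂)) (Co : Finset (C3.Cell m₁ m₂ × Bool)) (s : ℕ) (C : Finset (C3.Cell m₁ m₂ × Bool)) (O : Finset (C3.Cell m₁ m₂)) :
    ∀ e ∈ egaXC T Co s C ∪ egaXO T Co s O,
    locBlk (egSh T Co) (egGr m₁ m₂ s) (((egSh T Co).graph (egGr m₁ m₂ s)).src e) ≠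
      locBlk (egSh T Co) (egGr m₁ m₂ s) (((egSh T Co).graph (egGr m₁ m₂ s)).tgt e) :=
  fun e he => he.elim (ega_XC_ne T Co s C e) (ega_XO_ne T Co s O e)

/-- L-GA-G11, **patch + rest**.   PLAN: `ega_gf_split` with `Q = egaIn U`, `Sa` = pins `egaIn U`, `Sb` = pins `egaOut O`;  `ega_sys_ok` (`ega_XC_ne`, `ega_XO_ne`), `ega_sys_adm` (`hU.sub`: `x ∉ O ↔ (x ∈ U ∧ x ∉ O) ∨ x ∉ U`), `ega_sys_form`;
`hrow`: `(ega_sys_ok ..).supp`: `R t x ≠ 0 → locBlk x ∈ cs t`; `cs (inl e) = {blk src, blk tgt}` (`pd_graph_cs_inl`, `ega_bond_U`), `cs (inr o)` is one cell (`pd_graph_cs_inr`-type, unfold `PdGraph.sys`). -/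
theorem ega_patch_split {U : Finset (C3.Cell m₁ m₂)} (hU : EgaU T cutF M R U) {s : ℕ} (hs : 1 ≤ s) {a : ℝ} (ha : 0 < a) (C : Finset (C3.Cell m₁ m₂ × Bool))
    (F : (((egSh T (cutF \ M.F)).graph (egGr m₁ m₂ s)).V → ℝ) →ₗ[ℝ] ℝ) :
    (egaSys T (cutF \ M.F) s a (egaXC T (cutF \ M.F) s C ∪ egaXO T (cutF \ M.F) s M.O) (egaOutU T (cutF \ M.F) s U M.O)).gf F F
      = (egaSys T (cutF \ M.F) s a (egaXC T (cutF \ M.F) s C ∪ egaXO T (cutF \ M.F) s M.O) (egaIn T (cutF \ M.F) s U)).gf F F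
        + (egaSys T (cutF \ M.F) s a (egaXC T (cutF \ M.F) s C ∪ egaXO T (cutF \ M.F) s M.O) (egaOut T (cutF \ M.F) s M.O)).gf F F := by
  have hX := ega_XCO_ne T (cutF \ M.F) s C M.O
  have hok := ega_sys_ok T (cutF \ M.F) hs ha _ hX (egaOutU T (cutF \ M.F) s U M.O)
  refine ega_gf_split hok (ega_sys_ok T (cutF \ M.F) hs ha _ hX _) (ega_sys_ok T (cutF \ M.F) hs ha _ hX _) (egaIn T (cutF \ M.F) s U) ?_ ?_ ?_ ?_ ?_ F
  · intro v
    rw [ega_sys_adm, ega_sys_adm]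
    exact ⟨fun h => ⟨fun x hx => h x hx.1, h⟩, fun h => h.2⟩
  · intro v
    rw [ega_sys_adm, ega_sys_adm]
    constructor
    · intro h
      exact ⟨fun x hx => h x hx.2, fun x hx => h x fun hO => hx (hU.sub hO)⟩
    · rintro ⟨h1, h2⟩ x hx
      by_cases hxU : x ∈ egaIn T (cutF \ M.F) s U
      · exact h1 x ⟨hxU, hx⟩
      · exact h2 x hxU
  · intro v
    rw [ega_sys_form T _ s ha, ega_sys_form T _ s ha]
  · intro v
    rw [ega_sys_form T _ s ha, ega_sys_form T _ s ha]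
  · intro t
    have hsupp := hok.supp t
    -- the cells of a row lie all in `U` or all outside `U`
    have hcs : (∀ i ∈ (egaSys T (cutF \ M.F) s a (egaXC T (cutF \ M.F) s C ∪ egaXO T (cutF \ M.F) s M.O) (egaOutU T (cutF \ M.F) s U M.O)).cs t, i ∉ U) ∨
        (∀ i ∈ (egaSys T (cutF \ M.F) s a (egaXC T (cutF \ M.F) s C ∪ egaXO T (cutF \ M.F) s M.O) (egaOutU T (cutF \ M.F) s U M.O)).cs t, i ∈ U) := by
      obtain ⟨t, ht⟩ := t
      rcases t with e | o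
      · have hb := ega_bond_U hU s e
        by_cases h : locBlk (egSh T (cutF \ M.F)) (egGr m₁ m₂ s) (((egSh T (cutF \ M.F)).graph (egGr m₁ m₂ s)).src e) ∈ U
        · right
          rintro i (rfl | rfl)
          · exact h
          · exact hb.1 h
        · left
          rintro i (rfl | rfl)
          · exact h
          · exact fun h' => h (hb.2 h')
      · by_cases h : locCel o ∈ U
        · right
          rintro i rfl
          exact h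
        · left
          rintro i rfl
          exact h
    rcases hcs with h | h
    · left
      intro x hx
      by_contra hne
      exact h _ (hsupp x hne) hx
    · right
      intro x hx
      by_contra hne
      exact hx (h _ (hsupp x hne))

/-- L-GA-G11, the rest does not see the restored bonds.   PLAN: `ega_gf_congr`; `ega_sys_ok`, `ega_sys_adm`, `ega_sys_form`: the two sums differ in the bonds of `egaXC cutF` only; they join two cells of `H ⊆ O ⊆ U` (`ega_XC_core`, `hM.H_sub`, `hM.D_sub`, `hU.sub`),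
where the field vanishes (`plGrad v e = v (tgt e) - v (src e)`). -/
theorem ega_rest_eq (hM : M.Geo (egSh T cutF) R) {U : Finset (C3.Cell m₁ m₂)} (hU : EgaU T cutF M R U) {s : ℕ} (hs : 1 ≤ s) {a : ℝ} (ha : 0 < a)
    (F : (((egSh T (cutF \ M.F)).graph (egGr m₁ m₂ s)).V → ℝ) →ₗ[ℝ] ℝ) :
    (egaSys T (cutF \ M.F) s a (egaXC T (cutF \ M.F) s cutF ∪ egaXO T (cutF \ M.F) s M.O) (egaIn T (cutF \ M.F) s U)).gf F F
      = (egaSys T (cutF \ M.F) s a (egaXC T (cutF \ M.F) s (cutF \ M.F) ∪ egaXO T (cutF \ M.F) s M.O) (egaIn T (cutF \ M.F) s U)).gf F F := by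
  refine ega_gf_congr (ega_sys_ok T (cutF \ M.F) hs ha _ (ega_XCO_ne T (cutF \ M.F) s _ M.O) _)
    (ega_sys_ok T (cutF \ M.F) hs ha _ (ega_XCO_ne T (cutF \ M.F) s _ M.O) _) ?_ ?_ F
  · intro v
    rw [ega_sys_adm, ega_sys_adm]
  · intro v hv
    rw [ega_sys_adm] at hv
    rw [ega_sys_form T _ s ha, ega_sys_form T _ s ha]
    congr 2
    refine Finset.sum_congr rfl fun e _ => ?_
    by_cases hO : e ∈ egaXO T (cutF \ M.F) s M.O
    · rw [if_pos (Set.mem_union_right _ hO), if_pos (Set.mem_union_right _ hO)]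
    · have h2 : e ∉ egaXC T (cutF \ M.F) s (cutF \ M.F) ∪ egaXO T (cutF \ M.F) s M.O := by
        rintro (h | h)
        · have h3 : domBond e ∈ domBonds ((egGr m₁ m₂ s).region (egSh T (cutF \ M.F)).T) ((egSh T (cutF \ M.F)).cutB (egGr m₁ m₂ s)) :=
            Subtype.property (p := fun e => e ∈ domBonds ((egGr m₁ m₂ s).region (egSh T (cutF \ M.F)).T) ((egSh T (cutF \ M.F)).cutB (egGr m₁ m₂ s))) e
          exact (Finset.mem_filter.1 h3).2.2 h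
        · exact hO h
      rw [if_neg h2]
      by_cases hC : e ∈ egaXC T (cutF \ M.F) s cutF
      · rw [if_pos (Set.mem_union_left _ hC)]
        obtain ⟨h3, h4⟩ := ega_XC_core hM s e hC
        have h5 : v (((egSh T (cutF \ M.F)).graph (egGr m₁ m₂ s)).src e) = 0 := hv _ (hU.sub (hM.D_sub (hM.H_sub h3)))
        have h6 : v (((egSh T (cutF \ M.F)).graph (egGr m₁ m₂ s)).tgt e) = 0 := hv _ (hU.sub (hM.D_sub (hM.H_sub h4)))
        unfold plGrad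
        rw [h5, h6]
        norm_num
      · exact if_neg fun h => h.elim hC hO

/-- L-GA-G10, the generic hypotheses.   PLAN: `pd`: `pd_law_PD ha (loc_ok _ ∅ hs (ega_scale hs) ha)`;  `le`, `eq`: `ega_add_form` (`egaUp = egaAdd ..`), `pair (egaR k) v = (√a)⁻¹ * plGrad v k.1` (`pl_pair_smul_left`, `pl_grad_eq_pair`), `ega_XC_core`, `loc_mem_sites`;
`disj`: `loc_mem_sites`, `hM.H_sub`, `hM.disj`. -/
theorem ega_pair_inst (hM : M.Geo (egSh T cutF) R) {s : ℕ} (hs : 1 ≤ s) {a : ℝ} (ha : 0 < a) :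
    EgaPair (egaL (egSh T cutF) s) (egaUp T (cutF \ M.F) s cutF a) a ((egSh T cutF).sites (egGr m₁ m₂ s) M.p) ((egSh T cutF).sites (egGr m₁ m₂ s) M.H) := by
  have hpair : ∀ (v : ((egSh T cutF).graph (egGr m₁ m₂ s)).V → ℝ) (k : egaX T (cutF \ M.F) s cutF),
      HLaw.pair (egaR T (cutF \ M.F) s cutF a k) v
        = (Real.sqrt a)⁻¹ * plGrad (G := (egSh T (cutF \ M.F)).graph (egGr m₁ m₂ s)) v k.1 := by
    intro v k
    have h1 := pl_pair_smul_left (G := (egSh T (cutF \ M.F)).graph (egGr m₁ m₂ s)) (Real.sqrt a)⁻¹ (plDiv (Pi.single k.1 1)) v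
    have h2 : HLaw.pair (G := (egSh T (cutF \ M.F)).graph (egGr m₁ m₂ s)) (plDiv (Pi.single k.1 1)) v
        = plGrad (G := (egSh T (cutF \ M.F)).graph (egGr m₁ m₂ s)) v k.1 := by
      convert (pl_grad_eq_pair (G := (egSh T (cutF \ M.F)).graph (egGr m₁ m₂ s)) v k.1).symm
    rw [h2] at h1
    exact h1
  refine ⟨ha, pd_law_PD ha (loc_ok _ ∅ hs (ega_scale hs) ha), fun v => ?_, fun v hv => ?_, fun x hx hp => ?_⟩
  · unfold egaUp
    rw [ega_add_form]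
    exact le_add_of_nonneg_right (Finset.sum_nonneg fun k _ => sq_nonneg _)
  · unfold egaUp
    rw [ega_add_form]
    have h0 : ∀ k : egaX T (cutF \ M.F) s cutF, HLaw.pair (egaR T (cutF \ M.F) s cutF a k) v = 0 := by
      intro k
      rw [hpair]
      obtain ⟨h1, h2⟩ := ega_XC_core hM s k.1 k.2
      have e1 : v (((egSh T (cutF \ M.F)).graph (egGr m₁ m₂ s)).src k.1) = 0 :=
        hv _ ((loc_mem_sites (egSh T (cutF \ M.F)) (egGr m₁ m₂ s) M.H _).2 h1)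
      have e2 : v (((egSh T (cutF \ M.F)).graph (egGr m₁ m₂ s)).tgt k.1) = 0 :=
        hv _ ((loc_mem_sites (egSh T (cutF \ M.F)) (egGr m₁ m₂ s) M.H _).2 h2)
      unfold plGrad
      rw [e1, e2]
      simp
    simp [h0]
  · have h1 := (loc_mem_sites (egSh T cutF) (egGr m₁ m₂ s) M.H x).1 hx
    have h2 := (loc_mem_sites (egSh T cutF) (egGr m₁ m₂ s) M.p x).1 hp
    exact Finset.disjoint_left.1 hM.disj (hM.H_sub h1) h2

end Mark

/-! ## 5. The decay estimates for `rlaw Γ g cellRow` (any geometry, any grid) -/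

section Loc

variable (Γ : CGeom m₁ m₂) {g : DGrid m₁ m₂}

/-- L-GA-I1, **(D1)**.   PLAN: the proof of `Sec.loc_gPin_le` with `ega_law_gap_mean_le` instead of `pd_law_gPin_le` (roles: `P = sites p` carries the data, `A₁ = sites H`; `ρ = locRho p (r + 4)`); `Set.empty_union`. -/
theorem ega_loc_gap_mean {ν K : ℕ} (hν : 1 ≤ ν) (hg : S23.Scale K g ν) {a : ℝ} (ha : 0 < a) (p H : Finset (C3.Cell m₁ m₂)) {r : ℕ} (hr : 1 ≤ r)
    (hsep : ∀ κ ∈ p, ∀ κ' ∈ H, r + 4 ≤ geoDist κ' κ) :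
    ∫ φ, plGap (S23.rlaw Γ g S23.cellRow) a (Γ.sites g p) (Γ.sites g H) φ ∂plMeas (S23.rlaw Γ g S23.cellRow) a ∅
      ≤ ((m₁ * m₂ : ℕ) : ℝ) * pdE (locCP K a) (locK a) r * (pdM (locCP K a) (locK a) + 16 / 3 * (2 * locK a * locCR K a) ^ 2) := by
  have hok := loc_ok Γ ∅ hν hg ha
  have hres := loc_res Γ ∅ hν hg ha
  have hCR : 0 ≤ locCR K a := by unfold locCR; positivity
  have hlay : (locAmb Γ g ν).Lay (locRho p (r + 4)) := fun i j h => loc_rho_lay p (r + 4) h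
  have h0 : ∀ i ∈ (locAmb Γ g ν).cellsV (Γ.sites g p), locRho p (r + 4) i = 0 := by
    rintro i ⟨x, hx, rfl⟩
    exact loc_rho_zero _ ((loc_mem_sites Γ g p x).1 hx)
  have h4 : (locAmb Γ g ν).cellsV (Γ.sites g H) ⊆ (locAmb Γ g ν).far (locRho p (r + 4)) (r + 4) := by
    rintro i ⟨x, hx, rfl⟩
    exact loc_rho_ge fun κ hκ => hsep κ hκ _ ((loc_mem_sites Γ g H x).1 hx)
  have hQ : (locAmb Γ g ν).nb ((locAmb Γ g ν).nb ((locAmb Γ g ν).nb ((locAmb Γ g ν).nb ((locAmb Γ g ν).cellsV (Γ.sites g H)))))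
      ⊆ (locAmb Γ g ν).far (locRho p (r + 4)) r :=
    ((pd_nb_mono _ ((pd_nb_mono _ ((pd_nb_mono _ ((pd_nb_mono _ h4).trans (pd_nb_far hok hlay (r + 3)))).trans
      (pd_nb_far hok hlay (r + 2)))).trans (pd_nb_far hok hlay (r + 1)))).trans (pd_nb_far hok hlay r))
  have hmain := ega_law_gap_mean_le (H := S23.rlaw Γ g S23.cellRow) (cel := locCel) ha hok hCR hres (Γ.sites g p) (Γ.sites g H)
    hlay h0 hr (Finset.univ.filter fun κ => r ≤ locRho p (r + 4) κ)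
    (fun i hi => Finset.mem_coe.2 (Finset.mem_filter.2 ⟨Finset.mem_univ _, hQ hi⟩))
    (fun i hi => (Finset.mem_filter.1 (Finset.mem_coe.1 hi)).2)
  rw [Set.empty_union] at hmain
  refine hmain.trans ?_
  have hcard : ((Finset.univ.filter fun κ : C3.Cell m₁ m₂ => r ≤ locRho p (r + 4) κ).card : ℝ) ≤ ((m₁ * m₂ : ℕ) : ℝ) := by
    have h1 := Finset.card_filter_le (Finset.univ : Finset (C3.Cell m₁ m₂)) fun κ => r ≤ locRho p (r + 4) κ
    have h2 : (Finset.univ : Finset (C3.Cell m₁ m₂)).card = m₁ * m₂ := by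
      rw [Finset.card_univ, Fintype.card_prod, Fintype.card_fin, Fintype.card_fin]
    rw [h2] at h1
    exact_mod_cast h1
  have hE := pdE_nonneg (locCP K a) (locK a) r
  have hM := pd_pdM_two_le hok
  have hC : 0 ≤ pdM (locCP K a) (locK a) + 16 / 3 * (2 * locK a * locCR K a) ^ 2 := by positivity
  exact mul_le_mul_of_nonneg_right (mul_le_mul_of_nonneg_right hcard hE) hC

/-- L-GA-I2, **(D2)**.   PLAN: the same with `ega_law_gap_le`; `plEn H a P u ≤ H.form a u` (`pl_en_le`). -/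
theorem ega_loc_gap_le {ν K : ℕ} (hν : 1 ≤ ν) (hg : S23.Scale K g ν) {a : ℝ} (ha : 0 < a) (p H : Finset (C3.Cell m₁ m₂)) {r : ℕ} (hr : 1 ≤ r)
    (hsep : ∀ κ ∈ p, ∀ κ' ∈ H, r + 4 ≤ geoDist κ' κ) (u : (Γ.graph g).V → ℝ) :
    plGap (S23.rlaw Γ g S23.cellRow) a (Γ.sites g p) (Γ.sites g H) u
      ≤ pdM (locCP K a) (locK a) * pdE (locCP K a) (locK a) r * (S23.rlaw Γ g S23.cellRow).form a u := by
  have hok := loc_ok Γ ∅ hν hg ha
  have hlay : (locAmb Γ g ν).Lay (locRho p (r + 4)) := fun i j h => loc_rho_lay p (r + 4) h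
  have h0 : ∀ i ∈ (locAmb Γ g ν).cellsV (Γ.sites g p), locRho p (r + 4) i = 0 := by
    rintro i ⟨x, hx, rfl⟩
    exact loc_rho_zero _ ((loc_mem_sites Γ g p x).1 hx)
  have h4 : (locAmb Γ g ν).cellsV (Γ.sites g H) ⊆ (locAmb Γ g ν).far (locRho p (r + 4)) (r + 4) := by
    rintro i ⟨x, hx, rfl⟩
    exact loc_rho_ge fun κ hκ => hsep κ hκ _ ((loc_mem_sites Γ g H x).1 hx)
  have hfar4 : (locAmb Γ g ν).nb ((locAmb Γ g ν).nb ((locAmb Γ g ν).cellsV (Γ.sites g H)))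
      ⊆ (locAmb Γ g ν).far (locRho p (r + 4)) (r + 2) :=
    (pd_nb_mono _ ((pd_nb_mono _ h4).trans (pd_nb_far hok hlay (r + 3)))).trans (pd_nb_far hok hlay (r + 2))
  have hfar : (locAmb Γ g ν).nb ((locAmb Γ g ν).nb ((locAmb Γ g ν).cellsV (Γ.sites g H)))
      ⊆ (locAmb Γ g ν).far (locRho p (r + 4)) r := by
    intro i hi
    have h5 : r + 2 ≤ locRho p (r + 4) i := hfar4 hi
    show r ≤ locRho p (r + 4) i
    omega
  have hmain := ega_law_gap_le (H := S23.rlaw Γ g S23.cellRow) (cel := locCel) ha hok (Γ.sites g p) (Γ.sites g H) hlay h0 hr hfar u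
    (fun _ h => h.elim)
  rw [Set.empty_union] at hmain
  refine hmain.trans ?_
  have hPD : plPD (S23.rlaw Γ g S23.cellRow) (Γ.sites g p) :=
    pl_PD_mono _ (pd_law_PD (H := S23.rlaw Γ g S23.cellRow) (cel := locCel) ha hok) (Set.empty_subset _)
  have hM := pd_pdM_two_le hok
  have hE := pdE_nonneg (locCP K a) (locK a) r
  exact mul_le_mul_of_nonneg_left (pl_en_le _ ha hPD u fun _ _ => rfl) (by positivity)

end Loc

end

end Claimed.Agent.R285.Entry
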