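import Claimed.Agent.R285.F4a.Defs
import Claimed.Agent.R285.Read.C3Defs

/-!
# ROW 285, post BP-ENT-GOOD ([F] L4.7 part 2, `cutoff-entry.tex` l.1590-2010 = [B] L9.4): DEFINITIONS      (architect helper109)

Nothing is sorried here.  Vocabulary of `F4a/Defs.lean` (`Top c`, `Zobs`, `Zhat`, `Eobs`, `wf`, `chi`) and the generic conditional functionals of `Read/C3.lean` (`ZI`, `ZC`, `cLap`, `rPin`, `ExT`, `gExT`, `gcLap`, `grPin`) at `H = T.law`.
Prefix `eg`.  **All heights, guard data and real reference fields are GLOBAL functions** `h : G.V → ℤ`, `φ : G.V → ℝ` (restricted to the vertices of a topology by `egRes`, extended by zero by `egExt`):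
so the functionals of different topologies (`T`, `T.cut F`, `T.glue F`, patches) can be composed without any identification of vertex types, and `T` can be rewritten.

## Dictionary ([F] s4.7)
* `egJ T b τ y p h`            `𝒥_G^τ(y, γ)`, `γ = h|_p` (ent:joint-density); `p` = a set of guard CELLS, the guard is the set of ALL primary sites of these cells
* `egSum T b τ y F`            `∑_h F(h) 𝒲_G^τ(h) exp(-½‖B_s h - y‖²)`;   `egEx = egSum / Zobs` = `E_{G,τ,y}`
* `egXi T τ y`                 `Ξ_G^τ(y)`;    `egA T b a τ y` = `𝒜_G^τ(y)` (ent:positive-factor) `= T_Q^τ(y)` for an isolated tile `Q`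
* `EgMark c` = `(F, H, D, p, O)`  designated faces, core cells, interior cells (inside the guard), guard cells, open patch cells of ONE marked event
* `T.glue F`, `T.cut F`        the two adjacent topologies `o`, `c` of the mark; the current positive topology `T` is one of them (`EgMark.Cur`)
* `egB T M b a τ y`            the proxy `𝓑_i^τ(y)` (ent:proxy), patches `o_i = (T.glue F).restr O`, `c_i = (T.cut F).restr O`
* `egX`, `egDelta`             `K_o/(𝓑_i K_c)`, `δ_i` (factors outside the guard cancel: `eg_X_local` in `GoodEx.lean`)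
* `egQ T Ms b a τ y`           the complete per-box factor `Q_b^τ(y_b)` (ent:box-factor)
* `egE 𝓕 τ y`                  the box energy `𝓔_b(w) = ∑_{f ∈ 𝓕} w_f²`, `𝓕` = the ORIGINAL (pre-deletion) faces of the physical region of the box
* `egSh`, `egLw Γ s`, `EgWMark`, `egWL`, `egWG`   the WINDOW side: shapes `CGeom m₁ m₂`, their laws `C3.lawR Γ (unif s) (one row per present cell)`, marks, the two sides of `C3.cond_transfer`
* `EgWin c m₁ m₂`, `W.emb`, `W.Fits T`, `W.shape T`, `W.Shp T Γ`, `W.pull`, `W.push`   a window of `m₁ × m₂` cells in a volume (no wrapping inside the window), the shape of a topology carried by the window, transport of fields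
-/

set_option autoImplicit false

namespace Claimed.Agent.R285.Entry

open scoped BigOperators
open Claimed.Agent.R285 Claimed.Agent.R285.RG Claimed.Agent.R285.F4a

noncomputable section

variable {G : Geom} {c : Grid G}

/-! ## 1. Global fields -/

/-- restriction of a global field to the vertices of `T` -/
def egRes {α : Type} (T : Top c) (h : G.V → α) : T.graph.V → α := fun v => h v.1

open Classical in
/-- extension by zero -/
def egExt {α : Type} [Zero α] (T : Top c) (h : T.graph.V → α) : G.V → α :=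
  fun v => if hv : c.blk v ∈ T.cells then h ⟨v, hv⟩ else 0

/-- the primary sites of a set of cells, as vertices of `T` -/
def egSites (T : Top c) (p : Finset c.I) : Set T.graph.V := {v | c.blk v.1 ∈ p}

/-- the row vector of `h ↦ ⟨y, B_s (2π h)⟩` -/
def egTest (T : Top c) (y : c.I → ℝ) : T.graph.V → ℝ := fun v => y (c.blk v.1) * ((c.sites {c.blk v.1}).card : ℝ)⁻¹

/-- `‖y‖²` on the present cells -/
def egNorm (T : Top c) (y : c.I → ℝ) : ℝ := ∑ i ∈ T.cells, y i ^ 2

/-- restoring faces -/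
def _root_.Claimed.Agent.R285.F4a.Top.glue (T : Top c) (E : Finset (Face c)) : Top c := ⟨T.cells, T.faces ∪ E⟩

/-! ## 2. Joint densities, guard laws, positive factors -/

/-- (ent:joint-density) `𝒥_G^τ (y, γ)`, `γ = h` on the sites of the cells of `p` -/
def egJ (T : Top c) (b : ℝ) (τ : Face c → ℤ) (y : c.I → ℝ) (p : Finset c.I) (h : G.V → ℤ) : ℝ :=
  (T.law.addPin (egSites T p)).Z b ⟨C3.resZ (egSites T p) (egRes T h), T.econn τ, fun i => y i.1⟩ fun _ => 1

/-- `∑_h F(h) 𝒲_G^τ (h) exp (-½ ‖B_s h - y‖²)` -/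
def egSum (T : Top c) (b : ℝ) (τ : Face c → ℤ) (y : c.I → ℝ) (F : (G.V → ℤ) → ℝ) : ℝ :=
  C3.ZI T.law b ⟨0, T.econn τ, fun i => y i.1⟩ fun h => F (egExt T h)

/-- `E_{G,τ,y}` -/
def egEx (T : Top c) (b : ℝ) (τ : Face c → ℤ) (y : c.I → ℝ) (F : (G.V → ℤ) → ℝ) : ℝ :=
  egSum T b τ y F / T.Zobs b τ y

/-- `Ξ_G^τ (y)` -/
def egXi (T : Top c) (τ : Face c → ℤ) (y : c.I → ℝ) : ℝ := ∏ f ∈ T.faces, chi c.m (wf c τ y f)

/-- (ent:positive-factor) `𝒜_G^τ (y)`; for an isolated tile graph `Q` this is `T_Q^τ (y)` -/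
def egA (T : Top c) (b a : ℝ) (τ : Face c → ℤ) (y : c.I → ℝ) : ℝ :=
  Real.exp (T.Eobs a τ y / 2) * T.Zhat b τ y / T.Zobs b 0 0

/-- the box energy `𝓔_b (w)` on a set of (original) faces -/
def egE (𝓕 : Finset (Face c)) (τ : Face c → ℤ) (y : c.I → ℝ) : ℝ := ∑ f ∈ 𝓕, wf c τ y f ^ 2

/-- the circulation of an integral face connection at the full junctions of `T` (zero in the centred sector and in source-free boxes; `1` if the unit junction is full in `T`) -/
def egCirc (T : Top c) (τ : Face c → ℤ) : ℝ :=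
  ∑ z ∈ T.V4, ((τ (z, true) + τ (fnb c (z, true), false) - τ (fnb c (z, false), true) - τ (z, false) : ℤ) : ℝ) ^ 2

/-! ## 3. One marked event -/

/-- the data of one marked event, in cells -/
structure EgMark (c : Grid G) where
  /-- the designated faces (deleted at the event) -/
  F : Finset (Face c)
  /-- the core -/
  H : Finset c.I
  /-- the interior of the guard (contains the core) -/
  D : Finset c.I
  /-- the guard -/
  p : Finset c.I
  /-- the open patch -/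
  O : Finset c.I

/-- the patches `o_i`, `c_i` -/
def egPo (T : Top c) (M : EgMark c) : Top c := (T.glue M.F).restr M.O
def egPc (T : Top c) (M : EgMark c) : Top c := (T.cut M.F).restr M.O

/-- the centred open-patch scalar `C_i` -/
def egC (T : Top c) (M : EgMark c) (b : ℝ) : ℝ := (egPo T M).Zobs b 0 0 / (egPc T M).Zobs b 0 0

/-- `E_{o_i}^τ (y) - E_{c_i}^τ (y)` -/
def egDE (T : Top c) (M : EgMark c) (a : ℝ) (τ : Face c → ℤ) (y : c.I → ℝ) : ℝ :=
  (egPo T M).Eobs a τ y - (egPc T M).Eobs a τ y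

/-- (ent:proxy) `𝓑_i^τ (y)` -/
def egB (T : Top c) (M : EgMark c) (b a : ℝ) (τ : Face c → ℤ) (y : c.I → ℝ) : ℝ :=
  egC T M b * Real.exp (-(egDE T M a τ y) / 2)

/-- `K_o^τ / (𝓑_i^τ K_c^τ)`, through the joint densities of the two adjacent complete topologies -/
def egX (T : Top c) (M : EgMark c) (b a : ℝ) (τ : Face c → ℤ) (y : c.I → ℝ) (h : G.V → ℤ) : ℝ :=
  (egJ (T.glue M.F) b τ y M.p h * egXi (T.glue M.F) τ y)
    / (egB T M b a τ y * (egJ (T.cut M.F) b τ y M.p h * egXi (T.cut M.F) τ y))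

/-- `x ↦ |x - 1| / (x + 1)` -/
def egDl (x : ℝ) : ℝ := |x - 1| / (x + 1)

/-- `δ_i (y, b_i^p)` -/
def egDelta (T : Top c) (M : EgMark c) (b a : ℝ) (τ : Face c → ℤ) (y : c.I → ℝ) (h : G.V → ℤ) : ℝ :=
  egDl (egX T M b a τ y h)

/-- (ent:box-factor) `Q_b^τ (y_b)` -/
def egQ {ι : Type} [Fintype ι] (T : Top c) (Ms : ι → EgMark c) (b a : ℝ) (τ : Face c → ℤ) (y : c.I → ℝ) : ℝ :=
  egA T b a τ y * egEx T b τ y fun h => ∏ i, egDelta T (Ms i) b a τ y h

/-! ## 4. Conditional functionals as functions of global fields (centred gauge `τ = 0`) -/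

/-- `log L_t (y; γ)`, (ent:one-mark-law) -/
def egCL (T : Top c) (b : ℝ) (p : Finset c.I) (y : c.I → ℝ) (h : G.V → ℤ) : ℝ :=
  C3.cLap T.law b (egSites T p) (egTest T y) (egRes T h)

/-- `z_t (γ)` -/
def egZ0 (T : Top c) (b : ℝ) (p : Finset c.I) (h : G.V → ℤ) : ℝ := C3.ZC T.law b (egSites T p) (egRes T h) fun _ => 1

/-- the centred full-core pin ratio `r_H (γ)` of the law `T` -/
def egRP (T : Top c) (b : ℝ) (p H : Finset c.I) (h : G.V → ℤ) : ℝ :=
  C3.rPin T.law b (egSites T p) (egSites T H) (egRes T h)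

/-- the centred conditional restoration ratio `r_Δ (γ)` -/
def egRD (T : Top c) (M : EgMark c) (b : ℝ) (h : G.V → ℤ) : ℝ :=
  (egZ0 (T.glue M.F) b M.p h / egZ0 (T.cut M.F) b M.p h) / (egZ0 (T.glue M.F) b M.p 0 / egZ0 (T.cut M.F) b M.p 0)

/-- `c_{i,s}` -/
def egCs (T : Top c) (M : EgMark c) (b : ℝ) : ℝ :=
  Real.log (egZ0 (T.glue M.F) b M.p 0 / (egC T M b * egZ0 (T.cut M.F) b M.p 0))

/-- `d_{i,s} = D_i (H, p)`: the centred pin interaction in the CUT OPEN PATCH -/
def egDs (T : Top c) (M : EgMark c) (b : ℝ) : ℝ :=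
  (egPc T M).law.dPin b (egSites (egPc T M) M.H) (egSites (egPc T M) M.p)

/-- its Gaussian reference -/
def egDg (T : Top c) (M : EgMark c) (a : ℝ) : ℝ :=
  (egPc T M).law.gPin a ∅ (egSites (egPc T M) M.H) (egSites (egPc T M) M.p)

/-- `Λ_{i,s} (y, γ)` -/
def egLam (T : Top c) (M : EgMark c) (b a : ℝ) (y : c.I → ℝ) (h : G.V → ℤ) : ℝ :=
  egCL (T.glue M.F) b M.p y h - egCL (T.cut M.F) b M.p y h + egDE T M a 0 y / 2

/-- Gaussian reference expectation of the law `T` tilted by `y` -/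
def egGEx (T : Top c) (a : ℝ) (y : c.I → ℝ) (Ψ : (G.V → ℝ) → ℝ) : ℝ :=
  C3.gExT T.law a ∅ (egTest T y) fun φ => Ψ (egExt T φ)

def egGCL (T : Top c) (a : ℝ) (p : Finset c.I) (y : c.I → ℝ) (φ : G.V → ℝ) : ℝ :=
  C3.gcLap T.law a (egSites T p) (egTest T y) (egRes T φ)

def egGRP (T : Top c) (a : ℝ) (p H : Finset c.I) (φ : G.V → ℝ) : ℝ :=
  C3.grPin T.law a (egSites T p) (egSites T H) (egRes T φ)

/-- `ρ ↦ min (1, - log ρ)` on `(0, 1]`; continuous on `ℝ` with values in `[0, 1]` -/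
def egLg (ρ : ℝ) : ℝ := - Real.log (min 1 (max ρ (Real.exp (-1))))

/-- the bounded continuous test function of the transfer: `min (1, θ₁ - log ρ + |x' - x + θ₂|)^r` -/
def egPhi (θ₁ θ₂ : ℝ) (r : ℕ) (x x' ρ : ℝ) : ℝ := (min 1 (θ₁ + egLg ρ + |x' - x + θ₂|)) ^ r

/-- one of the two adjacent topologies -/
def egTop (T : Top c) (M : EgMark c) (top : Bool) : Top c := if top then T.glue M.F else T.cut M.F

/-! ## 5. The window side: shapes, laws, marks (vocabulary of `Read/C3.lean`) -/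

/-- the uniform grid of side `s` -/
def egGr (m₁ m₂ s : ℕ) : DGrid m₁ m₂ := DGrid.unif m₁ m₂ (max s 1) (lt_of_lt_of_le Nat.one_pos (le_max_right _ _))

/-- a shape: present cells and removed coarse faces; no pin, no box observation (the rows are those of `egRow`) -/
def egSh {m₁ m₂ : ℕ} (T : Finset (C3.Cell m₁ m₂)) (cutF : Finset (C3.Cell m₁ m₂ × Bool)) : CGeom m₁ m₂ where
  T := T
  cutF := cutF
  pin := ∅
  nObs := 0
  box := Fin.elim0
  wgt := Fin.elim0

/-- one row per present cell: its average -/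
def egRow {m₁ m₂ : ℕ} (Γ : CGeom m₁ m₂) : Fin Γ.T.card → C3.Cell m₁ m₂ → ℝ :=
  fun o κ => if κ = (Γ.T.equivFin.symm o).1 then 1 else 0

/-- the height law of a shape at cell side `s`: every present cell is observed -/
def egLw {m₁ m₂ : ℕ} (Γ : CGeom m₁ m₂) (s : ℕ) : HLaw (Γ.graph (egGr m₁ m₂ s)) := C3.lawR Γ (egGr m₁ m₂ s) (egRow Γ)

/-- the observation centres of the rows of `egRow` -/
def egCen {m₁ m₂ : ℕ} (Γ : CGeom m₁ m₂) (y : C3.Cell m₁ m₂ → ℝ) : Fin Γ.T.card → ℝ := fun o => y (Γ.T.equivFin.symm o).1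

/-- `κ'` is the second cell of the coarse face `f` -/
def egWnb {m₁ m₂ : ℕ} (f : C3.Cell m₁ m₂ × Bool) (κ' : C3.Cell m₁ m₂) : Prop :=
  (f.2 = true ∧ f.1.1.1 + 1 = κ'.1.1 ∧ f.1.2 = κ'.2) ∨ (f.2 = false ∧ f.1.1 = κ'.1 ∧ f.1.2.1 + 1 = κ'.2.1)

/-- sup-distance of two cells of the window -/
def egWd {m₁ m₂ : ℕ} (κ κ' : C3.Cell m₁ m₂) : ℕ := max (Nat.dist κ.1.1 κ'.1.1) (Nat.dist κ.2.1 κ'.2.1)

/-- one marked event in a window -/
structure EgWMark (m₁ m₂ : ℕ) where
  F : Finset (C3.Cell m₁ m₂ × Bool)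
  H : Finset (C3.Cell m₁ m₂)
  D : Finset (C3.Cell m₁ m₂)
  p : Finset (C3.Cell m₁ m₂)
  O : Finset (C3.Cell m₁ m₂)

/-- the metric hypotheses on a mark in a window; `Γ` = the CUT geometry of the box -/
structure EgWMark.Geo {m₁ m₂ : ℕ} (M : EgWMark m₁ m₂) (Γ : CGeom m₁ m₂) (R : ℕ) : Prop where
  cut : M.F ⊆ Γ.cutF
  face : ∀ f ∈ M.F, C3.FaceIn M.H f
  H_sub : M.H ⊆ M.D
  D_sub : M.D ⊆ M.O
  p_sub : M.p ⊆ M.O
  O_sub : M.O ⊆ Γ.T
  disj : Disjoint M.D M.p
  sepG : ∀ f κ', egWnb f κ' → f.1 ∈ Γ.T → κ' ∈ Γ.T → f ∉ Γ.cutF \ M.F →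
    (f.1 ∈ M.D → κ' ∈ M.D ∪ M.p) ∧ (κ' ∈ M.D → f.1 ∈ M.D ∪ M.p)
  /-- `U` = a union of components of the restored geometry which contains the patch (`univ`, or the complement of isolated tiles which touch the core across a wall): inside `U` the core is deep in the interior -/
  far : ∃ U : Finset (C3.Cell m₁ m₂), M.O ⊆ U ∧
    (∀ f κ', egWnb f κ' → f.1 ∈ Γ.T → κ' ∈ Γ.T → f ∉ Γ.cutF \ M.F → (f.1 ∈ U ↔ κ' ∈ U)) ∧ ∀ κ ∈ M.H, ∀ κ' ∈ U, κ' ∉ M.D → R ≤ egWd κ κ'

/-- the cut open patch of a mark -/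
def egWPc {m₁ m₂ : ℕ} (Γ : CGeom m₁ m₂) (M : EgWMark m₁ m₂) : CGeom m₁ m₂ := egSh (Γ.T ∩ M.O) Γ.cutF

/-- the restored open patch of a mark -/
def egWPo {m₁ m₂ : ℕ} (Γ : CGeom m₁ m₂) (M : EgWMark m₁ m₂) : CGeom m₁ m₂ := egSh (Γ.T ∩ M.O) (Γ.cutF \ M.F)

/-- `E_{o_i} (y) - E_{c_i} (y)` in the discrete Gaussian reference of the window -/
def egWDE {m₁ m₂ : ℕ} (Γ : CGeom m₁ m₂) (M : EgWMark m₁ m₂) (a : ℝ) (s : ℕ) (y : C3.Cell m₁ m₂ → ℝ) : ℝ :=
  (egLw (egWPo Γ M) s).gEn a 0 (egCen (egWPo Γ M) y) - (egLw (egWPc Γ M) s).gEn a 0 (egCen (egWPc Γ M) y)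

/-- **the lattice side of the transfer**: `Γ` = cut box, the guard data are sampled in the law of the restored (`top = true`) or of the cut box, tilted by `y`;
`Φ (log L_c, log L_o, r_H)` -/
def egWL {m₁ m₂ : ℕ} (Γ : CGeom m₁ m₂) (M : EgWMark m₁ m₂) (s : ℕ) (b : ℝ) (top : Bool) (y : C3.Cell m₁ m₂ → ℝ) (Φ : ℝ → ℝ → ℝ → ℝ) : ℝ :=
  (if top then C3.ExU Γ M.F (egGr m₁ m₂ s) (egRow Γ) b (Γ.cellTest (egGr m₁ m₂ s) y)
    else C3.ExT (egLw Γ s) b (Γ.cellTest (egGr m₁ m₂ s) y))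
  fun h => Φ (C3.cLap (egLw Γ s) b (Γ.sites (egGr m₁ m₂ s) M.p) (Γ.cellTest (egGr m₁ m₂ s) y) h)
    (C3.cLapU Γ M.F (egGr m₁ m₂ s) (egRow Γ) b (Γ.sites (egGr m₁ m₂ s) M.p) (Γ.cellTest (egGr m₁ m₂ s) y) h)
    (C3.rPin (egLw Γ s) b (Γ.sites (egGr m₁ m₂ s) M.p) (Γ.sites (egGr m₁ m₂ s) M.H) h)

/-- **the Gaussian side of the transfer** (the discrete Gaussian reference on the same graphs) -/
def egWG {m₁ m₂ : ℕ} (Γ : CGeom m₁ m₂) (M : EgWMark m₁ m₂) (s : ℕ) (a : ℝ) (top : Bool) (y : C3.Cell m₁ m₂ → ℝ) (Φ : ℝ → ℝ → ℝ → ℝ) : ℝ :=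
  (if top then C3.gExU Γ M.F (egGr m₁ m₂ s) (egRow Γ) a (Γ.sites (egGr m₁ m₂ s) Γ.pin) (Γ.cellTest (egGr m₁ m₂ s) y)
    else C3.gExT (egLw Γ s) a (Γ.sites (egGr m₁ m₂ s) Γ.pin) (Γ.cellTest (egGr m₁ m₂ s) y))
  fun φ => Φ (C3.gcLap (egLw Γ s) a (Γ.sites (egGr m₁ m₂ s) Γ.pin ∪ Γ.sites (egGr m₁ m₂ s) M.p) (Γ.cellTest (egGr m₁ m₂ s) y) φ)
    (C3.gcLapU Γ M.F (egGr m₁ m₂ s) (egRow Γ) a (Γ.sites (egGr m₁ m₂ s) Γ.pin ∪ Γ.sites (egGr m₁ m₂ s) M.p) (Γ.cellTest (egGr m₁ m₂ s) y) φ)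
    (C3.grPin (egLw Γ s) a (Γ.sites (egGr m₁ m₂ s) Γ.pin ∪ Γ.sites (egGr m₁ m₂ s) M.p) (Γ.sites (egGr m₁ m₂ s) M.H) φ)

/-! ## 6. Windows in a volume -/

/-- a window of `m₁ × m₂` cells with lower left cell `o`; on the torus it may pass through the origin of the indices, but it does not wrap onto itself -/
structure EgWin (c : Grid G) (m₁ m₂ : ℕ) where
  o : c.I
  le₁ : m₁ ≤ c.n
  le₂ : m₂ ≤ c.n
  free : G.bc = BC.free → (o.1 : ℕ) + m₁ ≤ c.n ∧ (o.2 : ℕ) + m₂ ≤ c.n

namespace EgWin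

variable {m₁ m₂ : ℕ} (W : EgWin c m₁ m₂)

/-- the cell of the volume under a cell of the window -/
def emb (κ : Fin m₁ × Fin m₂) : c.I :=
  (⟨((W.o.1 : ℕ) + κ.1) % c.n, Nat.mod_lt _ W.o.1.pos⟩, ⟨((W.o.2 : ℕ) + κ.2) % c.n, Nat.mod_lt _ W.o.2.pos⟩)

/-- the faces between two cells of the window -/
def Inner (_W : EgWin c m₁ m₂) (f : (Fin m₁ × Fin m₂) × Bool) : Prop :=
  if f.2 then (f.1.1 : ℕ) + 1 < m₁ else (f.1.2 : ℕ) + 1 < m₂

/-- the face of the volume under a face of the window -/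
def embF (f : (Fin m₁ × Fin m₂) × Bool) : Face c := (W.emb f.1, f.2)

/-- a face of the volume lies inside the window -/
def FaceIn (f : Face c) : Prop := ∃ κ, W.Inner (κ, f.2) ∧ f.1 = W.emb κ

/-- the topology is carried by the window -/
def Fits (T : Top c) : Prop := (∀ i ∈ T.cells, ∃ κ, i = W.emb κ) ∧ ∀ f ∈ T.faces, W.FaceIn f

open Classical in
/-- the cells of the window over a set of cells of the volume -/
def pre (A : Finset c.I) : Finset (C3.Cell m₁ m₂) := Finset.univ.filter fun κ => W.emb κ ∈ A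

open Classical in
/-- the inner faces of the window over a set of faces of the volume -/
def preF (E : Finset (Face c)) : Finset (C3.Cell m₁ m₂ × Bool) := Finset.univ.filter fun f => W.Inner f ∧ W.embF f ∈ E

/-- an observation read in the window -/
def obs (y : c.I → ℝ) : C3.Cell m₁ m₂ → ℝ := fun κ => y (W.emb κ)

open Classical in
/-- the shape of a topology carried by the window -/
def shape (T : Top c) : CGeom m₁ m₂ := egSh (W.pre T.cells) (Finset.univ.filter fun f => W.embF f ∉ T.faces)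

/-- **`Γ` is a shape of `T`**: same cells, same faces between present cells -/
structure Shp (T : Top c) (Γ : CGeom m₁ m₂) : Prop where
  fits : W.Fits T
  cells : ∀ κ, κ ∈ Γ.T ↔ W.emb κ ∈ T.cells
  faces : ∀ f κ', egWnb f κ' → f.1 ∈ Γ.T → κ' ∈ Γ.T → (f ∈ Γ.cutF ↔ W.embF f ∉ T.faces)
  pin : Γ.pin = ∅

/-- the primary site of the volume under the site `x` of the window (the window has its lower left corner at the origin of `ℤ²`) -/
def site (x : ℤ × ℤ) : G.V := G.π ((c.m : ℤ) * (W.o.1 : ℕ) + x.1, (c.m : ℤ) * (W.o.2 : ℕ) + x.2)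

/-- a global field read in the window -/
def pull {α : Type} (Γ : CGeom m₁ m₂) (h : G.V → α) : (Γ.graph (egGr m₁ m₂ c.m)).V → α := fun x => h (W.site (domPos x))

open Classical in
/-- a field of the window as a global field (zero elsewhere) -/
def push {α : Type} [Zero α] (Γ : CGeom m₁ m₂) (h : (Γ.graph (egGr m₁ m₂ c.m)).V → α) : G.V → α :=
  fun v => if hv : ∃ x : (Γ.graph (egGr m₁ m₂ c.m)).V, W.site (domPos x) = v then h hv.choose else 0

end EgWin

/-- a mark read in the window -/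
def EgMark.pull {m₁ m₂ : ℕ} (M : EgMark c) (W : EgWin c m₁ m₂) : EgWMark m₁ m₂ where
  F := W.preF M.F
  H := W.pre M.H
  D := W.pre M.D
  p := W.pre M.p
  O := W.pre M.O

/-! ## 7. The geometric hypotheses on a retained (deep) mark -/

/-- **the metric part of the hypotheses on a retained mark** of the current positive topology `T`, with separation `R` (in cells, index sup-distance of the volume).
`cur`: `T` is one of the two adjacent topologies.  `sepG`: the guard separates the interior from the rest in the restored topology.  `far`: the core is deep in the interior (so it is far from the guard and from the wall of the patch), INSIDE a union `U` of components of the restored topology which contains the patch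
(`U = univ` for rings; for the long sides of an edge tile `U` = the complement of the two isolated vertex tiles at its ends, which touch the core across the cut rings). -/
structure EgMark.Geo (M : EgMark c) (T : Top c) (R : ℕ) : Prop where
  cur : M.F ⊆ T.faces ∨ Disjoint M.F T.faces
  face : ∀ f ∈ M.F, IsFace c f ∧ f.1 ∈ M.H ∧ fnb c f ∈ M.H
  H_sub : M.H ⊆ M.D
  D_sub : M.D ⊆ M.O
  p_sub : M.p ⊆ M.O
  O_sub : M.O ⊆ T.cells
  disj : Disjoint M.D M.p
  sepG : ∀ f ∈ T.faces ∪ M.F, (f.1 ∈ M.D → fnb c f ∈ M.D ∪ M.p) ∧ (fnb c f ∈ M.D → f.1 ∈ M.D ∪ M.p)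
  far : ∃ U : Finset c.I, M.O ⊆ U ∧ (∀ f ∈ T.faces ∪ M.F, f.1 ∈ U ↔ fnb c f ∈ U) ∧ ∀ i ∈ M.H, ∀ j ∈ U, j ∉ M.D → R ≤ c.idist i j

/-- **a deep mark** in the window `W`: `Geo`, the designated faces lie inside the window, and the geometries to which [C] T3.1, T3.2 are applied (cut box, restored box, cut open patch) have Lipschitz components (`CGeom.NoDiag`). -/
structure EgMark.Ok {m₁ m₂ : ℕ} (M : EgMark c) (W : EgWin c m₁ m₂) (T : Top c) (R : ℕ) : Prop where
  geo : M.Geo T R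
  faceW : ∀ f ∈ M.F, W.FaceIn f
  lipC : (W.shape (T.cut M.F)).NoDiag
  lipO : (W.shape (T.glue M.F)).NoDiag
  lipP : (W.shape (egPc T M)).NoDiag

/-- an integral gauge on a set of faces: `τ = dκ` ("source-free rectangle") -/
def EgGauge (𝓕 : Finset (Face c)) (τ : Face c → ℤ) : Prop := ∃ κ : c.I → ℤ, ∀ f ∈ 𝓕, τ f = κ (fnb c f) - κ f.1

/-- the admissible temperatures at cell side `s`: along every sequence `s_k → ∞`, `b_k ∈ 𝔅 (s_k)` the free rectangles have the Gaussian limits with coefficient `a`.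
(`𝔅 = fun _ => {b₀}`, `a = aLim b₀ > 0` in [F]; moving temperatures in [E].) -/
def EgTemp (a : ℝ) (𝔅 : ℕ → Set ℝ) : Prop :=
  ∀ (ν : ℕ → ℕ) (b : ℕ → ℝ), Filter.Tendsto ν Filter.atTop Filter.atTop → (∀ k, b k ∈ 𝔅 (ν k)) → C3.Scen a b ν

end

end Claimed.Agent.R285.Entry
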