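import Claimed.Agent.R285.Entry.GoodWin
import Claimed.Agent.R285.Entry.GoodSoft
import Claimed.Agent.R285.Entry.GoodGa
import Claimed.Agent.R285.Entry.GoodPin
import Claimed.Agent.R285.F4a.Cut
import Claimed.Agent.R285.F4a.Face

/-!
# ROW 285, post BP-ENT-GOOD ([F] L4.7 part 2, `cutoff-entry.tex` l.1746-2010 = [B] L9.4): EXITS      (architect helper109)

Good boxes and their conditional gain, isolated tiles, bad and compulsory boxes, for ANY topology `T : F4a.Top c` carried by a window and ANY family of marks `EgMark c` with `EgMark.Ok` (no reference to the tiles / events of the engine).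
```
eg_good_box  ⟸ eg_Q_gauge, eg_recentre (GoodEx)  +  eg_A_good  +  eg_holder (GoodEx)  +  eg_one_mark_moment  +  eg_numeric (GoodEx)
eg_A_good    ⟸ eg_win_A (GoodWin) + eg_soft_A (GoodSoft) + eg_xi_small (GoodEx)
eg_one_mark_moment ⟸ eg_delta_le (GoodEx) + eg_win_transfer, eg_win_DE, eg_win_Ds, eg_geo_pull (GoodWin) + eg_soft_transfer, eg_soft_pin (GoodSoft) + eg_ga_moment, eg_ga_pin, eg_ga_DE (GoodGa)
eg_reserve   ⟸ F4a.pointwise_cutoff + F4a.face_energy_upper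
```
All theorems of this file are GLUE (helper109); ALL PROVED (helper94, 19:05Z): the file rests only on the three leaves of `GoodGa.lean`.
-/

set_option autoImplicit false

namespace Claimed.Agent.R285.Entry

open scoped BigOperators
open Claimed.Agent.R285 Claimed.Agent.R285.RG Claimed.Agent.R285.F4a

noncomputable section

/-! ## 1. Bad and compulsory boxes -/

theorem eg_glue_Eobs_nonneg {G : Geom} {c : Grid G} (T : Top c) {a : ℝ} (ha : 0 < a) (τ : Face c → ℤ) (y : c.I → ℝ) : 0 ≤ T.Eobs a τ y := by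
  unfold Top.Eobs Top.En
  refine Real.iInf_nonneg fun u => ?_
  unfold Top.quad
  have : 0 ≤ a⁻¹ := (inv_pos.2 ha).le
  exact add_nonneg (mul_nonneg this (Finset.sum_nonneg fun e _ => sq_nonneg _)) (Finset.sum_nonneg fun i _ => sq_nonneg _)

/-- **(ent:large-field-reserve)**, every sector, every real observation, every topology. -/
theorem eg_reserve (a b1 : ℝ) (ha : 0 < a) : ∃ (cstar C : ℝ) (s1 n1 : ℕ), 0 < cstar ∧ cstar < 1 ∧ ∀ (G : Geom) (c : Grid G), Whole c → s1 ≤ c.m → n1 ≤ c.n →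
    ∀ T : Top c, T.Ok → ∀ b : ℝ, 0 < b → b ≤ b1 → ∀ (τ : Face c → ℤ) (y : c.I → ℝ),
      egA T b a τ y ≤ Real.exp ((1 - cstar) / 2 * T.Eobs a τ y + C * Real.log (2 + c.m) * egCirc T τ) := by
  obtain ⟨cc, s1, hcc, hcut⟩ := pointwise_cutoff b1
  obtain ⟨Cf, n1, hup⟩ := face_energy_upper a ha
  obtain ⟨C', hC'⟩ : ∃ C' : ℝ, C' = max Cf 1 := ⟨_, rfl⟩
  have hC'1 : 1 ≤ C' := hC' ▸ le_max_right _ _
  have hC'f : Cf ≤ C' := hC' ▸ le_max_left _ _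
  have hC'0 : 0 < C' := by linarith
  obtain ⟨cs, hcs⟩ : ∃ cs : ℝ, cs = min (2 * cc / C') (1 / 2) := ⟨_, rfl⟩
  have hcs0 : 0 < cs := hcs ▸ lt_min (by positivity) (by norm_num)
  have hcs1 : cs ≤ 2 * cc / C' := hcs ▸ min_le_left _ _
  have hcs2 : cs ≤ 1 / 2 := hcs ▸ min_le_right _ _
  refine ⟨cs, cc, s1, n1, hcs0, by linarith, fun G c hc hs hn T hT b hb hb1 τ y => ?_⟩
  have h1 := hcut G c hc hs T hT b hb hb1 τ y
  have h2 := hup G c hc hn T hT τ y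
  have hE0 := eg_glue_Eobs_nonneg T ha τ y
  obtain ⟨S, hS⟩ : ∃ S : ℝ, S = ∑ f ∈ T.faces, wf c τ y f ^ 2 := ⟨_, rfl⟩
  have hS0 : 0 ≤ S := hS ▸ Finset.sum_nonneg fun f _ => sq_nonneg _
  have hL0 : 0 ≤ Real.log (2 + c.m) := Real.log_nonneg (by have : (0:ℝ) ≤ c.m := Nat.cast_nonneg _; linarith)
  have hK0 : 0 ≤ egCirc T τ := Finset.sum_nonneg fun z _ => sq_nonneg _
  have h2' : T.Eobs a τ y ≤ C' * S + C' * Real.log (2 + c.m) * egCirc T τ := by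
    have e : T.Eobs a τ y ≤ Cf * S + Cf * Real.log (2 + c.m) * egCirc T τ := by rw [hS]; exact h2
    have t1 : Cf * S ≤ C' * S := mul_le_mul_of_nonneg_right hC'f hS0
    have t2 : Cf * Real.log (2 + c.m) * egCirc T τ ≤ C' * Real.log (2 + c.m) * egCirc T τ := by
      rw [mul_assoc, mul_assoc]
      exact mul_le_mul_of_nonneg_right hC'f (mul_nonneg hL0 hK0)
    linarith
  have e : egA T b a τ y = Real.exp (T.Eobs a τ y / 2) * (T.Zhat b τ y / T.Zobs b 0 0) := by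
    unfold egA; ring
  rw [e]
  refine (mul_le_mul_of_nonneg_left h1 (Real.exp_pos _).le).trans ?_
  rw [← Real.exp_add, ← hS]
  apply Real.exp_le_exp.2
  -- `S ≥ E / C' - L K`
  have h3 : T.Eobs a τ y / C' - Real.log (2 + c.m) * egCirc T τ ≤ S := by
    rw [sub_le_iff_le_add, div_le_iff₀ hC'0]
    nlinarith
  have h4 : cc * (T.Eobs a τ y / C' - Real.log (2 + c.m) * egCirc T τ) ≤ cc * S := mul_le_mul_of_nonneg_left h3 hcc.le
  have h5 : cs / 2 * T.Eobs a τ y ≤ cc * (T.Eobs a τ y / C') := by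
    have : cs / 2 * T.Eobs a τ y ≤ (2 * cc / C') / 2 * T.Eobs a τ y := mul_le_mul_of_nonneg_right (by linarith) hE0
    have e2 : (2 * cc / C') / 2 * T.Eobs a τ y = cc * (T.Eobs a τ y / C') := by field_simp
    linarith
  nlinarith

theorem eg_A_pos {G : Geom} {c : Grid G} (hc : Whole c) (T : Top c) {b : ℝ} (hb : 0 < b) (a : ℝ)
    (τ : Face c → ℤ) (y : c.I → ℝ) : 0 < egA T b a τ y := by
  unfold egA Top.Zhat
  exact div_pos (mul_pos (Real.exp_pos _) (mul_pos (Zobs_pos hc T b hb τ y) (eg_one_xi_pos hc _ τ y))) (Zobs_pos hc T b hb 0 0)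

/-- "discard the conditional rarity": `Q_b ≤ 𝒜_{G_b}` -/
theorem eg_Q_le_A {G : Geom} {c : Grid G} (hc : Whole c) (T : Top c) {ι : Type} [Fintype ι] (Ms : ι → EgMark c) {b : ℝ} (hb : 0 < b) (a : ℝ)
    (τ : Face c → ℤ) (y : c.I → ℝ) : 0 ≤ egQ T Ms b a τ y ∧ egQ T Ms b a τ y ≤ egA T b a τ y := by
  have hA : 0 ≤ egA T b a τ y := (eg_A_pos hc T hb a τ y).le
  have hE := eg_ex_mem hc T hb τ y (fun h => ∏ i, egDelta T (Ms i) b a τ y h)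
    (fun h => ⟨Finset.prod_nonneg fun i _ => (eg_delta_mem hc T (Ms i) hb a τ y h).1,
      Finset.prod_le_one (fun i _ => (eg_delta_mem hc T (Ms i) hb a τ y h).1) (fun i _ => (eg_delta_mem hc T (Ms i) hb a τ y h).2)⟩)
  unfold egQ
  exact ⟨mul_nonneg hA hE.1, mul_le_of_le_one_right hA hE.2⟩

/-! ## 2. Good data -/

/-- faces carried by a window -/
theorem eg_glue_faces_card {G : Geom} {c : Grid G} {m₁ m₂ : ℕ} (W : EgWin c m₁ m₂) (E : Finset (Face c)) (hE : ∀ f ∈ E, W.FaceIn f) :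
    E.card ≤ 2 * (m₁ * m₂) := by
  classical
  have hsub : E ⊆ (Finset.univ : Finset ((Fin m₁ × Fin m₂) × Bool)).image W.embF := by
    intro f hf
    obtain ⟨κ, -, hκ⟩ := hE f hf
    exact Finset.mem_image.2 ⟨(κ, f.2), Finset.mem_univ _, Prod.ext hκ.symm rfl⟩
  refine (Finset.card_le_card hsub).trans (Finset.card_image_le.trans ?_)
  simp [Finset.card_univ, Fintype.card_prod, mul_comm]

/-- a threshold for finitely many window sizes -/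
theorem eg_glue_thr (mm : ℕ) (P : ℕ → ℕ → ℕ → Prop) (h : ∀ m₁ m₂, ∃ s0 : ℕ, ∀ s ≥ s0, P m₁ m₂ s) :
    ∃ s0 : ℕ, ∀ s ≥ s0, ∀ m₁ ≤ mm, ∀ m₂ ≤ mm, P m₁ m₂ s := by
  choose s0 hs0 using h
  refine ⟨(Finset.range (mm + 1)).sup fun m₁ => (Finset.range (mm + 1)).sup fun m₂ => s0 m₁ m₂, fun s hs m₁ h1 m₂ h2 => hs0 m₁ m₂ s ?_⟩
  refine le_trans ?_ hs
  refine le_trans ?_ (Finset.le_sup (f := fun m₁ => (Finset.range (mm + 1)).sup fun m₂ => s0 m₁ m₂) (Finset.mem_range.2 (Nat.lt_succ_of_le h1)))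
  exact Finset.le_sup (f := fun m₂ => s0 m₁ m₂) (Finset.mem_range.2 (Nat.lt_succ_of_le h2))

theorem eg_glue_wf_le {G : Geom} {c : Grid G} (y : c.I → ℝ) (U : ℝ) (hy : ∀ i, |y i| ≤ U) (f : Face c) : |wf c 0 y f| ≤ 2 * U := by
  unfold wf
  have h1 := abs_le.1 (hy (fnb c f))
  have h2 := abs_le.1 (hy f.1)
  simp only [Pi.zero_apply, Int.cast_zero, mul_zero, add_zero]
  rw [abs_le]
  constructor <;> linarith [h1.1, h1.2, h2.1, h2.2]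

/-- the positive normalised topology tends to one on compact centred data, uniformly in the volume, the window and the topology -/
theorem eg_A_good {a : ℝ} {𝔅 : ℕ → Set ℝ} (h𝔅 : EgTemp a 𝔅) (mm : ℕ) (U ε : ℝ) (hε : 0 < ε) :
    ∃ s0 : ℕ, ∀ (G : Geom) (c : Grid G), Whole c → s0 ≤ c.m → ∀ b ∈ 𝔅 c.m, ∀ m₁ ≤ mm, ∀ m₂ ≤ mm, ∀ (W : EgWin c m₁ m₂) (T : Top c), T.Ok → W.Fits T →
      (W.shape T).NoDiag → ∀ y : c.I → ℝ, (∀ i, |y i| ≤ U) → |Real.log (egA T b a 0 y)| ≤ ε := by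
  obtain ⟨sT, b0, b1, hb0, hbT⟩ := eg_temp_pos h𝔅
  obtain ⟨sA, hsA⟩ := eg_glue_thr mm _ fun m₁ m₂ => eg_soft_A h𝔅 m₁ m₂ U ε hε
  obtain ⟨sX, hsX⟩ := eg_xi_small (2 * U) (ε / 2) (by positivity) (2 * (mm * mm))
  refine ⟨max sT (max sA sX), fun G c hc hs b hb m₁ h1 m₂ h2 W T hT hf hN y hy => ?_⟩
  have hsT : sT ≤ c.m := (le_max_left _ _).trans hs
  have hsA' : sA ≤ c.m := ((le_max_left _ _).trans (le_max_right _ _)).trans hs
  have hsX' : sX ≤ c.m := ((le_max_right _ _).trans (le_max_right _ _)).trans hs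
  have hbp : 0 < b := lt_of_lt_of_le hb0 (hbT _ hsT b hb).1
  have hA := hsA c.m hsA' m₁ h1 m₂ h2 b hb _ _ hN (W.obs y) (fun κ => hy _)
  have hA' : |2 * Real.log (T.Zobs b 0 y / T.Zobs b 0 0) + T.Eobs a 0 y| ≤ ε := by
    rw [eg_win_A hc W T hT hf b a y]
    exact hA
  have hcard : T.faces.card ≤ 2 * (mm * mm) :=
    (eg_glue_faces_card W T.faces hf.2).trans (Nat.mul_le_mul_left _ (Nat.mul_le_mul h1 h2))
  have hX := hsX G c hsX' T.faces hcard 0 y (fun f _ => eg_glue_wf_le y U hy f)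
  have hZy := Zobs_pos hc T b hbp 0 y
  have hZ0 := Zobs_pos hc T b hbp 0 0
  have hXi : 0 < ∏ f ∈ T.faces, chi c.m (wf c 0 y f) := eg_one_xi_pos hc _ 0 y
  have key : Real.log (egA T b a 0 y) = (2 * Real.log (T.Zobs b 0 y / T.Zobs b 0 0) + T.Eobs a 0 y) / 2
      + Real.log (∏ f ∈ T.faces, chi c.m (wf c 0 y f)) := by
    have e : egA T b a 0 y = Real.exp (T.Eobs a 0 y / 2) * (T.Zobs b 0 y / T.Zobs b 0 0) * ∏ f ∈ T.faces, chi c.m (wf c 0 y f) := by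
      unfold egA Top.Zhat
      ring
    rw [e, Real.log_mul (mul_pos (Real.exp_pos _) (div_pos hZy hZ0)).ne' hXi.ne', Real.log_mul (Real.exp_pos _).ne' (div_pos hZy hZ0).ne',
      Real.log_exp]
    ring
  rw [key]
  have t := abs_add_le ((2 * Real.log (T.Zobs b 0 y / T.Zobs b 0 0) + T.Eobs a 0 y) / 2) (Real.log (∏ f ∈ T.faces, chi c.m (wf c 0 y f)))
  rw [abs_div, abs_of_pos (two_pos : (0:ℝ) < 2)] at t
  linarith

/-- absorbing the two soft errors in `η` -/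
theorem eg_glue_absorb (A η x : ℝ) (hA : 0 ≤ A) (hη : 0 < η) (hx0 : 0 ≤ x) (hx : x ≤ A + η / 2) (r rmax : ℕ) (hr1 : 1 ≤ r) (hr2 : r ≤ rmax) :
    x ^ r + (min 1 (η / 2)) ^ rmax ≤ (A + η) ^ r := by
  have hm0 : 0 ≤ min 1 (η / 2) := le_min zero_le_one (by positivity)
  have h1 : (min 1 (η / 2)) ^ rmax ≤ (η / 2) ^ r :=
    (pow_le_pow_of_le_one hm0 (min_le_left _ _) hr2).trans (pow_le_pow_left₀ hm0 (min_le_right _ _) r)
  have h2 : x ^ r ≤ (A + η / 2) ^ r := pow_le_pow_left₀ hx0 hx r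
  have h3 := pow_add_pow_le (x := A + η / 2) (y := η / 2) (by positivity) (by positivity) (n := r) (by omega)
  have h4 : A + η / 2 + η / 2 = A + η := by ring
  rw [h4] at h3
  linarith

theorem eg_glue_arith (Kp Km cp cm : ℝ) (kp km : ℕ) (hKp : 0 ≤ Kp) (hKm : 0 ≤ Km) (m₁ m₂ mm r R : ℕ) (h1 : m₁ ≤ mm) (h2 : m₂ ≤ mm)
    (hmm : 1 ≤ mm) (hr : 1 ≤ r) (S V : ℝ) (hS0 : 0 ≤ S) (hS : S ≤ V) :
    4 * (Kp * ((m₁ * m₂ : ℕ) : ℝ) ^ kp * Real.exp (-cp * R)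
        + Km * ((m₁ * m₂ : ℕ) : ℝ) ^ km * (r : ℝ) ^ km * Real.exp (-cm * R) * (1 + S))
      ≤ 4 * (Kp + Km) * (mm : ℝ) ^ (2 * max kp km) * (r : ℝ) ^ (2 * max kp km) * Real.exp (-(min cp cm) * R) * (1 + V) := by
  have hmmR : (1 : ℝ) ≤ mm := by exact_mod_cast hmm
  have hrR : (1 : ℝ) ≤ r := by exact_mod_cast hr
  have hprod : ((m₁ * m₂ : ℕ) : ℝ) ≤ (mm : ℝ) ^ 2 := by
    have : m₁ * m₂ ≤ mm ^ 2 := by rw [sq]; exact Nat.mul_le_mul h1 h2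
    exact_mod_cast this
  have hP : ∀ j : ℕ, j ≤ max kp km → ((m₁ * m₂ : ℕ) : ℝ) ^ j ≤ (mm : ℝ) ^ (2 * max kp km) := by
    intro j hj
    calc ((m₁ * m₂ : ℕ) : ℝ) ^ j ≤ ((mm : ℝ) ^ 2) ^ j := pow_le_pow_left₀ (Nat.cast_nonneg _) hprod j
      _ = (mm : ℝ) ^ (2 * j) := by rw [pow_mul]
      _ ≤ (mm : ℝ) ^ (2 * max kp km) := pow_le_pow_right₀ hmmR (by omega)
  have hQ : ∀ j : ℕ, j ≤ max kp km → (r : ℝ) ^ j ≤ (r : ℝ) ^ (2 * max kp km) := fun j hj => pow_le_pow_right₀ hrR (by omega)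
  have hR0 : (0 : ℝ) ≤ R := Nat.cast_nonneg _
  have hE1 : Real.exp (-cp * R) ≤ Real.exp (-(min cp cm) * R) :=
    Real.exp_le_exp.2 (mul_le_mul_of_nonneg_right (neg_le_neg (min_le_left _ _)) hR0)
  have hE2 : Real.exp (-cm * R) ≤ Real.exp (-(min cp cm) * R) :=
    Real.exp_le_exp.2 (mul_le_mul_of_nonneg_right (neg_le_neg (min_le_right _ _)) hR0)
  have hV : 0 ≤ V := hS0.trans hS
  have t1 : Kp * ((m₁ * m₂ : ℕ) : ℝ) ^ kp * Real.exp (-cp * R)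
      ≤ Kp * (mm : ℝ) ^ (2 * max kp km) * (r : ℝ) ^ (2 * max kp km) * Real.exp (-(min cp cm) * R) * (1 + V) := by
    calc Kp * ((m₁ * m₂ : ℕ) : ℝ) ^ kp * Real.exp (-cp * R)
        = Kp * ((m₁ * m₂ : ℕ) : ℝ) ^ kp * (r : ℝ) ^ 0 * Real.exp (-cp * R) * (1 + 0) := by simp
      _ ≤ _ := by
        have := hP kp (le_max_left _ _)
        have := hQ 0 (Nat.zero_le _)
        gcongr
  have t2 : Km * ((m₁ * m₂ : ℕ) : ℝ) ^ km * (r : ℝ) ^ km * Real.exp (-cm * R) * (1 + S)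
      ≤ Km * (mm : ℝ) ^ (2 * max kp km) * (r : ℝ) ^ (2 * max kp km) * Real.exp (-(min cp cm) * R) * (1 + V) := by
    have := hP km (le_max_right _ _)
    have := hQ km (le_max_right _ _)
    gcongr
  calc _ ≤ 4 * (Kp * (mm : ℝ) ^ (2 * max kp km) * (r : ℝ) ^ (2 * max kp km) * Real.exp (-(min cp cm) * R) * (1 + V)
        + Km * (mm : ℝ) ^ (2 * max kp km) * (r : ℝ) ^ (2 * max kp km) * Real.exp (-(min cp cm) * R) * (1 + V)) := by linarith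
    _ = _ := by ring

/-- no designated face: the two adjacent topologies agree and `δ = 0` -/
theorem eg_glue_delta_empty {G : Geom} {c : Grid G} (hc : Whole c) (T : Top c) (M : EgMark c) (hF : M.F = ∅) {b : ℝ} (hb : 0 < b) (a : ℝ) (y : c.I → ℝ) (h : G.V → ℤ) :
    egDelta T M b a 0 y h = 0 := by
  have e1 : T.glue M.F = T.cut M.F := by
    rw [hF]; simp [Top.glue, Top.cut]
  have hpos := (eg_X_log hc T M hb a y h).1
  have hZ := Zobs_pos hc ((T.cut M.F).restr M.O) b hb 0 0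
  have hX : egX T M b a 0 y h = 1 := by
    unfold egX egB egC egDE egPo egPc at hpos ⊢
    rw [e1] at hpos ⊢
    rw [div_self hZ.ne', sub_self, neg_zero, zero_div, Real.exp_zero, one_mul, one_mul] at hpos ⊢
    refine div_self ?_
    intro h0
    rw [h0, div_zero] at hpos
    exact lt_irrefl _ hpos
  unfold egDelta egDl
  rw [hX]
  simp

theorem eg_glue_sumsq {m₁ m₂ mm : ℕ} (h1 : m₁ ≤ mm) (h2 : m₂ ≤ mm) (A : Finset (C3.Cell m₁ m₂)) (y : C3.Cell m₁ m₂ → ℝ) (U : ℝ)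
    (hy : ∀ κ, |y κ| ≤ U) : 0 ≤ ∑ κ ∈ A, y κ ^ 2 ∧ ∑ κ ∈ A, y κ ^ 2 ≤ (mm : ℝ) ^ 2 * U ^ 2 := by
  refine ⟨Finset.sum_nonneg fun κ _ => sq_nonneg _, ?_⟩
  have hle : ∀ κ ∈ A, y κ ^ 2 ≤ U ^ 2 := fun κ _ => by
    rw [← sq_abs]; exact pow_le_pow_left₀ (abs_nonneg _) (hy κ) 2
  have hcard : (A.card : ℝ) ≤ (mm : ℝ) ^ 2 := by
    have h3 : A.card ≤ mm ^ 2 := by
      refine (Finset.card_le_univ A).trans ?_
      rw [show Fintype.card (C3.Cell m₁ m₂) = m₁ * m₂ by simp [C3.Cell], sq]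
      exact Nat.mul_le_mul h1 h2
    exact_mod_cast h3
  calc ∑ κ ∈ A, y κ ^ 2 ≤ A.card • U ^ 2 := Finset.sum_le_card_nsmul _ _ _ hle
    _ = (A.card : ℝ) * U ^ 2 := by rw [nsmul_eq_mul]
    _ ≤ _ := mul_le_mul_of_nonneg_right hcard (sq_nonneg _)

set_option maxHeartbeats 1000000 in
/-- **(ent:one-mark-moment)** in the centred gauge on compact data.  `K, c0, k, R1` depend only on `a`; the threshold `s0` depends on everything.
`U` = the compact set (it fixes the threshold), `V` = the ACTUAL size of the datum (v2, helper94 18:55Z: `eg_good_box` needs the bound in terms of the actual box energy). -/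
theorem eg_one_mark_moment {a : ℝ} (ha : 0 < a) {𝔅 : ℕ → Set ℝ} (h𝔅 : EgTemp a 𝔅) : ∃ (K c0 : ℝ) (k R1 : ℕ), 0 ≤ K ∧ 0 < c0 ∧
    ∀ (mm rmax : ℕ) (U η : ℝ), 0 < η → ∃ s0 : ℕ, ∀ (G : Geom) (c : Grid G), Whole c → s0 ≤ c.m → ∀ b ∈ 𝔅 c.m, ∀ m₁ ≤ mm, ∀ m₂ ≤ mm,
      ∀ (W : EgWin c m₁ m₂) (T : Top c), T.Ok → W.Fits T → ∀ (M : EgMark c) (R : ℕ), R1 ≤ R → M.Ok W T R → ∀ y : c.I → ℝ, (∀ i, |y i| ≤ U) →
      ∀ V : ℝ, (∀ i, |y i| ≤ V) → ∀ r : ℕ, 1 ≤ r → r ≤ rmax →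
        egEx T b 0 y (fun h => egDelta T M b a 0 y h ^ r)
          ≤ (K * (mm : ℝ) ^ k * (r : ℝ) ^ k * Real.exp (-c0 * R) * (1 + (mm : ℝ) ^ 2 * V ^ 2) + η) ^ r := by
  obtain ⟨Km, cm, km, hKm, hcm, hmom⟩ := eg_ga_moment a ha
  obtain ⟨Kp, cp, kp, R1p, hKp, hcp, hpin⟩ := eg_ga_pin a ha
  refine ⟨4 * (Kp + Km), min cp cm, 2 * max kp km, max R1p 2, by positivity, lt_min hcp hcm, fun mm rmax U η hη => ?_⟩
  obtain ⟨sT, b0, b1, hb0, hbT⟩ := eg_temp_pos h𝔅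
  have hε' : 0 < η / 16 := by positivity
  have hη' : 0 < (min 1 (η / 2)) ^ rmax := pow_pos (lt_min one_pos (by positivity)) _
  obtain ⟨U', hU'⟩ : ∃ U' : ℝ, U' = max U (max (Kp * ((mm : ℝ) ^ 2) ^ kp + 2 * (η / 16)) ((mm : ℝ) ^ 2 * U ^ 2)) := ⟨_, rfl⟩
  have hU1 : U ≤ U' := hU' ▸ le_max_left _ _
  have hU2 : Kp * ((mm : ℝ) ^ 2) ^ kp + 2 * (η / 16) ≤ U' := hU' ▸ (le_max_left _ _).trans (le_max_right _ _)
  have hU3 : (mm : ℝ) ^ 2 * U ^ 2 ≤ U' := hU' ▸ (le_max_right _ _).trans (le_max_right _ _)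
  obtain ⟨sS, hsS⟩ := eg_glue_thr mm _ fun m₁ m₂ => eg_soft_transfer h𝔅 m₁ m₂ U' _ hη' rmax
  obtain ⟨sP, hsP⟩ := eg_glue_thr mm _ fun m₁ m₂ => eg_soft_pin h𝔅 m₁ m₂ _ hε'
  obtain ⟨sX, hsX⟩ := eg_xi_small (2 * U) _ hε' (2 * (mm * mm))
  refine ⟨max (max sT sS) (max sP sX), fun G c hc hs b hb m₁ h1 m₂ h2 W T hT hf M R hR hM y hy V hV r hr1 hr2 => ?_⟩
  have hsT : sT ≤ c.m := ((le_max_left _ _).trans (le_max_left _ _)).trans hs
  have hsS' : sS ≤ c.m := ((le_max_right _ _).trans (le_max_left _ _)).trans hs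
  have hsP' : sP ≤ c.m := ((le_max_left _ _).trans (le_max_right _ _)).trans hs
  have hsX' : sX ≤ c.m := ((le_max_right _ _).trans (le_max_right _ _)).trans hs
  have hbp : 0 < b := lt_of_lt_of_le hb0 (hbT _ hsT b hb).1
  have hA0 : 0 ≤ 4 * (Kp + Km) * (mm : ℝ) ^ (2 * max kp km) * (r : ℝ) ^ (2 * max kp km) * Real.exp (-(min cp cm) * R) * (1 + (mm : ℝ) ^ 2 * V ^ 2) := by
    positivity
  by_cases hF0 : M.F = ∅
  · have e1 : (fun h => egDelta T M b a 0 y h ^ r) = fun _ => 0 := by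
      funext h
      rw [eg_glue_delta_empty hc T M hF0 hbp a y h, zero_pow (by omega)]
    have e2 : egEx T b 0 y (fun _ => 0) = 0 := by
      unfold egEx egSum C3.ZI
      simp
    rw [e1, e2]
    exact pow_nonneg (add_nonneg hA0 hη.le) _
  obtain ⟨f0, hf0⟩ := Finset.nonempty_iff_ne_empty.2 hF0
  obtain ⟨κ0, -, -⟩ := hM.faceW f0 hf0
  have hmm : 1 ≤ mm := le_trans (Nat.succ_le_of_lt κ0.1.pos) h1
  have hm1 : 1 ≤ c.m := hc.pos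
  obtain ⟨hgeo, hNP⟩ := eg_geo_pull hc W T hT hf M R hM
  have hsep : C3.Sep (M.pull W).H (M.pull W).p := eg_wgeo_sep _ _ R (le_trans (le_max_right _ _) hR) hgeo
  have hNO : (egSh (W.shape (T.cut M.F)).T ((W.shape (T.cut M.F)).cutF \ (M.pull W).F)).NoDiag := by
    refine eg_nodiag_congr (W.shape (T.glue M.F)) _ rfl (fun f κ' hn g1 g2 => ?_) hM.lipO
    have q1 := (eg_shp_shape W (T.glue M.F) (eg_fits_glue W T hf M.F hM.faceW)).faces f κ' hn g1 g2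
    have q2 := (eg_shp_glue hc W T hf M.F hM.faceW).faces f κ' hn g1 g2
    exact q1.trans q2.symm
  -- the parameters
  obtain ⟨hC0, hCD⟩ := eg_cs_bound hc T hT M R hM.geo hbp
  have hDs0 : 0 ≤ egDs T M b := hC0.trans hCD
  have hpin' : (egLw (egWPc (W.shape (T.cut M.F)) (M.pull W)) c.m).gPin a
      ((egWPc (W.shape (T.cut M.F)) (M.pull W)).sites (egGr m₁ m₂ c.m) (egWPc (W.shape (T.cut M.F)) (M.pull W)).pin)
      ((egWPc (W.shape (T.cut M.F)) (M.pull W)).sites (egGr m₁ m₂ c.m) (M.pull W).H)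
      ((egWPc (W.shape (T.cut M.F)) (M.pull W)).sites (egGr m₁ m₂ c.m) (M.pull W).p)
        ≤ Kp * ((m₁ * m₂ : ℕ) : ℝ) ^ kp * Real.exp (-cp * R) :=
    hpin m₁ m₂ c.m hm1 _ _ (M.pull W) R (le_trans (le_max_left _ _) hR) hgeo
  have hsoftP : |(egLw (egWPc (W.shape (T.cut M.F)) (M.pull W)) c.m).dPin b
      ((egWPc (W.shape (T.cut M.F)) (M.pull W)).sites (egGr m₁ m₂ c.m) (M.pull W).H)
      ((egWPc (W.shape (T.cut M.F)) (M.pull W)).sites (egGr m₁ m₂ c.m) (M.pull W).p)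
      - (egLw (egWPc (W.shape (T.cut M.F)) (M.pull W)) c.m).gPin a
      ((egWPc (W.shape (T.cut M.F)) (M.pull W)).sites (egGr m₁ m₂ c.m) (egWPc (W.shape (T.cut M.F)) (M.pull W)).pin)
      ((egWPc (W.shape (T.cut M.F)) (M.pull W)).sites (egGr m₁ m₂ c.m) (M.pull W).H)
      ((egWPc (W.shape (T.cut M.F)) (M.pull W)).sites (egGr m₁ m₂ c.m) (M.pull W).p)| ≤ η / 16 :=
    hsP c.m hsP' m₁ h1 m₂ h2 b hb _ _ hNP (M.pull W).H (M.pull W).p hsep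
  have hDs : egDs T M b ≤ Kp * ((m₁ * m₂ : ℕ) : ℝ) ^ kp * Real.exp (-cp * R) + η / 16 := by
    rw [eg_win_Ds hc W T hT hf M R hM b]
    have := (abs_le.1 hsoftP).2
    linarith
  have hXi : |Real.log (egXiR M 0 y)| ≤ η / 16 :=
    hsX G c hsX' M.F ((eg_glue_faces_card W M.F hM.faceW).trans (Nat.mul_le_mul_left _ (Nat.mul_le_mul h1 h2))) 0 y
      (fun f _ => eg_glue_wf_le y U hy f)
  obtain ⟨θ₁, hθ₁⟩ : ∃ θ₁ : ℝ, θ₁ = egDs T M b + |Real.log (egXiR M 0 y)| := ⟨_, rfl⟩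
  have hθ10 : 0 ≤ θ₁ := hθ₁ ▸ add_nonneg hDs0 (abs_nonneg _)
  have hθ1le : θ₁ ≤ Kp * ((m₁ * m₂ : ℕ) : ℝ) ^ kp * Real.exp (-cp * R) + 2 * (η / 16) := by rw [hθ₁]; linarith
  have hprod : ((m₁ * m₂ : ℕ) : ℝ) ≤ (mm : ℝ) ^ 2 := by
    have : m₁ * m₂ ≤ mm ^ 2 := by rw [sq]; exact Nat.mul_le_mul h1 h2
    exact_mod_cast this
  have hθ1U : θ₁ ≤ U' := by
    refine hθ1le.trans (le_trans ?_ hU2)
    have e1 : Real.exp (-cp * R) ≤ 1 := Real.exp_le_one_iff.2 (by have : (0:ℝ) ≤ R := Nat.cast_nonneg _; nlinarith)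
    have e2 : ((m₁ * m₂ : ℕ) : ℝ) ^ kp ≤ ((mm : ℝ) ^ 2) ^ kp := pow_le_pow_left₀ (Nat.cast_nonneg _) hprod kp
    have e3 : Kp * ((m₁ * m₂ : ℕ) : ℝ) ^ kp * Real.exp (-cp * R) ≤ Kp * ((mm : ℝ) ^ 2) ^ kp * 1 := by gcongr
    linarith
  have hyW : ∀ κ, |W.obs y κ| ≤ U := fun κ => hy _
  have hsq := eg_glue_sumsq h1 h2 (W.shape (T.cut M.F)).T (W.obs y) U hyW
  have hDE := eg_win_DE hc W T hT hf M R hM a y
  have hDEb := eg_ga_DE a ha m₁ m₂ c.m (W.shape (T.cut M.F)).T (W.shape (T.cut M.F)).cutF (M.pull W) (W.obs y)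
  have hθ2U : |egDE T M a 0 y / 2| ≤ U' := by
    rw [hDE, abs_div, abs_of_pos (two_pos : (0:ℝ) < 2)]
    have : |egWDE (W.shape (T.cut M.F)) (M.pull W) a c.m (W.obs y)| ≤ ∑ κ ∈ (W.shape (T.cut M.F)).T, W.obs y κ ^ 2 := hDEb
    have := abs_nonneg (egWDE (W.shape (T.cut M.F)) (M.pull W) a c.m (W.obs y))
    linarith [hsq.2]
  -- the current topology is one of the two adjacent ones
  obtain ⟨top, htop⟩ : ∃ top, egTop T M top = T := by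
    rcases hM.geo.cur with h | h
    · refine ⟨true, ?_⟩
      show T.glue M.F = T
      unfold Top.glue
      rw [Finset.union_eq_left.2 h]
    · refine ⟨false, ?_⟩
      show T.cut M.F = T
      unfold Top.cut
      rw [Finset.sdiff_eq_self_of_disjoint h.symm]
  have s1 : egEx T b 0 y (fun h => egDelta T M b a 0 y h ^ r) ≤ egEx T b 0 y (fun h => egPhi θ₁ (egDE T M a 0 y / 2) r
      (egCL (T.cut M.F) b M.p y h) (egCL (T.glue M.F) b M.p y h) (egRP (T.cut M.F) b M.p M.H h)) := by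
    refine eg_ex_mono hc T hbp 0 y _ _ 1 (fun h => ?_) (fun h => ?_) (fun h => ?_)
    · have := eg_delta_mem hc T M hbp a 0 y h
      rw [abs_of_nonneg (pow_nonneg this.1 _)]
      exact pow_le_one₀ this.1 this.2
    · have := eg_phi_mem θ₁ (egDE T M a 0 y / 2) hθ10 r (egCL (T.cut M.F) b M.p y h) (egCL (T.glue M.F) b M.p y h) (egRP (T.cut M.F) b M.p M.H h)
      rw [abs_of_nonneg this.1]
      exact this.2
    · rw [hθ₁]
      exact eg_delta_le hc T hT M R hM.geo hbp a y h r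
  have s2 := eg_win_transfer hc W T hT hf M R hM hbp top y (egPhi θ₁ (egDE T M a 0 y / 2) r)
  rw [htop] at s2
  have s3 := hsS c.m hsS' m₁ h1 m₂ h2 b hb _ _ hM.lipC (M.pull W) hNO hsep hgeo.face top (W.obs y) (fun κ => (hyW κ).trans hU1)
    θ₁ (egDE T M a 0 y / 2) hθ10 hθ1U hθ2U r hr2
  have s4 := hmom m₁ m₂ c.m hm1 _ _ (M.pull W) R hgeo top (W.obs y) θ₁ hθ10 r hr1
  have s4' : egWG (W.shape (T.cut M.F)) (M.pull W) c.m a top (W.obs y) (egPhi θ₁ (egDE T M a 0 y / 2) r)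
      ≤ (4 * (θ₁ + Km * ((m₁ * m₂ : ℕ) : ℝ) ^ km * (r : ℝ) ^ km * Real.exp (-cm * R) * (1 + ∑ κ ∈ (W.shape (T.cut M.F)).T, W.obs y κ ^ 2))) ^ r := by
    rw [hDE]
    exact s4
  have s3' : egWL (W.shape (T.cut M.F)) (M.pull W) c.m b top (W.obs y) (egPhi θ₁ (egDE T M a 0 y / 2) r)
      ≤ egWG (W.shape (T.cut M.F)) (M.pull W) c.m a top (W.obs y) (egPhi θ₁ (egDE T M a 0 y / 2) r) + (min 1 (η / 2)) ^ rmax := s3
  have hsqV := eg_glue_sumsq h1 h2 (W.shape (T.cut M.F)).T (W.obs y) V (fun κ => hV _)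
  have har := eg_glue_arith Kp Km cp cm kp km hKp hKm m₁ m₂ mm r R h1 h2 hmm hr1 _ _ hsqV.1 hsqV.2
  have hx0 : 0 ≤ 4 * (θ₁ + Km * ((m₁ * m₂ : ℕ) : ℝ) ^ km * (r : ℝ) ^ km * Real.exp (-cm * R) * (1 + ∑ κ ∈ (W.shape (T.cut M.F)).T, W.obs y κ ^ 2)) := by
    have := hsq.1
    positivity
  have hfin := eg_glue_absorb _ η _ hA0 hη hx0 (by linarith) r rmax hr1 hr2
  calc _ ≤ _ := s1
    _ = _ := s2
    _ ≤ _ := s3'
    _ ≤ _ := add_le_add_left s4' _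
    _ ≤ _ := hfin

/-- gauge + recentring: a source-free datum is equivalent to a centred one, bounded by its box energy -/
theorem eg_glue_centre {G : Geom} {c : Grid G} (𝓕 : Finset (Face c)) (τ : Face c → ℤ) (hτ : EgGauge 𝓕 τ) (y : c.I → ℝ) :
    ∃ κ : c.I → ℤ, (∀ f ∈ 𝓕, τ f = (0 : Face c → ℤ) f + κ (fnb c f) - κ f.1) ∧
      ∀ i, |egSh2 y κ i| ≤ Real.pi + Real.sqrt (𝓕.card * egE 𝓕 τ y) := by
  obtain ⟨κ₀, h0⟩ := hτ
  have hE : egE 𝓕 τ y = egE 𝓕 0 (egSh2 y κ₀) := eg_E_gauge 𝓕 τ 0 κ₀ y (fun f hf => by rw [h0 f hf]; simp)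
  obtain ⟨κ₁, h1, h2⟩ := eg_recentre 𝓕 (egSh2 y κ₀)
  refine ⟨fun i => κ₀ i + κ₁ i, fun f hf => ?_, fun i => ?_⟩
  · show τ f = 0 + (κ₀ (fnb c f) + κ₁ (fnb c f)) - (κ₀ f.1 + κ₁ f.1)
    rw [h0 f hf, h1 f hf]
    ring
  · rw [hE]
    have e : egSh2 y (fun i => κ₀ i + κ₁ i) i = egSh2 y κ₀ i + 2 * Real.pi * κ₁ i := by
      unfold egSh2
      push_cast
      ring
    rw [e]
    exact h2 i

theorem eg_glue_box_arith (K c0 : ℝ) (hK : 0 ≤ K) (k kP R r N : ℕ) (hR : 1 ≤ R) (hr : r ≤ R ^ (2 * kP)) (hN : N ≤ 2 * R ^ (2 * kP))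
    (E : ℝ) (hE : 0 ≤ E) :
    K * ((R ^ kP : ℕ) : ℝ) ^ k * (r : ℝ) ^ k * Real.exp (-c0 * R) * (1 + ((R ^ kP : ℕ) : ℝ) ^ 2 * (Real.pi + Real.sqrt (N * E)) ^ 2)
        + Real.exp (-c0 * R)
      ≤ (21 * K + 1) * (R : ℝ) ^ (3 * kP * k + 4 * kP) * Real.exp (-c0 * R) * (1 + E) := by
  have hρ : (1 : ℝ) ≤ R := by exact_mod_cast hR
  obtain ⟨P, hP⟩ : ∃ P : ℝ, P = (R : ℝ) ^ (2 * kP) := ⟨_, rfl⟩
  have hP1 : 1 ≤ P := hP ▸ one_le_pow₀ hρ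
  have e1 : ((R ^ kP : ℕ) : ℝ) ^ 2 = P := by rw [hP]; push_cast; rw [← pow_mul, mul_comm]
  have e2 : ((R ^ kP : ℕ) : ℝ) ^ k = (R : ℝ) ^ (kP * k) := by push_cast; rw [← pow_mul]
  have hrk : (r : ℝ) ^ k ≤ (R : ℝ) ^ (2 * kP * k) := by
    have : (r : ℝ) ≤ (R : ℝ) ^ (2 * kP) := by exact_mod_cast hr
    calc (r : ℝ) ^ k ≤ ((R : ℝ) ^ (2 * kP)) ^ k := pow_le_pow_left₀ (Nat.cast_nonneg _) this k
      _ = _ := by rw [← pow_mul]
  have hNP : (N : ℝ) ≤ 2 * P := by rw [hP]; exact_mod_cast hN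
  have hsq : (Real.pi + Real.sqrt (N * E)) ^ 2 ≤ 20 + 4 * P * E := by
    have h0 : 0 ≤ (N : ℝ) * E := by positivity
    have h1 : Real.sqrt (N * E) ^ 2 = N * E := Real.sq_sqrt h0
    have h2 : Real.pi ^ 2 ≤ 10 := by
      have := Real.pi_lt_d2
      have := Real.pi_pos
      nlinarith
    have h3 : (N : ℝ) * E ≤ 2 * P * E := mul_le_mul_of_nonneg_right hNP hE
    nlinarith [sq_nonneg (Real.pi - Real.sqrt (N * E))]
  have hbr : 1 + P * (Real.pi + Real.sqrt (N * E)) ^ 2 ≤ 21 * (P * P) * (1 + E) := by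
    have h1 : P * (Real.pi + Real.sqrt (N * E)) ^ 2 ≤ P * (20 + 4 * P * E) := mul_le_mul_of_nonneg_left hsq (by linarith)
    have h2 : P ≤ P * P := by nlinarith
    have h3 : 0 ≤ P * P * E := by positivity
    nlinarith
  have ePP : P * P = (R : ℝ) ^ (4 * kP) := by rw [hP, ← pow_add]; congr 1; ring
  have hexp := Real.exp_pos (-c0 * R)
  have t1 : K * ((R ^ kP : ℕ) : ℝ) ^ k * (r : ℝ) ^ k * Real.exp (-c0 * R) * (1 + ((R ^ kP : ℕ) : ℝ) ^ 2 * (Real.pi + Real.sqrt (N * E)) ^ 2)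
      ≤ K * (R : ℝ) ^ (kP * k) * (R : ℝ) ^ (2 * kP * k) * Real.exp (-c0 * R) * (21 * (P * P) * (1 + E)) := by
    rw [e1, e2]
    gcongr
  have t2 : K * (R : ℝ) ^ (kP * k) * (R : ℝ) ^ (2 * kP * k) * Real.exp (-c0 * R) * (21 * (P * P) * (1 + E))
      = 21 * K * (R : ℝ) ^ (3 * kP * k + 4 * kP) * Real.exp (-c0 * R) * (1 + E) := by
    rw [ePP, show 3 * kP * k + 4 * kP = kP * k + 2 * kP * k + 4 * kP by ring, pow_add, pow_add]
    ring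
  have t3 : Real.exp (-c0 * R) ≤ 1 * (R : ℝ) ^ (3 * kP * k + 4 * kP) * Real.exp (-c0 * R) * (1 + E) := by
    have h1 : (1 : ℝ) ≤ (R : ℝ) ^ (3 * kP * k + 4 * kP) := one_le_pow₀ hρ
    have h2 : Real.exp (-c0 * R) ≤ (R : ℝ) ^ (3 * kP * k + 4 * kP) * Real.exp (-c0 * R) := le_mul_of_one_le_left hexp.le h1
    have h3 : 0 ≤ (R : ℝ) ^ (3 * kP * k + 4 * kP) * Real.exp (-c0 * R) := by positivity
    nlinarith
  calc _ ≤ 21 * K * (R : ℝ) ^ (3 * kP * k + 4 * kP) * Real.exp (-c0 * R) * (1 + E)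
        + 1 * (R : ℝ) ^ (3 * kP * k + 4 * kP) * Real.exp (-c0 * R) * (1 + E) := add_le_add (t1.trans t2.le) t3
    _ = _ := by ring

/-- **(ent:good-box)**.  `R` = the separation of the marks (core to the complement of the interior of the guard, in cells); windows of side `≤ R^kP`; allowance `R^{-kE} 𝓔_b`;
`𝓕` = the original faces of the physical region of the box (it contains the current faces and the designated faces of the marks). -/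
theorem eg_good_box {a : ℝ} (ha : 0 < a) {𝔅 : ℕ → Set ℝ} (h𝔅 : EgTemp a 𝔅) (kP kE : ℕ) : ∃ (cg : ℝ) (R0 : ℕ), 0 < cg ∧ ∀ R : ℕ, R0 ≤ R → ∀ U : ℝ,
    ∃ s0 : ℕ, ∀ (G : Geom) (c : Grid G), Whole c → s0 ≤ c.m → ∀ b ∈ 𝔅 c.m, ∀ m₁ ≤ R ^ kP, ∀ m₂ ≤ R ^ kP,
      ∀ (W : EgWin c m₁ m₂) (T : Top c), T.Ok → W.Fits T → (W.shape T).NoDiag →
      ∀ {ι : Type} [Fintype ι] (Ms : ι → EgMark c), (∀ i, (Ms i).Ok W T R) → Fintype.card ι ≤ R ^ (2 * kP) →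
      ∀ 𝓕 : Finset (Face c), T.faces ⊆ 𝓕 → (∀ i, (Ms i).F ⊆ 𝓕) → 𝓕.card ≤ 2 * R ^ (2 * kP) →
      ∀ τ : Face c → ℤ, EgGauge 𝓕 τ → ∀ y : c.I → ℝ, egE 𝓕 τ y ≤ U ^ 2 →
        egQ T Ms b a τ y ≤ 6 * Real.exp (-cg * R * Fintype.card ι + egE 𝓕 τ y / (R : ℝ) ^ kE) := by
  obtain ⟨K, c0, k, R1, hK, hc0, hmom⟩ := eg_one_mark_moment ha h𝔅
  obtain ⟨R0', hnum⟩ := eg_numeric (21 * K + 1) c0 (3 * kP * k + 4 * kP) (2 * kP) kE (by positivity) hc0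
  refine ⟨c0 / 2, max (max R0' R1) 1, by positivity, fun R hR U => ?_⟩
  have hR0' : R0' ≤ R := ((le_max_left _ _).trans (le_max_left _ _)).trans hR
  have hR1 : R1 ≤ R := ((le_max_right _ _).trans (le_max_left _ _)).trans hR
  have hR1' : 1 ≤ R := (le_max_right _ _).trans hR
  obtain ⟨sT, b0, b1, hb0, hbT⟩ := eg_temp_pos h𝔅
  obtain ⟨U₁, hU₁⟩ : ∃ U₁ : ℝ, U₁ = Real.pi + Real.sqrt ((2 * R ^ (2 * kP) : ℕ) * U ^ 2) := ⟨_, rfl⟩
  obtain ⟨sM, hsM⟩ := hmom (R ^ kP) (R ^ (2 * kP)) U₁ (Real.exp (-c0 * R)) (Real.exp_pos _)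
  obtain ⟨sA, hsA⟩ := eg_A_good h𝔅 (R ^ kP) U₁ (Real.log 2) (Real.log_pos one_lt_two)
  refine ⟨max sT (max sM sA), fun G c hc hs b hb m₁ h1 m₂ h2 W T hT hf hN ι _ Ms hMs hj 𝓕 hT𝓕 hM𝓕 hcard τ hτ y hE => ?_⟩
  have hbp : 0 < b := lt_of_lt_of_le hb0 (hbT _ ((le_max_left _ _).trans hs) b hb).1
  have hsM' : sM ≤ c.m := ((le_max_left _ _).trans (le_max_right _ _)).trans hs
  have hsA' : sA ≤ c.m := ((le_max_right _ _).trans (le_max_right _ _)).trans hs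
  have hE0 : 0 ≤ egE 𝓕 τ y := Finset.sum_nonneg fun f _ => sq_nonneg _
  obtain ⟨κ, hκ, hy⟩ := eg_glue_centre 𝓕 τ hτ y
  have hy' : ∀ i, |egSh2 y κ i| ≤ U₁ := by
    intro i
    rw [hU₁]
    refine (hy i).trans (add_le_add_right (Real.sqrt_le_sqrt ?_) _)
    have hc' : (𝓕.card : ℝ) ≤ ((2 * R ^ (2 * kP) : ℕ) : ℝ) := by exact_mod_cast hcard
    exact mul_le_mul hc' hE hE0 (Nat.cast_nonneg _)
  rw [eg_Q_gauge hc T hT Ms (fun i => eg_win_ok_mark W T (Ms i) R (hMs i)) (fun i => (hMs i).geo.p_sub.trans (hMs i).geo.O_sub) b a τ 0 κ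
    (fun f hf' => hκ f (hf'.elim (fun h => hT𝓕 h) (fun ⟨i, h⟩ => hM𝓕 i h))) y]
  -- the positive factor
  have hl := hsA G c hc hsA' b hb m₁ h1 m₂ h2 W T hT hf hN _ hy'
  have hpos := eg_A_pos hc T hbp a 0 (egSh2 y κ)
  have hA2 : egA T b a 0 (egSh2 y κ) ≤ 2 := by
    have := (abs_le.1 hl).2
    exact (Real.log_le_log_iff hpos two_pos).1 this
  -- the moments
  obtain ⟨r, hr⟩ : ∃ r : ℕ, r = max (Fintype.card ι) 1 := ⟨_, rfl⟩
  have hr1 : 1 ≤ r := hr ▸ le_max_right _ _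
  have hrj : Fintype.card ι ≤ r := hr ▸ le_max_left _ _
  have hrmax : r ≤ R ^ (2 * kP) := hr ▸ max_le hj (Nat.one_le_pow _ _ hR1')
  obtain ⟨ϰ, hϰ⟩ : ∃ ϰ : ℝ, ϰ = K * ((R ^ kP : ℕ) : ℝ) ^ k * (r : ℝ) ^ k * Real.exp (-c0 * R)
      * (1 + ((R ^ kP : ℕ) : ℝ) ^ 2 * (Real.pi + Real.sqrt (𝓕.card * egE 𝓕 τ y)) ^ 2) + Real.exp (-c0 * R) := ⟨_, rfl⟩
  have hϰ0 : 0 < ϰ := by
    rw [hϰ]
    have := Real.exp_pos (-c0 * R)
    positivity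
  have hm : ∀ i, egEx T b 0 (egSh2 y κ) (fun h => egDelta T (Ms i) b a 0 (egSh2 y κ) h ^ r) ≤ ϰ ^ r := by
    intro i
    rw [hϰ]
    exact hsM G c hc hsM' b hb m₁ h1 m₂ h2 W T hT hf (Ms i) R hR1 (hMs i) _ hy' _ hy r hr1 hrmax
  have hhol := eg_holder hc T hbp 0 (egSh2 y κ) (fun i h => egDelta T (Ms i) b a 0 (egSh2 y κ) h)
    (fun i h => eg_delta_mem hc T (Ms i) hbp a 0 (egSh2 y κ) h) r hrj hr1 ϰ hϰ0 hm
  have hϰle : ϰ ≤ (21 * K + 1) * (R : ℝ) ^ (3 * kP * k + 4 * kP) * Real.exp (-c0 * R) * (1 + egE 𝓕 τ y) := by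
    rw [hϰ]
    exact eg_glue_box_arith K c0 hK k kP R r 𝓕.card hR1' hrmax hcard _ hE0
  have hn := hnum R hR0' (Fintype.card ι) hj (egE 𝓕 τ y) hE0
  have hex0 : 0 ≤ egEx T b 0 (egSh2 y κ) (fun h => ∏ i, egDelta T (Ms i) b a 0 (egSh2 y κ) h) :=
    (eg_ex_mem hc T hbp 0 (egSh2 y κ) _ (fun h => ⟨Finset.prod_nonneg fun i _ => (eg_delta_mem hc T (Ms i) hbp a 0 _ h).1,
      Finset.prod_le_one (fun i _ => (eg_delta_mem hc T (Ms i) hbp a 0 _ h).1) (fun i _ => (eg_delta_mem hc T (Ms i) hbp a 0 _ h).2)⟩)).1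
  unfold egQ
  calc egA T b a 0 (egSh2 y κ) * egEx T b 0 (egSh2 y κ) (fun h => ∏ i, egDelta T (Ms i) b a 0 (egSh2 y κ) h)
      ≤ 2 * ϰ ^ Fintype.card ι := mul_le_mul hA2 hhol hex0 (by norm_num)
    _ ≤ 2 * ((21 * K + 1) * (R : ℝ) ^ (3 * kP * k + 4 * kP) * Real.exp (-c0 * R) * (1 + egE 𝓕 τ y)) ^ Fintype.card ι :=
        mul_le_mul_of_nonneg_left (pow_le_pow_left₀ hϰ0.le hϰle _) (by norm_num)
    _ ≤ 2 * (3 * Real.exp (-(c0 / 2) * R * Fintype.card ι + egE 𝓕 τ y / (R : ℝ) ^ kE)) := mul_le_mul_of_nonneg_left hn (by norm_num)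
    _ = _ := by ring

/-- **isolated tiles / positive topologies on good data**: `|𝒜 - 1| ≤ ε`  (`𝒜 = T_Q` for an isolated tile `Q`). -/
theorem eg_good_tile {a : ℝ} {𝔅 : ℕ → Set ℝ} (h𝔅 : EgTemp a 𝔅) (mm : ℕ) (U ε : ℝ) (hε : 0 < ε) :
    ∃ s0 : ℕ, ∀ (G : Geom) (c : Grid G), Whole c → s0 ≤ c.m → ∀ b ∈ 𝔅 c.m, ∀ m₁ ≤ mm, ∀ m₂ ≤ mm, ∀ (W : EgWin c m₁ m₂) (T : Top c), T.Ok → W.Fits T →
      (W.shape T).NoDiag → ∀ 𝓕 : Finset (Face c), T.faces ⊆ 𝓕 → 𝓕.card ≤ 2 * mm ^ 2 → ∀ τ : Face c → ℤ, EgGauge 𝓕 τ → ∀ y : c.I → ℝ, egE 𝓕 τ y ≤ U ^ 2 →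
        |egA T b a τ y - 1| ≤ ε := by
  obtain ⟨sT, b0, b1, hb0, hbT⟩ := eg_temp_pos h𝔅
  have hε1 : 0 < min 1 (ε / 2) := lt_min one_pos (by positivity)
  obtain ⟨sA, hsA⟩ := eg_A_good h𝔅 mm (Real.pi + Real.sqrt ((2 * mm ^ 2 : ℕ) * U ^ 2)) _ hε1
  refine ⟨max sT sA, fun G c hc hs b hb m₁ h1 m₂ h2 W T hT hf hN 𝓕 hT𝓕 hcard τ hτ y hE => ?_⟩
  have hbp : 0 < b := lt_of_lt_of_le hb0 (hbT _ ((le_max_left _ _).trans hs) b hb).1
  obtain ⟨κ, hκ, hy⟩ := eg_glue_centre 𝓕 τ hτ y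
  have hy' : ∀ i, |egSh2 y κ i| ≤ Real.pi + Real.sqrt ((2 * mm ^ 2 : ℕ) * U ^ 2) := by
    intro i
    refine (hy i).trans (add_le_add_right (Real.sqrt_le_sqrt ?_) _)
    have h0 : 0 ≤ egE 𝓕 τ y := Finset.sum_nonneg fun f _ => sq_nonneg _
    have hc' : (𝓕.card : ℝ) ≤ ((2 * mm ^ 2 : ℕ) : ℝ) := by exact_mod_cast hcard
    exact mul_le_mul hc' hE h0 (Nat.cast_nonneg _)
  have hl := hsA G c hc ((le_max_right _ _).trans hs) b hb m₁ h1 m₂ h2 W T hT hf hN _ hy'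
  rw [eg_gau_A hc T hT b a τ 0 κ y (fun f hf' => hκ f (hT𝓕 hf'))]
  have hpos := eg_A_pos hc T hbp a 0 (egSh2 y κ)
  have h3 := Real.abs_exp_sub_one_le (x := Real.log (egA T b a 0 (egSh2 y κ))) (hl.trans (min_le_left _ _))
  rw [Real.exp_log hpos] at h3
  have := hl.trans (min_le_right _ _)
  linarith

end

end Claimed.Agent.R285.Entry
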