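import Claimed.Agent.R285.Entry.NtDefs
import Claimed.Agent.R285.Ent.Geo

/-!
# ROW 285, ENTRY, post NORM/GEO: `ngeo_of : GeoOK c R → NGeo c R`            (helper30)
The metric facts of `Entry/NtDefs.lean` (`NGeo`).  All constructions of cells stay inside the `R`-period of a given cell (no wrap-around, no wall):
* s1 `ng_place`, `ng_step` (cells of a period), `NAdj1`, `NAdj`, `ng_ringb` (the boundary of a vertex tile in one coordinate), `ng_bandb` (the long side of an edge tile);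
* s2 evaluation of `tile`; `ng_ring_face`, `ng_edge_face` (faces of the cores);
* s3 `ng_ctl_ring` (the square around a vertex lies in `ctl`), `ng_ctl_edge`, `ng_adj` (a ring and an edge event which are close have a common core cell);
* s4 counting; s5 the chain; s6 `ngeo_of`.
-/

set_option autoImplicit false

namespace Claimed.Agent.R285.Entry

open scoped BigOperators
open Claimed.Agent.R285 Claimed.Agent.R285.RG Claimed.Agent.R285.F4a Claimed.Agent.R285.Ent Claimed.Agent.R285.Geo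

variable {G : Geom} {c : Grid G} {R : ℕ}

/-! ## 1. One coordinate -/

/-- the cell at the place `u` of the period of `x` -/
theorem ng_place (h : Adm c R) (x : Fin c.n) {u : ℕ} (hu : u < R) :
    ∃ x' : Fin c.n, (x' : ℕ) / R = (x : ℕ) / R ∧ (x' : ℕ) % R = u := by
  obtain ⟨K, hK⟩ := h.dvd
  have hx := x.2
  have hlt : (x : ℕ) / R < K := by
    rw [Nat.div_lt_iff_lt_mul h.pos, Nat.mul_comm, ← hK]; exact hx
  have h1 : R * ((x : ℕ) / R) + u < c.n := by
    calc R * ((x : ℕ) / R) + u < R * ((x : ℕ) / R) + R := by omega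
      _ = R * ((x : ℕ) / R + 1) := by ring
      _ ≤ R * K := Nat.mul_le_mul_left _ hlt
      _ = c.n := hK.symm
  exact ⟨⟨R * ((x : ℕ) / R) + u, h1⟩, (dm_of rfl hu).1, (dm_of rfl hu).2⟩

/-- a step inside a period -/
theorem ng_step (h : Adm c R) (x : Fin c.n) (hx : (x : ℕ) % R + 1 < R) :
    (x : ℕ) + 1 < c.n ∧ (nx x : ℕ) / R = (x : ℕ) / R ∧ (nx x : ℕ) % R = (x : ℕ) % R + 1 := by
  obtain ⟨K, hK⟩ := h.dvd
  have hx' := x.2
  have e := Nat.div_add_mod (x : ℕ) R
  have hlt : (x : ℕ) / R < K := by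
    rw [Nat.div_lt_iff_lt_mul h.pos, Nat.mul_comm, ← hK]; exact hx'
  have h1 : (x : ℕ) + 1 < c.n := by
    calc (x : ℕ) + 1 = R * ((x : ℕ) / R) + ((x : ℕ) % R + 1) := by omega
      _ < R * ((x : ℕ) / R) + R := by omega
      _ = R * ((x : ℕ) / R + 1) := by ring
      _ ≤ R * K := Nat.mul_le_mul_left _ hlt
      _ = c.n := hK.symm
  have e1 : (nx x : ℕ) = (x : ℕ) + 1 := Nat.mod_eq_of_lt h1
  have := dm_of (R := R) (x := (x : ℕ) + 1) (a := (x : ℕ) / R) (u := (x : ℕ) % R + 1) (by omega) hx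
  rw [e1]
  exact ⟨h1, this.1, this.2⟩

/-- neighbours in one coordinate (not through a wall) -/
def NAdj1 (c : Grid G) (x x' : Fin c.n) : Prop := ((x : ℕ) + 1 < c.n ∧ nx x = x') ∨ ((x' : ℕ) + 1 < c.n ∧ nx x' = x)

/-- the two cells of a face -/
def NAdj (c : Grid G) (a b : c.I) : Prop := ∃ f : Face c, IsFace c f ∧ ((f.1 = a ∧ fnb c f = b) ∨ (f.1 = b ∧ fnb c f = a))

theorem ng_adj_x {x x' : Fin c.n} (hx : NAdj1 c x x') (y : Fin c.n) : NAdj c (x, y) (x', y) := by
  rcases hx with ⟨h1, h2⟩ | ⟨h1, h2⟩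
  · exact ⟨((x, y), true), Or.inr (by simpa using h1), Or.inl ⟨rfl, by simp [fnb, h2]⟩⟩
  · exact ⟨((x', y), true), Or.inr (by simpa using h1), Or.inr ⟨rfl, by simp [fnb, h2]⟩⟩

theorem ng_adj_y (x : Fin c.n) {y y' : Fin c.n} (hy : NAdj1 c y y') : NAdj c (x, y) (x, y') := by
  rcases hy with ⟨h1, h2⟩ | ⟨h1, h2⟩
  · exact ⟨((x, y), false), Or.inr (by simpa using h1), Or.inl ⟨rfl, by simp [fnb, h2]⟩⟩
  · exact ⟨((x, y'), false), Or.inr (by simpa using h1), Or.inr ⟨rfl, by simp [fnb, h2]⟩⟩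

/-- **the boundary of the vertex tile next to `x`**, in the period of `x`: `xv` inside, `xo` outside -/
theorem ng_ringb (h : Adm c R) (x : Fin c.n) : ∃ xo xv : Fin c.n, NAdj1 c xv xo ∧ (xo : ℕ) / R = (x : ℕ) / R ∧ (xv : ℕ) / R = (x : ℕ) / R ∧
    (R / 4 ≤ (xo : ℕ) % R ∧ (xo : ℕ) % R < 3 * (R / 4)) ∧
    ((R / 16 ≤ (xv : ℕ) % R ∧ (xv : ℕ) % R < R / 4) ∨ (3 * (R / 4) ≤ (xv : ℕ) % R ∧ (xv : ℕ) % R < 15 * (R / 16))) ∧
    red c R (((xv : ℕ) + R / 4) / R) = red c R (((x : ℕ) + R / 2) / R) := by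
  have h64 := h.d64
  have hp := h.pos
  have lx := Nat.mod_lt (x : ℕ) hp
  by_cases hx : (x : ℕ) % R < R / 2
  · obtain ⟨xv, v1, v2⟩ := ng_place h x (u := R / 4 - 1) (by omega)
    obtain ⟨s1, s2, s3⟩ := ng_step h xv (by omega)
    refine ⟨nx xv, xv, Or.inl ⟨s1, rfl⟩, by omega, v1, by omega, by omega, ?_⟩
    rcases shift_cases hp (xv : ℕ) (R / 4) (by omega) with q | q <;>
    rcases shift_cases hp (x : ℕ) (R / 2) (by omega) with q' | q'
    · rw [q.2.1, q'.2.1, v1]
    all_goals omega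
  · obtain ⟨xo, o1, o2⟩ := ng_place h x (u := 3 * (R / 4) - 1) (by omega)
    obtain ⟨s1, s2, s3⟩ := ng_step h xo (by omega)
    refine ⟨xo, nx xo, Or.inr ⟨s1, rfl⟩, o1, by omega, by omega, by omega, ?_⟩
    rcases shift_cases hp (nx xo : ℕ) (R / 4) (by omega) with q | q <;>
    rcases shift_cases hp (x : ℕ) (R / 2) (by omega) with q' | q'
    · omega
    · omega
    · omega
    · rw [q.2.1, q'.2.1, s2, o1]

/-- **the long side of the edge tile next to `y`**, in the period of `y`: `yE` inside the band, `yF` outside -/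
theorem ng_bandb (h : Adm c R) (y : Fin c.n) : ∃ yF yE : Fin c.n, NAdj1 c yE yF ∧ (yF : ℕ) / R = (y : ℕ) / R ∧ (yE : ℕ) / R = (y : ℕ) / R ∧
    ((R / 16 ≤ (yF : ℕ) % R ∧ (yF : ℕ) % R < R / 4) ∨ (3 * (R / 4) ≤ (yF : ℕ) % R ∧ (yF : ℕ) % R < 15 * (R / 16))) ∧
    ((yE : ℕ) % R < R / 16 ∨ 15 * (R / 16) ≤ (yE : ℕ) % R) ∧
    red c R (((yE : ℕ) + R / 16) / R) = red c R (((y : ℕ) + R / 2) / R) ∧ red c R (((yF : ℕ) + R / 4) / R) = red c R (((y : ℕ) + R / 2) / R) := by
  have h64 := h.d64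
  have hp := h.pos
  have ly := Nat.mod_lt (y : ℕ) hp
  by_cases hy : (y : ℕ) % R < R / 2
  · obtain ⟨yE, v1, v2⟩ := ng_place h y (u := R / 16 - 1) (by omega)
    obtain ⟨s1, s2, s3⟩ := ng_step h yE (by omega)
    refine ⟨nx yE, yE, Or.inl ⟨s1, rfl⟩, by omega, v1, by omega, by omega, ?_, ?_⟩
    · rcases shift_cases hp (yE : ℕ) (R / 16) (by omega) with q | q <;>
      rcases shift_cases hp (y : ℕ) (R / 2) (by omega) with q' | q'
      · rw [q.2.1, q'.2.1, v1]
      all_goals omega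
    · rcases shift_cases hp (nx yE : ℕ) (R / 4) (by omega) with q | q <;>
      rcases shift_cases hp (y : ℕ) (R / 2) (by omega) with q' | q'
      · rw [q.2.1, q'.2.1, s2, v1]
      all_goals omega
  · obtain ⟨yF, o1, o2⟩ := ng_place h y (u := 15 * (R / 16) - 1) (by omega)
    obtain ⟨s1, s2, s3⟩ := ng_step h yF (by omega)
    refine ⟨yF, nx yF, Or.inr ⟨s1, rfl⟩, o1, by omega, by omega, by omega, ?_, ?_⟩
    · rcases shift_cases hp (nx yF : ℕ) (R / 16) (by omega) with q | q <;>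
      rcases shift_cases hp (y : ℕ) (R / 2) (by omega) with q' | q'
      · omega
      · omega
      · omega
      · rw [q.2.1, q'.2.1, s2, o1]
    · rcases shift_cases hp (yF : ℕ) (R / 4) (by omega) with q | q <;>
      rcases shift_cases hp (y : ℕ) (R / 2) (by omega) with q' | q'
      · omega
      · omega
      · omega
      · rw [q.2.1, q'.2.1, o1]

/-! ## 2. Evaluation of `tile`, faces of the cores -/

theorem ng_tile_V (h : Adm c R) (i : c.I) (h1 : (i.1 : ℕ) % R < R / 4 ∨ 3 * (R / 4) ≤ (i.1 : ℕ) % R)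
    (h2 : (i.2 : ℕ) % R < R / 4 ∨ 3 * (R / 4) ≤ (i.2 : ℕ) % R) :
    tile c R i = (false, true, red c R (((i.1 : ℕ) + R / 4) / R), red c R (((i.2 : ℕ) + R / 4) / R)) :=
  tile_V ((near_iff h _).2 h1) ((near_iff h _).2 h2)

theorem ng_tile_Eh (h : Adm c R) (i : c.I) (h1 : R / 4 ≤ (i.1 : ℕ) % R ∧ (i.1 : ℕ) % R < 3 * (R / 4))
    (h2 : (i.2 : ℕ) % R < R / 16 ∨ 15 * (R / 16) ≤ (i.2 : ℕ) % R) :
    tile c R i = (true, true, (i.1 : ℕ) / R, red c R (((i.2 : ℕ) + R / 16) / R)) := by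
  have h64 := h.d64
  rcases tile_cases h i with ⟨c1, e1⟩ | ⟨c1, e1⟩ | ⟨c1, e1⟩ | ⟨c1, e1⟩
  · exfalso; omega
  · exact e1
  · exfalso; omega
  · exfalso; omega

theorem ng_tile_Ev (h : Adm c R) (i : c.I) (h1 : (i.1 : ℕ) % R < R / 16 ∨ 15 * (R / 16) ≤ (i.1 : ℕ) % R)
    (h2 : R / 4 ≤ (i.2 : ℕ) % R ∧ (i.2 : ℕ) % R < 3 * (R / 4)) :
    tile c R i = (true, false, red c R (((i.1 : ℕ) + R / 16) / R), (i.2 : ℕ) / R) := by
  have h64 := h.d64
  rcases tile_cases h i with ⟨c1, e1⟩ | ⟨c1, e1⟩ | ⟨c1, e1⟩ | ⟨c1, e1⟩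
  · exfalso; omega
  · exfalso; omega
  · exact e1
  · exfalso; omega

theorem ng_tile_F (h : Adm c R) (i : c.I)
    (h1 : ((R / 4 ≤ (i.1 : ℕ) % R ∧ (i.1 : ℕ) % R < 3 * (R / 4)) ∧ (R / 16 ≤ (i.2 : ℕ) % R ∧ (i.2 : ℕ) % R < 15 * (R / 16))) ∨
      ((R / 16 ≤ (i.1 : ℕ) % R ∧ (i.1 : ℕ) % R < 15 * (R / 16)) ∧ (R / 4 ≤ (i.2 : ℕ) % R ∧ (i.2 : ℕ) % R < 3 * (R / 4)))) :
    tile c R i = (false, false, (i.1 : ℕ) / R, (i.2 : ℕ) / R) := by
  have h64 := h.d64
  rcases tile_cases h i with ⟨c1, e1⟩ | ⟨c1, e1⟩ | ⟨c1, e1⟩ | ⟨c1, e1⟩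
  · exfalso; omega
  · exfalso; omega
  · exfalso; omega
  · exact e1

/-- vertex tiles -/
def IsV (t : Tile) : Prop := t.1 = false ∧ t.2.1 = true

/-- a face between a vertex tile and another tile belongs to the ring -/
theorem ng_ring_face {a b : c.I} (hab : NAdj c a b) {k : EvId} (ha : tile c R a = k) (hk : IsV k) (hb : ¬ IsV (tile c R b)) :
    a ∈ core c R k ∧ b ∈ core c R k := by
  have hne : tile c R b ≠ tile c R a := fun e => hb (by rw [e, ha]; exact hk)
  obtain ⟨f, hf, ⟨rfl, rfl⟩ | ⟨rfl, rfl⟩⟩ := hab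
  · have hs : f ∈ seam c R := mem_seam.2 ⟨hf, hne⟩
    have hkey : evKey c R f = k := by
      unfold evKey
      rw [if_pos (by rw [ha]; exact hk), ha]
    exact ⟨mem_core.2 ⟨f, hs, hkey, Or.inl rfl⟩, mem_core.2 ⟨f, hs, hkey, Or.inr rfl⟩⟩
  · have hs : f ∈ seam c R := mem_seam.2 ⟨hf, hne.symm⟩
    have hkey : evKey c R f = k := by
      unfold evKey
      have hb' : ¬ ((tile c R f.1).1 = false ∧ (tile c R f.1).2.1 = true) := hb
      rw [if_neg hb', if_pos (by rw [ha]; exact hk), ha]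
    exact ⟨mem_core.2 ⟨f, hs, hkey, Or.inr rfl⟩, mem_core.2 ⟨f, hs, hkey, Or.inl rfl⟩⟩

/-- a face between an edge tile and a face tile belongs to the event of the edge tile -/
theorem ng_edge_face {a b : c.I} (hab : NAdj c a b) {k : EvId} (ha : tile c R a = k) (hk : k.1 = true)
    (hb : (tile c R b).1 = false ∧ (tile c R b).2.1 = false) : a ∈ core c R k ∧ b ∈ core c R k := by
  have hne : tile c R b ≠ tile c R a := fun e => by rw [e, ha, hk] at hb; exact Bool.noConfusion hb.1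
  have hbV : ¬ ((tile c R b).1 = false ∧ (tile c R b).2.1 = true) := fun q => by rw [hb.2] at q; exact Bool.noConfusion q.2
  have haV : ¬ ((tile c R a).1 = false ∧ (tile c R a).2.1 = true) := fun q => by rw [ha, hk] at q; exact Bool.noConfusion q.1
  obtain ⟨f, hf, ⟨rfl, rfl⟩ | ⟨rfl, rfl⟩⟩ := hab
  · have hs : f ∈ seam c R := mem_seam.2 ⟨hf, hne⟩
    have hkey : evKey c R f = k := by
      unfold evKey
      rw [if_neg haV, if_neg hbV, if_pos (by rw [ha]; exact hk), ha]
    exact ⟨mem_core.2 ⟨f, hs, hkey, Or.inl rfl⟩, mem_core.2 ⟨f, hs, hkey, Or.inr rfl⟩⟩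
  · have hs : f ∈ seam c R := mem_seam.2 ⟨hf, hne.symm⟩
    have hkey : evKey c R f = k := by
      unfold evKey
      rw [if_neg hbV, if_neg haV, if_neg (by rw [hb.1]; exact Bool.noConfusion), ha]
    exact ⟨mem_core.2 ⟨f, hs, hkey, Or.inr rfl⟩, mem_core.2 ⟨f, hs, hkey, Or.inl rfl⟩⟩

theorem ng_mem_ctl {k : EvId} {i : c.I} : i ∈ ctl c R k ↔ ∃ j ∈ core c R k, tile c R j = tile c R i := by
  unfold ctl
  rw [mem_cellsOf, Finset.mem_image]

theorem ng_not_V (h : Adm c R) (i : c.I)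
    (h1 : (R / 4 ≤ (i.1 : ℕ) % R ∧ (i.1 : ℕ) % R < 3 * (R / 4)) ∨ (R / 4 ≤ (i.2 : ℕ) % R ∧ (i.2 : ℕ) % R < 3 * (R / 4))) :
    ¬ IsV (tile c R i) := by
  have h64 := h.d64
  rcases tile_cases h i with ⟨c1, e1⟩ | ⟨c1, e1⟩ | ⟨c1, e1⟩ | ⟨c1, e1⟩
  · exfalso; omega
  all_goals (rw [e1]; simp [IsV])

theorem ng_tile_midx (h : Adm c R) {x x' : Fin c.n} (y : Fin c.n) (hx : R / 4 ≤ (x : ℕ) % R ∧ (x : ℕ) % R < 3 * (R / 4))
    (hx' : R / 4 ≤ (x' : ℕ) % R ∧ (x' : ℕ) % R < 3 * (R / 4)) (e : (x : ℕ) / R = (x' : ℕ) / R) : tile c R (x, y) = tile c R (x', y) := by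
  by_cases hy : (y : ℕ) % R < R / 16 ∨ 15 * (R / 16) ≤ (y : ℕ) % R
  · rw [ng_tile_Eh h (x, y) hx hy, ng_tile_Eh h (x', y) hx' hy]
    simp only [e]
  · rw [ng_tile_F h (x, y) (Or.inl ⟨hx, by simp only; omega⟩), ng_tile_F h (x', y) (Or.inl ⟨hx', by simp only; omega⟩)]
    simp only [e]

theorem ng_tile_midy (h : Adm c R) (x : Fin c.n) {y y' : Fin c.n} (hy : R / 4 ≤ (y : ℕ) % R ∧ (y : ℕ) % R < 3 * (R / 4))
    (hy' : R / 4 ≤ (y' : ℕ) % R ∧ (y' : ℕ) % R < 3 * (R / 4)) (e : (y : ℕ) / R = (y' : ℕ) / R) : tile c R (x, y) = tile c R (x, y') := by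
  by_cases hx : (x : ℕ) % R < R / 16 ∨ 15 * (R / 16) ≤ (x : ℕ) % R
  · rw [ng_tile_Ev h (x, y) hx hy, ng_tile_Ev h (x, y') hx hy']
    simp only [e]
  · rw [ng_tile_F h (x, y) (Or.inr ⟨by simp only; omega, hy⟩), ng_tile_F h (x, y') (Or.inr ⟨by simp only; omega, hy'⟩)]
    simp only [e]

theorem ng_mkV {k : EvId} (hk : IsV k) {A B : ℕ} (hA : A = k.2.2.1) (hB : B = k.2.2.2) : ((false, true, A, B) : Tile) = k := by
  obtain ⟨b1, b2, p, q⟩ := k
  obtain ⟨e1, e2⟩ := hk
  simp only at e1 e2 hA hB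
  rw [e1, e2, hA, hB]

/-! ## 3. The three geometric facts -/

/-- **the `R × R` square around a vertex lies in the tiles at its ring** -/
theorem ng_ctl_ring (h : Adm c R) {k : EvId} (hk : IsV k) (i : c.I) (h1 : red c R (((i.1 : ℕ) + R / 2) / R) = k.2.2.1)
    (h2 : red c R (((i.2 : ℕ) + R / 2) / R) = k.2.2.2) : i ∈ ctl c R k := by
  have h64 := h.d64
  have hp := h.pos
  obtain ⟨x, y⟩ := i
  simp only at h1 h2
  obtain ⟨xo, xv, ax, xo1, xv1, xo2, xv2, xv3⟩ := ng_ringb h x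
  obtain ⟨yo, yv, ay, yo1, yv1, yo2, yv2, yv3⟩ := ng_ringb h y
  have lx := Nat.mod_lt (x : ℕ) hp
  have ly := Nat.mod_lt (y : ℕ) hp
  rw [ng_mem_ctl]
  by_cases nx' : (x : ℕ) % R < R / 4 ∨ 3 * (R / 4) ≤ (x : ℕ) % R
  · have ex : red c R (((x : ℕ) + R / 4) / R) = k.2.2.1 := by rw [near_div h _ ((near_iff h _).2 nx')]; exact h1
    by_cases ny : (y : ℕ) % R < R / 4 ∨ 3 * (R / 4) ≤ (y : ℕ) % R
    · have ey : red c R (((y : ℕ) + R / 4) / R) = k.2.2.2 := by rw [near_div h _ ((near_iff h _).2 ny)]; exact h2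
      have tv : tile c R (xv, y) = k := by
        rw [ng_tile_V h (xv, y) (by simp only; omega) ny]
        exact ng_mkV hk (xv3.trans h1) ey
      have ti : tile c R (x, y) = k := by
        rw [ng_tile_V h (x, y) nx' ny]
        exact ng_mkV hk ex ey
      exact ⟨(xv, y), (ng_ring_face (ng_adj_x ax y) tv hk (ng_not_V h (xo, y) (Or.inl xo2))).1, by rw [tv, ti]⟩
    · have my : R / 4 ≤ (y : ℕ) % R ∧ (y : ℕ) % R < 3 * (R / 4) := by omega
      have tv : tile c R (x, yv) = k := by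
        rw [ng_tile_V h (x, yv) nx' (by simp only; omega)]
        exact ng_mkV hk ex (yv3.trans h2)
      exact ⟨(x, yo), (ng_ring_face (ng_adj_y x ay) tv hk (ng_not_V h (x, yo) (Or.inr yo2))).2, ng_tile_midy h x yo2 my yo1⟩
  · have mx : R / 4 ≤ (x : ℕ) % R ∧ (x : ℕ) % R < 3 * (R / 4) := by omega
    by_cases ny : (y : ℕ) % R < R / 4 ∨ 3 * (R / 4) ≤ (y : ℕ) % R
    · have ey : red c R (((y : ℕ) + R / 4) / R) = k.2.2.2 := by rw [near_div h _ ((near_iff h _).2 ny)]; exact h2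
      have tv : tile c R (xv, y) = k := by
        rw [ng_tile_V h (xv, y) (by simp only; omega) ny]
        exact ng_mkV hk (xv3.trans h1) ey
      exact ⟨(xo, y), (ng_ring_face (ng_adj_x ax y) tv hk (ng_not_V h (xo, y) (Or.inl xo2))).2, ng_tile_midx h y xo2 mx xo1⟩
    · have my : R / 4 ≤ (y : ℕ) % R ∧ (y : ℕ) % R < 3 * (R / 4) := by omega
      have tv : tile c R (xv, yv) = k := by
        rw [ng_tile_V h (xv, yv) (by simp only; omega) (by simp only; omega)]
        exact ng_mkV hk (xv3.trans h1) (yv3.trans h2)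
      refine ⟨(xo, yv), (ng_ring_face (ng_adj_x ax yv) tv hk (ng_not_V h (xo, yv) (Or.inl xo2))).2, ?_⟩
      rw [ng_tile_F h (xo, yv) (Or.inl ⟨xo2, by simp only; omega⟩), ng_tile_F h (x, y) (Or.inl ⟨mx, by simp only; omega⟩)]
      simp only [xo1, yv1]

theorem ng_mkE {k : EvId} {d : Bool} (hk : k.1 = true) (hd : k.2.1 = d) {A B : ℕ} (hA : A = k.2.2.1) (hB : B = k.2.2.2) :
    ((true, d, A, B) : Tile) = k := by
  obtain ⟨b1, b2, p, q⟩ := k
  simp only at hk hd hA hB
  rw [hk, hd, hA, hB]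

/-- a coordinate in the window of a band is close to the line -/
theorem ng_band_near (h : Adm c R) {q : ℕ} {y : Fin c.n} (hw : Win c R (R / 2) q (7 * (R / 16) - 1 - R / 32) (9 * (R / 16) + 1 + R / 32) y) :
    (y : ℕ) % R < R / 4 ∨ 3 * (R / 4) ≤ (y : ℕ) % R := by
  have h64 := h.d64
  have hp := h.pos
  obtain ⟨-, w2, w3⟩ := hw
  rcases shift_cases hp (y : ℕ) (R / 2) (by omega) with q | q <;> omega

/-- the cells of the long sides of a horizontal edge tile, in the column `x` -/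
theorem ng_side_h (h : Adm c R) {k : EvId} (hk : k.1 = true) (hd : k.2.1 = true) (x y : Fin c.n)
    (mx : R / 4 ≤ (x : ℕ) % R ∧ (x : ℕ) % R < 3 * (R / 4)) (h1 : (x : ℕ) / R = k.2.2.1) (h2 : red c R (((y : ℕ) + R / 2) / R) = k.2.2.2) :
    ∃ yF yE : Fin c.n, (x, yF) ∈ core c R k ∧ (x, yE) ∈ core c R k ∧ tile c R (x, yE) = k ∧ tile c R (x, yF) = (false, false, (x : ℕ) / R, (y : ℕ) / R) ∧
      ((R / 16 ≤ (yF : ℕ) % R ∧ (yF : ℕ) % R < R / 4) ∨ (3 * (R / 4) ≤ (yF : ℕ) % R ∧ (yF : ℕ) % R < 15 * (R / 16))) ∧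
      red c R (((yF : ℕ) + R / 4) / R) = red c R (((y : ℕ) + R / 2) / R) := by
  have h64 := h.d64
  obtain ⟨yF, yE, ay, yF1, yE1, yF2, yE2, yE3, yF3⟩ := ng_bandb h y
  have tE : tile c R (x, yE) = k := by
    rw [ng_tile_Eh h (x, yE) mx yE2]
    exact ng_mkE hk hd h1 (yE3.trans h2)
  have tF : tile c R (x, yF) = (false, false, (x : ℕ) / R, (y : ℕ) / R) := by
    rw [ng_tile_F h (x, yF) (Or.inl ⟨mx, by simp only; omega⟩)]
    simp only [yF1]
  have := ng_edge_face (ng_adj_y x ay) tE hk (by rw [tF]; exact ⟨rfl, rfl⟩)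
  exact ⟨yF, yE, this.2, this.1, tE, tF, yF2, yF3⟩

/-- the same for a vertical edge tile, in the row `y` -/
theorem ng_side_v (h : Adm c R) {k : EvId} (hk : k.1 = true) (hd : k.2.1 = false) (x y : Fin c.n)
    (my : R / 4 ≤ (y : ℕ) % R ∧ (y : ℕ) % R < 3 * (R / 4)) (h1 : red c R (((x : ℕ) + R / 2) / R) = k.2.2.1) (h2 : (y : ℕ) / R = k.2.2.2) :
    ∃ xF xE : Fin c.n, (xF, y) ∈ core c R k ∧ (xE, y) ∈ core c R k ∧ tile c R (xE, y) = k ∧ tile c R (xF, y) = (false, false, (x : ℕ) / R, (y : ℕ) / R) ∧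
      ((R / 16 ≤ (xF : ℕ) % R ∧ (xF : ℕ) % R < R / 4) ∨ (3 * (R / 4) ≤ (xF : ℕ) % R ∧ (xF : ℕ) % R < 15 * (R / 16))) ∧
      red c R (((xF : ℕ) + R / 4) / R) = red c R (((x : ℕ) + R / 2) / R) := by
  have h64 := h.d64
  obtain ⟨xF, xE, ax, xF1, xE1, xF2, xE2, xE3, xF3⟩ := ng_bandb h x
  have tE : tile c R (xE, y) = k := by
    rw [ng_tile_Ev h (xE, y) xE2 my]
    exact ng_mkE hk hd (xE3.trans h1) h2
  have tF : tile c R (xF, y) = (false, false, (x : ℕ) / R, (y : ℕ) / R) := by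
    rw [ng_tile_F h (xF, y) (Or.inr ⟨by simp only; omega, my⟩)]
    simp only [xF1]
  have := ng_edge_face (ng_adj_x ax y) tE hk (by rw [tF]; exact ⟨rfl, rfl⟩)
  exact ⟨xF, xE, this.2, this.1, tE, tF, xF2, xF3⟩

/-- **outside the vertex tiles the neighbourhood of the long sides of an edge tile lies in the tiles at the long sides** -/
theorem ng_ctl_edge (h : Adm c R) {k : EvId} (hk : k.1 = true) {i : c.I} (hb : Box c R k (R / 32) i) (hV : ¬ IsV (tile c R i)) :
    i ∈ ctl c R k := by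
  have h64 := h.d64
  have hp := h.pos
  obtain ⟨x, y⟩ := i
  have lx := Nat.mod_lt (x : ℕ) hp
  have ly := Nat.mod_lt (y : ℕ) hp
  rw [ng_mem_ctl]
  unfold Box at hb
  rw [if_pos hk] at hb
  cases hd : k.2.1
  · rw [hd] at hb
    simp only [Bool.false_eq_true, if_false] at hb
    have nx' := ng_band_near h hb.1
    have my : R / 4 ≤ (y : ℕ) % R ∧ (y : ℕ) % R < 3 * (R / 4) := by
      by_contra hc
      exact hV (by rw [ng_tile_V h (x, y) nx' (by simp only; omega)]; exact ⟨rfl, rfl⟩)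
    have e2 : (y : ℕ) / R = k.2.2.2 := by rw [← hb.2.1, Nat.add_zero, red_div h]
    obtain ⟨xF, xE, cF, cE, tE, tF, -, -⟩ := ng_side_v h hk hd x y my hb.1.1 e2
    by_cases bx : (x : ℕ) % R < R / 16 ∨ 15 * (R / 16) ≤ (x : ℕ) % R
    · refine ⟨(xE, y), cE, ?_⟩
      rw [tE, ng_tile_Ev h (x, y) bx my]
      refine (ng_mkE hk hd ?_ e2).symm
      rw [line_div h _ ((line_iff h _).2 bx)]; exact hb.1.1
    · refine ⟨(xF, y), cF, ?_⟩
      rw [tF, ng_tile_F h (x, y) (Or.inr ⟨by simp only; omega, my⟩)]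
  · rw [hd] at hb
    simp only [if_true] at hb
    have ny := ng_band_near h hb.2
    have mx : R / 4 ≤ (x : ℕ) % R ∧ (x : ℕ) % R < 3 * (R / 4) := by
      by_contra hc
      exact hV (by rw [ng_tile_V h (x, y) (by simp only; omega) ny]; exact ⟨rfl, rfl⟩)
    have e1 : (x : ℕ) / R = k.2.2.1 := by rw [← hb.1.1, Nat.add_zero, red_div h]
    obtain ⟨yF, yE, cF, cE, tE, tF, -, -⟩ := ng_side_h h hk hd x y mx e1 hb.2.1
    by_cases by' : (y : ℕ) % R < R / 16 ∨ 15 * (R / 16) ≤ (y : ℕ) % R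
    · refine ⟨(x, yE), cE, ?_⟩
      rw [tE, ng_tile_Eh h (x, y) mx by']
      refine (ng_mkE hk hd e1 ?_).symm
      rw [line_div h _ ((line_iff h _).2 by')]; exact hb.2.1
    · refine ⟨(x, yF), cF, ?_⟩
      rw [tF, ng_tile_F h (x, y) (Or.inl ⟨mx, by simp only; omega⟩)]

/-- **a ring and an edge event whose boxes meet have a common core cell** -/
theorem ng_adj (h : Adm c R) {k v : EvId} (hk : IsV k) (hv : v.1 = true) {ρ ρ' : ℕ} {i : c.I} (hb : Box c R k ρ i) (hb' : Box c R v ρ' i) :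
    ¬ Disjoint (core c R k) (core c R v) := by
  have h64 := h.d64
  have hp := h.pos
  obtain ⟨x, y⟩ := i
  unfold Box at hb hb'
  rw [if_neg (by rw [hk.1]; exact Bool.noConfusion)] at hb
  rw [if_pos hv] at hb'
  cases hd : v.2.1
  · rw [hd] at hb'
    simp only [Bool.false_eq_true, if_false] at hb'
    obtain ⟨yo, yv, ay, yo1, yv1, yo2, yv2, yv3⟩ := ng_ringb h y
    have e2 : (yo : ℕ) / R = v.2.2.2 := by rw [yo1, ← hb'.2.1, Nat.add_zero, red_div h]
    obtain ⟨xF, xE, cF, cE, tE, tF, xF2, xF3⟩ := ng_side_v h hv hd x yo yo2 hb'.1.1 e2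
    have tv : tile c R (xF, yv) = k := by
      rw [ng_tile_V h (xF, yv) (by simp only; omega) (by simp only; omega)]
      exact ng_mkV hk (xF3.trans hb.1.1) (yv3.trans hb.2.1)
    exact Finset.not_disjoint_iff.2 ⟨(xF, yo), (ng_ring_face (ng_adj_y xF ay) tv hk (ng_not_V h (xF, yo) (Or.inr yo2))).2, cF⟩
  · rw [hd] at hb'
    simp only [if_true] at hb'
    obtain ⟨xo, xv, ax, xo1, xv1, xo2, xv2, xv3⟩ := ng_ringb h x
    have e1 : (xo : ℕ) / R = v.2.2.1 := by rw [xo1, ← hb'.1.1, Nat.add_zero, red_div h]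
    obtain ⟨yF, yE, cF, cE, tE, tF, yF2, yF3⟩ := ng_side_h h hv hd xo y xo2 e1 hb'.2.1
    have tv : tile c R (xv, yF) = k := by
      rw [ng_tile_V h (xv, yF) (by simp only; omega) (by simp only; omega)]
      exact ng_mkV hk (xv3.trans hb.1.1) (yF3.trans hb.2.1)
    exact Finset.not_disjoint_iff.2 ⟨(xo, yF), (ng_ring_face (ng_adj_x ax yF) tv hk (ng_not_V h (xo, yF) (Or.inl xo2))).2, cF⟩

/-! ## 4. Testing patches -/

theorem ng_bool_ne {a b : Bool} (hab : a ≠ b) (hb : b = false) : a = true := by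
  cases a
  · exact absurd hb.symm hab
  · rfl

theorem ng_bool_ne' {a b : Bool} (hab : a ≠ b) (hb : b = true) : a = false := by
  cases a
  · rfl
  · exact absurd hb.symm hab

/-- a ring and an edge event which are close: their patches meet -/
theorem ng_meet (h : Adm c R) {k v : EvId} (hk : k ∈ events c R) (hk1 : k.1 = false) (hv1 : v.1 = true) {r r' : ℕ} (hr : r ≤ R / 8) (hr' : r' ≤ R / 8)
    (hm : ¬ Disjoint (nbh c r (core c R k)) (nbh c r' (core c R v))) : ¬ Disjoint (patch c R k) (patch c R v) := by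
  obtain ⟨i, hi, hi'⟩ := Finset.not_disjoint_iff.1 hm
  have := ng_adj h ⟨hk1, key_shape h hk hk1⟩ hv1 (nbh_box h hr hi) (nbh_box h hr' hi')
  exact fun d => this (d.mono (core_subset_patch k) (core_subset_patch v))

/-- the events seen in a testing patch -/
theorem ng_seen_tp (h : Adm c R) {k k' : EvId} (hk : k ∈ events c R) (hk' : k' ∈ events c R) (hm : ¬ Disjoint (core c R k') (tpatch c R k)) :
    k' = k ∨ (k'.1 ≠ k.1 ∧ ¬ Disjoint (patch c R k') (patch c R k)) := by
  have h64 := h.d64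
  have hp := h.pos
  have hm' : ¬ Disjoint (nbh c 0 (core c R k')) (nbh c (R / 16) (core c R k)) :=
    fun d => hm (d.mono (subset_nbh _ _) (tpatch_subset_nbh k))
  by_cases e : k' = k
  · exact Or.inl e
  · by_cases hc : k'.1 = k.1
    · exact absurd (nbh_disjoint h hc e (by omega)) hm'
    · refine Or.inr ⟨hc, ?_⟩
      cases hb : k.1
      · exact fun d => ng_meet h hk hb (ng_bool_ne hc hb) (r := R / 16) (r' := 0) (by omega) (by omega) (fun d' => hm' d'.symm) d.symm
      · exact ng_meet h hk' (ng_bool_ne' hc hb) hb (by omega) (by omega) hm'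

theorem ng_tp_disj (h : Adm c R) {S : Finset EvId} (hS : Valid c R S) {k k' : EvId} (hk : k ∈ S) (hk' : k' ∈ S) (hne : k ≠ k') :
    Disjoint (tpatch c R k) (tpatch c R k') := by
  have h64 := h.d64
  have hp := h.pos
  by_cases hc : k.1 = k'.1
  · exact tpatch_disjoint h hc hne
  · by_contra hm
    have hm' : ¬ Disjoint (nbh c (R / 16) (core c R k)) (nbh c (R / 16) (core c R k')) :=
      fun d => hm (d.mono (tpatch_subset_nbh k) (tpatch_subset_nbh k'))
    have hd := valid_patch_disjoint h hS hk hk' hne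
    cases hb : k'.1
    · exact ng_meet h (hS.1 hk') hb (ng_bool_ne hc hb) (by omega) (by omega) (fun d => hm' d.symm) hd.symm
    · exact ng_meet h (hS.1 hk) (ng_bool_ne' hc hb) hb (by omega) (by omega) hm' hd

theorem ng_mem_pre {k : EvId} (hk : k ∈ events c R) : k ∈ pre c R k := by
  unfold pre
  split_ifs with hb
  · exact mem_evV.2 ⟨hk, hb⟩
  · exact hk

/-- the events of the other colour at a mark: uncut in a halo topology iff uncut on the path without marks -/
theorem ng_key {S U : Finset EvId} (hS : Valid c R S) (h1 : skp c R S ⊆ U) (h2 : U ⊆ skp c R S ∪ S) {k : EvId} (hk : k ∈ S) :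
    ∀ k' ∈ events c R, k'.1 ≠ k.1 → ¬ Disjoint (patch c R k') (patch c R k) → (k' ∈ U ↔ k' ∈ pre c R k) := by
  intro k' hk' hc hm
  unfold pre
  cases hb : k.1
  · have hb' : k'.1 = true := ng_bool_ne hc hb
    simp only [Bool.false_eq_true, if_false]
    exact ⟨fun _ => hk', fun _ => h1 (mem_skp.2 ⟨hk', hb', k, hk, hb, fun d => hm d.symm⟩)⟩
  · have hb' : k'.1 = false := ng_bool_ne' hc hb
    simp only [if_true]
    constructor
    · intro hU
      exfalso
      rcases Finset.mem_union.1 (h2 hU) with q | q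
      · rw [(mem_skp.1 q).2.1] at hb'; exact Bool.noConfusion hb'
      · exact Finset.disjoint_left.1 hS.2 hk (mem_skp.2 ⟨hS.1 hk, hb, k', q, hb', hm⟩)
    · intro q
      rw [(mem_evV.1 q).2] at hb'; exact Bool.noConfusion hb'

theorem ng_tst (h : Adm c R) {S O : Finset EvId} (hS : Valid c R S) (hO : O ⊆ S) {k : EvId} (hk : k ∈ S) :
    (halTop c R S O).restr (tpatch c R k) = if k ∈ O then tstO c R k else tstC c R k := by
  classical
  have hsub : tpatch c R k ⊆ halC c R S := tpatch_subset_halC h (Finset.mem_union_left _ hk)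
  have key := ng_key (U := skp c R S ∪ O) hS Finset.subset_union_left (Finset.union_subset_union_right hO) hk
  unfold halTop
  rw [restr_restr, Finset.inter_eq_right.2 hsub]
  split_ifs with hkO
  · unfold tstO
    refine topU_restr_of_core fun k' hk' hm => ?_
    rcases ng_seen_tp h (hS.1 hk) hk' hm with rfl | ⟨q1, q2⟩
    · exact ⟨fun _ => ng_mem_pre hk', fun _ => Finset.mem_union_right _ hkO⟩
    · exact key k' hk' q1 q2
  · unfold tstC
    refine topU_restr_of_core fun k' hk' hm => ?_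
    rcases ng_seen_tp h (hS.1 hk) hk' hm with rfl | ⟨q1, q2⟩
    · constructor
      · intro q
        rcases Finset.mem_union.1 q with q | q
        · exact absurd q (Finset.disjoint_left.1 hS.2 hk)
        · exact absurd q hkO
      · intro q
        exact absurd (Finset.mem_sdiff.1 q).2 (by simp)
    · have hne : k' ≠ k := fun e => q1 (by rw [e])
      rw [Finset.mem_sdiff, Finset.mem_singleton]
      exact ⟨fun q => ⟨(key k' hk' q1 q2).1 q, hne⟩, fun q => (key k' hk' q1 q2).2 q.1⟩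

/-- `ctl` is a union of tiles -/
theorem ng_ctl_tile {k : EvId} {a b : c.I} (ha : a ∈ ctl c R k) (e : tile c R b = tile c R a) : b ∈ ctl c R k := by
  obtain ⟨j, hj, e'⟩ := ng_mem_ctl.1 ha
  exact ng_mem_ctl.2 ⟨j, hj, e'.trans e.symm⟩

/-- one end of a retained face of a halo topology in the testing patch of a mark: the other end lies in the tiles of the mark -/
theorem ng_tp_cl_aux (h : Adm c R) {S O : Finset EvId} (hS : Valid c R S) (hO : O ⊆ S) {k : EvId} (hk : k ∈ S) {f : Face c}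
    (hf : f ∈ (halTop c R S O).faces) {a b : c.I} (hab : (a = f.1 ∧ b = fnb c f) ∨ (a = fnb c f ∧ b = f.1)) (ha : a ∈ tpatch c R k) :
    b ∈ ctl c R k := by
  classical
  have h64 := h.d64
  have hp := h.pos
  have hf' : f ∈ (topU c R (skp c R S ∪ O)).faces := (Finset.mem_filter.1 hf).1
  obtain ⟨hF, q⟩ := mem_topU_faces.1 hf'
  have hactl : a ∈ ctl c R k := (Finset.mem_inter.1 ha).2
  by_cases e : tile c R (fnb c f) = tile c R f.1
  · rcases hab with ⟨rfl, rfl⟩ | ⟨rfl, rfl⟩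
    · exact ng_ctl_tile hactl e
    · exact ng_ctl_tile hactl e.symm
  · have hs : f ∈ seam c R := mem_seam.2 ⟨hF, e⟩
    have hq := q.resolve_left e
    have hc := mem_core_of_key hs
    have hac : a ∈ core c R (evKey c R f) := by
      rcases hab with ⟨rfl, rfl⟩ | ⟨rfl, rfl⟩
      · exact hc.1
      · exact hc.2
    have hbc : b ∈ core c R (evKey c R f) := by
      rcases hab with ⟨rfl, rfl⟩ | ⟨rfl, rfl⟩
      · exact hc.2
      · exact hc.1
    rcases ng_seen_tp h (hS.1 hk) (Finset.mem_image_of_mem _ hs) (Finset.not_disjoint_iff.2 ⟨a, hac, ha⟩) with e' | ⟨q1, q2⟩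
    · rw [e'] at hbc
      exact core_subset_ctl k hbc
    · cases hb : k.1
      · -- a ring: the whole square around the vertex lies in `ctl`
        have hd : c.idist a b ≤ 1 := by
          rcases hab with ⟨rfl, rfl⟩ | ⟨rfl, rfl⟩
          · exact idist_face hF
          · rw [geo_idist_comm]; exact idist_face hF
        have hbn : b ∈ nbh c (R / 16 + 1) (core c R k) :=
          nbh_nbh _ _ _ (mem_nbh.2 ⟨a, tpatch_subset_nbh k ha, hd⟩)
        have hbx := nbh_box h (ρ := R / 16 + 1) (by omega) hbn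
        unfold Box at hbx
        rw [if_neg (by rw [hb]; exact Bool.noConfusion)] at hbx
        exact ng_ctl_ring h ⟨hb, key_shape h (hS.1 hk) hb⟩ b hbx.1.1 hbx.2.1
      · -- an edge mark: the ring would skip it
        exfalso
        have hb' : (evKey c R f).1 = false := ng_bool_ne' q1 hb
        rcases Finset.mem_union.1 hq with z | z
        · rw [(mem_skp.1 z).2.1] at hb'; exact Bool.noConfusion hb'
        · exact Finset.disjoint_left.1 hS.2 hk (mem_skp.2 ⟨hS.1 hk, hb, _, hO z, hb', q2⟩)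

theorem ng_tp_cl (h : Adm c R) {S O : Finset EvId} (hS : Valid c R S) (hO : O ⊆ S) {k : EvId} (hk : k ∈ S) {f : Face c}
    (hf : f ∈ (halTop c R S O).faces) : (f.1 ∈ tpatch c R k → fnb c f ∈ ctl c R k) ∧ (fnb c f ∈ tpatch c R k → f.1 ∈ ctl c R k) :=
  ⟨fun ha => ng_tp_cl_aux h hS hO hk hf (Or.inl ⟨rfl, rfl⟩) ha, fun ha => ng_tp_cl_aux h hS hO hk hf (Or.inr ⟨rfl, rfl⟩) ha⟩

/-! ## 5. The restoration chain -/

/-- the cells at the long sides of an edge tile do not lie in vertex tiles -/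
theorem ng_core_notV (h : Adm c R) {k : EvId} (hk : k.1 = true) {j : c.I} (hj : j ∈ core c R k) : ¬ IsV (tile c R j) := by
  have hb := core_box h hj
  unfold Box at hb
  rw [if_pos hk] at hb
  simp only [Nat.sub_zero, Nat.add_zero] at hb
  split_ifs at hb
  · exact ng_not_V h j (Or.inl ⟨hb.1.2.1, hb.1.2.2⟩)
  · exact ng_not_V h j (Or.inr ⟨hb.2.2.1, hb.2.2.2⟩)

/-- the key of a face at a vertex tile is a ring -/
theorem ng_key_V {f : Face c} (hf : IsV (tile c R f.1) ∨ IsV (tile c R (fnb c f))) : (evKey c R f).1 = false := by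
  unfold evKey
  by_cases h1 : (tile c R f.1).1 = false ∧ (tile c R f.1).2.1 = true
  · rw [if_pos h1]; exact h1.1
  · rw [if_neg h1]
    have h2 : (tile c R (fnb c f)).1 = false ∧ (tile c R (fnb c f)).2.1 = true := hf.resolve_left h1
    rw [if_pos h2]; exact h2.1

/-- restoration of an edge event while all rings are cut -/
theorem ng_step_edge (h : Adm c R) {D : Finset c.I} {U : Finset EvId} {k : EvId} (hk : k ∈ events c R) (hk1 : k.1 = true) (hkU : k ∉ U)
    (hD : patch c R k ⊆ D) (hU : ∀ u ∈ U, u.1 = true) : StepOK c R D U k := by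
  classical
  have h64 := h.d64
  have hp := h.pos
  have hpre : pre c R k = evV c R := by unfold pre; rw [if_pos hk1]
  refine ⟨hk, hkU, hD, ?_, ?_, Finset.univ.filter (fun i => ¬ IsV (tile c R i)), ?_, ?_, ?_⟩
  · unfold topO
    refine topU_restr_patch h ⟨fun _ => ng_mem_pre hk, fun _ => Finset.mem_insert_self _ _⟩ fun k' hk' hc _ => ?_
    have hb' : k'.1 = false := ng_bool_ne' hc hk1
    rw [hpre]
    constructor
    · intro q
      rcases Finset.mem_insert.1 q with rfl | q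
      · exact absurd rfl hc
      · rw [hU _ q] at hb'; exact Bool.noConfusion hb'
    · intro q
      rw [(mem_evV.1 q).2] at hb'; exact Bool.noConfusion hb'
  · unfold topC
    refine topU_restr_patch h ⟨fun q => absurd q hkU, fun q => absurd (Finset.mem_sdiff.1 q).2 (by simp)⟩ fun k' hk' hc _ => ?_
    have hb' : k'.1 = false := ng_bool_ne' hc hk1
    rw [hpre]
    constructor
    · intro q
      rw [hU _ q] at hb'; exact Bool.noConfusion hb'
    · intro q
      rw [(mem_evV.1 (Finset.mem_sdiff.1 q).1).2] at hb'; exact Bool.noConfusion hb'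
  · intro i hi
    obtain ⟨j, hj, e⟩ := ng_mem_ctl.1 (Finset.mem_inter.1 hi).2
    rw [Finset.mem_filter, ← e]
    exact ⟨Finset.mem_univ _, ng_core_notV h hk1 hj⟩
  · intro i hi
    obtain ⟨h1, h2⟩ := Finset.mem_inter.1 hi
    exact Finset.mem_inter.2 ⟨h2, ng_ctl_edge h hk1 (nbh_box h (by omega) h2) (Finset.mem_filter.1 h1).2⟩
  · intro f hf
    have hf' : f ∈ (topU c R (insert k U)).faces := (Finset.mem_filter.1 hf).1
    obtain ⟨-, q | q⟩ := mem_topU_faces.1 hf'
    · simp only [Finset.mem_filter, Finset.mem_univ, true_and, q]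
    · have hq : (evKey c R f).1 = true := by
        rcases Finset.mem_insert.1 q with e | q
        · rw [e]; exact hk1
        · exact hU _ q
      have n1 : ¬ IsV (tile c R f.1) := fun z => by rw [ng_key_V (Or.inl z)] at hq; exact Bool.noConfusion hq
      have n2 : ¬ IsV (tile c R (fnb c f)) := fun z => by rw [ng_key_V (Or.inr z)] at hq; exact Bool.noConfusion hq
      simp only [Finset.mem_filter, Finset.mem_univ, true_and, n1, n2]

/-- restoration of a ring after its edge events -/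
theorem ng_step_ring (h : Adm c R) {D : Finset c.I} {U : Finset EvId} {k : EvId} (hk : k ∈ events c R) (hk1 : k.1 = false) (hkU : k ∉ U)
    (hD : patch c R k ⊆ D) (hU : ∀ v ∈ events c R, v.1 = true → ¬ Disjoint (patch c R v) (patch c R k) → v ∈ U) : StepOK c R D U k := by
  classical
  have h64 := h.d64
  have hp := h.pos
  have hpre : pre c R k = events c R := by unfold pre; rw [if_neg (by rw [hk1]; exact Bool.noConfusion)]
  refine ⟨hk, hkU, hD, ?_, ?_, Finset.univ, Finset.subset_univ _, ?_, fun f _ => by simp⟩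
  · unfold topO
    refine topU_restr_patch h ⟨fun _ => ng_mem_pre hk, fun _ => Finset.mem_insert_self _ _⟩ fun k' hk' hc hm => ?_
    rw [hpre]
    exact ⟨fun _ => hk', fun _ => Finset.mem_insert_of_mem (hU k' hk' (ng_bool_ne hc hk1) hm)⟩
  · unfold topC
    refine topU_restr_patch h ⟨fun q => absurd q hkU, fun q => absurd (Finset.mem_sdiff.1 q).2 (by simp)⟩ fun k' hk' hc hm => ?_
    have hne : k' ≠ k := fun e => hc (by rw [e])
    rw [hpre, Finset.mem_sdiff, Finset.mem_singleton]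
    exact ⟨fun _ => ⟨hk', hne⟩, fun _ => hU k' hk' (ng_bool_ne hc hk1) hm⟩
  · intro i hi
    have h2 := (Finset.mem_inter.1 hi).2
    have hb := nbh_box h (ρ := R / 32) (by omega) h2
    unfold Box at hb
    rw [if_neg (by rw [hk1]; exact Bool.noConfusion)] at hb
    exact Finset.mem_inter.2 ⟨h2, ng_ctl_ring h ⟨hk1, key_shape h hk hk1⟩ i hb.1.1 hb.2.1⟩

/-- **second colour first, then the rings** -/
theorem ng_chain (h : Adm c R) {S O : Finset EvId} (hS : Valid c R S) (hO : O ⊆ S) : Chain c R (halC c R S) (skp c R S ∪ O) := by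
  classical
  have hev : ∀ k ∈ skp c R S ∪ O, k ∈ events c R := fun k hk => by
    rcases Finset.mem_union.1 hk with q | q
    · exact skp_subset R S q
    · exact hS.1 (hO q)
  have hpat : ∀ k ∈ skp c R S ∪ O, patch c R k ⊆ halC c R S := fun k hk => by
    refine patch_subset_halC h ?_
    rcases Finset.mem_union.1 hk with q | q
    · exact Finset.mem_union_right _ q
    · exact Finset.mem_union_left _ (hO q)
  -- stage 1
  have st1 : ∀ U : Finset EvId, U ⊆ skp c R S ∪ O → (∀ u ∈ U, u.1 = true) → Chain c R (halC c R S) U := by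
    intro U
    induction U using Finset.induction_on with
    | empty => exact fun _ _ => Chain.nil
    | insert k U hkU ih =>
      intro h1 h2
      have hk := h1 (Finset.mem_insert_self _ _)
      exact Chain.cons (ih ((Finset.subset_insert _ _).trans h1) fun u hu => h2 u (Finset.mem_insert_of_mem hu))
        (ng_step_edge h (hev k hk) (h2 k (Finset.mem_insert_self _ _)) hkU (hpat k hk) fun u hu => h2 u (Finset.mem_insert_of_mem hu))
  -- stage 2
  have st2 : ∀ U : Finset EvId, U ⊆ O → (∀ u ∈ U, u.1 = false) →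
      Chain c R (halC c R S) ((skp c R S ∪ O).filter (fun k => k.1 = true) ∪ U) := by
    intro U
    induction U using Finset.induction_on with
    | empty =>
      intro _ _
      rw [Finset.union_empty]
      exact st1 _ (Finset.filter_subset _ _) fun u hu => (Finset.mem_filter.1 hu).2
    | insert k U hkU ih =>
      intro h1 h2
      have hk := h1 (Finset.mem_insert_self _ _)
      have hk1 := h2 k (Finset.mem_insert_self _ _)
      rw [Finset.union_insert]
      refine Chain.cons (ih ((Finset.subset_insert _ _).trans h1) fun u hu => h2 u (Finset.mem_insert_of_mem hu))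
        (ng_step_ring h (hS.1 (hO hk)) hk1 ?_ (hpat k (Finset.mem_union_right _ hk)) ?_)
      · intro q
        rcases Finset.mem_union.1 q with q | q
        · rw [(Finset.mem_filter.1 q).2] at hk1; exact Bool.noConfusion hk1
        · exact hkU q
      · intro v hv hv1 hm
        exact Finset.mem_union_left _ (Finset.mem_filter.2
          ⟨Finset.mem_union_left _ (mem_skp.2 ⟨hv, hv1, k, hO hk, hk1, fun d => hm d.symm⟩), hv1⟩)
  have e : skp c R S ∪ O = (skp c R S ∪ O).filter (fun k => k.1 = true) ∪ O.filter (fun k => k.1 = false) := by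
    ext k
    simp only [Finset.mem_union, Finset.mem_filter]
    constructor
    · rintro (q | q)
      · exact Or.inl ⟨Or.inl q, (mem_skp.1 q).2.1⟩
      · cases hb : k.1
        · exact Or.inr ⟨q, rfl⟩
        · exact Or.inl ⟨Or.inr q, rfl⟩
    · rintro (⟨q, -⟩ | ⟨q, -⟩)
      · exact q
      · exact Or.inr q
  rw [e]
  exact st2 _ (Finset.filter_subset _ _) fun u hu => (Finset.mem_filter.1 hu).2

/-! ## 6. Counting -/

/-- `a` is the index `p` of a line or the index of the period before it -/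
def NPd (c : Grid G) (R p a : ℕ) : Prop := red c R a = a ∧ (a = p ∨ red c R (a + 1) = p)

theorem NPd.inj {p a a' : ℕ} (h : NPd c R p a) (h' : NPd c R p a') (e : a = p ↔ a' = p) : a = a' := by
  by_cases q : a = p
  · rw [q, e.1 q]
  · have q' : ¬ a' = p := fun z => q (e.2 z)
    have e1 := h.2.resolve_left q
    have e2 := h'.2.resolve_left q'
    have := red_succ_inj (c := c) (R := R) (e1.trans e2.symm)
    rw [h.1, h'.1] at this
    exact this

theorem ng_red_red (k : ℕ) : red c R (red c R k) = red c R k := by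
  rcases geo_bc_cases G with hb | hb
  · simp only [red_per hb, Nat.mod_mod]
  · simp only [red_free hb]

theorem ng_pd_self (k : ℕ) : NPd c R (red c R k) (red c R k) := ⟨ng_red_red k, Or.inl rfl⟩

theorem ng_pd_div (h : Adm c R) (x : Fin c.n) : NPd c R (red c R (((x : ℕ) + R / 2) / R)) ((x : ℕ) / R) := by
  have h64 := h.d64
  refine ⟨red_div h x, ?_⟩
  rcases shift_cases h.pos (x : ℕ) (R / 2) (by omega) with q | q
  · left; rw [q.2.1, red_div h]
  · right; rw [q.2.1]

/-- the indices of the tile of a cell, seen from the nearest vertex -/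
theorem ng_tile_pd (h : Adm c R) (i : c.I) :
    NPd c R (red c R (((i.1 : ℕ) + R / 2) / R)) (tile c R i).2.2.1 ∧ NPd c R (red c R (((i.2 : ℕ) + R / 2) / R)) (tile c R i).2.2.2 := by
  rcases tile_cases h i with ⟨c1, e1⟩ | ⟨c1, e1⟩ | ⟨c1, e1⟩ | ⟨c1, e1⟩ <;> rw [e1] <;> simp only
  · rw [near_div h _ ((near_iff h _).2 c1.1), near_div h _ ((near_iff h _).2 c1.2)]
    exact ⟨ng_pd_self _, ng_pd_self _⟩
  · rw [line_div h _ ((line_iff h _).2 c1.2)]
    exact ⟨ng_pd_div h _, ng_pd_self _⟩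
  · rw [line_div h _ ((line_iff h _).2 c1.1)]
    exact ⟨ng_pd_self _, ng_pd_div h _⟩
  · exact ⟨ng_pd_div h _, ng_pd_div h _⟩

/-- the edge events at a ring -/
theorem ng_skp_shape (h : Adm c R) {e v : EvId} (he : e.1 = false) (hv : v.1 = true) {ρ ρ' : ℕ} {i : c.I} (hb : Box c R e ρ i) (hb' : Box c R v ρ' i) :
    (v.2.1 = true ∧ v.2.2.2 = e.2.2.2 ∧ NPd c R e.2.2.1 v.2.2.1) ∨ (v.2.1 = false ∧ v.2.2.1 = e.2.2.1 ∧ NPd c R e.2.2.2 v.2.2.2) := by
  unfold Box at hb hb'
  rw [if_neg (by rw [he]; exact Bool.noConfusion)] at hb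
  rw [if_pos hv] at hb'
  cases hd : v.2.1
  · rw [hd] at hb'
    simp only [Bool.false_eq_true, if_false] at hb'
    refine Or.inr ⟨rfl, by rw [← hb'.1.1, ← hb.1.1], ?_⟩
    have := ng_pd_div h i.2
    rw [hb.2.1] at this
    rw [← hb'.2.1, Nat.add_zero, red_div h]
    exact this
  · rw [hd] at hb'
    simp only [if_true] at hb'
    refine Or.inl ⟨rfl, by rw [← hb'.2.1, ← hb.2.1], ?_⟩
    have := ng_pd_div h i.1
    rw [hb.1.1] at this
    rw [← hb'.1.1, Nat.add_zero, red_div h]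
    exact this

open Classical in
theorem ng_skp_one (h : Adm c R) {e : EvId} (he : e.1 = false) :
    ((evV c R).filter fun v => ¬ Disjoint (patch c R e) (patch c R v)).card ≤ 4 := by
  have h64 := h.d64
  have hp := h.pos
  have hsh : ∀ v ∈ (evV c R).filter fun v => ¬ Disjoint (patch c R e) (patch c R v),
      v.1 = true ∧ ((v.2.1 = true ∧ v.2.2.2 = e.2.2.2 ∧ NPd c R e.2.2.1 v.2.2.1) ∨ (v.2.1 = false ∧ v.2.2.1 = e.2.2.1 ∧ NPd c R e.2.2.2 v.2.2.2)) := by
    intro v hv
    obtain ⟨h1, h2⟩ := Finset.mem_filter.1 hv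
    obtain ⟨i, hi, hi'⟩ := Finset.not_disjoint_iff.1 h2
    have hv1 := (mem_evV.1 h1).2
    exact ⟨hv1, ng_skp_shape h he hv1 (nbh_box h (ρ := R / 32) (by omega) (patch_subset_nbh _ hi)) (nbh_box h (ρ := R / 32) (by omega) (patch_subset_nbh _ hi'))⟩
  have hc : (Finset.univ : Finset (Bool × Bool)).card = 4 := by simp
  rw [← hc]
  refine Finset.card_le_card_of_injOn (fun v => (v.2.1, decide (v.2.2 = e.2.2))) (fun _ _ => Finset.mem_univ _) ?_
  intro v hv v' hv' hvv
  obtain ⟨a1, a2⟩ := hsh v hv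
  obtain ⟨b1, b2⟩ := hsh v' hv'
  obtain ⟨v1, v2, v3, v4⟩ := v
  obtain ⟨w1, w2, w3, w4⟩ := v'
  obtain ⟨e1, e2, e3, e4⟩ := e
  simp only [Prod.mk.injEq, decide_eq_decide] at hvv a1 a2 b1 b2
  obtain ⟨hv2, hdd⟩ := hvv
  subst a1 b1 hv2
  rcases a2 with ⟨d1, d2, d3⟩ | ⟨d1, d2, d3⟩ <;> rcases b2 with ⟨d1', d2', d3'⟩ | ⟨d1', d2', d3'⟩
  · subst d2 d2'
    have := d3.inj d3' (by simpa using hdd)
    rw [this]
  · rw [d1] at d1'; exact Bool.noConfusion d1'
  · rw [d1] at d1'; exact Bool.noConfusion d1'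
  · subst d2 d2'
    have := d3.inj d3' (by simpa using hdd)
    rw [this]

theorem ng_skp_card (h : Adm c R) (S : Finset EvId) : (skp c R S).card ≤ 4 * S.card := by
  classical
  have hsub : skp c R S ⊆ (S.filter fun e => e.1 = false).biUnion fun e => (evV c R).filter fun v => ¬ Disjoint (patch c R e) (patch c R v) := by
    intro v hv
    obtain ⟨h1, h2, e, he, he1, hm⟩ := mem_skp.1 hv
    exact Finset.mem_biUnion.2 ⟨e, Finset.mem_filter.2 ⟨he, he1⟩, Finset.mem_filter.2 ⟨mem_evV.2 ⟨h1, h2⟩, hm⟩⟩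
  calc (skp c R S).card ≤ _ := Finset.card_le_card hsub
    _ ≤ (S.filter fun e => e.1 = false).card * 4 := Finset.card_biUnion_le_card_mul _ _ _ fun e he => ng_skp_one h (Finset.mem_filter.1 he).2
    _ ≤ S.card * 4 := Nat.mul_le_mul_right _ (Finset.card_filter_le _ _)
    _ = 4 * S.card := Nat.mul_comm _ _

/-- the tiles at a ring -/
theorem ng_tiles_ring (h : Adm c R) {e : EvId} (he : e.1 = false) : ((core c R e).image (tile c R)).card ≤ 16 := by
  classical
  have hsh : ∀ t ∈ (core c R e).image (tile c R), NPd c R e.2.2.1 t.2.2.1 ∧ NPd c R e.2.2.2 t.2.2.2 := by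
    intro t ht
    obtain ⟨j, hj, rfl⟩ := Finset.mem_image.1 ht
    have hb := core_box h hj
    unfold Box at hb
    rw [if_neg (by rw [he]; exact Bool.noConfusion)] at hb
    have := ng_tile_pd h j
    rw [hb.1.1, hb.2.1] at this
    exact this
  have hc : (Finset.univ : Finset (Bool × Bool × Bool × Bool)).card = 16 := by simp
  rw [← hc]
  refine Finset.card_le_card_of_injOn (fun t => (t.1, t.2.1, decide (t.2.2.1 = e.2.2.1), decide (t.2.2.2 = e.2.2.2)))
    (fun _ _ => Finset.mem_univ _) ?_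
  intro t ht t' ht' htt
  obtain ⟨a1, a2⟩ := hsh t ht
  obtain ⟨b1, b2⟩ := hsh t' ht'
  obtain ⟨t1, t2, t3, t4⟩ := t
  obtain ⟨w1, w2, w3, w4⟩ := t'
  simp only [Prod.mk.injEq, decide_eq_decide] at htt a1 a2 b1 b2
  obtain ⟨q1, q2, q3, q4⟩ := htt
  rw [q1, q2, a1.inj b1 q3, a2.inj b2 q4]

/-- the tiles at the long sides of an edge tile -/
theorem ng_edge_shape (h : Adm c R) {v : EvId} (hv : v.1 = true) {j : c.I} (hj : j ∈ core c R v) :
    tile c R j = v ∨ ((tile c R j).1 = false ∧ (tile c R j).2.1 = false ∧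
      (((tile c R j).2.2.1 = v.2.2.1 ∧ NPd c R v.2.2.2 (tile c R j).2.2.2) ∧ v.2.1 = true ∨
        ((tile c R j).2.2.2 = v.2.2.2 ∧ NPd c R v.2.2.1 (tile c R j).2.2.1) ∧ v.2.1 = false)) := by
  have h64 := h.d64
  have hp := h.pos
  have hb := core_box h hj
  unfold Box at hb
  rw [if_pos hv] at hb
  simp only [Nat.sub_zero, Nat.add_zero] at hb
  have l1 := Nat.mod_lt (j.1 : ℕ) hp
  have l2 := Nat.mod_lt (j.2 : ℕ) hp
  cases hd : v.2.1
  · rw [hd] at hb
    simp only [Bool.false_eq_true, if_false] at hb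
    have my : R / 4 ≤ (j.2 : ℕ) % R ∧ (j.2 : ℕ) % R < 3 * (R / 4) := ⟨hb.2.2.1, hb.2.2.2⟩
    have e2 : (j.2 : ℕ) / R = v.2.2.2 := by rw [← hb.2.1, Nat.add_zero, red_div h]
    by_cases bx : (j.1 : ℕ) % R < R / 16 ∨ 15 * (R / 16) ≤ (j.1 : ℕ) % R
    · left
      rw [ng_tile_Ev h j bx my]
      refine ng_mkE hv hd ?_ e2
      rw [line_div h _ ((line_iff h _).2 bx)]; exact hb.1.1
    · right
      rw [ng_tile_F h j (Or.inr ⟨by omega, my⟩)]
      refine ⟨rfl, rfl, Or.inr ⟨⟨e2, ?_⟩, rfl⟩⟩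
      have := ng_pd_div h j.1
      rw [hb.1.1] at this
      exact this
  · rw [hd] at hb
    simp only [if_true] at hb
    have mx : R / 4 ≤ (j.1 : ℕ) % R ∧ (j.1 : ℕ) % R < 3 * (R / 4) := ⟨hb.1.2.1, hb.1.2.2⟩
    have e1 : (j.1 : ℕ) / R = v.2.2.1 := by rw [← hb.1.1, Nat.add_zero, red_div h]
    by_cases by' : (j.2 : ℕ) % R < R / 16 ∨ 15 * (R / 16) ≤ (j.2 : ℕ) % R
    · left
      rw [ng_tile_Eh h j mx by']
      refine ng_mkE hv hd e1 ?_
      rw [line_div h _ ((line_iff h _).2 by')]; exact hb.2.1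
    · right
      rw [ng_tile_F h j (Or.inl ⟨mx, by omega⟩)]
      refine ⟨rfl, rfl, Or.inl ⟨⟨e1, ?_⟩, rfl⟩⟩
      have := ng_pd_div h j.2
      rw [hb.2.1] at this
      exact this

theorem ng_tiles_edge (h : Adm c R) {v : EvId} (hv : v.1 = true) : ((core c R v).image (tile c R)).card ≤ 4 := by
  classical
  have hc : (Finset.univ : Finset (Bool × Bool)).card = 4 := by simp
  rw [← hc]
  refine Finset.card_le_card_of_injOn (fun t => (t.1, decide (t.2.2 = v.2.2))) (fun _ _ => Finset.mem_univ _) ?_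
  intro t ht t' ht' htt
  obtain ⟨j, hj, rfl⟩ := Finset.mem_image.1 (Finset.mem_coe.1 ht)
  obtain ⟨j', hj', rfl⟩ := Finset.mem_image.1 (Finset.mem_coe.1 ht')
  have a := ng_edge_shape h hv hj
  have b := ng_edge_shape h hv hj'
  generalize tile c R j = t at a htt ⊢
  generalize tile c R j' = t' at b htt ⊢
  obtain ⟨t1, t2, t3, t4⟩ := t
  obtain ⟨w1, w2, w3, w4⟩ := t'
  obtain ⟨v1, v2, v3, v4⟩ := v
  simp only [Prod.mk.injEq, decide_eq_decide] at htt a b hv
  obtain ⟨q1, q2⟩ := htt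
  subst hv
  rcases a with ⟨a1, a2, a3, a4⟩ | ⟨a1, a2, a3⟩ <;> rcases b with ⟨b1, b2, b3, b4⟩ | ⟨b1, b2, b3⟩
  · rw [a1, a2, a3, a4, b1, b2, b3, b4]
  · rw [a1, b1] at q1; exact Bool.noConfusion q1
  · rw [a1, b1] at q1; exact Bool.noConfusion q1
  · rcases a3 with ⟨⟨a3, a4⟩, a5⟩ | ⟨⟨a3, a4⟩, a5⟩ <;> rcases b3 with ⟨⟨b3, b4⟩, b5⟩ | ⟨⟨b3, b4⟩, b5⟩
    · subst a3 b3
      rw [a1, a2, b1, b2, a4.inj b4 (by simpa using q2)]
    · rw [a5] at b5; exact Bool.noConfusion b5
    · rw [a5] at b5; exact Bool.noConfusion b5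
    · subst a3 b3
      rw [a1, a2, b1, b2, a4.inj b4 (by simpa using q2)]

theorem ng_tiles_any (h : Adm c R) (k : EvId) : ((core c R k).image (tile c R)).card ≤ 16 := by
  cases hb : k.1
  · exact ng_tiles_ring h hb
  · exact (ng_tiles_edge h hb).trans (by norm_num)

theorem ng_halT_card (h : Adm c R) (S : Finset EvId) : (halT c R S).card ≤ 32 * S.card := by
  classical
  have e : halT c R S = (S.biUnion fun k => (core c R k).image (tile c R)) ∪ ((skp c R S).biUnion fun k => (core c R k).image (tile c R)) := by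
    unfold halT
    rw [Finset.biUnion_image, Finset.union_biUnion]
  have h1 : (S.biUnion fun k => (core c R k).image (tile c R)).card ≤ S.card * 16 :=
    Finset.card_biUnion_le_card_mul _ _ _ fun k _ => ng_tiles_any h k
  have h2 : ((skp c R S).biUnion fun k => (core c R k).image (tile c R)).card ≤ (skp c R S).card * 4 :=
    Finset.card_biUnion_le_card_mul _ _ _ fun k hk => ng_tiles_edge h (mem_skp.1 hk).2.1
  have h3 := ng_skp_card h S
  have h4 := Finset.card_union_le (S.biUnion fun k => (core c R k).image (tile c R)) ((skp c R S).biUnion fun k => (core c R k).image (tile c R))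
  rw [e]
  omega

theorem ng_halC_mono {S S' : Finset EvId} (hS : S ⊆ S') : halC c R S ⊆ halC c R S' := by
  intro i hi
  obtain ⟨k, hk, j, hj, e⟩ := mem_halC.1 hi
  refine mem_halC.2 ⟨k, ?_, j, hj, e⟩
  rcases Finset.mem_union.1 hk with q | q
  · exact Finset.mem_union_left _ (hS q)
  · obtain ⟨h1, h2, e', he', h3, h4⟩ := mem_skp.1 q
    exact Finset.mem_union_right _ (mem_skp.2 ⟨h1, h2, e', hS he', h3, h4⟩)

/-- close cells at the same place of their periods coincide -/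
theorem ng_eq_of_mod (h : Adm c R) {x x' : Fin c.n} (hd : c.idist1 x x' + 1 ≤ R) (e : (x : ℕ) % R = (x' : ℕ) % R) : x = x' := by
  have hp := h.pos
  have e1 := Nat.div_add_mod (x : ℕ) R
  have e2 := Nat.div_add_mod (x' : ℕ) R
  rcases idist1_cases h x x' 0 (r := R - 1) (by omega) (by omega) with q | q | q
  · have q1 := q.1
    simp only [Nat.add_zero, red_div h] at q1
    apply Fin.ext
    rw [← e1, ← e2, q1, e]
  · have := q.2
    simp only [Nat.add_zero] at this
    omega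
  · have := q.2
    simp only [Nat.add_zero] at this
    omega

theorem ng_tile_card (h : Adm c R) (t : Tile) : (cellsOf c R {t}).card ≤ R ^ 2 := by
  classical
  have hc : (Finset.range R ×ˢ Finset.range R).card = R ^ 2 := by rw [Finset.card_product, Finset.card_range, sq]
  rw [← hc]
  refine Finset.card_le_card_of_injOn (fun i : c.I => ((i.1 : ℕ) % R, (i.2 : ℕ) % R))
    (fun i _ => Finset.mem_coe.2 (Finset.mem_product.2 ⟨Finset.mem_range.2 (Nat.mod_lt _ h.pos), Finset.mem_range.2 (Nat.mod_lt _ h.pos)⟩)) ?_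
  intro i hi i' hi' e
  have t1 : tile c R i = t := by simpa [mem_cellsOf] using hi
  have t2 : tile c R i' = t := by simpa [mem_cellsOf] using hi'
  have hd := tile_diam h (t1.trans t2.symm)
  simp only [Prod.mk.injEq] at e
  exact Prod.ext (ng_eq_of_mod h ((Nat.add_le_add_right (idist1_le_left i i') 1).trans hd) e.1)
    (ng_eq_of_mod h ((Nat.add_le_add_right (idist1_le_right i i') 1).trans hd) e.2)

theorem ng_tp_small (h : Adm c R) {k : EvId} (hk : k ∈ events c R) : ∃ i0, tpatch c R k ⊆ nbh c R {i0} := by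
  have h64 := h.d64
  have hp := h.pos
  obtain ⟨i0, hi0⟩ := core_ne hk
  refine ⟨i0, fun i hi => mem_nbh.2 ⟨i0, Finset.mem_singleton_self _, ?_⟩⟩
  have b1 := nbh_box h (ρ := R / 16) (by omega) (subset_nbh _ _ hi0)
  have b2 := nbh_box h (ρ := R / 16) (by omega) (tpatch_subset_nbh _ hi)
  have := box_diam h (by omega) b1 b2
  omega

/-! ## 7. The exit -/

/-- **POST GEO, exit: the metric facts of NORM** -/
theorem ngeo_of_adm (h : Adm c R) : NGeo c R where
  pos := h.pos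
  d64 := h.d64
  dvd := h.dvd
  tp_disj := fun _ hS _ hk _ hk' hne => ng_tp_disj h hS hk hk' hne
  tp_halC := fun _ _ hk => tpatch_subset_halC h hk
  tst := fun _ _ hS hO _ hk => ng_tst h hS hO hk
  tp_cl := fun _ _ hS hO _ hk _ hf => ng_tp_cl h hS hO hk hf
  chain := fun _ _ hS hO => ng_chain h hS hO
  skp_card := ng_skp_card h
  halT_card := ng_halT_card h
  halT_sub := fun S _ => halT_subset R S
  halC_mono := fun _ _ hS => ng_halC_mono hS
  tile_card := ng_tile_card h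
  tile_diam := fun _ _ e => tile_diam h e
  tp_small := fun _ hk => ng_tp_small h hk
  tp_ne := fun _ hk => core_ne hk

theorem ngeo_of (h : GeoOK c R) : NGeo c R := ngeo_of_adm h.adm

end Claimed.Agent.R285.Entry
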