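import Claimed.Agent.R285.Entry.GoodDefs
import Claimed.Agent.R285.F4a.Tilt

/-!
# ROW 285, post BP-ENT-GOOD, package WIN: TRANSPORT FROM A VOLUME TO A WINDOW      (architect helper109)

Paper-free, exact, no limit.  The soft inputs (`Read/C3.lean`) and the Gaussian estimates (`Entry/GoodGa.lean`) are stated for the laws `egLw Γ s = C3.lawR Γ (unif s) (one row per present cell)` of shapes `Γ : CGeom m₁ m₂`;
the entry engine works with `T.law`, `T : F4a.Top c`, in an arbitrary torus or free square.  If `T` is carried by a window `W : EgWin c m₁ m₂` and `Γ` is a shape of `T` (`W.Shp T Γ`) the two laws are ISOMORPHIC.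
* s1 `HIso H H'` (isomorphism of two finite height laws) and the invariance of every functional (`hi_*`).     Leaves L-ENT-WIN-ISO1/2/3.
* s2 arithmetic of `W.site`, the isomorphism `eg_win_iso`.                                                    Leaves L-ENT-WIN-SITE, L-ENT-WIN-MK.
* s3 the dictionary of the functionals of `GoodDefs` (`eg_win_*`).                                            Leaf  L-ENT-WIN-DIC.
* s4 shapes of `cut`, `glue`, patches; marks; `NoDiag`.                                                       Leaves L-ENT-WIN-SHP, L-ENT-WIN-GEO.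
* s5 EXITS (consumed by `Entry/Good.lean`): `eg_win_A`, `eg_win_transfer`, `eg_win_DE`, `eg_win_Ds`.           Leaf  L-ENT-WIN-EXIT.
Rules: statements frozen; auxiliary lemmas directly above your theorem, prefix `hi_` / `eg_win_`; edit only your block; pull before landing.
-/

set_option autoImplicit false

namespace Claimed.Agent.R285.Entry

open scoped BigOperators
open Claimed.Agent.R285 Claimed.Agent.R285.RG Claimed.Agent.R285.F4a

noncomputable section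

/-! ## 1. Isomorphisms of finite height laws -/

/-- an isomorphism of two finite height laws: bijections of sites, oriented bonds and rows -/
structure HIso {G G' : HGraph} (H : HLaw G) (H' : HLaw G') where
  eV : G.V ≃ G'.V
  eE : G.E ≃ G'.E
  eO : H.O ≃ H'.O
  src : ∀ e, G'.src (eE e) = eV (G.src e)
  tgt : ∀ e, G'.tgt (eE e) = eV (G.tgt e)
  lam : ∀ h' : G'.V → ℤ, h' ∈ H'.Λ ↔ (h' ∘ eV) ∈ H.Λ
  row : ∀ o v, H'.B (eO o) (eV v) = H.B o v

namespace HIso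

variable {G G' : HGraph} {H : HLaw G} {H' : HLaw G'} (i : HIso H H')

/-- affine data read in `H` -/
def pullA (α' : H'.Aff) : H.Aff := ⟨α'.x ∘ i.eV, α'.τ ∘ i.eE, α'.c ∘ i.eO⟩

/-- the isomorphism of the laws with additional pins -/
def addPin (P' : Set G'.V) : HIso (H.addPin (i.eV ⁻¹' P')) (H'.addPin P') where
  eV := i.eV
  eE := i.eE
  eO := i.eO
  src := i.src
  tgt := i.tgt
  lam := fun h' => by
    show h' ∈ H'.Λ ⊓ HLaw.pinned P' ↔ (h' ∘ i.eV) ∈ H.Λ ⊓ HLaw.pinned (i.eV ⁻¹' P')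
    rw [AddSubgroup.mem_inf, AddSubgroup.mem_inf, i.lam h']
    refine and_congr Iff.rfl ⟨fun h v hv => h _ hv, fun h v hv => ?_⟩
    have := h (i.eV.symm v) (by simpa using hv)
    simpa using this
  row := i.row

end HIso

section inv

variable {G G' : HGraph} {H : HLaw G} {H' : HLaw G'} (i : HIso H H')

/-- L-ENT-WIN-ISO1.  `Fintype.prod_equiv i.eE`, `Fintype.sum_equiv i.eO`, `Fintype.sum_equiv i.eV`. -/
theorem hi_W (b : ℝ) (h' : G'.V → ℤ) (α' : H'.Aff) :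
    (H'.sys b).W (H'.coordA b h' + α'.amb b) = (H.sys b).W (H.coordA b (h' ∘ i.eV) + (i.pullA α').amb b) := by
  have h1 : ∀ e : G.E, (H.coordA b (h' ∘ i.eV) + (i.pullA α').amb b).1 e = (H'.coordA b h' + α'.amb b).1 (i.eE e) := by
    intro e
    show (h' (i.eV (G.tgt e)) - h' (i.eV (G.src e))) + ((α'.x (i.eV (G.tgt e)) - α'.x (i.eV (G.src e))) + α'.τ (i.eE e))
      = (h' (G'.tgt (i.eE e)) - h' (G'.src (i.eE e))) + ((α'.x (G'.tgt (i.eE e)) - α'.x (G'.src (i.eE e))) + α'.τ (i.eE e))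
    rw [i.src, i.tgt]
  have h2 : ∀ o : H.O, (H.coordA b (h' ∘ i.eV) + (i.pullA α').amb b).2 o = (H'.coordA b h' + α'.amb b).2 (i.eO o) := by
    intro o
    show (∑ v, H.B o v * (2 * Real.pi * (h' (i.eV v) : ℝ))) + ((∑ v, H.B o v * (2 * Real.pi * (α'.x (i.eV v) : ℝ))) + - α'.c (i.eO o))
      = (∑ v, H'.B (i.eO o) v * (2 * Real.pi * (h' v : ℝ))) + ((∑ v, H'.B (i.eO o) v * (2 * Real.pi * (α'.x v : ℝ))) + - α'.c (i.eO o))
    rw [Fintype.sum_equiv i.eV (fun v => H.B o v * (2 * Real.pi * (h' (i.eV v) : ℝ))) (fun v => H'.B (i.eO o) v * (2 * Real.pi * (h' v : ℝ)))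
        (fun v => by rw [i.row]),
      Fintype.sum_equiv i.eV (fun v => H.B o v * (2 * Real.pi * (α'.x (i.eV v) : ℝ))) (fun v => H'.B (i.eO o) v * (2 * Real.pi * (α'.x v : ℝ)))
        (fun v => by rw [i.row])]
  have e1 : ∏ e : G.E, bes b ((H.coordA b (h' ∘ i.eV) + (i.pullA α').amb b).1 e) = ∏ e : G'.E, bes b ((H'.coordA b h' + α'.amb b).1 e) :=
    Fintype.prod_equiv i.eE _ _ (fun e => by rw [h1])
  have e2 : ∑ o : H.O, (H.coordA b (h' ∘ i.eV) + (i.pullA α').amb b).2 o ^ 2 = ∑ o : H'.O, (H'.coordA b h' + α'.amb b).2 o ^ 2 :=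
    Fintype.sum_equiv i.eO _ _ (fun o => by rw [h2])
  show (∏ e : G'.E, bes b ((H'.coordA b h' + α'.amb b).1 e)) * Real.exp (-(∑ o : H'.O, (H'.coordA b h' + α'.amb b).2 o ^ 2) / 2)
    = (∏ e : G.E, bes b ((H.coordA b (h' ∘ i.eV) + (i.pullA α').amb b).1 e))
      * Real.exp (-(∑ o : H.O, (H.coordA b (h' ∘ i.eV) + (i.pullA α').amb b).2 o ^ 2) / 2)
  rw [e1, e2]

/-- L-ENT-WIN-ISO1, auxiliary: the bijection of the constraint lattices -/
theorem hi_eL : ∃ e : H'.Λ ≃ H.Λ, ∀ h' : H'.Λ, ((e h' : H.Λ) : G.V → ℤ) = (h' : G'.V → ℤ) ∘ i.eV :=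
  ⟨{ toFun := fun h' => ⟨(h' : G'.V → ℤ) ∘ i.eV, (i.lam _).1 h'.2⟩
     invFun := fun h => ⟨(h : G.V → ℤ) ∘ i.eV.symm, (i.lam _).2 (by
        have : ((h : G.V → ℤ) ∘ i.eV.symm) ∘ i.eV = (h : G.V → ℤ) := by
          funext v
          simp
        rw [this]
        exact h.2)⟩
     left_inv := fun h' => by
        apply Subtype.ext
        funext v
        simp
     right_inv := fun h => by
        apply Subtype.ext
        funext v
        simp }, fun _ => rfl⟩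

/-- L-ENT-WIN-ISO1.  `h' ↦ h' ∘ eV` is a bijection `H'.Λ ≃ H.Λ` (`lam`); `Equiv.tsum_eq`; `hi_W`. -/
theorem hi_ZI (b : ℝ) (α' : H'.Aff) (F' : (G'.V → ℤ) → ℝ) :
    C3.ZI H' b α' F' = C3.ZI H b (i.pullA α') fun h => F' (h ∘ i.eV.symm) := by
  obtain ⟨eL, heL⟩ := hi_eL i
  unfold C3.ZI
  rw [← eL.tsum_eq]
  refine tsum_congr fun h' => ?_
  have e : ((h' : G'.V → ℤ) ∘ i.eV + (i.pullA α').x) ∘ i.eV.symm = (h' : G'.V → ℤ) + α'.x := by
    funext v
    show (h' : G'.V → ℤ) (i.eV (i.eV.symm v)) + α'.x (i.eV (i.eV.symm v)) = (h' : G'.V → ℤ) v + α'.x v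
    rw [Equiv.apply_symm_apply]
  beta_reduce
  rw [heL, e, hi_W i b (h' : G'.V → ℤ) α']

/-- L-ENT-WIN-ISO1 -/
theorem hi_Z (b : ℝ) (α' : H'.Aff) (F' : (G'.V → ℝ) → ℝ) :
    H'.Z b α' F' = H.Z b (i.pullA α') fun φ => F' (φ ∘ i.eV.symm) := by
  obtain ⟨eL, heL⟩ := hi_eL i
  unfold HLaw.Z
  rw [← eL.tsum_eq]
  refine tsum_congr fun h' => ?_
  have e : (fun v => 2 * Real.pi * (((((h' : G'.V → ℤ) ∘ i.eV) v + (i.pullA α').x v : ℤ)) : ℝ)) ∘ i.eV.symm
      = fun v => 2 * Real.pi * ((((h' : G'.V → ℤ) v + α'.x v : ℤ)) : ℝ) := by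
    funext v
    show 2 * Real.pi * ((((h' : G'.V → ℤ) (i.eV (i.eV.symm v)) + α'.x (i.eV (i.eV.symm v)) : ℤ)) : ℝ) = _
    rw [Equiv.apply_symm_apply]
  beta_reduce
  rw [heL, e, hi_W i b (h' : G'.V → ℤ) α']

/-- L-ENT-WIN-ISO2, auxiliary -/
theorem hi_resZ (P' : Set G'.V) (u' : G'.V → ℤ) : C3.resZ P' u' ∘ i.eV = C3.resZ (i.eV ⁻¹' P') (u' ∘ i.eV) := rfl

/-- L-ENT-WIN-ISO2, auxiliary -/
theorem hi_pair (f' : G'.V → ℝ) (φ : G.V → ℝ) : HLaw.pair f' (φ ∘ i.eV.symm) = HLaw.pair (f' ∘ i.eV) φ := by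
  unfold HLaw.pair
  exact (Fintype.sum_equiv i.eV _ _ (fun v => by simp)).symm

/-- L-ENT-WIN-ISO2.  `hi_Z` for `i.addPin P'`; `C3.resZ P' u' ∘ eV = C3.resZ (eV ⁻¹' P') (u' ∘ eV)`. -/
theorem hi_ZC (b : ℝ) (P' : Set G'.V) (u' : G'.V → ℤ) (F' : (G'.V → ℝ) → ℝ) :
    C3.ZC H' b P' u' F' = C3.ZC H b (i.eV ⁻¹' P') (u' ∘ i.eV) fun φ => F' (φ ∘ i.eV.symm) := by
  unfold C3.ZC
  rw [hi_Z (i.addPin P')]
  rfl

/-- L-ENT-WIN-ISO2.  `HLaw.pair f' (φ ∘ eV.symm) = HLaw.pair (f' ∘ eV) φ`. -/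
theorem hi_cLap (b : ℝ) (P' : Set G'.V) (f' : G'.V → ℝ) (u' : G'.V → ℤ) :
    C3.cLap H' b P' f' u' = C3.cLap H b (i.eV ⁻¹' P') (f' ∘ i.eV) (u' ∘ i.eV) := by
  unfold C3.cLap
  rw [hi_ZC i, hi_ZC i]
  simp only [hi_pair]

/-- L-ENT-WIN-ISO2, auxiliary -/
theorem hi_cPin (b : ℝ) (P' A' : Set G'.V) (u' : G'.V → ℤ) :
    C3.cPin H' b P' A' u' = C3.cPin H b (i.eV ⁻¹' P') (i.eV ⁻¹' A') (u' ∘ i.eV) := by
  unfold C3.cPin
  rw [hi_ZC i, hi_ZC i, hi_resZ, Set.preimage_union]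

/-- L-ENT-WIN-ISO2 -/
theorem hi_rPin (b : ℝ) (P' A' : Set G'.V) (u' : G'.V → ℤ) :
    C3.rPin H' b P' A' u' = C3.rPin H b (i.eV ⁻¹' P') (i.eV ⁻¹' A') (u' ∘ i.eV) := by
  unfold C3.rPin
  rw [hi_cPin i, hi_cPin i]
  rfl

/-- L-ENT-WIN-ISO2 -/
theorem hi_ExT (b : ℝ) (f' : G'.V → ℝ) (Ψ' : (G'.V → ℤ) → ℝ) :
    C3.ExT H' b f' Ψ' = C3.ExT H b (f' ∘ i.eV) fun h => Ψ' (h ∘ i.eV.symm) := by
  have e : ∀ h : G.V → ℤ, HLaw.pair f' (C3.phys (h ∘ i.eV.symm)) = HLaw.pair (f' ∘ i.eV) (C3.phys h) := fun h => hi_pair i f' (C3.phys h)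
  unfold C3.ExT
  rw [hi_ZI i, hi_ZI i]
  simp only [e]
  rfl

/-- L-ENT-WIN-ISO2, auxiliary -/
theorem hi_pPin (b : ℝ) (A' : Set G'.V) : H'.pPin b A' = H.pPin b (i.eV ⁻¹' A') := by
  unfold HLaw.pPin
  rw [hi_Z (i.addPin A'), hi_Z i]
  rfl

/-- L-ENT-WIN-ISO2 -/
theorem hi_dPin (b : ℝ) (A' P' : Set G'.V) : H'.dPin b A' P' = H.dPin b (i.eV ⁻¹' A') (i.eV ⁻¹' P') := by
  unfold HLaw.dPin
  rw [hi_pPin i, hi_pPin i, hi_pPin i, Set.preimage_union]


theorem hi_rspan_pull {v' : G'.V → ℝ} (hv : v' ∈ H'.rspan) : v' ∘ i.eV ∈ H.rspan := by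
  have h1 : H'.rspan ≤ H.rspan.comap (LinearMap.funLeft ℝ ℝ i.eV) := by
    rw [HLaw.rspan, Submodule.span_le]
    rintro _ ⟨h', hh', rfl⟩
    show (LinearMap.funLeft ℝ ℝ i.eV (fun v => (h' v : ℝ))) ∈ H.rspan
    exact Submodule.subset_span ⟨h' ∘ i.eV, (i.lam h').1 hh', rfl⟩
  exact h1 hv

theorem hi_rspan_push {v : G.V → ℝ} (hv : v ∈ H.rspan) : v ∘ i.eV.symm ∈ H'.rspan := by
  have h1 : H.rspan ≤ H'.rspan.comap (LinearMap.funLeft ℝ ℝ i.eV.symm) := by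
    rw [HLaw.rspan, Submodule.span_le]
    rintro _ ⟨h, hh, rfl⟩
    show (LinearMap.funLeft ℝ ℝ i.eV.symm (fun v => (h v : ℝ))) ∈ H'.rspan
    refine Submodule.subset_span ⟨h ∘ i.eV.symm, (i.lam _).2 ?_, rfl⟩
    have : (h ∘ i.eV.symm) ∘ i.eV = h := by
      funext x
      simp
    rw [this]
    exact hh
  exact h1 hv

theorem hi_cost (a : ℝ) (θ' : G'.E → ℝ) (c' : H'.O → ℝ) (v' : G'.V → ℝ) :
    a⁻¹ * HLaw.en v' θ' + ∑ o, (H'.obs v' o - c' o) ^ 2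
      = a⁻¹ * HLaw.en (v' ∘ i.eV) (θ' ∘ i.eE) + ∑ o, (H.obs (v' ∘ i.eV) o - (c' ∘ i.eO) o) ^ 2 := by
  have e1 : HLaw.en v' θ' = HLaw.en (v' ∘ i.eV) (θ' ∘ i.eE) := by
    unfold HLaw.en
    rw [← Equiv.sum_comp i.eE]
    refine Finset.sum_congr rfl fun e _ => ?_
    rw [i.src, i.tgt]
    rfl
  have e2 : ∀ o, H'.obs v' (i.eO o) = H.obs (v' ∘ i.eV) o := by
    intro o
    unfold HLaw.obs
    rw [← Equiv.sum_comp i.eV]
    refine Finset.sum_congr rfl fun x _ => ?_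
    rw [i.row]
    rfl
  have e3 : ∑ o, (H'.obs v' o - c' o) ^ 2 = ∑ o, (H.obs (v' ∘ i.eV) o - (c' ∘ i.eO) o) ^ 2 := by
    rw [← Equiv.sum_comp i.eO]
    refine Finset.sum_congr rfl fun o _ => ?_
    rw [e2]
    rfl
  rw [e1, e3]

/-- L-ENT-WIN-ISO3.  `v' ↦ v' ∘ eV` is a bijection `H'.rspan ≃ H.rspan` (image of the spanning set); `Equiv.iInf_congr`. -/
theorem hi_gEn (a : ℝ) (θ' : G'.E → ℝ) (c' : H'.O → ℝ) : H'.gEn a θ' c' = H.gEn a (θ' ∘ i.eE) (c' ∘ i.eO) := by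

  unfold HLaw.gEn
  apply congrArg sInf
  ext r
  constructor
  · rintro ⟨⟨v', hv'⟩, rfl⟩
    exact ⟨⟨v' ∘ i.eV, hi_rspan_pull i hv'⟩, (hi_cost i a θ' c' v').symm⟩
  · rintro ⟨⟨v, hv⟩, rfl⟩
    refine ⟨⟨v ∘ i.eV.symm, hi_rspan_push i hv⟩, ?_⟩
    have h := hi_cost i a θ' c' (v ∘ i.eV.symm)
    have e : (v ∘ i.eV.symm) ∘ i.eV = v := by
      funext x
      simp
    rw [e] at h
    exact h

end inv

/-! ## 2. The isomorphism of a window -/

variable {G : Geom} {c : Grid G} {m₁ m₂ : ℕ}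

/-- the cell of the window which contains the site `x` of `ℤ²` (junk outside the window) -/
def egCellOf (m₁ m₂ s : ℕ) (x : ℤ × ℤ) (κ : C3.Cell m₁ m₂) : Prop :=
  (s : ℤ) * (κ.1 : ℕ) ≤ x.1 ∧ x.1 < (s : ℤ) * ((κ.1 : ℕ) + 1) ∧ (s : ℤ) * (κ.2 : ℕ) ≤ x.2 ∧ x.2 < (s : ℤ) * ((κ.2 : ℕ) + 1)

/-- L-ENT-WIN-SITE.  `max s 1 = s`. -/
theorem eg_win_mem_cell (s : ℕ) (hs : 0 < s) (x : ℤ × ℤ) (κ : C3.Cell m₁ m₂) : x ∈ (egGr m₁ m₂ s).cell κ ↔ egCellOf m₁ m₂ s x κ := by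
  have hmax : max s 1 = s := max_eq_left hs
  simp only [DGrid.cell, egGr, DGrid.unif, egCellOf, Finset.mem_product, Finset.mem_Ico, hmax,
    Fin.val_castSucc, Fin.val_succ, Nat.cast_add, Nat.cast_one]
  tauto

/-- L-ENT-WIN-SITE.  From `Whole c`: `G.M = c.n * c.m` and `(c.blk1 i : ℕ) = i / c.m` (monotone, all fibres of size `c.m`). -/
theorem eg_win_blk1 (hc : Whole c) : G.M = c.n * c.m ∧ ∀ i : Fin G.M, (c.blk1 i : ℕ) = (i : ℕ) / c.m :=
  ⟨whole_card hc, whole_blk1 hc⟩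

/-- one axis: the folded position of a site of the window, explicitly -/
theorem eg_win_fold1 (hc : Whole c) (o : Fin c.n) (k mm : ℕ) (hk : k < mm) (hle : mm ≤ c.n)
    (hfree : G.bc = BC.free → (o : ℕ) + mm ≤ c.n) (x : ℤ) (h1 : (c.m : ℤ) * k ≤ x) (h2 : x < (c.m : ℤ) * (k + 1)) :
    ((G.fold ((c.m : ℤ) * (o : ℕ) + x) : ℕ) : ℤ) = (c.m : ℤ) * ((((o : ℕ) + k) % c.n : ℕ) : ℤ) + (x - (c.m : ℤ) * k) := by
  have hM : (G.M : ℤ) = (c.n : ℤ) * c.m := by exact_mod_cast whole_card hc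
  have hm : (0 : ℤ) < c.m := by exact_mod_cast hc.pos
  have ho : (o : ℕ) < c.n := o.2
  set r : ℤ := x - (c.m : ℤ) * k with hr
  have hr0 : 0 ≤ r := by omega
  have hr1 : r < c.m := by
    have : (c.m : ℤ) * (k + 1) = (c.m : ℤ) * k + c.m := by ring
    omega
  have hx : (c.m : ℤ) * (o : ℕ) + x = (c.m : ℤ) * (((o : ℕ) + k : ℕ) : ℤ) + r := by
    push_cast; ring
  rw [hx]
  rcases Nat.lt_or_ge ((o : ℕ) + k) c.n with hlt | hge
  · -- no wrapping
    rw [Nat.mod_eq_of_lt hlt]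
    have hb0 : 0 ≤ (c.m : ℤ) * (((o : ℕ) + k : ℕ) : ℤ) + r := by positivity
    have hb1 : (c.m : ℤ) * (((o : ℕ) + k : ℕ) : ℤ) + r < G.M := by
      have : (((o : ℕ) + k : ℕ) : ℤ) + 1 ≤ c.n := by exact_mod_cast hlt
      nlinarith
    have := fold_coe (G := G) ⟨((c.m : ℤ) * (((o : ℕ) + k : ℕ) : ℤ) + r).toNat, by omega⟩
    simp only [Int.toNat_of_nonneg hb0] at this
    rw [this]
    simp only [Int.toNat_of_nonneg hb0]
  · -- wrapping: only on the torus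
    have hper : G.bc = BC.per := by
      rcases hG : G.bc with _ | _
      · rfl
      · have := hfree hG; omega
    have hmod : ((o : ℕ) + k) % c.n = (o : ℕ) + k - c.n := by
      rw [Nat.mod_eq_sub_mod hge, Nat.mod_eq_of_lt (by omega)]
    rw [hmod, fold_per_val hper]
    have hcast : (((o : ℕ) + k - c.n : ℕ) : ℤ) = (((o : ℕ) + k : ℕ) : ℤ) - c.n := by
      rw [Nat.cast_sub hge]
    rw [hcast]
    have e : (c.m : ℤ) * (((o : ℕ) + k : ℕ) : ℤ) + r = ((c.m : ℤ) * ((((o : ℕ) + k : ℕ) : ℤ) - c.n) + r) + G.M * 1 := by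
      rw [hM]; ring
    rw [e, Int.add_mul_emod_self_left]
    apply Int.emod_eq_of_lt
    · have : (0 : ℤ) ≤ (((o : ℕ) + k : ℕ) : ℤ) - c.n := by
        have : (c.n : ℤ) ≤ (((o : ℕ) + k : ℕ) : ℤ) := by exact_mod_cast hge
        omega
      positivity
    · have : (((o : ℕ) + k : ℕ) : ℤ) - c.n + 1 ≤ c.n := by
        have : (((o : ℕ) + k : ℕ) : ℤ) + 1 ≤ c.n + c.n := by
          have : (o : ℕ) + k + 1 ≤ c.n + c.n := by omega
          exact_mod_cast this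
        omega
      nlinarith

/-- one axis: uniqueness of quotient and remainder -/
theorem eg_win_qr {m q q' r r' : ℤ} (hm : 0 < m) (hr0 : 0 ≤ r) (hr1 : r < m) (hr0' : 0 ≤ r') (hr1' : r' < m)
    (h : m * q + r = m * q' + r') : q = q' ∧ r = r' := by
  have hq : q = q' := by
    rcases lt_trichotomy q q' with hlt | heq | hgt
    · exfalso
      have : q + 1 ≤ q' := hlt
      nlinarith
    · exact heq
    · exfalso
      have : q' + 1 ≤ q := hgt
      nlinarith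
  subst hq
  exact ⟨rfl, by linarith⟩

/-- one axis: no wrapping of the cells -/
theorem eg_win_mod_inj {n o k k' : ℕ} (hk : k < n) (hk' : k' < n) (h : (o + k) % n = (o + k') % n) : k = k' := by
  have h1 : k ≡ k' [MOD n] := Nat.ModEq.add_left_cancel' o h
  have h2 : k % n = k' % n := h1
  rwa [Nat.mod_eq_of_lt hk, Nat.mod_eq_of_lt hk'] at h2

/-- one axis: the cell of a site of the window -/
theorem eg_win_blk1_fold (hc : Whole c) (o : Fin c.n) (k mm : ℕ) (hk : k < mm) (hle : mm ≤ c.n)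
    (hfree : G.bc = BC.free → (o : ℕ) + mm ≤ c.n) (x : ℤ) (h1 : (c.m : ℤ) * k ≤ x) (h2 : x < (c.m : ℤ) * (k + 1)) :
    ((c.blk1 (G.fold ((c.m : ℤ) * (o : ℕ) + x)) : Fin c.n) : ℕ) = ((o : ℕ) + k) % c.n := by
  have hf := eg_win_fold1 hc o k mm hk hle hfree x h1 h2
  have hm : (0 : ℤ) < c.m := by exact_mod_cast hc.pos
  have hr0 : 0 ≤ x - (c.m : ℤ) * k := by omega
  have hr1 : x - (c.m : ℤ) * k < c.m := by
    have : (c.m : ℤ) * (k + 1) = (c.m : ℤ) * k + c.m := by ring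
    omega
  rw [whole_blk1 hc]
  have e : ((G.fold ((c.m : ℤ) * (o : ℕ) + x) : Fin G.M) : ℕ) = c.m * (((o : ℕ) + k) % c.n) + (x - (c.m : ℤ) * k).toNat := by
    have : (((c.m * (((o : ℕ) + k) % c.n) + (x - (c.m : ℤ) * k).toNat : ℕ)) : ℤ)
        = (c.m : ℤ) * ((((o : ℕ) + k) % c.n : ℕ) : ℤ) + (x - (c.m : ℤ) * k) := by
      rw [Nat.cast_add, Nat.cast_mul, Int.toNat_of_nonneg hr0]
    exact_mod_cast hf.trans this.symm
  rw [e, Nat.mul_add_div hc.pos, Nat.div_eq_of_lt (by omega), add_zero]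

/-- L-ENT-WIN-SITE: the cell of a site of the window.  (torus: `fold = mod M`; free square: no folding, by `W.free`.) -/
theorem eg_win_blk_site (hc : Whole c) (W : EgWin c m₁ m₂) (x : ℤ × ℤ) (κ : C3.Cell m₁ m₂) (hx : egCellOf m₁ m₂ c.m x κ) : c.blk (W.site x) = W.emb κ := by
  obtain ⟨a1, a2, b1, b2⟩ := hx
  apply Prod.ext
  · apply Fin.ext
    exact eg_win_blk1_fold hc W.o.1 κ.1 m₁ κ.1.2 W.le₁ (fun h => (W.free h).1) x.1 a1 a2
  · apply Fin.ext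
    exact eg_win_blk1_fold hc W.o.2 κ.2 m₂ κ.2.2 W.le₂ (fun h => (W.free h).2) x.2 b1 b2

/-- L-ENT-WIN-SITE -/
theorem eg_win_emb_inj (hc : Whole c) (W : EgWin c m₁ m₂) : Function.Injective W.emb := by
  intro κ κ' h
  have h1 : ((W.o.1 : ℕ) + κ.1) % c.n = ((W.o.1 : ℕ) + κ'.1) % c.n := congrArg (fun z : c.I => (z.1 : ℕ)) h
  have h2 : ((W.o.2 : ℕ) + κ.2) % c.n = ((W.o.2 : ℕ) + κ'.2) % c.n := congrArg (fun z : c.I => (z.2 : ℕ)) h
  apply Prod.ext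
  · exact Fin.ext (eg_win_mod_inj (lt_of_lt_of_le κ.1.2 W.le₁) (lt_of_lt_of_le κ'.1.2 W.le₁) h1)
  · exact Fin.ext (eg_win_mod_inj (lt_of_lt_of_le κ.2.2 W.le₂) (lt_of_lt_of_le κ'.2.2 W.le₂) h2)

/-- one axis: no wrapping of the sites -/
theorem eg_win_fold1_inj (hc : Whole c) (o : Fin c.n) (k k' mm : ℕ) (hk : k < mm) (hk' : k' < mm) (hle : mm ≤ c.n)
    (hfree : G.bc = BC.free → (o : ℕ) + mm ≤ c.n) (x x' : ℤ) (h1 : (c.m : ℤ) * k ≤ x) (h2 : x < (c.m : ℤ) * (k + 1))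
    (h1' : (c.m : ℤ) * k' ≤ x') (h2' : x' < (c.m : ℤ) * (k' + 1))
    (h : G.fold ((c.m : ℤ) * (o : ℕ) + x) = G.fold ((c.m : ℤ) * (o : ℕ) + x')) : x = x' := by
  have hf := eg_win_fold1 hc o k mm hk hle hfree x h1 h2
  have hf' := eg_win_fold1 hc o k' mm hk' hle hfree x' h1' h2'
  rw [h, hf'] at hf
  have hm : (0 : ℤ) < c.m := by exact_mod_cast hc.pos
  have e1 : (c.m : ℤ) * (k + 1) = (c.m : ℤ) * k + c.m := by ring
  have e2 : (c.m : ℤ) * (k' + 1) = (c.m : ℤ) * k' + c.m := by ring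
  obtain ⟨hq, hr⟩ := eg_win_qr hm (by omega) (by omega) (by omega) (by omega) hf
  have hq' : ((o : ℕ) + k') % c.n = ((o : ℕ) + k) % c.n := by exact_mod_cast hq
  have hkk : k' = k := eg_win_mod_inj (lt_of_lt_of_le hk' hle) (lt_of_lt_of_le hk hle) hq'
  subst hkk
  omega

/-- L-ENT-WIN-SITE: no wrapping inside the window -/
theorem eg_win_site_inj (hc : Whole c) (W : EgWin c m₁ m₂) (x x' : ℤ × ℤ) (κ κ' : C3.Cell m₁ m₂) (hx : egCellOf m₁ m₂ c.m x κ)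
    (hx' : egCellOf m₁ m₂ c.m x' κ') (h : W.site x = W.site x') : x = x' := by
  obtain ⟨a1, a2, b1, b2⟩ := hx
  obtain ⟨a1', a2', b1', b2'⟩ := hx'
  apply Prod.ext
  · exact eg_win_fold1_inj hc W.o.1 κ.1 κ'.1 m₁ κ.1.2 κ'.1.2 W.le₁ (fun h => (W.free h).1) x.1 x'.1 a1 a2 a1' a2'
      (congrArg Prod.fst h)
  · exact eg_win_fold1_inj hc W.o.2 κ.2 κ'.2 m₂ κ.2.2 κ'.2.2 W.le₂ (fun h => (W.free h).2) x.2 x'.2 b1 b2 b1' b2'
      (congrArg Prod.snd h)

/-- one axis: every site of a cell under the window is hit -/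
theorem eg_win_fold1_surj (hc : Whole c) (o : Fin c.n) (k mm : ℕ) (hk : k < mm) (hle : mm ≤ c.n)
    (hfree : G.bc = BC.free → (o : ℕ) + mm ≤ c.n) (v : Fin G.M) (hv : ((c.blk1 v : Fin c.n) : ℕ) = ((o : ℕ) + k) % c.n) :
    ∃ x : ℤ, (c.m : ℤ) * k ≤ x ∧ x < (c.m : ℤ) * (k + 1) ∧ G.fold ((c.m : ℤ) * (o : ℕ) + x) = v := by
  have hm : (0 : ℤ) < c.m := by exact_mod_cast hc.pos
  have hlt : (((v : ℕ) % c.m : ℕ) : ℤ) < c.m := by exact_mod_cast Nat.mod_lt _ hc.pos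
  have h1 : (c.m : ℤ) * k ≤ (c.m : ℤ) * k + (((v : ℕ) % c.m : ℕ) : ℤ) := by omega
  have h2 : (c.m : ℤ) * k + (((v : ℕ) % c.m : ℕ) : ℤ) < (c.m : ℤ) * (k + 1) := by
    have : (c.m : ℤ) * (k + 1) = (c.m : ℤ) * k + c.m := by ring
    omega
  refine ⟨(c.m : ℤ) * k + (((v : ℕ) % c.m : ℕ) : ℤ), h1, h2, ?_⟩
  have hf := eg_win_fold1 hc o k mm hk hle hfree _ h1 h2
  rw [← hv, whole_blk1 hc] at hf
  apply Fin.ext
  have e : (c.m : ℤ) * (((v : ℕ) / c.m : ℕ) : ℤ) + ((c.m : ℤ) * k + (((v : ℕ) % c.m : ℕ) : ℤ) - (c.m : ℤ) * k) = ((v : ℕ) : ℤ) := by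
    have := Nat.div_add_mod (v : ℕ) c.m
    have h3 : ((c.m * ((v : ℕ) / c.m) + (v : ℕ) % c.m : ℕ) : ℤ) = ((v : ℕ) : ℤ) := by rw [this]
    push_cast at h3 ⊢
    linarith
  rw [e] at hf
  exact_mod_cast hf

/-- L-ENT-WIN-SITE: every site of a cell under the window is hit -/
theorem eg_win_site_surj (hc : Whole c) (W : EgWin c m₁ m₂) (v : G.V) (κ : C3.Cell m₁ m₂) (hv : c.blk v = W.emb κ) :
    ∃ x, egCellOf m₁ m₂ c.m x κ ∧ W.site x = v := by
  have hv1 : ((c.blk1 v.1 : Fin c.n) : ℕ) = ((W.o.1 : ℕ) + κ.1) % c.n := congrArg (fun z : c.I => (z.1 : ℕ)) hv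
  have hv2 : ((c.blk1 v.2 : Fin c.n) : ℕ) = ((W.o.2 : ℕ) + κ.2) % c.n := congrArg (fun z : c.I => (z.2 : ℕ)) hv
  obtain ⟨x1, a1, a2, a3⟩ := eg_win_fold1_surj hc W.o.1 κ.1 m₁ κ.1.2 W.le₁ (fun h => (W.free h).1) v.1 hv1
  obtain ⟨x2, b1, b2, b3⟩ := eg_win_fold1_surj hc W.o.2 κ.2 m₂ κ.2.2 W.le₂ (fun h => (W.free h).2) v.2 hv2
  exact ⟨(x1, x2), ⟨a1, a2, b1, b2⟩, Prod.ext a3 b3⟩

/-- one axis: a step inside the window -/
theorem eg_win_fold1_succ (hc : Whole c) (o : Fin c.n) (k mm : ℕ) (hk : k < mm) (hle : mm ≤ c.n)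
    (hfree : G.bc = BC.free → (o : ℕ) + mm ≤ c.n) (x : ℤ) (h1 : (c.m : ℤ) * k ≤ x) (h2 : x < (c.m : ℤ) * (k + 1)) :
    G.fold (((G.fold ((c.m : ℤ) * (o : ℕ) + x) : ℕ) : ℤ) + 1) = G.fold ((c.m : ℤ) * (o : ℕ) + (x + 1)) := by
  rcases hG : G.bc with _ | _
  · apply Fin.ext
    have e0 := fold_per_val hG ((c.m : ℤ) * (o : ℕ) + x)
    have e1 := fold_per_val hG (((G.fold ((c.m : ℤ) * (o : ℕ) + x) : ℕ) : ℤ) + 1)
    have e2 := fold_per_val hG ((c.m : ℤ) * (o : ℕ) + (x + 1))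
    have e3 : ((G.fold (((G.fold ((c.m : ℤ) * (o : ℕ) + x) : ℕ) : ℤ) + 1) : ℕ) : ℤ)
        = ((G.fold ((c.m : ℤ) * (o : ℕ) + (x + 1)) : ℕ) : ℤ) := by
      rw [e1, e2, e0, Int.emod_add_emod, add_assoc]
    exact_mod_cast e3
  · have hf := eg_win_fold1 hc o k mm hk hle hfree x h1 h2
    have := hfree hG
    rw [Nat.mod_eq_of_lt (by omega)] at hf
    rw [hf]
    congr 1
    push_cast
    ring

/-- L-ENT-WIN-SITE: steps inside the window -/
theorem eg_win_stp (hc : Whole c) (W : EgWin c m₁ m₂) (x : ℤ × ℤ) (d : Bool) (κ κ' : C3.Cell m₁ m₂) (hx : egCellOf m₁ m₂ c.m x κ)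
    (hx' : egCellOf m₁ m₂ c.m (x + bdir d) κ') : stp (W.site x) d = W.site (x + bdir d) ∧ stp (W.site x) d ≠ W.site x := by
  have key : stp (W.site x) d = W.site (x + bdir d) := by
    obtain ⟨a1, a2, b1, b2⟩ := hx
    cases d with
    | true =>
      rw [stp_true]
      apply Prod.ext
      · exact eg_win_fold1_succ hc W.o.1 κ.1 m₁ κ.1.2 W.le₁ (fun h => (W.free h).1) x.1 a1 a2
      · simp [EgWin.site, Geom.π, bdir]
    | false =>
      rw [stp_false]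
      apply Prod.ext
      · simp [EgWin.site, Geom.π, bdir]
      · exact eg_win_fold1_succ hc W.o.2 κ.2 m₂ κ.2.2 W.le₂ (fun h => (W.free h).2) x.2 b1 b2
  refine ⟨key, ?_⟩
  rw [key]
  intro h
  have := eg_win_site_inj hc W _ _ κ' κ hx' hx h
  cases d with
  | true =>
    have h1 := congrArg Prod.fst this
    simp [bdir] at h1
  | false =>
    have h1 := congrArg Prod.snd this
    simp [bdir] at h1

/-- L-ENT-WIN-SITE: the second cell of a face -/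
theorem eg_win_fnb (hc : Whole c) (W : EgWin c m₁ m₂) (f : C3.Cell m₁ m₂ × Bool) (κ' : C3.Cell m₁ m₂) (h : egWnb f κ') :
    fnb c (W.embF f) = W.emb κ' ∧ W.Inner f := by
  obtain ⟨κ, d⟩ := f
  rcases h with ⟨hd, h1, h2⟩ | ⟨hd, h1, h2⟩
  · simp only at hd h1 h2
    subst hd
    constructor
    · simp only [fnb, EgWin.embF, EgWin.emb, nx, if_true]
      apply Prod.ext
      · apply Fin.ext
        simp only
        rw [Nat.mod_add_mod, ← h1, add_assoc]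
      · simp only [h2]
    · simp only [EgWin.Inner, if_true]
      rw [h1]; exact κ'.1.2
  · simp only at hd h1 h2
    subst hd
    constructor
    · simp only [fnb, EgWin.embF, EgWin.emb, nx]
      apply Prod.ext
      · simp [h1]
      · apply Fin.ext
        simp only [Bool.false_eq_true, if_false]
        rw [Nat.mod_add_mod, ← h2, add_assoc]
    · simp only [EgWin.Inner, Bool.false_eq_true, if_false]
      rw [h2]; exact κ'.2.2

/-- aux (L-ENT-WIN-MK) -/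
theorem eg_win_pos_mem (Γ : CGeom m₁ m₂) (g : DGrid m₁ m₂) (x : (Γ.graph g).V) : domPos x ∈ g.region Γ.T :=
  Subtype.prop (p := fun v => v ∈ g.region Γ.T) x

/-- aux (L-ENT-WIN-MK) -/
theorem eg_win_mem_region (s : ℕ) (hs : 0 < s) (A : Finset (C3.Cell m₁ m₂)) (x : ℤ × ℤ) :
    x ∈ (egGr m₁ m₂ s).region A ↔ ∃ κ ∈ A, egCellOf m₁ m₂ s x κ := by
  unfold DGrid.region
  rw [Finset.mem_biUnion]
  exact exists_congr fun κ => and_congr_right fun _ => eg_win_mem_cell s hs x κ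

/-- aux (L-ENT-WIN-MK) -/
theorem eg_win_ar1 {s a b : ℕ} {t t' : ℤ} (h1 : (s : ℤ) * a ≤ t) (h2 : t' < (s : ℤ) * ((b : ℤ) + 1)) (h : t ≤ t') : a ≤ b := by
  have h3 : (s : ℤ) * a < (s : ℤ) * ((b : ℤ) + 1) := by omega
  have h4 := lt_of_mul_lt_mul_left h3 (by positivity)
  omega

/-- aux (L-ENT-WIN-MK): the cells are disjoint -/
theorem eg_win_cell_unique {s : ℕ} {x : ℤ × ℤ} {κ κ' : C3.Cell m₁ m₂} (h : egCellOf m₁ m₂ s x κ) (h' : egCellOf m₁ m₂ s x κ') : κ = κ' := by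
  obtain ⟨a1, a2, a3, a4⟩ := h
  obtain ⟨b1, b2, b3, b4⟩ := h'
  have e1 := eg_win_ar1 a1 b2 le_rfl
  have e2 := eg_win_ar1 b1 a2 le_rfl
  have e3 := eg_win_ar1 a3 b4 le_rfl
  have e4 := eg_win_ar1 b3 a4 le_rfl
  exact Prod.ext (Fin.ext (by omega)) (Fin.ext (by omega))

/-- aux (L-ENT-WIN-MK): a step stays in the cell or crosses the face -/
theorem eg_win_step_cell {s : ℕ} {x : ℤ × ℤ} {d : Bool} {κ κ' : C3.Cell m₁ m₂} (h : egCellOf m₁ m₂ s x κ)
    (h' : egCellOf m₁ m₂ s (x + bdir d) κ') : κ' = κ ∨ egWnb (κ, d) κ' := by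
  obtain ⟨a1, a2, a3, a4⟩ := h
  obtain ⟨b1, b2, b3, b4⟩ := h'
  cases d
  · simp only [bdir, Bool.false_eq_true, if_false, Prod.fst_add, Prod.snd_add, add_zero] at b1 b2 b3 b4
    have e1 := eg_win_ar1 a1 b2 le_rfl
    have e2 := eg_win_ar1 b1 a2 le_rfl
    have e3 := eg_win_ar1 a3 b4 (by omega)
    have e4 : (κ'.2 : ℕ) ≤ (κ.2 : ℕ) + 1 := by
      have h3 : (s : ℤ) * (κ'.2 : ℕ) < (s : ℤ) * (((κ.2 : ℕ) : ℤ) + 1 + 1) := by
        have : (0 : ℤ) ≤ s := by positivity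
        nlinarith
      have h4 := lt_of_mul_lt_mul_left h3 (by positivity)
      omega
    by_cases h5 : (κ'.2 : ℕ) = κ.2
    · left; exact Prod.ext (Fin.ext (by omega)) (Fin.ext h5)
    · right; right
      exact ⟨rfl, Fin.ext (by simp only; omega), by simp only; omega⟩
  · simp only [bdir, if_true, Prod.fst_add, Prod.snd_add, add_zero] at b1 b2 b3 b4
    have e1 := eg_win_ar1 a3 b4 le_rfl
    have e2 := eg_win_ar1 b3 a4 le_rfl
    have e3 := eg_win_ar1 a1 b2 (by omega)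
    have e4 : (κ'.1 : ℕ) ≤ (κ.1 : ℕ) + 1 := by
      have h3 : (s : ℤ) * (κ'.1 : ℕ) < (s : ℤ) * (((κ.1 : ℕ) : ℤ) + 1 + 1) := by
        have : (0 : ℤ) ≤ s := by positivity
        nlinarith
      have h4 := lt_of_mul_lt_mul_left h3 (by positivity)
      omega
    by_cases h5 : (κ'.1 : ℕ) = κ.1
    · left; exact Prod.ext (Fin.ext h5) (Fin.ext (by omega))
    · right; left
      exact ⟨rfl, by simp only; omega, Fin.ext (by simp only; omega)⟩

/-- aux (L-ENT-WIN-MK): across an inner face the step stays in the window -/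
theorem eg_win_step_inner {s : ℕ} (W : EgWin c m₁ m₂) {x : ℤ × ℤ} {d : Bool} {κ : C3.Cell m₁ m₂} (h : egCellOf m₁ m₂ s x κ)
    (hi : W.Inner (κ, d)) : ∃ κ', egCellOf m₁ m₂ s (x + bdir d) κ' := by
  obtain ⟨a1, a2, a3, a4⟩ := h
  cases d
  · simp only [EgWin.Inner, Bool.false_eq_true, if_false] at hi
    by_cases h5 : x.2 + 1 < (s : ℤ) * (((κ.2 : ℕ) : ℤ) + 1)
    · refine ⟨κ, ?_⟩
      simp only [egCellOf, bdir, Bool.false_eq_true, if_false, Prod.fst_add, Prod.snd_add, add_zero]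
      exact ⟨a1, a2, by omega, h5⟩
    · refine ⟨(κ.1, ⟨κ.2 + 1, hi⟩), ?_⟩
      simp only [egCellOf, bdir, Bool.false_eq_true, if_false, Prod.fst_add, Prod.snd_add, add_zero]
      refine ⟨a1, a2, by push_cast; omega, ?_⟩
      have h6 : x.2 + 1 = (s : ℤ) * (((κ.2 : ℕ) : ℤ) + 1) := by omega
      have h7 : (0 : ℤ) < s := by
        by_contra h8
        have : (s : ℤ) = 0 := by omega
        rw [this] at a3 a4
        omega
      push_cast
      nlinarith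
  · simp only [EgWin.Inner, if_true] at hi
    by_cases h5 : x.1 + 1 < (s : ℤ) * (((κ.1 : ℕ) : ℤ) + 1)
    · refine ⟨κ, ?_⟩
      simp only [egCellOf, bdir, if_true, Prod.fst_add, Prod.snd_add, add_zero]
      exact ⟨by omega, h5, a3, a4⟩
    · refine ⟨(⟨κ.1 + 1, hi⟩, κ.2), ?_⟩
      simp only [egCellOf, bdir, if_true, Prod.fst_add, Prod.snd_add, add_zero]
      have h6 : x.1 + 1 = (s : ℤ) * (((κ.1 : ℕ) : ℤ) + 1) := by omega
      have h7 : (0 : ℤ) < s := by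
        by_contra h8
        have : (s : ℤ) = 0 := by omega
        rw [this] at a1 a2
        omega
      refine ⟨by push_cast; omega, ?_, a3, a4⟩
      push_cast
      nlinarith

/-- aux (L-ENT-WIN-MK): one-dimensional step out of a cell -/
theorem eg_win_fold_out (hc : Whole c) (z : ℤ) (q : ℕ) (hz : z + 1 = (c.m : ℤ) * q) (hq : 0 < q) (hfree : G.bc = BC.free → q ≤ c.n) :
    G.fold (((G.fold z : ℕ) : ℤ) + 1) = G.fold z ∨ c.blk1 (G.fold (((G.fold z : ℕ) : ℤ) + 1)) ≠ c.blk1 (G.fold z) := by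
  have hm := hc.pos
  have hM := whole_card hc
  have hn := hc.two
  -- the position in the cell
  have key : c.m ∣ ((G.fold z : ℕ) + 1) := by
    have hz0 : z = (c.m : ℤ) * ((q : ℤ) - 1) + ((c.m : ℤ) - 1) := by
      have : (c.m : ℤ) * ((q : ℤ) - 1) = (c.m : ℤ) * q - c.m := by ring
      omega
    rcases hG : G.bc with _ | _
    · have h1 := fold_per_val hG z
      have h2 : ((G.fold z : ℕ) : ℤ) % (c.m : ℤ) = (c.m : ℤ) - 1 := by
        rw [h1, Int.emod_emod_of_dvd z (by rw [hM]; push_cast; exact Dvd.intro_left _ rfl), hz0, Int.add_comm,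
          Int.add_mul_emod_self_left]
        exact Int.emod_eq_of_lt (by omega) (by omega)
      have h3 : (c.m : ℤ) ∣ (((G.fold z : ℕ) : ℤ) + 1) := by
        rw [Int.dvd_iff_emod_eq_zero, Int.add_emod, h2]
        have : ((c.m : ℤ) - 1 + 1 % (c.m : ℤ)) % (c.m : ℤ) = 0 := by
          by_cases h4 : c.m = 1
          · rw [h4]; simp
          · rw [Int.emod_eq_of_lt (a := 1) (by omega) (by omega)]
            simp
        exact this
      exact_mod_cast h3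
    · have h1 := fold_free_val hG z
      have hq' := hfree hG
      have hzM : z + 1 ≤ G.M := by
        rw [hz, hM]
        push_cast
        have : (q : ℤ) ≤ c.n := by exact_mod_cast hq'
        have h5 : (0 : ℤ) ≤ c.m := by positivity
        nlinarith
      have hz1 : 0 ≤ z := by
        have : (1 : ℤ) ≤ q := by exact_mod_cast hq
        have h5 : (1 : ℤ) ≤ c.m := by exact_mod_cast hm
        nlinarith
      rw [Int.emod_eq_of_lt hz1 (by omega), if_pos (by omega)] at h1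
      have h3 : (c.m : ℤ) ∣ (((G.fold z : ℕ) : ℤ) + 1) := by
        rw [h1, hz]
        exact Dvd.intro _ rfl
      exact_mod_cast h3
  have hdiv := Nat.succ_div (a := (G.fold z : ℕ)) (b := c.m)
  rw [if_pos key] at hdiv
  have hi := (G.fold z).2
  by_cases h : ((G.fold z : Fin G.M) : ℕ) + 1 < G.M
  · right
    intro h1
    have h2 := congrArg (fun t : Fin c.n => (t : ℕ)) h1
    rw [whole_blk1 hc, whole_blk1 hc, enb_fold_succ _ h] at h2
    omega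
  · have h' : ((G.fold z : Fin G.M) : ℕ) + 1 = G.M := by omega
    rcases hG : G.bc with _ | _
    · right
      intro h1
      have h2 := congrArg (fun t : Fin c.n => (t : ℕ)) h1
      rw [whole_blk1 hc, whole_blk1 hc, enb_fold_last_per hG _ h'] at h2
      have h5 : G.M / c.m = c.n := by rw [hM, Nat.mul_div_cancel _ hm]
      rw [h', h5] at hdiv
      rw [Nat.zero_div] at h2
      omega
    · left
      exact enb_fold_last_free hG _ h'

/-- aux (L-ENT-WIN-MK): a step which leaves the cell leaves the block (or is stopped by a free wall) -/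
theorem eg_win_stp_out (hc : Whole c) (W : EgWin c m₁ m₂) (x : ℤ × ℤ) (d : Bool) (κ : C3.Cell m₁ m₂) (hx : egCellOf m₁ m₂ c.m x κ)
    (hx' : ¬ egCellOf m₁ m₂ c.m (x + bdir d) κ) : stp (W.site x) d = W.site x ∨ c.blk (stp (W.site x) d) ≠ c.blk (W.site x) := by
  obtain ⟨a1, a2, a3, a4⟩ := hx
  cases d
  · simp only [egCellOf, bdir, Bool.false_eq_true, if_false, Prod.fst_add, Prod.snd_add, add_zero, not_and, not_lt] at hx'
    have h1 := hx' a1 a2 (by omega)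
    have h2 : ((c.m : ℤ) * (W.o.2 : ℕ) + x.2) + 1 = (c.m : ℤ) * (((W.o.2 : ℕ) + (κ.2 : ℕ) + 1 : ℕ) : ℤ) := by
      push_cast
      have : x.2 + 1 = (c.m : ℤ) * (((κ.2 : ℕ) : ℤ) + 1) := by omega
      linear_combination this
    have h3 := eg_win_fold_out hc _ _ h2 (by omega) (fun hG => by have := (W.free hG).2; have := κ.2.2; omega)
    rw [stp_false]
    rcases h3 with h3 | h3
    · left
      exact Prod.ext rfl h3
    · right
      intro h4
      exact h3 (congrArg Prod.snd h4)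
  · simp only [egCellOf, bdir, if_true, Prod.fst_add, Prod.snd_add, add_zero, not_and, not_lt] at hx'
    have h1 : (c.m : ℤ) * (((κ.1 : ℕ) : ℤ) + 1) ≤ x.1 + 1 := by
      by_contra h0
      exact absurd (hx' (by omega) (by omega) a3) (by omega)
    have h2 : ((c.m : ℤ) * (W.o.1 : ℕ) + x.1) + 1 = (c.m : ℤ) * (((W.o.1 : ℕ) + (κ.1 : ℕ) + 1 : ℕ) : ℤ) := by
      push_cast
      have : x.1 + 1 = (c.m : ℤ) * (((κ.1 : ℕ) : ℤ) + 1) := by omega
      linear_combination this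
    have h3 := eg_win_fold_out hc _ _ h2 (by omega) (fun hG => by have := (W.free hG).1; have := κ.1.2; omega)
    rw [stp_true]
    rcases h3 with h3 | h3
    · left
      exact Prod.ext h3 rfl
    · right
      intro h4
      exact h3 (congrArg Prod.fst h4)

/-- aux (L-ENT-WIN-MK) -/
theorem eg_win_wnb_ne {κ κ' : C3.Cell m₁ m₂} {d : Bool} (h : egWnb (κ, d) κ') : κ' ≠ κ := by
  rintro rfl
  rcases h with ⟨_, h, _⟩ | ⟨_, _, h⟩ <;> simp at h

/-- aux (L-ENT-WIN-MK) -/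
theorem eg_win_snd (e : Bond) : e.snd = e.1 + bdir e.2 := by
  obtain ⟨⟨x1, x2⟩, d⟩ := e
  cases d <;> simp [Bond.snd, bdir]

/-- aux (L-ENT-WIN-MK) -/
theorem eg_win_cell_card (s : ℕ) (hs : 0 < s) (κ : C3.Cell m₁ m₂) : ((egGr m₁ m₂ s).cell κ).card = s ^ 2 := by
  have h1 : max s 1 = s := max_eq_left hs
  unfold DGrid.cell egGr DGrid.unif
  simp only [Finset.card_product, Int.card_Ico, h1, Fin.val_succ, Fin.val_castSucc]
  have e1 : ((s : ℤ) * (((κ.1 : ℕ) + 1 : ℕ) : ℤ) - (s : ℤ) * ((κ.1 : ℕ) : ℤ)).toNat = s := by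
    have : (s : ℤ) * (((κ.1 : ℕ) + 1 : ℕ) : ℤ) - (s : ℤ) * ((κ.1 : ℕ) : ℤ) = s := by push_cast; ring
    rw [this]; simp
  have e2 : ((s : ℤ) * (((κ.2 : ℕ) + 1 : ℕ) : ℤ) - (s : ℤ) * ((κ.2 : ℕ) : ℤ)).toNat = s := by
    have : (s : ℤ) * (((κ.2 : ℕ) + 1 : ℕ) : ℤ) - (s : ℤ) * ((κ.2 : ℕ) : ℤ) = s := by push_cast; ring
    rw [this]; simp
  rw [e1, e2, sq]

open Classical in
/-- aux (L-ENT-WIN-MK): the average over one cell -/
theorem eg_win_avgRow (s : ℕ) (hs : 0 < s) (Γ : CGeom m₁ m₂) (κ : C3.Cell m₁ m₂) (x : (Γ.graph (egGr m₁ m₂ s)).V) :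
    Γ.avgRow (egGr m₁ m₂ s) {κ} x = if egCellOf m₁ m₂ s (domPos x) κ then ((s : ℝ) ^ 2)⁻¹ else 0 := by
  have h1 : x ∈ Γ.sites (egGr m₁ m₂ s) {κ} ↔ egCellOf m₁ m₂ s (domPos x) κ := by
    show domPos x ∈ (↑((egGr m₁ m₂ s).region {κ}) : Set (ℤ × ℤ)) ↔ _
    rw [Finset.mem_coe, eg_win_mem_region s hs]
    simp
  unfold CGeom.avgRow
  by_cases h : egCellOf m₁ m₂ s (domPos x) κ
  · rw [if_pos (h1.2 h), if_pos h]
    obtain ⟨κ', hκ', hx⟩ := (eg_win_mem_region s hs Γ.T _).1 (eg_win_pos_mem Γ _ x)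
    have e : κ' = κ := eg_win_cell_unique hx h
    subst e
    have e2 : ({κ'} : Finset (C3.Cell m₁ m₂)) ∩ Γ.T = {κ'} := Finset.inter_eq_left.2 (Finset.singleton_subset_iff.2 hκ')
    have e3 : (egGr m₁ m₂ s).region {κ'} = (egGr m₁ m₂ s).cell κ' := by
      unfold DGrid.region
      rw [Finset.singleton_biUnion]
    rw [e2, e3, eg_win_cell_card s hs]
    push_cast
    rfl
  · rw [if_neg (fun h' => h (h1.1 h')), if_neg h]

/-- L-ENT-WIN-MK, **the isomorphism**.  PLAN: `eV x = ⟨W.site (domPos x), _⟩` (bijective: `eg_win_site_inj`, `eg_win_site_surj`, `Shp.cells`, `Shp.fits`);  `eE e = ⟨(W.site e.1, e.2), _⟩` for the bond `e = (x, d)`: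
`T.IsEdge` ⟺ both ends in the region and `e ∉ Γ.cutB` (`eg_win_stp`; a bond which leaves its cell crosses the face `(κ, d)`; `Shp.faces`; conversely an edge of `T` across a face uses `Shp.fits`: the face is inner, so the second
end is again in the window);  `eO o = ⟨W.emb κ_o, _⟩`;  `lam`: both lattices are `⊤` (`Γ.pin = ∅`);  `row`: both rows are `1/s²` on the cell (`(c.sites {i}).card = c.m ^ 2 = ((egGr ..).region ({κ} ∩ Γ.T)).card`). -/
theorem eg_win_iso (hc : Whole c) (W : EgWin c m₁ m₂) (T : Top c) (hT : T.Ok) (Γ : CGeom m₁ m₂) (hS : W.Shp T Γ) :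
    ∃ i : HIso (egLw Γ c.m) T.law, (∀ x, (i.eV x).1 = W.site (domPos x)) ∧
      ∀ o : Fin Γ.T.card, (i.eO o).1 = W.emb (Γ.T.equivFin.symm o).1 := by
  classical
  have hs := hc.pos
  have hreg : ∀ x : ℤ × ℤ, x ∈ (egGr m₁ m₂ c.m).region Γ.T ↔ ∃ κ ∈ Γ.T, egCellOf m₁ m₂ c.m x κ :=
    eg_win_mem_region c.m hs Γ.T
  have hblk : ∀ x κ, egCellOf m₁ m₂ c.m x κ → c.blk (W.site x) = W.emb κ := fun x κ h => eg_win_blk_site hc W x κ h
  -- vertices
  have hV : ∀ x : (Γ.graph (egGr m₁ m₂ c.m)).V, c.blk (W.site (domPos x)) ∈ T.cells := by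
    intro x
    obtain ⟨κ, hκ, hx⟩ := (hreg _).1 (eg_win_pos_mem Γ _ x)
    rw [hblk _ _ hx]
    exact (hS.cells κ).1 hκ
  let fV : (Γ.graph (egGr m₁ m₂ c.m)).V → T.graph.V := fun x => ⟨W.site (domPos x), hV x⟩
  have fV_bij : Function.Bijective fV := by
    constructor
    · intro x x' h
      have h1 : W.site (domPos x) = W.site (domPos x') := congrArg Subtype.val h
      obtain ⟨κ, hκ, hx⟩ := (hreg _).1 (eg_win_pos_mem Γ _ x)
      obtain ⟨κ', hκ', hx'⟩ := (hreg _).1 (eg_win_pos_mem Γ _ x')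
      exact Subtype.ext (eg_win_site_inj hc W _ _ κ κ' hx hx' h1)
    · intro v
      obtain ⟨κ, hκ⟩ := hS.fits.1 _ v.2
      obtain ⟨x, hx, hxv⟩ := eg_win_site_surj hc W v.1 κ hκ
      have hκT : κ ∈ Γ.T := (hS.cells κ).2 (hκ ▸ v.2)
      exact ⟨⟨x, (hreg x).2 ⟨κ, hκT, hx⟩⟩, Subtype.ext hxv⟩
  -- bonds
  have hE : ∀ e : (Γ.graph (egGr m₁ m₂ c.m)).E, T.IsEdge (W.site (domBond e).1, (domBond e).2) ∧
      stp (W.site (domBond e).1) (domBond e).2 = W.site (domBond e).snd := by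
    intro e
    have he : domBond e ∈ domBonds ((egGr m₁ m₂ c.m).region Γ.T) (Γ.cutB (egGr m₁ m₂ c.m)) :=
      Subtype.prop (p := fun e => e ∈ domBonds ((egGr m₁ m₂ c.m).region Γ.T) (Γ.cutB (egGr m₁ m₂ c.m))) e
    have h1 := domBonds_fst he
    have h2 := domBonds_snd he
    have h3 : domBond e ∉ Γ.cutB (egGr m₁ m₂ c.m) := (Finset.mem_filter.1 he).2.2
    obtain ⟨κ, hκ, hx⟩ := (hreg _).1 h1
    obtain ⟨κ', hκ', hx'⟩ := (hreg _).1 h2
    rw [eg_win_snd] at hx'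
    obtain ⟨s1, s2⟩ := eg_win_stp hc W _ _ κ κ' hx hx'
    refine ⟨⟨s2, ?_, ?_, ?_⟩, by rw [eg_win_snd]; exact s1⟩
    · show c.blk (W.site (domBond e).1) ∈ T.cells
      rw [hblk _ _ hx]; exact (hS.cells κ).1 hκ
    · show c.blk (stp (W.site (domBond e).1) (domBond e).2) ∈ T.cells
      rw [s1, hblk _ _ hx']; exact (hS.cells κ').1 hκ'
    · show c.blk (stp (W.site (domBond e).1) (domBond e).2) = c.blk (W.site (domBond e).1) ∨
        (c.blk (W.site (domBond e).1), (domBond e).2) ∈ T.faces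
      rw [s1, hblk _ _ hx', hblk _ _ hx]
      rcases eg_win_step_cell hx hx' with h | h
      · left; rw [h]
      · right
        by_contra hf
        have h4 := (hS.faces (κ, (domBond e).2) κ' h hκ hκ').2 hf
        apply h3
        refine ⟨(κ, (domBond e).2), h4, rfl, (eg_win_mem_cell c.m hs _ _).2 hx, fun h5 => ?_⟩
        rw [eg_win_snd] at h5
        exact eg_win_wnb_ne h (eg_win_cell_unique hx' ((eg_win_mem_cell c.m hs _ _).1 h5))
  let fE : (Γ.graph (egGr m₁ m₂ c.m)).E → T.graph.E := fun e => ⟨(W.site (domBond e).1, (domBond e).2), (hE e).1⟩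
  have fE_bij : Function.Bijective fE := by
    constructor
    · intro e e' h
      have h0 : (W.site (domBond e).1, (domBond e).2) = (W.site (domBond e').1, (domBond e').2) := congrArg Subtype.val h
      have h1 : W.site (domBond e).1 = W.site (domBond e').1 := (Prod.mk.inj h0).1
      have h2 : (domBond e).2 = (domBond e').2 := (Prod.mk.inj h0).2
      have he : domBond e ∈ domBonds ((egGr m₁ m₂ c.m).region Γ.T) (Γ.cutB (egGr m₁ m₂ c.m)) :=
        Subtype.prop (p := fun e => e ∈ domBonds ((egGr m₁ m₂ c.m).region Γ.T) (Γ.cutB (egGr m₁ m₂ c.m))) e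
      have he' : domBond e' ∈ domBonds ((egGr m₁ m₂ c.m).region Γ.T) (Γ.cutB (egGr m₁ m₂ c.m)) :=
        Subtype.prop (p := fun e => e ∈ domBonds ((egGr m₁ m₂ c.m).region Γ.T) (Γ.cutB (egGr m₁ m₂ c.m))) e'
      obtain ⟨κ, hκ, hx⟩ := (hreg _).1 (domBonds_fst he)
      obtain ⟨κ', hκ', hx'⟩ := (hreg _).1 (domBonds_fst he')
      exact Subtype.ext (Prod.ext (eg_win_site_inj hc W _ _ κ κ' hx hx' h1) h2)
    · rintro ⟨⟨v, d⟩, hne, hv, hv', hor⟩
      simp only at hne hv hv' hor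
      obtain ⟨κ, hκ⟩ := hS.fits.1 _ hv
      obtain ⟨x, hx, hxv⟩ := eg_win_site_surj hc W v κ hκ
      have hκT : κ ∈ Γ.T := (hS.cells κ).2 (hκ ▸ hv)
      subst hxv
      have hex : ∃ κ', egCellOf m₁ m₂ c.m (x + bdir d) κ' := by
        by_cases hin : egCellOf m₁ m₂ c.m (x + bdir d) κ
        · exact ⟨κ, hin⟩
        · rcases eg_win_stp_out hc W x d κ hx hin with h | h
          · exact absurd h hne
          · rcases hor with h' | h'
            · exact absurd h' h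
            · obtain ⟨κ₀, hi, h0⟩ := hS.fits.2 _ h'
              simp only at hi h0
              have : κ₀ = κ := eg_win_emb_inj hc W (h0.symm.trans hκ)
              subst this
              exact eg_win_step_inner W hx hi
      obtain ⟨κ', hx'⟩ := hex
      obtain ⟨s1, s2⟩ := eg_win_stp hc W _ _ κ κ' hx hx'
      have hκ'T : κ' ∈ Γ.T := by
        rw [s1, hblk _ _ hx'] at hv'
        exact (hS.cells κ').2 hv'
      have hmem : ((x, d) : Bond) ∈ domBonds ((egGr m₁ m₂ c.m).region Γ.T) (Γ.cutB (egGr m₁ m₂ c.m)) := by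
        unfold domBonds
        rw [Finset.mem_filter, Finset.mem_product]
        refine ⟨⟨(hreg x).2 ⟨κ, hκT, hx⟩, Finset.mem_univ _⟩, ?_, ?_⟩
        · rw [eg_win_snd]
          exact (hreg _).2 ⟨κ', hκ'T, hx'⟩
        · rintro ⟨f, hf, h2, h3, h4⟩
          simp only at h2 h3
          rw [eg_win_snd] at h4
          simp only at h4
          have e1 : f.1 = κ := eg_win_cell_unique ((eg_win_mem_cell c.m hs _ _).1 h3) hx
          have e2 : f = (κ, d) := Prod.ext e1 h2.symm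
          subst e2
          have hne' : κ' ≠ κ := by
            rintro rfl
            exact h4 ((eg_win_mem_cell c.m hs _ _).2 hx')
          rcases eg_win_step_cell hx hx' with h | h
          · exact hne' h
          · have h5 := (hS.faces (κ, d) κ' h hκT hκ'T).1 hf
            rcases hor with h' | h'
            · rw [s1, hblk _ _ hx', hblk _ _ hx] at h'
              exact hne' (eg_win_emb_inj hc W h')
            · rw [hblk _ _ hx] at h'
              exact h5 h'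
      exact ⟨⟨(x, d), hmem⟩, rfl⟩
  -- rows
  let fO : Fin Γ.T.card → {i : c.I // i ∈ T.cells} :=
    fun o => ⟨W.emb (Γ.T.equivFin.symm o).1, (hS.cells _).1 (Γ.T.equivFin.symm o).2⟩
  have fO_bij : Function.Bijective fO := by
    constructor
    · intro o o' h
      have h1 : W.emb (Γ.T.equivFin.symm o).1 = W.emb (Γ.T.equivFin.symm o').1 := congrArg Subtype.val h
      exact Γ.T.equivFin.symm.injective (Subtype.ext (eg_win_emb_inj hc W h1))
    · rintro ⟨i, hi⟩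
      obtain ⟨κ, hκ⟩ := hS.fits.1 _ hi
      have hκT : κ ∈ Γ.T := (hS.cells κ).2 (hκ ▸ hi)
      refine ⟨Γ.T.equivFin ⟨κ, hκT⟩, Subtype.ext ?_⟩
      show W.emb (Γ.T.equivFin.symm (Γ.T.equivFin ⟨κ, hκT⟩)).1 = i
      rw [Equiv.symm_apply_apply]
      exact hκ.symm
  refine ⟨{ eV := Equiv.ofBijective fV fV_bij
            eE := Equiv.ofBijective fE fE_bij
            eO := Equiv.ofBijective fO fO_bij
            src := fun e => rfl
            tgt := fun e => Subtype.ext (hE e).2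
            lam := fun h' => ?_
            row := fun o v => ?_ }, fun x => rfl, fun o => rfl⟩
  · refine ⟨fun _ => ?_, fun _ => AddSubgroup.mem_top _⟩
    show _ ∈ HLaw.pinned (Γ.sites (egGr m₁ m₂ c.m) Γ.pin)
    intro v hv
    exfalso
    rw [hS.pin] at hv
    have : domPos v ∈ (↑((egGr m₁ m₂ c.m).region (∅ : Finset (C3.Cell m₁ m₂))) : Set (ℤ × ℤ)) := hv
    simp [DGrid.region] at this
  · show (if c.blk (W.site (domPos v)) = W.emb (Γ.T.equivFin.symm o).1 then ((c.sites {W.emb (Γ.T.equivFin.symm o).1}).card : ℝ)⁻¹ else 0)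
      = ∑ κ, egRow Γ o κ * Γ.avgRow (egGr m₁ m₂ c.m) {κ} v
    have e1 : ∑ κ, egRow Γ o κ * Γ.avgRow (egGr m₁ m₂ c.m) {κ} v = Γ.avgRow (egGr m₁ m₂ c.m) {(Γ.T.equivFin.symm o).1} v := by
      rw [Finset.sum_eq_single (Γ.T.equivFin.symm o).1]
      · simp [egRow]
      · intro κ _ hκ
        simp [egRow, hκ]
      · intro h; exact absurd (Finset.mem_univ _) h
    rw [e1, eg_win_avgRow c.m hs, whole_sites_card hc]
    obtain ⟨κ, hκ, hx⟩ := (hreg _).1 (eg_win_pos_mem Γ _ v)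
    rw [hblk _ _ hx]
    by_cases h : κ = (Γ.T.equivFin.symm o).1
    · rw [if_pos (by rw [h]), if_pos (h ▸ hx)]
      push_cast
      rfl
    · rw [if_neg (fun h' => h (eg_win_emb_inj hc W h')), if_neg (fun h' => h (eg_win_cell_unique hx h'))]

/-! ## 3. The dictionary -/

/-- aux (L-ENT-WIN-DIC): a fixed test at a site of the cell `κ` -/
theorem eg_win_cellTest (s : ℕ) (hs : 0 < s) (Γ : CGeom m₁ m₂) (t : C3.Cell m₁ m₂ → ℝ) (x : (Γ.graph (egGr m₁ m₂ s)).V)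
    (κ : C3.Cell m₁ m₂) (hx : egCellOf m₁ m₂ s (domPos x) κ) : Γ.cellTest (egGr m₁ m₂ s) t x = t κ * ((s : ℝ) ^ 2)⁻¹ := by
  classical
  unfold CGeom.cellTest
  rw [Finset.sum_eq_single κ]
  · rw [eg_win_avgRow s hs, if_pos hx]
  · intro κ' _ hκ'
    rw [eg_win_avgRow s hs, if_neg (fun h => hκ' (eg_win_cell_unique h hx)), mul_zero]
  · intro h; exact absurd (Finset.mem_univ _) h

/-- aux (L-ENT-WIN-DIC): the rows of `egLw` -/
theorem eg_win_lwB (s : ℕ) (Γ : CGeom m₁ m₂) (o : Fin Γ.T.card) (x : (Γ.graph (egGr m₁ m₂ s)).V) :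
    (egLw Γ s).B o x = Γ.avgRow (egGr m₁ m₂ s) {(Γ.T.equivFin.symm o).1} x := by
  classical
  show ∑ κ, egRow Γ o κ * Γ.avgRow (egGr m₁ m₂ s) {κ} x = _
  rw [Finset.sum_eq_single (Γ.T.equivFin.symm o).1]
  · simp [egRow]
  · intro κ _ hκ
    simp [egRow, hκ]
  · intro h; exact absurd (Finset.mem_univ _) h

/-- aux (L-ENT-WIN-DIC): the observation rows paired with their centres are the cell test -/
theorem eg_win_cen_test (s : ℕ) (hs : 0 < s) (Γ : CGeom m₁ m₂) (t : C3.Cell m₁ m₂ → ℝ) :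
    (fun x => ∑ o, egCen Γ t o * (egLw Γ s).B o x) = Γ.cellTest (egGr m₁ m₂ s) t := by
  classical
  funext x
  obtain ⟨κ, hκ, hx⟩ := (eg_win_mem_region s hs Γ.T _).1 (eg_win_pos_mem Γ _ x)
  rw [eg_win_cellTest s hs Γ t x κ hx, Finset.sum_eq_single (Γ.T.equivFin ⟨κ, hκ⟩)]
  · rw [eg_win_lwB, eg_win_avgRow s hs]
    simp only [egCen, Equiv.symm_apply_apply]
    rw [if_pos hx]
  · intro o _ ho
    rw [eg_win_lwB, eg_win_avgRow s hs, if_neg, mul_zero]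
    intro h
    apply ho
    have e : (Γ.T.equivFin.symm o).1 = κ := eg_win_cell_unique h hx
    have e2 : Γ.T.equivFin.symm o = ⟨κ, hκ⟩ := Subtype.ext e
    rw [← e2, Equiv.apply_symm_apply]
  · intro h; exact absurd (Finset.mem_univ _) h

/-- aux (L-ENT-WIN-DIC): **an observation is a tilt** (completion of the square, termwise; any law) -/
theorem hi_tilt {G : HGraph} (H : HLaw G) (b : ℝ) (cc : H.O → ℝ) (f : G.V → ℝ) (hf : ∀ v, f v = ∑ o, cc o * H.B o v)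
    (F : (G.V → ℤ) → ℝ) :
    C3.ZI H b ⟨0, 0, cc⟩ F = Real.exp (-(∑ o, cc o ^ 2) / 2) *
      C3.ZI H b (HLaw.Aff.zero H) fun h => F h * Real.exp (HLaw.pair f (C3.phys h)) := by
  obtain rfl : f = fun v => ∑ o, cc o * H.B o v := funext hf
  unfold C3.ZI
  rw [← tsum_mul_left]
  refine tsum_congr fun h => ?_
  have x1 : ((h : G.V → ℤ) + (⟨0, 0, cc⟩ : H.Aff).x) = (h : G.V → ℤ) := add_zero _
  have x2 : ((h : G.V → ℤ) + (HLaw.Aff.zero H).x) = (h : G.V → ℤ) := add_zero _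
  have c1 : ∀ e : G.E, (H.coordA b (h : G.V → ℤ) + (⟨0, 0, cc⟩ : H.Aff).amb b).1 e
      = (H.coordA b (h : G.V → ℤ) + (HLaw.Aff.zero H).amb b).1 e := fun e => rfl
  have c2 : ∀ o : H.O, (H.coordA b (h : G.V → ℤ) + (⟨0, 0, cc⟩ : H.Aff).amb b).2 o
      = (∑ v, H.B o v * (2 * Real.pi * (((h : G.V → ℤ) v : ℤ) : ℝ))) - cc o := by
    intro o
    show (∑ v, H.B o v * (2 * Real.pi * (((h : G.V → ℤ) v : ℤ) : ℝ)))
      + ((∑ v, H.B o v * (2 * Real.pi * (((0 : G.V → ℤ) v : ℤ) : ℝ))) + - cc o) = _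
    simp
    ring
  have c3 : ∀ o : H.O, (H.coordA b (h : G.V → ℤ) + (HLaw.Aff.zero H).amb b).2 o
      = ∑ v, H.B o v * (2 * Real.pi * (((h : G.V → ℤ) v : ℤ) : ℝ)) := by
    intro o
    show (∑ v, H.B o v * (2 * Real.pi * (((h : G.V → ℤ) v : ℤ) : ℝ)))
      + ((∑ v, H.B o v * (2 * Real.pi * (((0 : G.V → ℤ) v : ℤ) : ℝ))) + - (0 : ℝ)) = _
    simp
  have p1 : HLaw.pair (fun v => ∑ o, cc o * H.B o v) (C3.phys (h : G.V → ℤ))
      = ∑ o, cc o * ∑ v, H.B o v * (2 * Real.pi * (((h : G.V → ℤ) v : ℤ) : ℝ)) := by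
    show ∑ x, (∑ o, cc o * H.B o x) * (2 * Real.pi * (((h : G.V → ℤ) x : ℤ) : ℝ))
      = ∑ o, cc o * ∑ v, H.B o v * (2 * Real.pi * (((h : G.V → ℤ) v : ℤ) : ℝ))
    simp only [Finset.sum_mul, Finset.mul_sum]
    rw [Finset.sum_comm]
    exact Finset.sum_congr rfl fun o _ => Finset.sum_congr rfl fun v _ => by ring
  beta_reduce
  rw [x1, x2, p1]
  show F h * ((∏ e : G.E, bes b ((H.coordA b (h : G.V → ℤ) + (⟨0, 0, cc⟩ : H.Aff).amb b).1 e))
      * Real.exp (-(∑ o : H.O, (H.coordA b (h : G.V → ℤ) + (⟨0, 0, cc⟩ : H.Aff).amb b).2 o ^ 2) / 2))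
    = Real.exp (-(∑ o, cc o ^ 2) / 2) * (F h * Real.exp (∑ o, cc o * ∑ v, H.B o v * (2 * Real.pi * (((h : G.V → ℤ) v : ℤ) : ℝ))) *
      ((∏ e : G.E, bes b ((H.coordA b (h : G.V → ℤ) + (HLaw.Aff.zero H).amb b).1 e))
        * Real.exp (-(∑ o : H.O, (H.coordA b (h : G.V → ℤ) + (HLaw.Aff.zero H).amb b).2 o ^ 2) / 2)))
  simp only [c1, c2, c3]
  have e1 : Real.exp (-(∑ o, ((∑ v, H.B o v * (2 * Real.pi * (((h : G.V → ℤ) v : ℤ) : ℝ))) - cc o) ^ 2) / 2)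
      = Real.exp (-(∑ o, cc o ^ 2) / 2) * Real.exp (∑ o, cc o * ∑ v, H.B o v * (2 * Real.pi * (((h : G.V → ℤ) v : ℤ) : ℝ)))
        * Real.exp (-(∑ o, (∑ v, H.B o v * (2 * Real.pi * (((h : G.V → ℤ) v : ℤ) : ℝ))) ^ 2) / 2) := by
    rw [← Real.exp_add, ← Real.exp_add]
    congr 1
    have : ∑ o, ((∑ v, H.B o v * (2 * Real.pi * (((h : G.V → ℤ) v : ℤ) : ℝ))) - cc o) ^ 2
        = ∑ o, cc o ^ 2 - 2 * ∑ o, cc o * (∑ v, H.B o v * (2 * Real.pi * (((h : G.V → ℤ) v : ℤ) : ℝ)))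
          + ∑ o, (∑ v, H.B o v * (2 * Real.pi * (((h : G.V → ℤ) v : ℤ) : ℝ))) ^ 2 := by
      rw [Finset.mul_sum, ← Finset.sum_sub_distrib, ← Finset.sum_add_distrib]
      exact Finset.sum_congr rfl fun o _ => by ring
    rw [this]
    ring
  rw [e1]
  ring

/-- aux (L-ENT-WIN-DIC): the real span of the full lattice -/
theorem hi_rspan_top {G : HGraph} (H : HLaw G) (hΛ : H.Λ = ⊤) : H.rspan = ⊤ := by
  classical
  rw [eq_top_iff]
  intro φ _
  have e : φ = ∑ x, φ x • (fun v => (((Pi.single x (1 : ℤ) : G.V → ℤ) v : ℤ) : ℝ)) := by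
    funext v
    rw [Finset.sum_apply, Finset.sum_eq_single v]
    · simp
    · intro x _ hx
      simp [Pi.single_apply, Ne.symm hx]
    · intro h; exact absurd (Finset.mem_univ _) h
  rw [e]
  refine Submodule.sum_mem _ fun x _ => Submodule.smul_mem _ _ (Submodule.subset_span ⟨Pi.single x 1, ?_, rfl⟩)
  rw [hΛ]
  trivial

/-- aux (L-ENT-WIN-DIC): the observation energy is the Gaussian cost of the law `T.law` -/
theorem eg_win_Eobs_gEn (T : Top c) (a : ℝ) (y : c.I → ℝ) : T.Eobs a 0 y = T.law.gEn a 0 fun i => y i.1 := by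
  classical
  have h1 : ∀ u : G.V → ℝ, T.quad a (fun f => 2 * Real.pi * (((0 : Face c → ℤ) f : ℤ) : ℝ)) y u
      = a⁻¹ * HLaw.en (egRes T u) 0 + ∑ o, (T.law.obs (egRes T u) o - y o.1) ^ 2 := by
    intro u
    unfold Top.quad
    congr 1
    · congr 1
      refine Finset.sum_congr rfl fun e _ => ?_
      have : T.econn (fun f => 2 * Real.pi * (((0 : Face c → ℤ) f : ℤ) : ℝ)) e = 0 := by
        unfold Top.econn
        split_ifs <;> simp
      rw [this]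
      rfl
    · rw [← Finset.sum_coe_sort T.cells]
      refine Finset.sum_congr rfl fun o _ => ?_
      have e1 : T.law.obs (egRes T u) o = avg c (tlExt T (egRes T u)) o.1 := tl_avg T (egRes T u) o.1 o.2
      have e2 : avg c (tlExt T (egRes T u)) o.1 = avg c u o.1 := by
        unfold avg cellAvg
        congr 1
        refine Finset.sum_congr rfl fun v hv => ?_
        have hv' : c.blk v = o.1 := by
          have := (Finset.mem_filter.1 hv).2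
          simpa using this
        have hv2 : c.blk v ∈ T.cells := hv' ▸ o.2
        exact tlExt_coe T (egRes T u) ⟨v, hv2⟩
      rw [e1, e2]
  have hsurj : Function.Surjective (egRes (α := ℝ) T) := by
    intro φ
    refine ⟨egExt T φ, ?_⟩
    funext v
    show (if hv : c.blk v.1 ∈ T.cells then φ ⟨v.1, hv⟩ else 0) = φ v
    rw [dif_pos v.2]
    rfl
  have hsurj2 : Function.Surjective (fun v : T.law.rspan => (v : T.graph.V → ℝ)) := by
    intro φ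
    exact ⟨⟨φ, by rw [hi_rspan_top T.law rfl]; trivial⟩, rfl⟩
  unfold Top.Eobs Top.En HLaw.gEn
  rw [iInf_congr h1, hsurj.iInf_comp (fun φ => a⁻¹ * HLaw.en φ 0 + ∑ o, (T.law.obs φ o - y o.1) ^ 2),
    ← hsurj2.iInf_comp (fun φ => a⁻¹ * HLaw.en φ 0 + ∑ o, (T.law.obs φ o - y o.1) ^ 2)]

/-- aux (L-ENT-WIN-DIC): the dictionary of sites, tests and fields under an isomorphism which follows `W.site` -/
theorem eg_win_dic (hc : Whole c) (W : EgWin c m₁ m₂) (T : Top c) (Γ : CGeom m₁ m₂) (i : HIso (egLw Γ c.m) T.law)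
    (hV : ∀ x, (i.eV x).1 = W.site (domPos x)) (hO : ∀ o : Fin Γ.T.card, (i.eO o).1 = W.emb (Γ.T.equivFin.symm o).1) :
    (∀ p : Finset c.I, i.eV ⁻¹' egSites T p = Γ.sites (egGr m₁ m₂ c.m) (W.pre p)) ∧
    (∀ y : c.I → ℝ, egTest T y ∘ i.eV = Γ.cellTest (egGr m₁ m₂ c.m) (W.obs y)) ∧
    (∀ (α : Type) (h : G.V → α), egRes T h ∘ i.eV = W.pull Γ h) ∧
    (∀ y : c.I → ℝ, (fun j : T.law.O => y j.1) ∘ i.eO = egCen Γ (W.obs y)) ∧
    (∀ (α : Type) [Zero α] (h : (Γ.graph (egGr m₁ m₂ c.m)).V → α), egExt T (h ∘ i.eV.symm) = W.push Γ h) := by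
  classical
  have hs := hc.pos
  have hcell : ∀ x : (Γ.graph (egGr m₁ m₂ c.m)).V, ∃ κ ∈ Γ.T, egCellOf m₁ m₂ c.m (domPos x) κ ∧ c.blk (i.eV x).1 = W.emb κ := by
    intro x
    obtain ⟨κ, hκ, hx⟩ := (eg_win_mem_region c.m hs Γ.T _).1 (eg_win_pos_mem Γ _ x)
    exact ⟨κ, hκ, hx, by rw [hV]; exact eg_win_blk_site hc W _ κ hx⟩
  refine ⟨fun p => ?_, fun y => ?_, fun α h => ?_, fun y => ?_, fun α _ h => ?_⟩
  · ext x
    obtain ⟨κ, hκ, hx, hb⟩ := hcell x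
    show c.blk (i.eV x).1 ∈ p ↔ domPos x ∈ (↑((egGr m₁ m₂ c.m).region (W.pre p)) : Set (ℤ × ℤ))
    rw [hb, Finset.mem_coe, eg_win_mem_region c.m hs]
    constructor
    · intro h
      exact ⟨κ, by simp [EgWin.pre, h], hx⟩
    · rintro ⟨κ', hκ', hx'⟩
      have : κ' = κ := eg_win_cell_unique hx' hx
      subst this
      simpa [EgWin.pre] using hκ'
  · funext x
    obtain ⟨κ, hκ, hx, hb⟩ := hcell x
    rw [eg_win_cellTest c.m hs Γ _ x κ hx]
    show y (c.blk (i.eV x).1) * ((c.sites {c.blk (i.eV x).1}).card : ℝ)⁻¹ = y (W.emb κ) * ((c.m : ℝ) ^ 2)⁻¹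
    rw [hb, whole_sites_card hc]
    push_cast
    rfl
  · funext x
    show h (i.eV x).1 = h (W.site (domPos x))
    rw [hV]
  · funext o
    exact congrArg y (hO o)
  · funext v
    show (if hv : c.blk v ∈ T.cells then h (i.eV.symm ⟨v, hv⟩) else 0)
      = if hv : ∃ x : (Γ.graph (egGr m₁ m₂ c.m)).V, W.site (domPos x) = v then h hv.choose else 0
    by_cases hv : c.blk v ∈ T.cells
    · have hex : ∃ x : (Γ.graph (egGr m₁ m₂ c.m)).V, W.site (domPos x) = v := by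
        refine ⟨i.eV.symm ⟨v, hv⟩, ?_⟩
        rw [← hV]
        exact congrArg Subtype.val (i.eV.apply_symm_apply ⟨v, hv⟩)
      rw [dif_pos hv, dif_pos hex]
      congr 1
      apply i.eV.injective
      apply Subtype.ext
      rw [hV hex.choose, hex.choose_spec]
      exact congrArg Subtype.val (i.eV.apply_symm_apply ⟨v, hv⟩)
    · rw [dif_neg hv, dif_neg]
      rintro ⟨x, hx⟩
      apply hv
      rw [← hx, ← hV]
      exact (i.eV x).2


section dic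

variable (hc : Whole c) (W : EgWin c m₁ m₂) (T : Top c) (hT : T.Ok) (Γ : CGeom m₁ m₂) (hS : W.Shp T Γ)

include hc hT hS

/-- L-ENT-WIN-DIC -/
theorem eg_win_pull_push {α : Type} [Zero α] (h : (Γ.graph (egGr m₁ m₂ c.m)).V → α) : W.pull Γ (W.push Γ h) = h := by
  obtain ⟨i, hV, hO⟩ := eg_win_iso hc W T hT Γ hS
  obtain ⟨_, _, d3, _, d5⟩ := eg_win_dic hc W T Γ i hV hO
  rw [← d3, ← d5]
  funext x
  show (if hv : c.blk (i.eV x).1 ∈ T.cells then h (i.eV.symm ⟨(i.eV x).1, hv⟩) else 0) = h x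
  rw [dif_pos (i.eV x).2]
  congr 1
  exact i.eV.symm_apply_apply x

/-- L-ENT-WIN-DIC.  `hi_Z`; `T.econn 0 = 0`. -/
theorem eg_win_Zobs (b : ℝ) (y : c.I → ℝ) :
    T.Zobs b 0 y = (egLw Γ c.m).Z b ⟨0, 0, egCen Γ (W.obs y)⟩ fun _ => 1 := by
  obtain ⟨i, hV, hO⟩ := eg_win_iso hc W T hT Γ hS
  obtain ⟨_, _, _, d4, _⟩ := eg_win_dic hc W T Γ i hV hO
  unfold Top.Zobs
  rw [hi_Z i]
  have e : i.pullA (⟨0, T.econn 0, fun j => y j.1⟩ : T.law.Aff) = ⟨0, 0, egCen Γ (W.obs y)⟩ := by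
    unfold HIso.pullA
    congr 1
    · funext e
      show T.econn (0 : Face c → ℤ) (i.eE e) = 0
      unfold Top.econn
      split_ifs <;> rfl
    · exact d4 y
  rw [e]

/-- L-ENT-WIN-DIC.  `T.Eobs a 0 y = T.law.gEn a 0 y` (the infimum over `u : G.V → ℝ` only sees `egRes T u`; `T.law.rspan = ⊤`), then `hi_gEn`. -/
theorem eg_win_Eobs (a : ℝ) (y : c.I → ℝ) : T.Eobs a 0 y = (egLw Γ c.m).gEn a 0 (egCen Γ (W.obs y)) := by
  obtain ⟨i, hV, hO⟩ := eg_win_iso hc W T hT Γ hS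
  obtain ⟨_, _, _, d4, _⟩ := eg_win_dic hc W T Γ i hV hO
  rw [eg_win_Eobs_gEn, hi_gEn i, d4]
  rfl

/-- L-ENT-WIN-DIC.  `hi_cLap`; `eV ⁻¹' egSites T p = Γ.sites _ (W.pre p)`, `egTest T y ∘ eV = Γ.cellTest _ (W.obs y)`, `egRes T h ∘ eV = W.pull Γ h`. -/
theorem eg_win_CL (b : ℝ) (p : Finset c.I) (y : c.I → ℝ) (h : G.V → ℤ) :
    egCL T b p y h = C3.cLap (egLw Γ c.m) b (Γ.sites (egGr m₁ m₂ c.m) (W.pre p)) (Γ.cellTest (egGr m₁ m₂ c.m) (W.obs y)) (W.pull Γ h) := by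
  obtain ⟨i, hV, hO⟩ := eg_win_iso hc W T hT Γ hS
  obtain ⟨d1, d2, d3, _, _⟩ := eg_win_dic hc W T Γ i hV hO
  unfold egCL
  rw [hi_cLap i, d1, d2, d3]

/-- L-ENT-WIN-DIC -/
theorem eg_win_RP (b : ℝ) (p H : Finset c.I) (h : G.V → ℤ) :
    egRP T b p H h = C3.rPin (egLw Γ c.m) b (Γ.sites (egGr m₁ m₂ c.m) (W.pre p)) (Γ.sites (egGr m₁ m₂ c.m) (W.pre H)) (W.pull Γ h) := by
  obtain ⟨i, hV, hO⟩ := eg_win_iso hc W T hT Γ hS
  obtain ⟨d1, _, d3, _, _⟩ := eg_win_dic hc W T Γ i hV hO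
  unfold egRP
  rw [hi_rPin i, d1, d1, d3]

/-- L-ENT-WIN-DIC.  `eg_ex_eq` of `GoodEx.lean` is NOT imported here: prove the tilt identity on the window side or restate; simplest: `egEx = egSum / Zobs`, `hi_ZI`, `hi_Z`, then complete the square on the window side
(the same computation as `eg_ex_eq`; you may move `eg_ex_eq` here).   `egExt T (h ∘ eV.symm) = W.push Γ h`. -/
theorem eg_win_Ex {b : ℝ} (hb : 0 < b) (y : c.I → ℝ) (Ψ : (G.V → ℤ) → ℝ) :
    egEx T b 0 y Ψ = C3.ExT (egLw Γ c.m) b (Γ.cellTest (egGr m₁ m₂ c.m) (W.obs y)) fun h => Ψ (W.push Γ h) := by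
  obtain ⟨i, hV, hO⟩ := eg_win_iso hc W T hT Γ hS
  obtain ⟨_, _, _, d4, d5⟩ := eg_win_dic hc W T Γ i hV hO
  have e : i.pullA (⟨0, T.econn 0, fun j => y j.1⟩ : T.law.Aff) = ⟨0, 0, egCen Γ (W.obs y)⟩ := by
    unfold HIso.pullA
    congr 1
    · funext e
      show T.econn (0 : Face c → ℤ) (i.eE e) = 0
      unfold Top.econn
      split_ifs <;> rfl
    · exact d4 y
  have e1 : egSum T b 0 y Ψ = C3.ZI (egLw Γ c.m) b ⟨0, 0, egCen Γ (W.obs y)⟩ fun h => Ψ (W.push Γ h) := by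
    unfold egSum
    rw [hi_ZI i, e]
    congr 1
    funext h
    rw [d5]
  have e2 : T.Zobs b 0 y = C3.ZI (egLw Γ c.m) b ⟨0, 0, egCen Γ (W.obs y)⟩ fun _ => 1 := by
    rw [eg_win_Zobs hc W T hT Γ hS]
    rfl
  have hf : ∀ v, Γ.cellTest (egGr m₁ m₂ c.m) (W.obs y) v = ∑ o, egCen Γ (W.obs y) o * (egLw Γ c.m).B o v :=
    fun v => (congrFun (eg_win_cen_test c.m hc.pos Γ (W.obs y)) v).symm
  have t1 := hi_tilt (egLw Γ c.m) b (egCen Γ (W.obs y)) _ hf fun h => Ψ (W.push Γ h)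
  have t2 := hi_tilt (egLw Γ c.m) b (egCen Γ (W.obs y)) _ hf fun _ => 1
  unfold egEx C3.ExT
  rw [e1, e2, t1, t2, mul_div_mul_left _ _ (Real.exp_pos _).ne']
  simp only [one_mul]

/-- L-ENT-WIN-DIC -/
theorem eg_win_dPin (b : ℝ) (H p : Finset c.I) :
    T.law.dPin b (egSites T H) (egSites T p)
      = (egLw Γ c.m).dPin b (Γ.sites (egGr m₁ m₂ c.m) (W.pre H)) (Γ.sites (egGr m₁ m₂ c.m) (W.pre p)) := by
  obtain ⟨i, hV, hO⟩ := eg_win_iso hc W T hT Γ hS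
  obtain ⟨d1, _, _, _, _⟩ := eg_win_dic hc W T Γ i hV hO
  rw [hi_dPin i, d1, d1]

end dic

/-! ## 4. Shapes -/


theorem eg_win_mem_pre (W : EgWin c m₁ m₂) (A : Finset c.I) (κ : C3.Cell m₁ m₂) : κ ∈ W.pre A ↔ W.emb κ ∈ A := by
  unfold EgWin.pre
  simp only [Finset.mem_filter, Finset.mem_univ, true_and]

theorem eg_win_mem_preF (W : EgWin c m₁ m₂) (E : Finset (Face c)) (f : C3.Cell m₁ m₂ × Bool) :
    f ∈ W.preF E ↔ W.Inner f ∧ W.embF f ∈ E := by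
  unfold EgWin.preF
  simp only [Finset.mem_filter, Finset.mem_univ, true_and]

theorem eg_win_mem_shape_T (W : EgWin c m₁ m₂) (T : Top c) (κ : C3.Cell m₁ m₂) : κ ∈ (W.shape T).T ↔ W.emb κ ∈ T.cells :=
  eg_win_mem_pre W T.cells κ

theorem eg_win_mem_shape_cut (W : EgWin c m₁ m₂) (T : Top c) (f : C3.Cell m₁ m₂ × Bool) :
    f ∈ (W.shape T).cutF ↔ W.embF f ∉ T.faces := by
  unfold EgWin.shape egSh
  simp only [Finset.mem_filter, Finset.mem_univ, true_and]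

theorem eg_win_inner_of_nb (W : EgWin c m₁ m₂) {f : C3.Cell m₁ m₂ × Bool} {κ' : C3.Cell m₁ m₂} (h : egWnb f κ') : W.Inner f := by
  unfold EgWin.Inner
  rcases h with ⟨h1, h2, -⟩ | ⟨h1, -, h2⟩
  · rw [h1, if_pos rfl]
    have := κ'.1.2
    omega
  · rw [h1, if_neg (by simp)]
    have := κ'.2.2
    omega

/-- L-ENT-WIN-SHP -/
theorem eg_shp_shape (W : EgWin c m₁ m₂) (T : Top c) (hf : W.Fits T) : W.Shp T (W.shape T) := by

  exact ⟨hf, fun κ => eg_win_mem_shape_T W T κ, fun f κ' _ _ _ => eg_win_mem_shape_cut W T f, rfl⟩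

/-- L-ENT-WIN-SHP -/
theorem eg_fits_cut (W : EgWin c m₁ m₂) (T : Top c) (hf : W.Fits T) (E : Finset (Face c)) : W.Fits (T.cut E) := by

  exact ⟨hf.1, fun f hfE => hf.2 f (Finset.mem_sdiff.1 hfE).1⟩

/-- L-ENT-WIN-SHP -/
theorem eg_fits_glue (W : EgWin c m₁ m₂) (T : Top c) (hf : W.Fits T) (E : Finset (Face c)) (hE : ∀ f ∈ E, W.FaceIn f) : W.Fits (T.glue E) := by

  refine ⟨hf.1, fun f hfE => ?_⟩
  rcases Finset.mem_union.1 hfE with h | h
  · exact hf.2 f h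
  · exact hE f h

/-- L-ENT-WIN-SHP -/
theorem eg_fits_restr (W : EgWin c m₁ m₂) (T : Top c) (hf : W.Fits T) (O : Finset c.I) : W.Fits (T.restr O) := by

  exact ⟨fun i hi => hf.1 i (Finset.mem_inter.1 hi).1, fun f hfE => hf.2 f (Finset.mem_filter.1 hfE).1⟩

/-- L-ENT-WIN-SHP: the restored box -/
theorem eg_shp_glue (hc : Whole c) (W : EgWin c m₁ m₂) (T : Top c) (hf : W.Fits T) (E : Finset (Face c)) (hE : ∀ f ∈ E, W.FaceIn f) :
    W.Shp (T.glue E) (C3.uncut (W.shape (T.cut E)) (W.preF E)) := by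

  refine ⟨eg_fits_glue W T hf E hE, fun κ => eg_win_mem_shape_T W (T.cut E) κ, fun f κ' h _ _ => ?_, rfl⟩
  have hin := eg_win_inner_of_nb W h
  show f ∈ (W.shape (T.cut E)).cutF \ W.preF E ↔ W.embF f ∉ T.faces ∪ E
  rw [Finset.mem_sdiff, eg_win_mem_shape_cut, eg_win_mem_preF, Finset.mem_union]
  show (W.embF f ∉ T.faces \ E ∧ _) ↔ _
  rw [Finset.mem_sdiff]
  tauto

/-- L-ENT-WIN-SHP: the two open patches -/
theorem eg_shp_patch (hc : Whole c) (W : EgWin c m₁ m₂) (T : Top c) (hf : W.Fits T) (M : EgMark c) (hE : ∀ f ∈ M.F, W.FaceIn f) :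
    W.Shp (egPc T M) (egWPc (W.shape (T.cut M.F)) (M.pull W)) ∧ W.Shp (egPo T M) (egWPo (W.shape (T.cut M.F)) (M.pull W)) := by

  constructor
  · refine ⟨eg_fits_restr W _ (eg_fits_cut W T hf M.F) M.O, fun κ => ?_, fun f κ' h h1 h2 => ?_, rfl⟩
    · show κ ∈ (W.shape (T.cut M.F)).T ∩ W.pre M.O ↔ W.emb κ ∈ T.cells ∩ M.O
      rw [Finset.mem_inter, Finset.mem_inter, eg_win_mem_shape_T, eg_win_mem_pre]
      exact Iff.rfl
    · have h1' : f.1 ∈ (W.shape (T.cut M.F)).T ∩ W.pre M.O := h1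
      have h2' : κ' ∈ (W.shape (T.cut M.F)).T ∩ W.pre M.O := h2
      have o1 : W.emb f.1 ∈ M.O := (eg_win_mem_pre W _ _).1 (Finset.mem_inter.1 h1').2
      have o2 : W.emb κ' ∈ M.O := (eg_win_mem_pre W _ _).1 (Finset.mem_inter.1 h2').2
      have hnb := (eg_win_fnb hc W f κ' h).1
      show f ∈ (W.shape (T.cut M.F)).cutF ↔ W.embF f ∉ (T.cut M.F).faces.filter fun f => f.1 ∈ M.O ∧ fnb c f ∈ M.O
      rw [eg_win_mem_shape_cut, Finset.mem_filter, hnb]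
      have o1' : (W.embF f).1 ∈ M.O := o1
      tauto
  · refine ⟨eg_fits_restr W _ (eg_fits_glue W T hf M.F hE) M.O, fun κ => ?_, fun f κ' h h1 h2 => ?_, rfl⟩
    · show κ ∈ (W.shape (T.cut M.F)).T ∩ W.pre M.O ↔ W.emb κ ∈ T.cells ∩ M.O
      rw [Finset.mem_inter, Finset.mem_inter, eg_win_mem_shape_T, eg_win_mem_pre]
      exact Iff.rfl
    · have h1' : f.1 ∈ (W.shape (T.cut M.F)).T ∩ W.pre M.O := h1
      have h2' : κ' ∈ (W.shape (T.cut M.F)).T ∩ W.pre M.O := h2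
      have o1 : W.emb f.1 ∈ M.O := (eg_win_mem_pre W _ _).1 (Finset.mem_inter.1 h1').2
      have o2 : W.emb κ' ∈ M.O := (eg_win_mem_pre W _ _).1 (Finset.mem_inter.1 h2').2
      have hnb := (eg_win_fnb hc W f κ' h).1
      have hin := eg_win_inner_of_nb W h
      show f ∈ (W.shape (T.cut M.F)).cutF \ W.preF M.F ↔ W.embF f ∉ (T.faces ∪ M.F).filter fun f => f.1 ∈ M.O ∧ fnb c f ∈ M.O
      rw [Finset.mem_sdiff, eg_win_mem_shape_cut, eg_win_mem_preF, Finset.mem_filter, hnb, Finset.mem_union]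
      show (W.embF f ∉ T.faces \ M.F ∧ _) ↔ _
      rw [Finset.mem_sdiff]
      have o1' : (W.embF f).1 ∈ M.O := o1
      tauto


theorem eg_win_adj_imp (Γ Γ' : CGeom m₁ m₂) (hT : Γ.T = Γ'.T)
    (hF : ∀ f κ', egWnb f κ' → f.1 ∈ Γ.T → κ' ∈ Γ.T → (f ∈ Γ.cutF ↔ f ∈ Γ'.cutF)) (κ κ' : Fin m₁ × Fin m₂)
    (h : Γ.Adj κ κ') : Γ'.Adj κ κ' := by
  obtain ⟨h1, h2, h3⟩ := h
  refine ⟨hT ▸ h1, hT ▸ h2, ?_⟩
  rcases h3 with ⟨a, b, d⟩ | ⟨a, b, d⟩ | ⟨a, b, d⟩ | ⟨a, b, d⟩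
  · exact Or.inl ⟨a, b, fun h => d ((hF (κ, true) κ' (Or.inl ⟨rfl, a, b⟩) h1 h2).2 h)⟩
  · exact Or.inr (Or.inl ⟨a, b, fun h => d ((hF (κ, false) κ' (Or.inr ⟨rfl, a, b⟩) h1 h2).2 h)⟩)
  · exact Or.inr (Or.inr (Or.inl ⟨a, b, fun h => d ((hF (κ', true) κ (Or.inl ⟨rfl, a, b.symm⟩) h2 h1).2 h)⟩))
  · exact Or.inr (Or.inr (Or.inr ⟨a, b, fun h => d ((hF (κ', false) κ (Or.inr ⟨rfl, a.symm, b⟩) h2 h1).2 h)⟩))

/-- L-ENT-WIN-GEO: `NoDiag` only sees the present cells and the faces between present cells -/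
theorem eg_nodiag_congr (Γ Γ' : CGeom m₁ m₂) (hT : Γ.T = Γ'.T)
    (hF : ∀ f κ', egWnb f κ' → f.1 ∈ Γ.T → κ' ∈ Γ.T → (f ∈ Γ.cutF ↔ f ∈ Γ'.cutF)) (h : Γ.NoDiag) : Γ'.NoDiag := by

  have hconn : ∀ κ κ', Γ'.Conn κ κ' → Γ.Conn κ κ' := by
    intro κ κ' hc'
    exact Relation.ReflTransGen.mono (fun a b hab => eg_win_adj_imp Γ' Γ hT.symm
      (fun f κ' hn h1 h2 => (hF f κ' hn (hT ▸ h1) (hT ▸ h2)).symm) a b hab) _ _ hc'
  obtain ⟨ha, hb⟩ := h
  refine ⟨?_, ?_⟩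
  · intro κ κ' h1 h2 h3 hc'
    rw [← hT] at h1 h2
    refine ha κ κ' h1 h2 ?_ (hconn _ _ hc')
    rcases h3 with ⟨a, b, d⟩ | ⟨a, b, d⟩
    · exact Or.inl ⟨a, b, (hF (κ, true) κ' (Or.inl ⟨rfl, a, b⟩) h1 h2).2 d⟩
    · exact Or.inr ⟨a, b, (hF (κ, false) κ' (Or.inr ⟨rfl, a, b⟩) h1 h2).2 d⟩
  · intro i j i' j' hi hj
    obtain ⟨b1, b2⟩ := hb i j i' j' hi hj
    constructor
    · intro hc' h1 h2
      rw [← hT] at h1 h2 ⊢
      rcases b1 (hconn _ _ hc') h1 h2 with ⟨t, u, v⟩ | ⟨t, u, v⟩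
      · exact Or.inl ⟨t, fun h => u ((hF ((i, j), true) (i', j) (Or.inl ⟨rfl, hi, rfl⟩) h1 t).2 h),
          fun h => v ((hF ((i', j), false) (i', j') (Or.inr ⟨rfl, rfl, hj⟩) t h2).2 h)⟩
      · exact Or.inr ⟨t, fun h => u ((hF ((i, j), false) (i, j') (Or.inr ⟨rfl, rfl, hj⟩) h1 t).2 h),
          fun h => v ((hF ((i, j'), true) (i', j') (Or.inl ⟨rfl, hi, rfl⟩) t h2).2 h)⟩
    · intro hc' h1 h2
      rw [← hT] at h1 h2 ⊢
      rcases b2 (hconn _ _ hc') h1 h2 with ⟨t, u, v⟩ | ⟨t, u, v⟩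
      · exact Or.inl ⟨t, fun h => u ((hF ((i, j), true) (i', j) (Or.inl ⟨rfl, hi, rfl⟩) t h1).2 h),
          fun h => v ((hF ((i, j), false) (i, j') (Or.inr ⟨rfl, rfl, hj⟩) t h2).2 h)⟩
      · exact Or.inr ⟨t, fun h => u ((hF ((i', j), false) (i', j') (Or.inr ⟨rfl, rfl, hj⟩) h1 t).2 h),
          fun h => v ((hF ((i, j'), true) (i', j') (Or.inl ⟨rfl, hi, rfl⟩) h2 t).2 h)⟩


theorem eg_win_idist1_le (a b o : Fin c.n) (m k k' : ℕ) (hm : m ≤ c.n) (hk : k < m) (hk' : k' < m)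
    (hfree : G.bc = BC.free → (o : ℕ) + m ≤ c.n) (ha : (a : ℕ) = ((o : ℕ) + k) % c.n) (hb : (b : ℕ) = ((o : ℕ) + k') % c.n) :
    c.idist1 a b ≤ Nat.dist k k' := by
  have ho := o.2
  have e1 : ((o : ℕ) + k) % c.n = o + k ∨ ((o : ℕ) + k) % c.n + c.n = o + k := by
    rcases Nat.lt_or_ge ((o : ℕ) + k) c.n with h | h
    · left; exact Nat.mod_eq_of_lt h
    · right
      rw [Nat.mod_eq_sub_mod h, Nat.mod_eq_of_lt (by omega)]
      omega
  have e2 : ((o : ℕ) + k') % c.n = o + k' ∨ ((o : ℕ) + k') % c.n + c.n = o + k' := by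
    rcases Nat.lt_or_ge ((o : ℕ) + k') c.n with h | h
    · left; exact Nat.mod_eq_of_lt h
    · right
      rw [Nat.mod_eq_sub_mod h, Nat.mod_eq_of_lt (by omega)]
      omega
  rw [← ha] at e1
  rw [← hb] at e2
  have ha2 := a.2
  have hb2 := b.2
  unfold Nat.dist
  rcases hG : G.bc with _ | _
  · have e : c.idist1 a b = min ((a : ℤ) - b).natAbs (c.n - ((a : ℤ) - b).natAbs) := by
      unfold Grid.idist1; rw [hG]
    rw [e]
    omega
  · have e : c.idist1 a b = ((a : ℤ) - b).natAbs := by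
      unfold Grid.idist1; rw [hG]
    rw [e]
    have := hfree hG
    omega

/-- L-ENT-WIN-GEO: the index distance of the volume is at most the distance in the window -/
theorem eg_win_idist_le (hc : Whole c) (W : EgWin c m₁ m₂) (κ κ' : C3.Cell m₁ m₂) : c.idist (W.emb κ) (W.emb κ') ≤ egWd κ κ' := by

  unfold Grid.idist egWd
  exact max_le_max
    (eg_win_idist1_le _ _ W.o.1 m₁ κ.1 κ'.1 W.le₁ κ.1.2 κ'.1.2 (fun h => (W.free h).1) rfl rfl)
    (eg_win_idist1_le _ _ W.o.2 m₂ κ.2 κ'.2 W.le₂ κ.2.2 κ'.2.2 (fun h => (W.free h).2) rfl rfl)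

/-- L-ENT-WIN-GEO: a deep mark, read in the window -/
theorem eg_geo_pull (hc : Whole c) (W : EgWin c m₁ m₂) (T : Top c) (hT : T.Ok) (hf : W.Fits T) (M : EgMark c) (R : ℕ) (hM : M.Ok W T R) :
    (M.pull W).Geo (W.shape (T.cut M.F)) R ∧ (egWPc (W.shape (T.cut M.F)) (M.pull W)).NoDiag := by

  have hg := hM.geo
  have hpre : ∀ {A B : Finset c.I}, A ⊆ B → W.pre A ⊆ W.pre B := by
    intro A B hAB κ hκ
    rw [eg_win_mem_pre] at hκ ⊢
    exact hAB hκ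
  constructor
  · refine ⟨?_, ?_, hpre hg.H_sub, hpre hg.D_sub, hpre hg.p_sub, hpre hg.O_sub, ?_, ?_, ?_⟩
    · intro f hfF
      have h1 : W.Inner f ∧ W.embF f ∈ M.F := (eg_win_mem_preF W M.F f).1 hfF
      rw [eg_win_mem_shape_cut]
      intro h2
      exact (Finset.mem_sdiff.1 h2).2 h1.2
    · intro f hfF
      have h1 : W.Inner f ∧ W.embF f ∈ M.F := (eg_win_mem_preF W M.F f).1 hfF
      obtain ⟨-, k1, k2⟩ := hg.face _ h1.2
      refine ⟨(eg_win_mem_pre W M.H f.1).2 k1, fun κ' hκ' => ?_⟩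
      have hnb := (eg_win_fnb hc W f κ' hκ').1
      rw [hnb] at k2
      exact (eg_win_mem_pre W M.H κ').2 k2
    · rw [Finset.disjoint_left]
      intro κ h1 h2
      exact Finset.disjoint_left.1 hg.disj ((eg_win_mem_pre W M.D κ).1 h1) ((eg_win_mem_pre W M.p κ).1 h2)
    · intro f κ' hn _ _ h3
      have hnb := (eg_win_fnb hc W f κ' hn).1
      have hmem : W.embF f ∈ T.faces ∪ M.F := by
        by_contra hcon
        rw [Finset.mem_union, not_or] at hcon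
        apply h3
        show f ∈ (W.shape (T.cut M.F)).cutF \ W.preF M.F
        rw [Finset.mem_sdiff, eg_win_mem_shape_cut, eg_win_mem_preF]
        exact ⟨fun h => hcon.1 (Finset.mem_sdiff.1 h).1, fun h => hcon.2 h.2⟩
      obtain ⟨s1, s2⟩ := hg.sepG _ hmem
      rw [hnb] at s1 s2
      constructor
      · intro hD
        have := s1 ((eg_win_mem_pre W M.D f.1).1 hD)
        show κ' ∈ W.pre M.D ∪ W.pre M.p
        rw [Finset.mem_union, eg_win_mem_pre, eg_win_mem_pre]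
        exact Finset.mem_union.1 this
      · intro hD
        have := s2 ((eg_win_mem_pre W M.D κ').1 hD)
        show f.1 ∈ W.pre M.D ∪ W.pre M.p
        rw [Finset.mem_union, eg_win_mem_pre, eg_win_mem_pre]
        exact Finset.mem_union.1 this
    · obtain ⟨U, hOU, hcl, hfar⟩ := hg.far
      refine ⟨W.pre U, hpre hOU, ?_, ?_⟩
      · intro f κ' hn _ _ h3
        have hnb := (eg_win_fnb hc W f κ' hn).1
        have hmem : W.embF f ∈ T.faces ∪ M.F := by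
          by_contra hcon
          rw [Finset.mem_union, not_or] at hcon
          apply h3
          show f ∈ (W.shape (T.cut M.F)).cutF \ W.preF M.F
          rw [Finset.mem_sdiff, eg_win_mem_shape_cut, eg_win_mem_preF]
          exact ⟨fun h => hcon.1 (Finset.mem_sdiff.1 h).1, fun h => hcon.2 h.2⟩
        have := hcl _ hmem
        rw [hnb] at this
        rw [eg_win_mem_pre, eg_win_mem_pre]
        exact this
      · intro κ hκ κ' hU hκ'
        have h1 : W.emb κ ∈ M.H := (eg_win_mem_pre W M.H κ).1 hκ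
        have h2 : W.emb κ' ∉ M.D := fun h => hκ' ((eg_win_mem_pre W M.D κ').2 h)
        exact le_trans (hfar _ h1 _ ((eg_win_mem_pre W U κ').1 hU) h2) (eg_win_idist_le hc W κ κ')
  · refine eg_nodiag_congr (W.shape (egPc T M)) _ ?_ ?_ hM.lipP
    · ext κ
      show κ ∈ (W.shape (egPc T M)).T ↔ κ ∈ (W.shape (T.cut M.F)).T ∩ W.pre M.O
      rw [eg_win_mem_shape_T, Finset.mem_inter, eg_win_mem_shape_T, eg_win_mem_pre]
      exact Finset.mem_inter
    · intro f κ' hn h1 h2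
      have hnb := (eg_win_fnb hc W f κ' hn).1
      have o1 : W.emb f.1 ∈ T.cells ∩ M.O := (eg_win_mem_shape_T W (egPc T M) f.1).1 h1
      have o2 : W.emb κ' ∈ T.cells ∩ M.O := (eg_win_mem_shape_T W (egPc T M) κ').1 h2
      have o1' : (W.embF f).1 ∈ M.O := (Finset.mem_inter.1 o1).2
      have o2' := (Finset.mem_inter.1 o2).2
      show f ∈ (W.shape (egPc T M)).cutF ↔ f ∈ (W.shape (T.cut M.F)).cutF
      rw [eg_win_mem_shape_cut, eg_win_mem_shape_cut]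
      show W.embF f ∉ (T.cut M.F).faces.filter (fun f => f.1 ∈ M.O ∧ fnb c f ∈ M.O) ↔ _
      rw [Finset.mem_filter, hnb]
      tauto

/-- L-ENT-WIN-GEO -/
theorem eg_wgeo_sep (Γ : CGeom m₁ m₂) (M : EgWMark m₁ m₂) (R : ℕ) (hR : 2 ≤ R) (hM : M.Geo Γ R) : C3.Sep M.H M.p := by

  intro κ hκ κ' hκ'
  have h1 : κ' ∉ M.D := fun h => Finset.disjoint_left.1 hM.disj h hκ'
  obtain ⟨U, hOU, -, hfar⟩ := hM.far
  have h2 := hfar κ hκ κ' (hOU (hM.p_sub hκ')) h1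
  unfold egWd Nat.dist at h2
  have h3 : 2 ≤ max (κ.1.1 - κ'.1.1 + (κ'.1.1 - κ.1.1)) (κ.2.1 - κ'.2.1 + (κ'.2.1 - κ.2.1)) := le_trans hR h2
  rcases le_max_iff.1 h3 with h | h <;> omega

/-! ## 5. Exits -/

theorem eg_win_ok_cut (T : Top c) (hT : T.Ok) (E : Finset (Face c)) : (T.cut E).Ok :=
  fun f hf => hT f (Finset.mem_sdiff.1 hf).1

theorem eg_win_ok_glue (T : Top c) (hT : T.Ok) (E : Finset (Face c))
    (hE : ∀ f ∈ E, IsFace c f ∧ f.1 ∈ T.cells ∧ fnb c f ∈ T.cells) : (T.glue E).Ok := by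
  intro f hf
  rcases Finset.mem_union.1 hf with h | h
  · exact hT f h
  · exact hE f h

theorem eg_win_ok_restr (T : Top c) (hT : T.Ok) (O : Finset c.I) : (T.restr O).Ok := by
  intro f hf
  obtain ⟨h1, h2, h3⟩ := Finset.mem_filter.1 hf
  obtain ⟨g1, g2, g3⟩ := hT f h1
  exact ⟨g1, Finset.mem_inter.2 ⟨g2, h2⟩, Finset.mem_inter.2 ⟨g3, h3⟩⟩

theorem eg_win_ok_mark (W : EgWin c m₁ m₂) (T : Top c) (M : EgMark c) (R : ℕ) (hM : M.Ok W T R) :
    ∀ f ∈ M.F, IsFace c f ∧ f.1 ∈ T.cells ∧ fnb c f ∈ T.cells := by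
  intro f hf
  obtain ⟨h1, h2, h3⟩ := hM.geo.face f hf
  have hsub : M.H ⊆ T.cells := (hM.geo.H_sub.trans hM.geo.D_sub).trans hM.geo.O_sub
  exact ⟨h1, hsub h2, hsub h3⟩

/-- L-ENT-WIN-EXIT: `𝒜` without its cutoffs -/
theorem eg_win_A (hc : Whole c) (W : EgWin c m₁ m₂) (T : Top c) (hT : T.Ok) (hf : W.Fits T) (b a : ℝ) (y : c.I → ℝ) :
    2 * Real.log (T.Zobs b 0 y / T.Zobs b 0 0) + T.Eobs a 0 y
      = 2 * Real.log ((egLw (W.shape T) c.m).Z b ⟨0, 0, egCen (W.shape T) (W.obs y)⟩ (fun _ => 1)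
          / (egLw (W.shape T) c.m).Z b ⟨0, 0, egCen (W.shape T) 0⟩ fun _ => 1)
        + (egLw (W.shape T) c.m).gEn a 0 (egCen (W.shape T) (W.obs y)) := by
  have hS := eg_shp_shape W T hf
  rw [eg_win_Zobs hc W T hT _ hS b y, eg_win_Zobs hc W T hT _ hS b 0, eg_win_Eobs hc W T hT _ hS a y]
  rfl

/-- L-ENT-WIN-EXIT, **the lattice side of the transfer**.  PLAN: `Γc = W.shape (T.cut M.F)`, `Γo = C3.uncut Γc (W.preF M.F)` have DEFINITIONALLY the same vertex type, sites, tests, `pull`, `push`, and `egRow Γo = egRow Γc`;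
`C3.ExU`, `C3.cLapU` unfold to `C3.ExT`, `C3.cLap` of `egLw Γo c.m`.   `eg_win_Ex` for `egTop T M top` (shape `Γo` resp. `Γc`), then under the expectation `eg_win_CL` (twice), `eg_win_RP`, `eg_win_pull_push`. -/
theorem eg_win_transfer (hc : Whole c) (W : EgWin c m₁ m₂) (T : Top c) (hT : T.Ok) (hf : W.Fits T) (M : EgMark c) (R : ℕ) (hM : M.Ok W T R)
    {b : ℝ} (hb : 0 < b) (top : Bool) (y : c.I → ℝ) (Φ : ℝ → ℝ → ℝ → ℝ) :
    egEx (egTop T M top) b 0 y (fun h => Φ (egCL (T.cut M.F) b M.p y h) (egCL (T.glue M.F) b M.p y h) (egRP (T.cut M.F) b M.p M.H h))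
      = egWL (W.shape (T.cut M.F)) (M.pull W) c.m b top (W.obs y) Φ := by
  have hTc : (T.cut M.F).Ok := eg_win_ok_cut T hT M.F
  have hTo : (T.glue M.F).Ok := eg_win_ok_glue T hT M.F (eg_win_ok_mark W T M R hM)
  have hSc : W.Shp (T.cut M.F) (W.shape (T.cut M.F)) := eg_shp_shape W _ (eg_fits_cut W T hf M.F)
  have hSo : W.Shp (T.glue M.F) (C3.uncut (W.shape (T.cut M.F)) (W.preF M.F)) := eg_shp_glue hc W T hf M.F hM.faceW
  cases top with
  | true =>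
    show egEx (T.glue M.F) b 0 y _ = _
    rw [eg_win_Ex hc W _ hTo _ hSo hb y]
    unfold egWL
    simp only [if_true]
    unfold C3.ExU
    congr 1
    funext h
    have hpp : W.pull (C3.uncut (W.shape (T.cut M.F)) (W.preF M.F)) (W.push (C3.uncut (W.shape (T.cut M.F)) (W.preF M.F)) h) = h :=
      eg_win_pull_push hc W _ hTo _ hSo h
    rw [eg_win_CL hc W _ hTc _ hSc b M.p y, eg_win_CL hc W _ hTo _ hSo b M.p y, eg_win_RP hc W _ hTc _ hSc b M.p M.H]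
    have hpp' : W.pull (W.shape (T.cut M.F)) (W.push (C3.uncut (W.shape (T.cut M.F)) (W.preF M.F)) h) = h := hpp
    rw [hpp, hpp']
    rfl
  | false =>
    show egEx (T.cut M.F) b 0 y _ = _
    rw [eg_win_Ex hc W _ hTc _ hSc hb y]
    unfold egWL
    simp only [Bool.false_eq_true, if_false]
    congr 1
    funext h
    have hpp : W.pull (W.shape (T.cut M.F)) (W.push (W.shape (T.cut M.F)) h) = h :=
      eg_win_pull_push hc W _ hTc _ hSc h
    have hpp' : W.pull (C3.uncut (W.shape (T.cut M.F)) (W.preF M.F)) (W.push (W.shape (T.cut M.F)) h) = h := hpp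
    rw [eg_win_CL hc W _ hTc _ hSc b M.p y, eg_win_CL hc W _ hTo _ hSo b M.p y, eg_win_RP hc W _ hTc _ hSc b M.p M.H]
    rw [hpp, hpp']
    rfl

/-- L-ENT-WIN-EXIT.  `eg_win_Eobs` with `eg_shp_patch`. -/
theorem eg_win_DE (hc : Whole c) (W : EgWin c m₁ m₂) (T : Top c) (hT : T.Ok) (hf : W.Fits T) (M : EgMark c) (R : ℕ) (hM : M.Ok W T R)
    (a : ℝ) (y : c.I → ℝ) : egDE T M a 0 y = egWDE (W.shape (T.cut M.F)) (M.pull W) a c.m (W.obs y) := by
  have hTc : (egPc T M).Ok := eg_win_ok_restr _ (eg_win_ok_cut T hT M.F) M.O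
  have hTo : (egPo T M).Ok := eg_win_ok_restr _ (eg_win_ok_glue T hT M.F (eg_win_ok_mark W T M R hM)) M.O
  obtain ⟨hSc, hSo⟩ := eg_shp_patch hc W T hf M hM.faceW
  unfold egDE egWDE
  rw [eg_win_Eobs hc W _ hTo _ hSo a y, eg_win_Eobs hc W _ hTc _ hSc a y]

/-- L-ENT-WIN-EXIT.  `eg_win_dPin` with `eg_shp_patch`. -/
theorem eg_win_Ds (hc : Whole c) (W : EgWin c m₁ m₂) (T : Top c) (hT : T.Ok) (hf : W.Fits T) (M : EgMark c) (R : ℕ) (hM : M.Ok W T R) (b : ℝ) :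
    egDs T M b = (egLw (egWPc (W.shape (T.cut M.F)) (M.pull W)) c.m).dPin b
      ((egWPc (W.shape (T.cut M.F)) (M.pull W)).sites (egGr m₁ m₂ c.m) (M.pull W).H)
      ((egWPc (W.shape (T.cut M.F)) (M.pull W)).sites (egGr m₁ m₂ c.m) (M.pull W).p) := by
  have hTc : (egPc T M).Ok := eg_win_ok_restr _ (eg_win_ok_cut T hT M.F) M.O
  obtain ⟨hSc, -⟩ := eg_shp_patch hc W T hf M hM.faceW
  unfold egDs
  rw [eg_win_dPin hc W _ hTc _ hSc b M.H M.p]
  rfl

end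

end Claimed.Agent.R285.Entry
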