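import Claimed.Agent.R285.Hol.Ln
import Claimed.Agent.R285.Hol.An

/-!
# ROW 285, post BP-ENT-CPLX, file H: HOLOMORPHIC PARAMETER INTEGRALS WITH `L¹` BOUNDS ONLY; CAMERON-MARTIN ON A PRODUCT            (owner helper140)
PAPER-FREE.  Four independent leaves (each statement is a black box for the others, except that H2, H3 use H1 and H4 uses H2).

WHY.  The pointwise majorants of the entry engine (`Ent.Bd`) are lists of costs which DEPEND on the parameter `b` and only hold in a tube of imaginary directions; what is uniform is the `L¹` bound after averaging (`Ent.AvgStmt`).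
For holomorphic integrands this is enough:  `sup` over a small disc `≤` average over a larger circle (Cauchy), and the circle average is integrable by Tonelli.

* H1 `cx_circle_le`     : `|f a| ≤ ∫_0^{2π} |f (a₀ + 2 ε e^{iθ})| dθ` for `|a - a₀| < ε`   (Cauchy formula; `1/π ≤ 1` is dropped).
* H2 `cx_hol_L1`        : one complex parameter, integrand holomorphic on an open `U`, measurable in `ω` for each parameter (joint measurability by `measurable_uncurry_of_continuous_of_measurable` in the ANGLE).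
* H3 `cx_hol_L1_pi`     : finitely many complex parameters, entire jointly measurable integrand, `L¹` bounds on `U` only.
     Plan: `μ_v :=` image of Lebesgue on `(0, 2π]` under `circleMap (z₀ v) (2ε)`;  by induction on `S : Finset ι` with `MeasureTheory.lmarginal_insert` and H1 in one coordinate:
     `‖f z'‖₊ ≤ (∫⋯∫⁻_S, ‖f ·‖₊ ∂μ) z'` if `|z' v - z₀ v| < ε` on `S`... `≤ 2ε` elsewhere;  `S = univ` (`lmarginal_univ`): a majorant independent of `z'`;  Tonelli;  `Hol.hol_integral`.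
* H4 `cx_cm_prod`, `cx_cm_prod_le` : complex Cameron-Martin for `μ_Γ ⊗ ν`.
     Plan: `∫⁻ ‖cmW a ζ · Φ (z + ζ + a u)‖ = e^{(Im a)² q / 2} ∫⁻ ‖Φ (z + ζ + i (Im a) u)‖` (real shift by `-(Re a) η`: `Hol.gauss_shift_lintegral` under `lintegral_prod_symm`), so H2 applies on `U = {|Im a| < ρ}`;
     real `a`: `Hol.cmW_real` under `integral_prod_symm`;  `Hol.eqOn_of_real_eq`.
-/

set_option autoImplicit false

namespace Claimed.Agent.R285.Entry

open scoped BigOperators ENNReal NNReal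
open MeasureTheory ProbabilityTheory Filter Topology
open Claimed.Agent.R285.RG Claimed.Agent.R285.Hol

noncomputable section

/-- **H1** -/
theorem cx_circle_le (U : Set ℂ) (f : ℂ → ℂ) (hf : DifferentiableOn ℂ f U) (a₀ : ℂ) (ε : ℝ) (hε : 0 < ε)
    (hU : Metric.closedBall a₀ (2 * ε) ⊆ U) (a : ℂ) (ha : a ∈ Metric.ball a₀ ε) :
    (‖f a‖₊ : ℝ≥0∞) ≤ ∫⁻ θ in Set.Ioc 0 (2 * Real.pi), (‖f (circleMap a₀ (2 * ε) θ)‖₊ : ℝ≥0∞) := by
  have h2 : (0:ℝ) < 2 * ε := by linarith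
  have hd : DiffContOnCl ℂ f (Metric.ball a₀ (2 * ε)) := by
    refine DifferentiableOn.diffContOnCl (hf.mono ?_)
    rw [closure_ball _ h2.ne']
    exact hU
  have ha2 : a ∈ Metric.ball a₀ (2 * ε) := Metric.ball_subset_ball (by linarith) ha
  have hc := hd.two_pi_i_inv_smul_circleIntegral_sub_inv_smul ha2
  have hpi : (0:ℝ) ≤ 2 * Real.pi := by positivity
  rw [circleIntegral, intervalIntegral.integral_of_le hpi] at hc
  have h3 : ∀ θ : ℝ, ‖deriv (circleMap a₀ (2 * ε)) θ • ((circleMap a₀ (2 * ε) θ - a)⁻¹ • f (circleMap a₀ (2 * ε) θ))‖ₑ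
      ≤ 2 * (‖f (circleMap a₀ (2 * ε) θ)‖₊ : ℝ≥0∞) := by
    intro θ
    have h4 : ε ≤ ‖circleMap a₀ (2 * ε) θ - a‖ := by
      have h5 : ‖circleMap a₀ (2 * ε) θ - a₀‖ = 2 * ε := by
        simp [circleMap, abs_of_pos hε]
      have h6 : ‖a - a₀‖ < ε := by simpa [dist_eq_norm] using ha
      have h7 : ‖circleMap a₀ (2 * ε) θ - a₀‖ ≤ ‖circleMap a₀ (2 * ε) θ - a‖ + ‖a - a₀‖ := by
        have := norm_add_le (circleMap a₀ (2 * ε) θ - a) (a - a₀)
        simpa using this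
      linarith
    rw [← enorm_eq_nnnorm, ← ofReal_norm, ← ofReal_norm, norm_smul, norm_smul, norm_inv]
    rw [show (2 : ℝ≥0∞) = ENNReal.ofReal 2 by simp, ← ENNReal.ofReal_mul (by norm_num)]
    refine ENNReal.ofReal_le_ofReal ?_
    rw [← mul_assoc]
    refine mul_le_mul_of_nonneg_right ?_ (norm_nonneg _)
    have h8 : ‖deriv (circleMap a₀ (2 * ε)) θ‖ = 2 * ε := by
      simp [deriv_circleMap, circleMap, abs_of_pos hε]
    rw [h8, ← div_eq_mul_inv, div_le_iff₀ (lt_of_lt_of_le hε h4)]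
    linarith
  calc (‖f a‖₊ : ℝ≥0∞) = ‖f a‖ₑ := (enorm_eq_nnnorm _).symm
    _ = ‖(2 * (Real.pi : ℂ) * Complex.I)⁻¹‖ₑ * ‖∫ θ in Set.Ioc 0 (2 * Real.pi), deriv (circleMap a₀ (2 * ε)) θ • ((circleMap a₀ (2 * ε) θ - a)⁻¹ • f (circleMap a₀ (2 * ε) θ))‖ₑ := by
        rw [← hc, enorm_smul]
    _ ≤ ‖(2 * (Real.pi : ℂ) * Complex.I)⁻¹‖ₑ * ∫⁻ θ in Set.Ioc 0 (2 * Real.pi), 2 * (‖f (circleMap a₀ (2 * ε) θ)‖₊ : ℝ≥0∞) := by
        gcongr
        exact (enorm_integral_le_lintegral_enorm _).trans (lintegral_mono fun θ => h3 θ)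
    _ = (‖(2 * (Real.pi : ℂ) * Complex.I)⁻¹‖ₑ * 2) * ∫⁻ θ in Set.Ioc 0 (2 * Real.pi), (‖f (circleMap a₀ (2 * ε) θ)‖₊ : ℝ≥0∞) := by
        rw [lintegral_const_mul' _ _ (by simp), ← mul_assoc]
    _ ≤ 1 * ∫⁻ θ in Set.Ioc 0 (2 * Real.pi), (‖f (circleMap a₀ (2 * ε) θ)‖₊ : ℝ≥0∞) := by
        gcongr
        rw [← ofReal_norm, show (2 : ℝ≥0∞) = ENNReal.ofReal 2 by simp, ← ENNReal.ofReal_mul (norm_nonneg _),
          ← ENNReal.ofReal_one]
        refine ENNReal.ofReal_le_ofReal ?_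
        have : ‖(2 * (Real.pi : ℂ) * Complex.I)⁻¹‖ = (2 * Real.pi)⁻¹ := by
          simp [abs_of_pos Real.pi_pos]
        rw [this]
        have hp := Real.pi_gt_three
        rw [inv_mul_le_iff₀ (by positivity)]
        linarith
    _ = _ := one_mul _

/-- **H2** -/
theorem cx_hol_L1 {Ω : Type} [MeasurableSpace Ω] (μ : Measure Ω) [SFinite μ] (U : Set ℂ) (hU : IsOpen U) (F : ℂ → Ω → ℂ)
    (hF : ∀ ω, DifferentiableOn ℂ (fun a => F a ω) U) (hm : ∀ a ∈ U, Measurable (F a))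
    (hb : ∀ a₀ ∈ U, ∃ ε > 0, ∃ B : ℝ≥0∞, B ≠ ⊤ ∧ ∀ a ∈ Metric.closedBall a₀ ε, a ∈ U ∧ ∫⁻ ω, (‖F a ω‖₊ : ℝ≥0∞) ∂μ ≤ B) :
    DifferentiableOn ℂ (fun a => ∫ ω, F a ω ∂μ) U := by
  refine hol_integral_ae μ U hU F hF (fun a ha => (hm a ha).aestronglyMeasurable) fun a₀ ha₀ => ?_
  obtain ⟨ε, hε, B, hB, hb⟩ := hb a₀ ha₀
  have hε2 : 0 < ε / 2 := by linarith
  have hcm : ∀ θ : ℝ, circleMap a₀ (2 * (ε / 2)) θ ∈ Metric.closedBall a₀ ε := by
    intro θ
    have : 2 * (ε / 2) = ε := by ring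
    rw [this]
    exact Metric.sphere_subset_closedBall (circleMap_mem_sphere _ hε.le _)
  have hsub : Metric.closedBall a₀ (2 * (ε / 2)) ⊆ U := by
    intro x hx
    have : 2 * (ε / 2) = ε := by ring
    rw [this] at hx
    exact (hb x hx).1
  set u : ℝ → Ω → ℂ := fun θ ω => F (circleMap a₀ (2 * (ε / 2)) θ) ω with hu
  have hum : Measurable (Function.uncurry u) := by
    refine measurable_uncurry_of_continuous_of_measurable (fun ω => ?_) (fun θ => hm _ (hb _ (hcm θ)).1)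
    exact (hF ω).continuousOn.comp_continuous (continuous_circleMap _ _) (fun θ => (hb _ (hcm θ)).1)
  have hum' : Measurable (Function.uncurry fun (θ : ℝ) (ω : Ω) => (‖u θ ω‖₊ : ℝ≥0∞)) :=
    hum.nnnorm.coe_nnreal_ennreal
  set g : Ω → ℝ≥0∞ := fun ω => ∫⁻ θ in Set.Ioc 0 (2 * Real.pi), (‖u θ ω‖₊ : ℝ≥0∞) with hg
  have hgm : Measurable g := Measurable.lintegral_prod_left' (f := Function.uncurry fun (θ : ℝ) (ω : Ω) => (‖u θ ω‖₊ : ℝ≥0∞)) hum'
  have hgi : ∫⁻ ω, g ω ∂μ ≠ ⊤ := by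
    have h1 : ∫⁻ ω, g ω ∂μ = ∫⁻ θ in Set.Ioc 0 (2 * Real.pi), ∫⁻ ω, (‖u θ ω‖₊ : ℝ≥0∞) ∂μ :=
      (lintegral_lintegral_swap hum'.aemeasurable).symm
    have h2 : ∫⁻ θ in Set.Ioc 0 (2 * Real.pi), ∫⁻ ω, (‖u θ ω‖₊ : ℝ≥0∞) ∂μ ≤ ∫⁻ _θ in Set.Ioc 0 (2 * Real.pi), B :=
      lintegral_mono fun θ => (hb _ (hcm θ)).2
    rw [h1]
    refine ne_top_of_le_ne_top ?_ h2
    rw [lintegral_const]
    exact ENNReal.mul_ne_top hB (measure_ne_top _ _)
  refine ⟨ε / 2, hε2, fun ω => (g ω).toReal, integrable_toReal_of_lintegral_ne_top hgm.aemeasurable hgi, ?_⟩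
  filter_upwards [ae_lt_top hgm hgi] with ω hω z' hz'
  have h1 := cx_circle_le U (fun a => F a ω) (hF ω) a₀ (ε / 2) hε2 hsub z' hz'
  have h2 := ENNReal.toReal_mono hω.ne h1
  simpa using h2

/-- the image of Lebesgue measure on `(0, 2π]` under the parametrisation of a circle -/
private def cxCirc (c : ℂ) (r : ℝ) : Measure ℂ := (volume.restrict (Set.Ioc 0 (2 * Real.pi))).map (circleMap c r)

private instance cxCirc_fin (c : ℂ) (r : ℝ) : IsFiniteMeasure (cxCirc c r) := by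
  unfold cxCirc; infer_instance

private theorem cxCirc_lintegral (c : ℂ) (r : ℝ) (g : ℂ → ℝ≥0∞) (hg : Measurable g) :
    ∫⁻ x, g x ∂(cxCirc c r) = ∫⁻ θ in Set.Ioc 0 (2 * Real.pi), g (circleMap c r θ) := by
  unfold cxCirc
  rw [lintegral_map hg (continuous_circleMap c r).measurable]

private theorem cxCirc_ae (c : ℂ) (r : ℝ) (hr : 0 ≤ r) : ∀ᵐ x ∂(cxCirc c r), x ∈ Metric.closedBall c r := by
  unfold cxCirc
  refine (ae_map_iff (p := fun x => x ∈ Metric.closedBall c r) (continuous_circleMap c r).measurable.aemeasurable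
    Metric.isClosed_closedBall.measurableSet).2 ?_
  exact Eventually.of_forall fun θ => Metric.sphere_subset_closedBall (circleMap_mem_sphere _ hr _)

private theorem cx_torus_le {ι : Type} [Fintype ι] [DecidableEq ι] (f : (ι → ℂ) → ℂ) (hf : Differentiable ℂ f) (z₀ : ι → ℂ) (ε : ℝ)
    (hε : 0 < ε) (S : Finset ι) :
    ∀ z' : ι → ℂ, (∀ v ∈ S, z' v ∈ Metric.ball (z₀ v) ε) →
      (‖f z'‖₊ : ℝ≥0∞) ≤ (∫⋯∫⁻_S, (fun z => (‖f z‖₊ : ℝ≥0∞)) ∂(fun v => cxCirc (z₀ v) (2 * ε))) z' := by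
  have hfm : Measurable fun z => (‖f z‖₊ : ℝ≥0∞) := hf.continuous.measurable.nnnorm.coe_nnreal_ennreal
  induction S using Finset.induction_on with
  | empty => intro z' _; rw [lmarginal_empty]
  | insert i S hi ih =>
    intro z' hz'
    rw [lmarginal_insert _ hfm hi]
    have hd : Differentiable ℂ fun w : ℂ => f (Function.update z' i w) :=
      hf.comp fun w => (hasFDerivAt_update z' w).differentiableAt
    have h1 := cx_circle_le Set.univ (fun w : ℂ => f (Function.update z' i w)) hd.differentiableOn (z₀ i) ε hε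
      (Set.subset_univ _) (z' i) (hz' i (Finset.mem_insert_self _ _))
    simp only [Function.update_eq_self] at h1
    refine h1.trans ?_
    rw [← cxCirc_lintegral (z₀ i) (2 * ε) (fun w => (‖f (Function.update z' i w)‖₊ : ℝ≥0∞))
      (hfm.comp (measurable_update z'))]
    refine lintegral_mono fun w => ih _ fun v hv => ?_
    have hvi : v ≠ i := fun h => hi (h ▸ hv)
    rw [Function.update_of_ne hvi]
    exact hz' v (Finset.mem_insert_of_mem hv)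

/-- **H3** -/
theorem cx_hol_L1_pi {ι Ω : Type} [Fintype ι] [MeasurableSpace Ω] (μ : Measure Ω) [SFinite μ] (U : Set (ι → ℂ)) (hU : IsOpen U)
    (F : (ι → ℂ) → Ω → ℂ) (hF : ∀ ω, Differentiable ℂ fun z => F z ω) (hm : Measurable (Function.uncurry F))
    (hb : ∀ z₀ ∈ U, ∃ ε > 0, ∃ B : ℝ≥0∞, B ≠ ⊤ ∧ ∀ z ∈ Metric.closedBall z₀ ε, ∫⁻ ω, (‖F z ω‖₊ : ℝ≥0∞) ∂μ ≤ B) :
    DifferentiableOn ℂ (fun z => ∫ ω, F z ω ∂μ) U := by
  classical
  have hmz : ∀ z, Measurable (F z) := fun z => hm.comp (measurable_const.prodMk measurable_id)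
  refine hol_integral_ae μ U hU F (fun ω => (hF ω).differentiableOn) (fun z _ => (hmz z).aestronglyMeasurable) fun z₀ hz₀ => ?_
  obtain ⟨ε, hε, B, hB, hb⟩ := hb z₀ hz₀
  have hε2 : 0 < ε / 2 := by linarith
  have h2e : 2 * (ε / 2) = ε := by ring
  set ρ : Measure (ι → ℂ) := Measure.pi fun v => cxCirc (z₀ v) (2 * (ε / 2)) with hρ
  have hae : ∀ᵐ x ∂ρ, x ∈ Metric.closedBall z₀ ε := by
    have h1 : ∀ᵐ x ∂ρ, ∀ v, x v ∈ Metric.closedBall (z₀ v) (2 * (ε / 2)) :=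
      Measure.ae_pi_le_pi (Filter.eventually_pi fun v => cxCirc_ae (z₀ v) (2 * (ε / 2)) (by linarith))
    filter_upwards [h1] with x hx
    rw [h2e] at hx
    rw [closedBall_pi _ hε.le]
    exact fun v _ => hx v
  have hum' : Measurable (Function.uncurry fun (x : ι → ℂ) (ω : Ω) => (‖F x ω‖₊ : ℝ≥0∞)) :=
    hm.nnnorm.coe_nnreal_ennreal
  set g : Ω → ℝ≥0∞ := fun ω => ∫⁻ x, (‖F x ω‖₊ : ℝ≥0∞) ∂ρ with hg
  have hgm : Measurable g := Measurable.lintegral_prod_left' (f := Function.uncurry fun (x : ι → ℂ) (ω : Ω) => (‖F x ω‖₊ : ℝ≥0∞)) hum'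
  have hgi : ∫⁻ ω, g ω ∂μ ≠ ⊤ := by
    have h1 : ∫⁻ ω, g ω ∂μ = ∫⁻ x, ∫⁻ ω, (‖F x ω‖₊ : ℝ≥0∞) ∂μ ∂ρ :=
      (lintegral_lintegral_swap hum'.aemeasurable).symm
    have h2 : ∫⁻ x, ∫⁻ ω, (‖F x ω‖₊ : ℝ≥0∞) ∂μ ∂ρ ≤ ∫⁻ _x, B ∂ρ :=
      lintegral_mono_ae (hae.mono fun x hx => hb x hx)
    rw [h1]
    refine ne_top_of_le_ne_top ?_ h2
    rw [lintegral_const]
    exact ENNReal.mul_ne_top hB (measure_ne_top _ _)
  refine ⟨ε / 2, hε2, fun ω => (g ω).toReal, integrable_toReal_of_lintegral_ne_top hgm.aemeasurable hgi, ?_⟩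
  filter_upwards [ae_lt_top hgm hgi] with ω hω z' hz'
  have h1 := cx_torus_le (fun z => F z ω) (hF ω) z₀ (ε / 2) hε2 Finset.univ z' (fun v _ => by
    rw [ball_pi _ hε2] at hz'
    exact hz' v (Set.mem_univ _))
  rw [lmarginal_univ] at h1
  have h2 := ENNReal.toReal_mono hω.ne h1
  simpa using h2

variable {G : Geom}

private theorem cx_cmW_norm (Γ : Matrix G.V G.V ℝ) (η : G.V → ℝ) (a : ℂ) (ζ : G.V → ℝ) :
    ‖cmW Γ η a ζ‖ = Real.exp (-(a.re * (η ⬝ᵥ ζ)) - (a.re ^ 2 - a.im ^ 2) * (η ⬝ᵥ Γ.mulVec η) / 2) := by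
  unfold cmW
  rw [Complex.norm_exp]
  congr 1
  simp [Complex.mul_re, pow_two]

private theorem cx_cm_meas {Ω : Type} [MeasurableSpace Ω]
    (Φ : (G.V → ℂ) → Ω → ℂ) (hm : Measurable (Function.uncurry Φ)) (z w : G.V → ℂ) :
    Measurable fun p : (G.V → ℝ) × Ω => Φ (z + toC p.1 + w) p.2 := by
  have h1 : Measurable fun p : (G.V → ℝ) × Ω => ((z + toC p.1 + w, p.2) : (G.V → ℂ) × Ω) :=
    ((((continuous_const.add toC_continuous).add continuous_const).measurable).comp measurable_fst).prodMk measurable_snd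
  exact hm.comp h1

private theorem cx_cm_lint {Ω : Type} [MeasurableSpace Ω] (ν : Measure Ω) [SFinite ν] (Γ : Matrix G.V G.V ℝ) (hΓ : Γ.PosSemidef)
    (Φ : (G.V → ℂ) → Ω → ℂ) (hm : Measurable (Function.uncurry Φ)) (η : G.V → ℝ) (z : G.V → ℂ) (a : ℂ) :
    ∫⁻ p, (‖cmW Γ η a p.1 * Φ (z + toC p.1 + a • toC (Γ.mulVec η)) p.2‖₊ : ℝ≥0∞) ∂((gauss G Γ).prod ν)
      = ENNReal.ofReal (Real.exp (a.im ^ 2 * (η ⬝ᵥ Γ.mulVec η) / 2))
        * ∫⁻ p, (‖Φ (z + toC p.1 + ((a.im : ℂ) * Complex.I) • toC (Γ.mulVec η)) p.2‖₊ : ℝ≥0∞) ∂((gauss G Γ).prod ν) := by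
  set u := Γ.mulVec η with hu
  set q := η ⬝ᵥ u with hq
  have hm1 : Measurable fun p : (G.V → ℝ) × Ω => (‖cmW Γ η a p.1 * Φ (z + toC p.1 + a • toC u) p.2‖₊ : ℝ≥0∞) :=
    ((((cmW_continuous Γ η a).measurable).comp measurable_fst).mul (cx_cm_meas Φ hm z _)).nnnorm.coe_nnreal_ennreal
  have hm2 : Measurable fun p : (G.V → ℝ) × Ω => (‖Φ (z + toC p.1 + ((a.im : ℂ) * Complex.I) • toC u) p.2‖₊ : ℝ≥0∞) :=
    (cx_cm_meas Φ hm z _).nnnorm.coe_nnreal_ennreal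
  rw [lintegral_prod_symm' _ hm1, lintegral_prod_symm' _ hm2, ← lintegral_const_mul' _ _ ENNReal.ofReal_ne_top]
  refine lintegral_congr fun e => ?_
  simp only
  set f : (G.V → ℝ) → ℝ≥0∞ := fun ζ => (‖Φ (z + toC ζ + ((a.im : ℂ) * Complex.I) • toC u) e‖₊ : ℝ≥0∞) with hf
  have hfm : Measurable f := hm2.comp (measurable_id.prodMk measurable_const)
  set g : (G.V → ℝ) → ℝ≥0∞ := fun ζ =>
    ENNReal.ofReal (Real.exp (-(a.re * (η ⬝ᵥ ζ)) + (a.re ^ 2 + a.im ^ 2) * q / 2)) * f ζ with hg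
  have hgm : Measurable g := by
    refine Measurable.mul ?_ hfm
    refine ENNReal.measurable_ofReal.comp (Real.measurable_exp.comp ?_)
    exact (((continuous_const.mul (dot_continuous η)).neg).add continuous_const).measurable
  have hmv : Γ.mulVec (a.re • η) = a.re • u := Matrix.mulVec_smul _ _ _
  have h1 := gauss_shift_lintegral Γ hΓ (a.re • η) g hgm
  rw [hmv] at h1
  have h2 : ∀ ζ : G.V → ℝ, (‖cmW Γ η a ζ * Φ (z + toC ζ + a • toC u) e‖₊ : ℝ≥0∞) = g (ζ + a.re • u) := by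
    intro ζ
    simp only [hg, hf]
    rw [nnnorm_mul, ENNReal.coe_mul]
    congr 1
    · rw [← enorm_eq_nnnorm, ← ofReal_norm, cx_cmW_norm, ← hu, ← hq, dotProduct_add, dotProduct_smul, ← hq]
      congr 2
      simp only [smul_eq_mul]
      ring
    · congr 3
      rw [toC_add, toC_smul]
      ext v
      simp only [Pi.add_apply, Pi.smul_apply, smul_eq_mul]
      conv_lhs => rw [← Complex.re_add_im a]
      ring
  simp_rw [h2]
  rw [h1, ← lintegral_const_mul' _ _ ENNReal.ofReal_ne_top]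
  refine lintegral_congr fun ζ => ?_
  simp only [hg]
  rw [← mul_assoc, ← ENNReal.ofReal_mul (Real.exp_pos _).le, ← Real.exp_add]
  congr 3
  rw [smul_dotProduct, smul_dotProduct, dotProduct_smul, ← hq]
  simp only [smul_eq_mul]
  ring

/-- **H4** -/
theorem cx_cm_prod {Ω : Type} [MeasurableSpace Ω] (ν : Measure Ω) [SFinite ν] (Γ : Matrix G.V G.V ℝ) (hΓ : Γ.PosSemidef)
    (Φ : (G.V → ℂ) → Ω → ℂ) (hΦ : ∀ e, Differentiable ℂ fun z => Φ z e) (hm : Measurable (Function.uncurry Φ))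
    (η : G.V → ℝ) (z : G.V → ℂ) (ρ : ℝ) (B : ℝ≥0∞) (hB : B ≠ ⊤)
    (hA : ∀ t : ℝ, |t| ≤ ρ →
      ∫⁻ p, (‖Φ (z + toC p.1 + ((t : ℂ) * Complex.I) • toC (Γ.mulVec η)) p.2‖₊ : ℝ≥0∞) ∂((gauss G Γ).prod ν) ≤ B)
    (a : ℂ) (ha : |a.im| < ρ) :
    ∫ p, cmW Γ η a p.1 * Φ (z + toC p.1 + a • toC (Γ.mulVec η)) p.2 ∂((gauss G Γ).prod ν)
      = ∫ p, Φ (z + toC p.1) p.2 ∂((gauss G Γ).prod ν) := by
  set u := Γ.mulVec η with hu
  set q := η ⬝ᵥ u with hq
  have hρ : 0 < ρ := lt_of_le_of_lt (abs_nonneg _) ha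
  set U : Set ℂ := {b : ℂ | |b.im| < ρ} with hUdef
  have hU : IsOpen U := isOpen_lt (continuous_abs.comp Complex.continuous_im) continuous_const
  have hUc : IsPreconnected U := by
    have h1 : U = Complex.imLm ⁻¹' (Set.Ioo (-ρ) ρ) := by
      ext b
      simp only [hUdef, Set.mem_ofPred_eq, Set.mem_preimage, Set.mem_Ioo, abs_lt]
      rfl
    rw [h1]
    exact ((convex_Ioo (-ρ) ρ).linear_preimage Complex.imLm).isPreconnected
  have h0 : (0 : ℂ) ∈ U := by simpa [hUdef] using hρ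
  set B' : ℝ≥0∞ := ENNReal.ofReal (Real.exp (ρ ^ 2 * |q| / 2)) * B with hB'
  have hB't : B' ≠ ⊤ := ENNReal.mul_ne_top ENNReal.ofReal_ne_top hB
  have hmF : ∀ b : ℂ, Measurable fun p : (G.V → ℝ) × Ω => cmW Γ η b p.1 * Φ (z + toC p.1 + b • toC u) p.2 := fun b =>
    (((cmW_continuous Γ η b).measurable).comp measurable_fst).mul (cx_cm_meas Φ hm z _)
  have hbd : ∀ b ∈ U, ∫⁻ p, (‖cmW Γ η b p.1 * Φ (z + toC p.1 + b • toC u) p.2‖₊ : ℝ≥0∞) ∂((gauss G Γ).prod ν) ≤ B' := by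
    intro b hb
    have hb : |b.im| < ρ := hb
    rw [hu, cx_cm_lint ν Γ hΓ Φ hm η z b, ← hu, ← hq]
    refine mul_le_mul' (ENNReal.ofReal_le_ofReal (Real.exp_le_exp.2 ?_)) (hA _ (le_of_lt hb))
    have h1 : b.im ^ 2 ≤ ρ ^ 2 := sq_le_sq' (by linarith [(abs_lt.1 hb).1]) (abs_lt.1 hb).2.le
    have h2 : b.im ^ 2 * q ≤ ρ ^ 2 * |q| :=
      (mul_le_mul_of_nonneg_left (le_abs_self q) (sq_nonneg _)).trans (mul_le_mul_of_nonneg_right h1 (abs_nonneg _))
    linarith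
  have hint : ∀ b ∈ U, Integrable (fun p : (G.V → ℝ) × Ω => cmW Γ η b p.1 * Φ (z + toC p.1 + b • toC u) p.2)
      ((gauss G Γ).prod ν) := fun b hb =>
    ⟨(hmF b).aestronglyMeasurable, lt_of_le_of_lt (hbd b hb) (lt_top_iff_ne_top.2 hB't)⟩
  have hd : DifferentiableOn ℂ
      (fun b => ∫ p, cmW Γ η b p.1 * Φ (z + toC p.1 + b • toC u) p.2 ∂((gauss G Γ).prod ν)) U := by
    refine cx_hol_L1 ((gauss G Γ).prod ν) U hU (fun b p => cmW Γ η b p.1 * Φ (z + toC p.1 + b • toC u) p.2)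
      (fun p => ?_) (fun b _ => hmF b) (fun a₀ ha₀ => ?_)
    · refine ((cmW_differentiable Γ η p.1).mul ?_).differentiableOn
      exact (hΦ p.2).comp (by fun_prop)
    · have ha₀' : |a₀.im| < ρ := ha₀
      refine ⟨(ρ - |a₀.im|) / 2, by linarith, B', hB't, fun b hb => ?_⟩
      have hbU : b ∈ U := by
        rw [Metric.mem_closedBall, dist_eq_norm] at hb
        have h1 : |b.im - a₀.im| ≤ (ρ - |a₀.im|) / 2 := by
          rw [← Complex.sub_im]
          exact (Complex.abs_im_le_norm _).trans hb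
        have h2 : |b.im| ≤ |a₀.im| + |b.im - a₀.im| := by
          calc |b.im| = |a₀.im + (b.im - a₀.im)| := by congr 1; ring
            _ ≤ _ := abs_add_le _ _
        show |b.im| < ρ
        linarith
      exact ⟨hbU, hbd b hbU⟩
  have h00 : ∀ p : (G.V → ℝ) × Ω, cmW Γ η 0 p.1 * Φ (z + toC p.1 + (0 : ℂ) • toC u) p.2 = Φ (z + toC p.1) p.2 := by
    intro p
    simp [cmW]
  have hint0 : Integrable (fun p : (G.V → ℝ) × Ω => Φ (z + toC p.1) p.2) ((gauss G Γ).prod ν) := by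
    have := hint 0 h0
    simp_rw [h00] at this
    exact this
  refine eqOn_of_real_eq hU hUc hd (differentiableOn_const _) h0 (fun σ hσ => ?_) ha
  rw [integral_prod_symm _ (hint σ hσ), integral_prod_symm _ hint0]
  refine integral_congr_ae (Eventually.of_forall fun e => ?_)
  simp only
  rw [← cmW_real Γ hΓ η (fun ζ => Φ (z + toC ζ) e) σ]
  refine integral_congr_ae (Eventually.of_forall fun ζ => ?_)
  simp only
  rw [toC_add, toC_smul, ← hu, add_assoc]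

/-- **the imaginary direction `Γ η` costs `e^{⟨η, Γ η⟩/2}`; only real fields on the right** (from `cx_cm_prod` at `z = φ + i Γ η`, `a = -i`, `ρ = 2`) -/
theorem cx_cm_prod_le {Ω : Type} [MeasurableSpace Ω] (ν : Measure Ω) [SFinite ν] (Γ : Matrix G.V G.V ℝ) (hΓ : Γ.PosSemidef)
    (Φ : (G.V → ℂ) → Ω → ℂ) (hΦ : ∀ e, Differentiable ℂ fun z => Φ z e) (hm : Measurable (Function.uncurry Φ))
    (η φ : G.V → ℝ) (B : ℝ≥0∞) (hB : B ≠ ⊤)
    (hA : ∀ t : ℝ, |t| ≤ 3 →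
      ∫⁻ p, (‖Φ (toC φ + ((t : ℂ) * Complex.I) • toC (Γ.mulVec η) + toC p.1) p.2‖₊ : ℝ≥0∞) ∂((gauss G Γ).prod ν) ≤ B) :
    (‖∫ p, Φ (toC φ + Complex.I • toC (Γ.mulVec η) + toC p.1) p.2 ∂((gauss G Γ).prod ν)‖₊ : ℝ≥0∞)
      ≤ ENNReal.ofReal (Real.exp ((η ⬝ᵥ Γ.mulVec η) / 2))
        * ∫⁻ p, (‖Φ (toC φ + toC p.1) p.2‖₊ : ℝ≥0∞) ∂((gauss G Γ).prod ν) := by
  have key := cx_cm_prod ν Γ hΓ Φ hΦ hm η (toC φ + Complex.I • toC (Γ.mulVec η)) 2 B hB (fun t ht => ?_) (-Complex.I)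
    (by simp)
  · rw [← key, ← lintegral_const_mul' _ _ ENNReal.ofReal_ne_top]
    refine (enorm_integral_le_lintegral_enorm _).trans (le_of_eq ?_)
    refine lintegral_congr fun p => ?_
    rw [enorm_mul, ← ofReal_norm, cx_cmW_norm, enorm_eq_nnnorm]
    congr 2
    · congr 1
      simp
      ring
    · congr 2
      ext v
      simp only [Pi.add_apply, Pi.smul_apply, smul_eq_mul]
      ring
  · have h1 : |t + 1| ≤ 3 := by
      have := abs_add_le t 1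
      rw [abs_one] at this
      linarith
    refine le_trans (le_of_eq ?_) (hA (t + 1) h1)
    refine lintegral_congr fun p => ?_
    congr 3
    ext v
    simp only [Pi.add_apply, Pi.smul_apply, smul_eq_mul]
    push_cast
    ring

end

end Claimed.Agent.R285.Entry
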