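import Claimed.Agent.R285.Entry.CplxH

/-!
# ROW 285, post BP-ENT-CPLX, file I: CAMERON-MARTIN ON A PRODUCT, ASYMMETRIC TUBE            (owner helper140)
The same as H4 of `Entry/CplxH.lean` (proof of helper131 copied), but the `L¹` bounds are only needed for the imaginary multiples `t ∈ [-ρ₁, ρ₂]` of the direction.
`cx_cm_le`: the tube is `t ∈ [-1/4, 5/4]` (instead of `[-3, 3]`): the strip `H = 5 √a h₀` of `Ent.Phys` then has room for the crude constant `2` in the gradient of cell averages.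
-/

set_option autoImplicit false

namespace Claimed.Agent.R285.Entry

open scoped BigOperators ENNReal NNReal
open MeasureTheory ProbabilityTheory Filter Topology
open Claimed.Agent.R285.RG Claimed.Agent.R285.Hol

noncomputable section

variable {G : Geom}

theorem cxi_cmW_norm (Γ : Matrix G.V G.V ℝ) (η : G.V → ℝ) (a : ℂ) (ζ : G.V → ℝ) :
    ‖cmW Γ η a ζ‖ = Real.exp (-(a.re * (η ⬝ᵥ ζ)) - (a.re ^ 2 - a.im ^ 2) * (η ⬝ᵥ Γ.mulVec η) / 2) := by
  unfold cmW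
  rw [Complex.norm_exp]
  congr 1
  simp [Complex.mul_re, pow_two]

theorem cxi_cm_meas {Ω : Type} [MeasurableSpace Ω]
    (Φ : (G.V → ℂ) → Ω → ℂ) (hm : Measurable (Function.uncurry Φ)) (z w : G.V → ℂ) :
    Measurable fun p : (G.V → ℝ) × Ω => Φ (z + toC p.1 + w) p.2 := by
  have h1 : Measurable fun p : (G.V → ℝ) × Ω => ((z + toC p.1 + w, p.2) : (G.V → ℂ) × Ω) :=
    ((((continuous_const.add toC_continuous).add continuous_const).measurable).comp measurable_fst).prodMk measurable_snd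
  exact hm.comp h1

theorem cxi_cm_lint {Ω : Type} [MeasurableSpace Ω] (ν : Measure Ω) [SFinite ν] (Γ : Matrix G.V G.V ℝ) (hΓ : Γ.PosSemidef)
    (Φ : (G.V → ℂ) → Ω → ℂ) (hm : Measurable (Function.uncurry Φ)) (η : G.V → ℝ) (z : G.V → ℂ) (a : ℂ) :
    ∫⁻ p, (‖cmW Γ η a p.1 * Φ (z + toC p.1 + a • toC (Γ.mulVec η)) p.2‖₊ : ℝ≥0∞) ∂((gauss G Γ).prod ν)
      = ENNReal.ofReal (Real.exp (a.im ^ 2 * (η ⬝ᵥ Γ.mulVec η) / 2))
        * ∫⁻ p, (‖Φ (z + toC p.1 + ((a.im : ℂ) * Complex.I) • toC (Γ.mulVec η)) p.2‖₊ : ℝ≥0∞) ∂((gauss G Γ).prod ν) := by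
  set u := Γ.mulVec η with hu
  set q := η ⬝ᵥ u with hq
  have hm1 : Measurable fun p : (G.V → ℝ) × Ω => (‖cmW Γ η a p.1 * Φ (z + toC p.1 + a • toC u) p.2‖₊ : ℝ≥0∞) :=
    ((((cmW_continuous Γ η a).measurable).comp measurable_fst).mul (cxi_cm_meas Φ hm z _)).nnnorm.coe_nnreal_ennreal
  have hm2 : Measurable fun p : (G.V → ℝ) × Ω => (‖Φ (z + toC p.1 + ((a.im : ℂ) * Complex.I) • toC u) p.2‖₊ : ℝ≥0∞) :=
    (cxi_cm_meas Φ hm z _).nnnorm.coe_nnreal_ennreal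
  rw [lintegral_prod_symm' _ hm1, lintegral_prod_symm' _ hm2, ← lintegral_const_mul' _ _ ENNReal.ofReal_ne_top]
  refine lintegral_congr fun e => ?_
  simp only
  set f : (G.V → ℝ) → ℝ≥0∞ := fun ζ => (‖Φ (z + toC ζ + ((a.im : ℂ) * Complex.I) • toC u) e‖₊ : ℝ≥0∞) with hf
  have hfm : Measurable f := hm2.comp (measurable_id.prodMk measurable_const)
  set g : (G.V → ℝ) → ℝ≥0∞ := fun ζ =>
    ENNReal.ofReal (Real.exp (-(a.re * (η ⬝ᵥ ζ)) + (a.re ^ 2 + a.im ^ 2) * q / 2)) * f ζ with hg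
  have hgm : Measurable g := by
    refine Measurable.mul ?_ hfm
    refine ENNReal.measurable_ofReal.comp (Real.measurable_exp.comp ?_)
    exact (((continuous_const.mul (dot_continuous η)).neg).add continuous_const).measurable
  have hmv : Γ.mulVec (a.re • η) = a.re • u := Matrix.mulVec_smul _ _ _
  have h1 := gauss_shift_lintegral Γ hΓ (a.re • η) g hgm
  rw [hmv] at h1
  have h2 : ∀ ζ : G.V → ℝ, (‖cmW Γ η a ζ * Φ (z + toC ζ + a • toC u) e‖₊ : ℝ≥0∞) = g (ζ + a.re • u) := by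
    intro ζ
    simp only [hg, hf]
    rw [nnnorm_mul, ENNReal.coe_mul]
    congr 1
    · rw [← enorm_eq_nnnorm, ← ofReal_norm, cxi_cmW_norm, ← hu, ← hq, dotProduct_add, dotProduct_smul, ← hq]
      congr 2
      simp only [smul_eq_mul]
      ring
    · congr 3
      rw [toC_add, toC_smul]
      ext v
      simp only [Pi.add_apply, Pi.smul_apply, smul_eq_mul]
      conv_lhs => rw [← Complex.re_add_im a]
      ring
  simp_rw [h2]
  rw [h1, ← lintegral_const_mul' _ _ ENNReal.ofReal_ne_top]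
  refine lintegral_congr fun ζ => ?_
  simp only [hg]
  rw [← mul_assoc, ← ENNReal.ofReal_mul (Real.exp_pos _).le, ← Real.exp_add]
  congr 3
  rw [smul_dotProduct, smul_dotProduct, dotProduct_smul, ← hq]
  simp only [smul_eq_mul]
  ring

/-- **H4, asymmetric tube** -/
theorem cx_cm_tube {Ω : Type} [MeasurableSpace Ω] (ν : Measure Ω) [SFinite ν] (Γ : Matrix G.V G.V ℝ) (hΓ : Γ.PosSemidef)
    (Φ : (G.V → ℂ) → Ω → ℂ) (hΦ : ∀ e, Differentiable ℂ fun z => Φ z e) (hm : Measurable (Function.uncurry Φ))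
    (η : G.V → ℝ) (z : G.V → ℂ) (ρ₁ ρ₂ : ℝ) (hρ₁ : 0 < ρ₁) (hρ₂ : 0 < ρ₂) (B : ℝ≥0∞) (hB : B ≠ ⊤)
    (hA : ∀ t : ℝ, -ρ₁ ≤ t → t ≤ ρ₂ →
      ∫⁻ p, (‖Φ (z + toC p.1 + ((t : ℂ) * Complex.I) • toC (Γ.mulVec η)) p.2‖₊ : ℝ≥0∞) ∂((gauss G Γ).prod ν) ≤ B)
    (a : ℂ) (ha₁ : -ρ₁ < a.im) (ha₂ : a.im < ρ₂) :
    ∫ p, cmW Γ η a p.1 * Φ (z + toC p.1 + a • toC (Γ.mulVec η)) p.2 ∂((gauss G Γ).prod ν)
      = ∫ p, Φ (z + toC p.1) p.2 ∂((gauss G Γ).prod ν) := by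
  set u := Γ.mulVec η with hu
  set q := η ⬝ᵥ u with hq
  set ρ : ℝ := max ρ₁ ρ₂ with hρ
  set U : Set ℂ := {b : ℂ | -ρ₁ < b.im ∧ b.im < ρ₂} with hUdef
  have hU : IsOpen U :=
    (isOpen_lt continuous_const Complex.continuous_im).inter (isOpen_lt Complex.continuous_im continuous_const)
  have hUc : IsPreconnected U := by
    have h1 : U = Complex.imLm ⁻¹' (Set.Ioo (-ρ₁) ρ₂) := by
      ext b
      simp only [hUdef, Set.mem_ofPred_eq, Set.mem_preimage, Set.mem_Ioo]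
      rfl
    rw [h1]
    exact ((convex_Ioo (-ρ₁) ρ₂).linear_preimage Complex.imLm).isPreconnected
  have h0 : (0 : ℂ) ∈ U := by
    show -ρ₁ < (0 : ℂ).im ∧ (0 : ℂ).im < ρ₂
    simp only [Complex.zero_im]
    exact ⟨by linarith, hρ₂⟩
  set B' : ℝ≥0∞ := ENNReal.ofReal (Real.exp (ρ ^ 2 * |q| / 2)) * B with hB'
  have hB't : B' ≠ ⊤ := ENNReal.mul_ne_top ENNReal.ofReal_ne_top hB
  have hmF : ∀ b : ℂ, Measurable fun p : (G.V → ℝ) × Ω => cmW Γ η b p.1 * Φ (z + toC p.1 + b • toC u) p.2 := fun b =>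
    (((cmW_continuous Γ η b).measurable).comp measurable_fst).mul (cxi_cm_meas Φ hm z _)
  have hbd : ∀ b ∈ U, ∫⁻ p, (‖cmW Γ η b p.1 * Φ (z + toC p.1 + b • toC u) p.2‖₊ : ℝ≥0∞) ∂((gauss G Γ).prod ν) ≤ B' := by
    intro b hb
    have hb : -ρ₁ < b.im ∧ b.im < ρ₂ := hb
    rw [hu, cxi_cm_lint ν Γ hΓ Φ hm η z b, ← hu, ← hq]
    refine mul_le_mul' (ENNReal.ofReal_le_ofReal (Real.exp_le_exp.2 ?_)) (hA _ hb.1.le hb.2.le)
    have h1 : b.im ^ 2 ≤ ρ ^ 2 :=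
      sq_le_sq' (by linarith [le_max_left ρ₁ ρ₂]) (by linarith [le_max_right ρ₁ ρ₂])
    have h2 : b.im ^ 2 * q ≤ ρ ^ 2 * |q| :=
      (mul_le_mul_of_nonneg_left (le_abs_self q) (sq_nonneg _)).trans (mul_le_mul_of_nonneg_right h1 (abs_nonneg _))
    linarith
  have hint : ∀ b ∈ U, Integrable (fun p : (G.V → ℝ) × Ω => cmW Γ η b p.1 * Φ (z + toC p.1 + b • toC u) p.2)
      ((gauss G Γ).prod ν) := fun b hb =>
    ⟨(hmF b).aestronglyMeasurable, lt_of_le_of_lt (hbd b hb) (lt_top_iff_ne_top.2 hB't)⟩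
  have hd : DifferentiableOn ℂ
      (fun b => ∫ p, cmW Γ η b p.1 * Φ (z + toC p.1 + b • toC u) p.2 ∂((gauss G Γ).prod ν)) U := by
    refine cx_hol_L1 ((gauss G Γ).prod ν) U hU (fun b p => cmW Γ η b p.1 * Φ (z + toC p.1 + b • toC u) p.2)
      (fun p => ?_) (fun b _ => hmF b) (fun a₀ ha₀ => ?_)
    · refine ((cmW_differentiable Γ η p.1).mul ?_).differentiableOn
      exact (hΦ p.2).comp (by fun_prop)
    · obtain ⟨ε, hε, hball⟩ := Metric.isOpen_iff.1 hU a₀ ha₀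
      refine ⟨ε / 2, by linarith, B', hB't, fun b hb => ?_⟩
      have hbU : b ∈ U := hball (lt_of_le_of_lt (Metric.mem_closedBall.1 hb) (by linarith))
      exact ⟨hbU, hbd b hbU⟩
  have h00 : ∀ p : (G.V → ℝ) × Ω, cmW Γ η 0 p.1 * Φ (z + toC p.1 + (0 : ℂ) • toC u) p.2 = Φ (z + toC p.1) p.2 := by
    intro p
    simp [cmW]
  have hint0 : Integrable (fun p : (G.V → ℝ) × Ω => Φ (z + toC p.1) p.2) ((gauss G Γ).prod ν) := by
    have := hint 0 h0
    simp_rw [h00] at this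
    exact this
  refine eqOn_of_real_eq hU hUc hd (differentiableOn_const _) h0 (fun σ hσ => ?_) (show a ∈ U from ⟨ha₁, ha₂⟩)
  rw [integral_prod_symm _ (hint σ hσ), integral_prod_symm _ hint0]
  refine integral_congr_ae (Eventually.of_forall fun e => ?_)
  simp only
  rw [← cmW_real Γ hΓ η (fun ζ => Φ (z + toC ζ) e) σ]
  refine integral_congr_ae (Eventually.of_forall fun ζ => ?_)
  simp only
  rw [toC_add, toC_smul, ← hu, add_assoc]

/-- **the imaginary direction `Γ η` costs `e^{⟨η, Γ η⟩/2}`; only real fields on the right**; `L¹` bounds for the multiples `t ∈ [-1/4, 5/4]` of the direction -/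
theorem cx_cm_le {Ω : Type} [MeasurableSpace Ω] (ν : Measure Ω) [SFinite ν] (Γ : Matrix G.V G.V ℝ) (hΓ : Γ.PosSemidef)
    (Φ : (G.V → ℂ) → Ω → ℂ) (hΦ : ∀ e, Differentiable ℂ fun z => Φ z e) (hm : Measurable (Function.uncurry Φ))
    (η φ : G.V → ℝ) (B : ℝ≥0∞) (hB : B ≠ ⊤)
    (hA : ∀ t : ℝ, |t| ≤ 5 / 4 →
      ∫⁻ p, (‖Φ (toC φ + ((t : ℂ) * Complex.I) • toC (Γ.mulVec η) + toC p.1) p.2‖₊ : ℝ≥0∞) ∂((gauss G Γ).prod ν) ≤ B) :
    (‖∫ p, Φ (toC φ + Complex.I • toC (Γ.mulVec η) + toC p.1) p.2 ∂((gauss G Γ).prod ν)‖₊ : ℝ≥0∞)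
      ≤ ENNReal.ofReal (Real.exp ((η ⬝ᵥ Γ.mulVec η) / 2))
        * ∫⁻ p, (‖Φ (toC φ + toC p.1) p.2‖₊ : ℝ≥0∞) ∂((gauss G Γ).prod ν) := by
  have key := cx_cm_tube ν Γ hΓ Φ hΦ hm η (toC φ + Complex.I • toC (Γ.mulVec η)) (5 / 4) (1 / 4) (by norm_num) (by norm_num)
    B hB (fun t ht1 ht2 => ?_) (-Complex.I) (by simp; norm_num) (by simp; norm_num)
  · rw [← key, ← lintegral_const_mul' _ _ ENNReal.ofReal_ne_top]
    refine (enorm_integral_le_lintegral_enorm _).trans (le_of_eq ?_)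
    refine lintegral_congr fun p => ?_
    rw [enorm_mul, ← ofReal_norm, cxi_cmW_norm, enorm_eq_nnnorm]
    congr 2
    · congr 1
      simp
      ring
    · congr 2
      ext v
      simp only [Pi.add_apply, Pi.smul_apply, smul_eq_mul]
      ring
  · have h1 : |t + 1| ≤ 5 / 4 := by
      rw [abs_le]
      constructor <;> linarith
    refine le_trans (le_of_eq ?_) (hA (t + 1) h1)
    refine lintegral_congr fun p => ?_
    congr 3
    ext v
    simp only [Pi.add_apply, Pi.smul_apply, smul_eq_mul]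
    push_cast
    ring

end

end Claimed.Agent.R285.Entry
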