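import Claimed.Agent.R285.Entry.CplxC
import Claimed.Agent.R285.Ker.Main

/-!
# ROW 285, post BP-ENT-CPLX, file K: the cost of an imaginary direction            (owner helper140)
* `cx_low_scalar`: `c_m (x) ≥ 0` and `1 ≤ K (m⁻² + x) c_m (x)` on `[0, 8]`, `c_m = lowP m` for the entry family, `m = 2 t` EVEN (`m = R s` is a power of two).   From `Ker.ker_D_lower`, `Ker.ker_Q_decay`.
* `cx_low_solve`: `C_{<m}` is invertible and `⟨η, C η⟩ ≤ K (m⁻² |f|² + ⟨f, A f⟩)` for `C η = f`.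
-/

set_option autoImplicit false

namespace Claimed.Agent.R285.Entry

open scoped BigOperators ENNReal NNReal
open MeasureTheory ProbabilityTheory Filter Topology Polynomial
open Claimed.Agent.R285.RG Claimed.Agent.R285.Hol Claimed.Agent.R285.Ker

noncomputable section

/-- `x c_m (x) = 1 - Q_m (1 - x / 64)` -/
theorem cx_lowP_eval (u : ℕ) (hu : 1 ≤ u) (x : ℝ) :
    x * (Fam.entry.lowP u).eval x = 1 - (Q u).eval (1 - x / 64) := by
  have h := fam_telescope Fam.entry 1 u 0 le_rfl hu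
  have h2 := congrArg (Polynomial.eval x) h
  simp only [Finset.range_zero, Finset.sum_empty, add_zero, pow_zero, one_mul, eval_add, eval_mul, eval_X] at h2
  have h3 : (Fam.entry.termP u).eval x = (Q u).eval (1 - x / 64) := by
    simp only [Fam.termP, Fam.entry, Qs, one_mul, eval_comp, eval_sub, eval_one, eval_mul, eval_C, eval_X]
    congr 1
    ring
  have h4 : (Fam.entry.pref).eval x = 1 := by simp [Fam.entry]
  rw [h3, h4] at h2
  linarith

/-- the constant of the kernel bound -/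
def cxK0 : ℝ := 512 / (2 / Real.pi) ^ 66

theorem cxK0_ge : 512 ≤ cxK0 := by
  unfold cxK0
  have hpi := Real.pi_gt_three
  have h1 : 0 < (2 / Real.pi) ^ 66 := by positivity
  have h2 : (2 / Real.pi) ^ 66 ≤ 1 := by
    refine pow_le_one₀ (by positivity) ?_
    rw [div_le_one (by positivity)]
    linarith
  rw [le_div_iff₀ h1]
  nlinarith

theorem cx_low_scalar_pos (t : ℕ) (ht : 1 ≤ t) (x : ℝ) (hx0 : 0 < x) (hx8 : x ≤ 8) :
    0 ≤ (Fam.entry.lowP (2 * t)).eval x ∧
      1 ≤ cxK0 * ((((2 * t : ℕ) : ℝ) ^ 2)⁻¹ + x) * (Fam.entry.lowP (2 * t)).eval x := by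
  have hK := cxK0_ge
  have ht0 : (0 : ℝ) < t := by positivity
  set c := (Fam.entry.lowP (2 * t)).eval x with hc
  have hxc := cx_lowP_eval (2 * t) (by omega) x
  rw [← hc] at hxc
  -- the angle
  set z := Real.arccos (1 - x / 64) with hz
  have hcos : Real.cos z = 1 - x / 64 := Real.cos_arccos (by linarith) (by linarith)
  have hz0 : 0 ≤ z := Real.arccos_nonneg _
  have hz1 : z ≤ Real.pi := Real.arccos_le_pi _
  have hsin : Real.sin (z / 2) ^ 2 = x / 128 := by
    have h1 : Real.cos z = 1 - 2 * Real.sin (z / 2) ^ 2 := by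
      have : z = 2 * (z / 2) := by ring
      conv_lhs => rw [this]
      rw [Real.cos_two_mul]
      have := Real.sin_sq_add_cos_sq (z / 2)
      linarith
    linarith
  rw [← hcos] at hxc
  have hQ1 := ker_Q_le_one (2 * t) (by omega) z
  have hc0 : 0 ≤ c := by
    have : 0 ≤ x * c := by linarith
    exact nonneg_of_mul_nonneg_right this hx0
  refine ⟨hc0, ?_⟩
  have hm : (((2 * t : ℕ) : ℝ) ^ 2)⁻¹ = 1 / (4 * (t : ℝ) ^ 2) := by
    push_cast
    rw [one_div]
    congr 1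
    ring
  rw [hm]
  rcases le_total ((t : ℝ) ^ 2 * Real.sin (z / 2) ^ 2) 1 with hs | hs
  · have h1 := ker_D_lower t ht z hz0 hz1 hs
    have h2 := ker_Q_le_one t ht z
    rw [hsin] at h1
    set c0 : ℝ := (2 / Real.pi) ^ 66 with hc0'
    have hc0pos : 0 < c0 := by
      have := Real.pi_pos
      positivity
    -- `x c ≥ c0 t² x / 128`
    have h3 : c0 * ((t : ℝ) ^ 2 * (x / 128)) ≤ x * c := by linarith
    have h4 : c0 * (t : ℝ) ^ 2 / 128 ≤ c := by
      have : x * (c0 * (t : ℝ) ^ 2 / 128) ≤ x * c := by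
        calc x * (c0 * (t : ℝ) ^ 2 / 128) = c0 * ((t : ℝ) ^ 2 * (x / 128)) := by ring
          _ ≤ x * c := h3
      exact le_of_mul_le_mul_left this hx0
    have hKc : cxK0 * c0 = 512 := by
      unfold cxK0
      rw [← hc0']
      field_simp
    calc (1 : ℝ) = cxK0 * (1 / (4 * (t : ℝ) ^ 2)) * (c0 * (t : ℝ) ^ 2 / 128) := by
          have : cxK0 * (1 / (4 * (t : ℝ) ^ 2)) * (c0 * (t : ℝ) ^ 2 / 128) = (cxK0 * c0) / 512 := by
            field_simp
            ring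
          rw [this, hKc]
          norm_num
      _ ≤ cxK0 * (1 / (4 * (t : ℝ) ^ 2) + x) * c := by
          have hK0 : 0 < cxK0 := by linarith
          gcongr
          linarith
  · have h1 := ker_Q_decay (2 * t) (by omega) z
    have h2 : (4 : ℝ) ≤ ((2 * t : ℕ) : ℝ) ^ 2 * Real.sin (z / 2) ^ 2 := by
      push_cast
      nlinarith
    have h3 : (4 : ℝ) ^ pp ≤ (((2 * t : ℕ) : ℝ) ^ 2 * Real.sin (z / 2) ^ 2) ^ pp := pow_le_pow_left₀ (by norm_num) h2 _
    have h4 : (2 : ℝ) ≤ (4 : ℝ) ^ pp := by norm_num [pp]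
    have hQ0 := ker_Q_nonneg (2 * t) (Real.cos z)
    have h5 : (Q (2 * t)).eval (Real.cos z) * 2 ≤ 1 :=
      (mul_le_mul_of_nonneg_left (h4.trans h3) hQ0).trans h1
    have h6 : 1 / 2 ≤ x * c := by linarith
    have h7 : 0 ≤ 1 / (4 * (t : ℝ) ^ 2) * c := by positivity
    calc (1 : ℝ) ≤ 512 * (1 / 2) := by norm_num
      _ ≤ cxK0 * (x * c) := by
          have hK0 : 0 < cxK0 := by linarith
          nlinarith
      _ ≤ cxK0 * (1 / (4 * (t : ℝ) ^ 2) + x) * c := by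
          have hK0 : 0 < cxK0 := by linarith
          nlinarith

/-- **the scalar kernel bound** on the whole spectrum -/
theorem cx_low_scalar (t : ℕ) (ht : 1 ≤ t) (x : ℝ) (hx0 : 0 ≤ x) (hx8 : x ≤ 8) :
    0 ≤ (Fam.entry.lowP (2 * t)).eval x ∧
      1 ≤ cxK0 * ((((2 * t : ℕ) : ℝ) ^ 2)⁻¹ + x) * (Fam.entry.lowP (2 * t)).eval x := by
  have h1 : Continuous fun x : ℝ => (Fam.entry.lowP (2 * t)).eval x := (Fam.entry.lowP (2 * t)).continuous
  have hcl : IsClosed ({x : ℝ | 0 ≤ (Fam.entry.lowP (2 * t)).eval x} ∩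
      {x : ℝ | 1 ≤ cxK0 * ((((2 * t : ℕ) : ℝ) ^ 2)⁻¹ + x) * (Fam.entry.lowP (2 * t)).eval x}) :=
    IsClosed.inter (isClosed_le continuous_const h1) (isClosed_le continuous_const (by fun_prop))
  have hsub : Set.Ioc (0 : ℝ) 8 ⊆ ({x : ℝ | 0 ≤ (Fam.entry.lowP (2 * t)).eval x} ∩
      {x : ℝ | 1 ≤ cxK0 * ((((2 * t : ℕ) : ℝ) ^ 2)⁻¹ + x) * (Fam.entry.lowP (2 * t)).eval x}) :=
    fun x hx => cx_low_scalar_pos t ht x hx.1 hx.2
  have h2 := hcl.closure_subset_iff.2 hsub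
  rw [closure_Ioc (by norm_num : (0 : ℝ) ≠ 8)] at h2
  exact h2 ⟨hx0, hx8⟩

variable (G : Geom)

theorem cx_cov_mul (P P' : ℝ[X]) : cov G (P * P') = cov G P * cov G P' := by
  simp [cov]

theorem cx_cov_one : cov G 1 = 1 := by simp [cov]

/-- **`C_{<m}⁻¹ ≤ K (m⁻² + A)`** without inverses -/
theorem cx_low_solve (t : ℕ) (ht : 1 ≤ t) (f : G.V → ℝ) : ∃ η : G.V → ℝ,
    (low G Fam.entry (2 * t)).mulVec η = f ∧
    η ⬝ᵥ (low G Fam.entry (2 * t)).mulVec η
      ≤ cxK0 * ((((2 * t : ℕ) : ℝ) ^ 2)⁻¹ * (f ⬝ᵥ f) + f ⬝ᵥ (lap G).mulVec f) := by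
  set Cm := low G Fam.entry (2 * t) with hCm
  set μ : ℝ := (((2 * t : ℕ) : ℝ) ^ 2)⁻¹ with hμ
  set P1 : ℝ[X] := C cxK0 * (C μ + X) with hP1
  set cP : ℝ[X] := Fam.entry.lowP (2 * t) with hcP
  have hCcov : Cm = cov G cP := rfl
  have hpsd : Cm.PosSemidef := low_psd G Fam.entry entry_adm (2 * t) (by omega)
  have hsymm : Cm.transpose = Cm := by
    have := hpsd.isHermitian
    rwa [Matrix.IsHermitian, Matrix.conjTranspose_eq_transpose_of_trivial] at this
  have hP1cov : cov G P1 = cxK0 • (μ • (1 : Matrix G.V G.V ℝ) + lap G) := by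
    simp only [cov, hP1, map_mul, map_add, aeval_C, aeval_X, Algebra.algebraMap_eq_smul_one]
    rw [smul_mul_assoc, one_mul]
  have hev1 : ∀ x : ℝ, P1.eval x = cxK0 * (μ + x) := fun x => by simp [hP1]
  have hsc := cx_low_scalar t ht
  -- injectivity
  have hker : ∀ d : G.V → ℝ, Cm.mulVec d = 0 → d = 0 := by
    intro d hd
    have h1 := ker_cov_mono G 1 (P1 * cP) (fun x h0 h8 => by
      rw [eval_one, eval_mul, hev1]
      exact (hsc x h0 h8).2) d
    rw [cx_cov_one, Matrix.one_mulVec, cx_cov_mul, ← hCcov, ← Matrix.mulVec_mulVec, hd, Matrix.mulVec_zero,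
      dotProduct_zero] at h1
    have h2 : d ⬝ᵥ d = 0 := le_antisymm h1 (by
      simp only [dotProduct]
      exact Finset.sum_nonneg fun i _ => mul_self_nonneg _)
    exact dotProduct_self_eq_zero.1 h2
  have hinj : Function.Injective Cm.mulVec := by
    intro η1 η2 h
    have := hker (η1 - η2) (by rw [Matrix.mulVec_sub, h, sub_self])
    exact sub_eq_zero.1 this
  have hsurj : Function.Surjective Cm.mulVec :=
    Matrix.mulVec_surjective_iff_isUnit.2 (Matrix.mulVec_injective_iff_isUnit.1 hinj)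
  obtain ⟨η, hη⟩ := hsurj f
  refine ⟨η, hη, ?_⟩
  have h1 := ker_cov_mono G cP (cP * P1 * cP) (fun x h0 h8 => by
    rw [eval_mul, eval_mul, hev1]
    obtain ⟨hc0, hc1⟩ := hsc x h0 h8
    rw [← hcP] at hc0 hc1
    nlinarith) η
  rw [cx_cov_mul, cx_cov_mul, ← hCcov, ← Matrix.mulVec_mulVec, ← Matrix.mulVec_mulVec, hη, Matrix.dotProduct_mulVec,
    ← Matrix.mulVec_transpose, hsymm, hη, hP1cov] at h1
  rw [hη]
  refine h1.trans (le_of_eq ?_)
  rw [Matrix.smul_mulVec, Matrix.add_mulVec, Matrix.smul_mulVec, Matrix.one_mulVec, dotProduct_smul, dotProduct_add,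
    dotProduct_smul]
  simp only [smul_eq_mul]

end

end Claimed.Agent.R285.Entry
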