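import Claimed.Agent.R285.Entry.Strip

/-!
# ROW 285, Entry toolkit, leaf L-B9-TWOC: two constants on a disc cut by its real diameter ([B] (9.5), parameter derivatives; [C] L5.x, [F] T4.6, [E] P3.1 the same)
PLAN (no harmonic measure): `w ↦ tanh (w / 2)` maps the strip `0 ≤ Im w ≤ π/2` into the closed upper half disc, `ℝ` into `(-1, 1)`.  For `r < 1` (say `r = 1/2`) put `G (w) = F (r tanh (w / 2))`:
holomorphic and bounded by `M₁` on the closed strip (`cosh (w/2) ≠ 0` there, `|tanh (w/2)| ≤ 1`), `|G| ≤ M₀` on `ℝ`.  Hadamard three lines: `|G (u + i v)| ≤ M₀^{1 - 2v/π} M₁^{2v/π}`.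
For `|z| ≤ ρ` small, `Im z ≥ 0`: `w = 2 artanh (z / r) = log ((r + z)/(r - z))` has `0 ≤ Im w = arg ((r + z)/(r - z)) ≤ θ π / 2`.  `Im z < 0`: apply to `z ↦ F (-z)`... (or `conj`).  `θ ≥ 1` is trivial.
-/

set_option autoImplicit false

namespace Claimed.Agent.R285.Entry

open scoped BigOperators ENNReal NNReal
open MeasureTheory ProbabilityTheory

noncomputable section

/-- the map `w ↦ (e^w - 1)/(e^w + 1) = tanh (w/2)` on the strip `0 ≤ Im w ≤ π/2`. -/
theorem twoc_exp_facts {w : ℂ} (h0 : 0 ≤ w.im) (h1 : w.im ≤ Real.pi / 2) :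
    Complex.exp w + 1 ≠ 0 ∧ ‖(Complex.exp w - 1) / (Complex.exp w + 1)‖ ≤ 1 := by
  have hre : 0 ≤ (Complex.exp w).re := by
    rw [Complex.exp_re]
    exact mul_nonneg (Real.exp_pos _).le
      (Real.cos_nonneg_of_neg_pi_div_two_le_of_le (by linarith [Real.pi_pos]) h1)
  have hne : Complex.exp w + 1 ≠ 0 := by
    intro h
    have := congrArg Complex.re h
    simp at this
    linarith
  refine ⟨hne, ?_⟩
  rw [norm_div, div_le_one (norm_pos_iff.2 hne)]
  have h2 : ‖Complex.exp w - 1‖ ^ 2 ≤ ‖Complex.exp w + 1‖ ^ 2 := by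
    rw [Complex.sq_norm, Complex.sq_norm, Complex.normSq_apply, Complex.normSq_apply]
    simp only [Complex.sub_re, Complex.sub_im, Complex.add_re, Complex.add_im, Complex.one_re,
      Complex.one_im, sub_zero, add_zero]
    nlinarith
  exact abs_le_of_sq_le_sq' h2 (norm_nonneg _) |>.2

theorem two_constants_aux {θ : ℝ} (hθ : 0 < θ) (F : ℂ → ℂ) (M0 M1 : ℝ) (hM0 : 0 < M0) (hM : M0 ≤ M1)
    (hF : DifferentiableOn ℂ F (Metric.ball 0 1)) (hB : ∀ z ∈ Metric.ball (0 : ℂ) 1, ‖F z‖ ≤ M1)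
    (hR : ∀ x : ℝ, |x| < 1 → ‖F x‖ ≤ M0) :
    ∀ z : ℂ, 0 ≤ z.im → ‖z‖ ≤ min θ 1 / 8 → ‖F z‖ ≤ M0 ^ (1 - θ) * M1 ^ θ := by
  intro z hz0 hzρ
  set θ' : ℝ := min θ 1 with hθ'
  have hθ'0 : 0 < θ' := lt_min hθ one_pos
  have hθ'1 : θ' ≤ 1 := min_le_right _ _
  have hpi := Real.pi_gt_three
  set T : ℂ → ℂ := fun w => (Complex.exp w - 1) / (Complex.exp w + 1) with hT
  set G : ℂ → ℂ := fun w => F ((1 / 2 : ℂ) * T w) with hG
  have hball : ∀ w : ℂ, 0 ≤ w.im → w.im ≤ Real.pi / 2 → (1 / 2 : ℂ) * T w ∈ Metric.ball (0 : ℂ) 1 := by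
    intro w h0 h1
    rw [mem_ball_zero_iff, norm_mul]
    have := (twoc_exp_facts h0 h1).2
    have h2 : ‖(1 / 2 : ℂ)‖ = 1 / 2 := by simp
    rw [h2]
    simp only [hT]
    linarith
  have hGd : ∀ w : ℂ, 0 ≤ w.im → w.im ≤ Real.pi / 2 → DifferentiableAt ℂ G w := by
    intro w h0 h1
    have h2 : DifferentiableAt ℂ F ((1 / 2 : ℂ) * T w) :=
      (hF _ (hball w h0 h1)).differentiableAt (Metric.isOpen_ball.mem_nhds (hball w h0 h1))
    have h3 : DifferentiableAt ℂ T w :=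
      (Complex.differentiableAt_exp.sub_const 1).div (Complex.differentiableAt_exp.add_const 1)
        (twoc_exp_facts h0 h1).1
    exact DifferentiableAt.comp w h2 (h3.const_mul _)
  have hGB : ∀ w : ℂ, 0 ≤ w.im → w.im ≤ Real.pi / 2 → ‖G w‖ ≤ M1 := fun w h0 h1 =>
    hB _ (hball w h0 h1)
  have hGa : ∀ x : ℝ, ‖G x‖ ≤ M0 := by
    intro x
    have e : (1 / 2 : ℂ) * T x = ((1 / 2 * ((Real.exp x - 1) / (Real.exp x + 1)) : ℝ) : ℂ) := by
      simp only [hT]
      push_cast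
      rfl
    have h1 := hball x (by simp) (by simp; positivity)
    simp only [hG]
    rw [e] at h1 ⊢
    refine hR _ ?_
    rw [mem_ball_zero_iff, Complex.norm_real, Real.norm_eq_abs] at h1
    exact h1
  have key := three_lines_horizontal (H := Real.pi / 2) (by positivity) hGd hGB hGa
    (fun w hw => hGB w (by rw [hw]; positivity) hw.le)
  -- the preimage of `z`
  set ζ : ℂ := 2 * z with hζ
  have hζn : ‖ζ‖ ≤ θ' / 4 := by
    rw [hζ, norm_mul]
    have : ‖(2 : ℂ)‖ = 2 := by simp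
    rw [this]
    linarith
  have hζ4 : ‖ζ‖ ≤ 1 / 4 := by linarith
  have hsq : ζ.re ^ 2 + ζ.im ^ 2 = ‖ζ‖ ^ 2 := by
    rw [Complex.sq_norm, Complex.normSq_apply]
    ring
  have hsq4 : ζ.re ^ 2 + ζ.im ^ 2 ≤ 1 / 16 := by
    rw [hsq]
    calc ‖ζ‖ ^ 2 ≤ (1 / 4 : ℝ) ^ 2 := pow_le_pow_left₀ (norm_nonneg _) hζ4 2
      _ = 1 / 16 := by norm_num
  have hζim0 : 0 ≤ ζ.im := by
    simp [hζ]
    exact hz0
  have hζim : ζ.im ≤ θ' / 4 := ((le_abs_self _).trans (Complex.abs_im_le_norm ζ)).trans hζn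
  have h1m : (1 : ℂ) - ζ ≠ 0 := by
    intro h
    have h2 : ζ = 1 := (sub_eq_zero.1 h).symm
    rw [h2] at hζ4
    norm_num at hζ4
  have h1p : (1 : ℂ) + ζ ≠ 0 := by
    intro h
    have h2 : ζ = -1 := by
      rw [add_comm] at h
      exact eq_neg_of_add_eq_zero_left h
    rw [h2] at hζ4
    norm_num at hζ4
  set q : ℂ := (1 + ζ) / (1 - ζ) with hq
  have hq0 : q ≠ 0 := div_ne_zero h1p h1m
  have hn : 0 < Complex.normSq (1 - ζ) := Complex.normSq_pos.2 h1m
  have hqre : q.re = (1 - (ζ.re ^ 2 + ζ.im ^ 2)) / Complex.normSq (1 - ζ) := by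
    rw [hq, Complex.div_re]
    simp only [Complex.add_re, Complex.add_im, Complex.sub_re, Complex.sub_im, Complex.one_re,
      Complex.one_im]
    field_simp
    ring
  have hqim : q.im = 2 * ζ.im / Complex.normSq (1 - ζ) := by
    rw [hq, Complex.div_im]
    simp only [Complex.add_re, Complex.add_im, Complex.sub_re, Complex.sub_im, Complex.one_re,
      Complex.one_im]
    field_simp
    ring
  have hqre0 : 0 < q.re := by
    rw [hqre]
    exact div_pos (by linarith) hn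
  have hqim0 : 0 ≤ q.im := by
    rw [hqim]
    positivity
  set w : ℂ := Complex.log q with hw
  have hwim : w.im = Complex.arg q := Complex.log_im q
  have harg0 : 0 ≤ Complex.arg q := Complex.arg_nonneg_iff.2 hqim0
  have harg1 : Complex.arg q < Real.pi / 2 :=
    (abs_lt.1 (Complex.abs_arg_lt_pi_div_two_iff.2 (Or.inl hqre0))).2
  have harg2 : Complex.arg q ≤ 8 / 15 * θ' := by
    refine (Real.le_tan harg0 harg1).trans ?_
    rw [Complex.tan_arg, hqre, hqim, div_div_div_cancel_right₀ hn.ne',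
      div_le_iff₀ (by linarith)]
    nlinarith
  have hTw : (1 / 2 : ℂ) * T w = z := by
    simp only [hT]
    rw [hw, Complex.exp_log hq0, hq]
    have e1 : (1 + ζ) / (1 - ζ) - 1 = 2 * ζ / (1 - ζ) := by
      field_simp
      ring
    have e2 : (1 + ζ) / (1 - ζ) + 1 = 2 / (1 - ζ) := by
      field_simp
      ring
    rw [e1, e2, div_div_div_cancel_right₀ h1m, hζ]
    ring
  have h3 := key w (by rw [hwim]; exact harg0) (by rw [hwim]; exact harg1.le)
  have h4 : G w = F z := by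
    simp only [hG]
    rw [hTw]
  rw [h4, hwim] at h3
  refine h3.trans (interp_mono hM0 hM ?_)
  rw [div_le_iff₀ (by positivity)]
  have h5 : θ' ≤ θ := min_le_left _ _
  nlinarith

/-- small on the diameter, bounded on the disc ⟹ almost as small on a smaller disc. -/
theorem two_constants (θ : ℝ) (hθ : 0 < θ) : ∃ ρ : ℝ, 0 < ρ ∧ ρ < 1 ∧ ∀ (F : ℂ → ℂ) (M0 M1 : ℝ), 0 < M0 → M0 ≤ M1 →
    DifferentiableOn ℂ F (Metric.ball 0 1) → (∀ z ∈ Metric.ball (0 : ℂ) 1, ‖F z‖ ≤ M1) →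
    (∀ x : ℝ, |x| < 1 → ‖F x‖ ≤ M0) → ∀ z : ℂ, ‖z‖ ≤ ρ → ‖F z‖ ≤ M0 ^ (1 - θ) * M1 ^ θ := by
  have hθ'0 : 0 < min θ 1 := lt_min hθ one_pos
  have hθ'1 : min θ 1 ≤ 1 := min_le_right _ _
  refine ⟨min θ 1 / 8, by positivity, by linarith, ?_⟩
  intro F M0 M1 hM0 hM hF hB hR z hz
  rcases le_total 0 z.im with h | h
  · exact two_constants_aux hθ F M0 M1 hM0 hM hF hB hR z h hz
  · have key := two_constants_aux hθ (fun w => F (-w)) M0 M1 hM0 hM
      (hF.comp differentiable_neg.differentiableOn fun w hw => by simpa using hw)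
      (fun w hw => hB _ (by simpa using hw))
      (fun x hx => by
        have := hR (-x) (by simpa using hx)
        simpa using this)
      (-z) (by simpa using h) (by simpa using hz)
    simpa using key

end

end Claimed.Agent.R285.Entry
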