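import Claimed.Agent.R285.Chg.Geo
import Claimed.Agent.R285.Reg.Grid
import Claimed.Agent.R285.Ker.Main

/-!
# ROW 285, post BP-ENT-CPLX, file G: the cutoff of a test direction inside `D_m (X)`            (owner helper140)
`cx_cutoff`: for a real direction `f` there is `f'` with `f' = f` on the sites of `X` and  `m⁻² |f'|² + ⟨f', A f'⟩ ≤ 900 ‖f‖²_{m, D_m(X)} |X|`.
`f' = χ f`, `χ (v) = max_{w ∈ sites X} (1 - d (w, v) / m)₊`, `d` = the explicit sup distance (`Reg.regD1` on each axis).   `cx_dirichlet`: `⟨u, A u⟩ = ½ ∑_v ∑_e (∇_e u (v))²`.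
-/

set_option autoImplicit false

namespace Claimed.Agent.R285.Entry

open scoped BigOperators ENNReal NNReal
open Claimed.Agent.R285.RG Claimed.Agent.R285.Hol Claimed.Agent.R285.Reg Claimed.Agent.R285.Ker Claimed.Agent.R285.Chg

noncomputable section

variable {G : Geom}

/-! ## the Dirichlet form -/

theorem cx_lap_mulVec (u : G.V → ℝ) (v : G.V) : (lap G).mulVec u v = ∑ e : Fin 4, (u v - u (regNb G v e)) := by
  classical
  simp only [Matrix.mulVec, dotProduct, lap, Finset.sum_mul, sub_mul, ite_mul, one_mul, zero_mul]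
  rw [Finset.sum_comm]
  refine Finset.sum_congr rfl fun e _ => ?_
  rw [Finset.sum_sub_distrib]
  simp [regNb]

theorem cx_lap_symm : (lap G).transpose = lap G := ker_mul_symm (ker_lap_mul G)

/-- every site has four incoming neighbour pairs -/
theorem cx_nb_sum (h : G.V → ℝ) : ∑ v, ∑ e : Fin 4, h (regNb G v e) = 4 * ∑ v, h v := by
  have h1 : (fun _ : G.V => (1 : ℝ)) ⬝ᵥ (lap G).mulVec h = 0 := by
    rw [Matrix.dotProduct_mulVec, ← Matrix.mulVec_transpose, cx_lap_symm, ker_lap_mulVec_one, zero_dotProduct]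
  simp only [dotProduct, one_mul, cx_lap_mulVec, Finset.sum_sub_distrib, Finset.sum_const, Finset.card_univ,
    Fintype.card_fin, nsmul_eq_mul] at h1
  rw [← Finset.mul_sum] at h1
  push_cast at h1
  linarith

theorem cx_dirichlet (u : G.V → ℝ) :
    u ⬝ᵥ (lap G).mulVec u = (1 / 2) * ∑ v, ∑ e : Fin 4, (u (regNb G v e) - u v) ^ 2 := by
  have h1 := cx_nb_sum (G := G) fun v => u v ^ 2
  have h2 : ∑ v, ∑ e : Fin 4, (u (regNb G v e) - u v) ^ 2
      = ∑ v, ∑ e : Fin 4, u (regNb G v e) ^ 2 + ∑ v, ∑ _e : Fin 4, u v ^ 2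
        - 2 * ∑ v, ∑ e : Fin 4, u v * u (regNb G v e) := by
    rw [Finset.mul_sum, ← Finset.sum_add_distrib, ← Finset.sum_sub_distrib]
    refine Finset.sum_congr rfl fun v _ => ?_
    rw [Finset.mul_sum, ← Finset.sum_add_distrib, ← Finset.sum_sub_distrib]
    refine Finset.sum_congr rfl fun e _ => ?_
    ring
  have h3 : u ⬝ᵥ (lap G).mulVec u = ∑ v, ∑ _e : Fin 4, u v ^ 2 - ∑ v, ∑ e : Fin 4, u v * u (regNb G v e) := by
    simp only [dotProduct, cx_lap_mulVec]
    rw [← Finset.sum_sub_distrib]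
    refine Finset.sum_congr rfl fun v _ => ?_
    rw [Finset.mul_sum, ← Finset.sum_sub_distrib]
    refine Finset.sum_congr rfl fun e _ => ?_
    ring
  have h4 : ∑ v : G.V, ∑ _e : Fin 4, u v ^ 2 = 4 * ∑ v, u v ^ 2 := by
    simp only [Finset.sum_const, Finset.card_univ, Fintype.card_fin, nsmul_eq_mul]
    rw [← Finset.mul_sum]
    norm_num
  rw [h3, h2, h1, h4]
  ring

/-! ## the tent function -/

/-- the explicit sup distance -/
def cxD (w v : G.V) : ℕ := max (regD1 G w.1 v.1) (regD1 G w.2 v.2)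

theorem cxD_self (v : G.V) : cxD v v = 0 := by simp [cxD, reg_d1_self]

theorem cxD_triangle (u v w : G.V) : cxD u w ≤ cxD u v + cxD v w := by
  unfold cxD
  have h1 := reg_d1_triangle G u.1 v.1 w.1
  have h2 := reg_d1_triangle G u.2 v.2 w.2
  omega

theorem cxD_comm (u v : G.V) : cxD u v = cxD v u := by
  unfold cxD
  rw [reg_d1_comm G u.1 v.1, reg_d1_comm G u.2 v.2]

theorem cxD_nb (v : G.V) (e : Fin 4) : cxD v (regNb G v e) ≤ 1 := by
  have h1 : G.dist v (regNb G v e) ≤ 1 := by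
    have := ker_dist_le G (G.ι v) (G.ι v + dir e)
    rwa [ker_pi_iota, ker_sd_dir] at this
  unfold cxD
  exact max_le ((reg_d1_le_dist_fst G v _).trans h1) ((reg_d1_le_dist_snd G v _).trans h1)

/-- the tent function of a set of sites -/
def cxChi (m : ℕ) (S : Finset G.V) (v : G.V) : ℝ≥0 := S.sup fun w => Real.toNNReal (1 - (cxD w v : ℝ) / m)

theorem cxChi_le_one (m : ℕ) (S : Finset G.V) (v : G.V) : cxChi m S v ≤ 1 := by
  refine Finset.sup_le fun w _ => ?_
  rw [Real.toNNReal_le_one]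
  have : 0 ≤ (cxD w v : ℝ) / m := by positivity
  linarith

theorem cxChi_eq_one (m : ℕ) (S : Finset G.V) (v : G.V) (hv : v ∈ S) : cxChi m S v = 1 := by
  refine le_antisymm (cxChi_le_one m S v) ?_
  have h := Finset.le_sup (f := fun w => Real.toNNReal (1 - (cxD w v : ℝ) / m)) hv
  have h1 : Real.toNNReal (1 - ((cxD v v : ℕ) : ℝ) / m) = 1 := by
    rw [cxD_self]; simp
  calc (1 : ℝ≥0) = Real.toNNReal (1 - ((cxD v v : ℕ) : ℝ) / m) := h1.symm
    _ ≤ _ := h

theorem cxChi_eq_zero (m : ℕ) (hm : 0 < m) (S : Finset G.V) (v : G.V) (h : ∀ w ∈ S, m ≤ cxD w v) : cxChi m S v = 0 := by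
  refine le_antisymm (Finset.sup_le fun w hw => ?_) zero_le
  rw [Real.toNNReal_of_nonpos]
  have h1 : (m : ℝ) ≤ cxD w v := by exact_mod_cast h w hw
  have h2 : (0 : ℝ) < m := by exact_mod_cast hm
  have h3 : 1 ≤ (cxD w v : ℝ) / m := by rwa [le_div_iff₀ h2, one_mul]
  linarith

theorem cxChi_step (m : ℕ) (hm : 0 < m) (S : Finset G.V) (v v' : G.V) (h : cxD v v' ≤ 1) :
    (cxChi m S v' : ℝ) ≤ cxChi m S v + 1 / m := by
  have h2 : (0 : ℝ) < m := by exact_mod_cast hm
  have key : cxChi m S v' ≤ cxChi m S v + Real.toNNReal (1 / m) := by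
    refine Finset.sup_le fun w hw => ?_
    have h3 : Real.toNNReal (1 - (cxD w v : ℝ) / m) ≤ cxChi m S v :=
      Finset.le_sup (f := fun w => Real.toNNReal (1 - (cxD w v : ℝ) / m)) hw
    refine le_trans ?_ (add_le_add_left h3 _)
    refine le_trans (Real.toNNReal_le_toNNReal ?_) Real.toNNReal_add_le
    have h4 : (cxD w v : ℝ) ≤ cxD w v' + 1 := by
      have h5 := cxD_triangle w v' v
      rw [cxD_comm v' v] at h5
      have : cxD w v ≤ cxD w v' + 1 := by omega
      exact_mod_cast this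
    have h6 : (cxD w v : ℝ) / m ≤ (cxD w v' : ℝ) / m + 1 / m := by
      rw [← add_div]
      exact div_le_div_of_nonneg_right h4 h2.le
    linarith
  have := NNReal.coe_le_coe.2 key
  push_cast at this
  rwa [Real.coe_toNNReal _ (by positivity)] at this

theorem cxChi_abs_step (m : ℕ) (hm : 0 < m) (S : Finset G.V) (v v' : G.V) (h : cxD v v' ≤ 1) :
    |(cxChi m S v' : ℝ) - cxChi m S v| ≤ 1 / m := by
  have h1 := cxChi_step m hm S v v' h
  have h2 := cxChi_step m hm S v' v (by rwa [cxD_comm])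
  rw [abs_le]
  constructor <;> linarith

/-! ## the support of the tent function -/

variable (g : Grid G)

theorem cxChi_supp (hg : g.Ok) (X : Finset g.I) (v : G.V) (h : ∀ b ∈ X, 1 < g.idist b (g.blk v)) :
    cxChi g.m (g.sites X) v = 0 := by
  refine cxChi_eq_zero g.m hg.pos _ v fun w hw => ?_
  by_contra hlt
  push Not at hlt
  have hb : g.blk w ∈ X := (reg_mem_sites g X w).1 hw
  have h1 : regD1 G w.1 v.1 < g.m := lt_of_le_of_lt (le_max_left _ _) hlt
  have h2 : regD1 G w.2 v.2 < g.m := lt_of_le_of_lt (le_max_right _ _) hlt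
  have h3 := chg_idist1_le_one g hg w.1 v.1 h1
  have h4 := chg_idist1_le_one g hg w.2 v.2 h2
  have h5 : g.idist (g.blk w) (g.blk v) ≤ 1 := max_le h3 h4
  exact absurd (h _ hb) (not_lt.2 h5)

theorem cx_not_Dm (X : Finset g.I) (v : G.V) (hv : v ∉ g.Dm X) : ∀ b ∈ X, 2 < g.idist b (g.blk v) := by
  classical
  intro b hb
  by_contra h
  push Not at h
  apply hv
  rw [reg_mem_Dm]
  simp only [Grid.collar, Finset.mem_filter, Finset.mem_univ, true_and]
  exact ⟨b, hb, h⟩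

theorem cxChi_off (hg : g.Ok) (X : Finset g.I) (v : G.V) (hv : v ∉ g.Dm X) :
    cxChi g.m (g.sites X) v = 0 ∧ ∀ e, cxChi g.m (g.sites X) (regNb G v e) = 0 := by
  have h := cx_not_Dm g X v hv
  refine ⟨cxChi_supp g hg X v fun b hb => by have := h b hb; omega, fun e => ?_⟩
  refine cxChi_supp g hg X _ fun b hb => ?_
  have h1 := reg_idist_triangle g b (g.blk (regNb G v e)) (g.blk v)
  have h2 := reg_idist_nb g hg v e
  rw [reg_idist_comm] at h2
  have := h b hb
  omega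

/-! ## the cutoff -/

theorem cx_abs_le_tnorm (X : Finset g.I) (f : G.V → ℝ) (v : G.V) (hv : v ∈ g.Dm X) : |f v| ≤ tnorm g X f := by
  have h := (tnorm_spec g X f v hv).1
  have := NNReal.coe_le_coe.2 h
  simpa using this

theorem cx_abs_dif_le_tnorm (hg : g.Ok) (X : Finset g.I) (f : G.V → ℝ) (v : G.V) (hv : v ∈ g.Dm X) (e : Fin 4) :
    |f (regNb G v e) - f v| ≤ (tnorm g X f : ℝ) / g.m := by
  have h := (tnorm_spec g X f v hv).2.1 (fun _ => e)
  rw [difs_one, reg_dif_lift] at h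
  have h2 : (0 : ℝ) < g.m := by exact_mod_cast hg.pos
  have h3 := NNReal.coe_le_coe.2 h
  push_cast at h3
  rw [Real.norm_eq_abs] at h3
  rw [le_div_iff₀ h2]
  linarith

/-- **the cutoff of a test direction** -/
theorem cx_cutoff (hg : g.Ok) (X : Finset g.I) (f : G.V → ℝ) : ∃ f' : G.V → ℝ,
    (∀ v ∈ g.sites X, f' v = f v) ∧
    ((g.m : ℝ) ^ 2)⁻¹ * (f' ⬝ᵥ f') + f' ⬝ᵥ (lap G).mulVec f' ≤ 900 * (tnorm g X f : ℝ) ^ 2 * X.card := by
  classical
  set χ : G.V → ℝ := fun v => (cxChi g.m (g.sites X) v : ℝ) with hχ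
  set t : ℝ := (tnorm g X f : ℝ) with ht
  have ht0 : 0 ≤ t := NNReal.coe_nonneg _
  have hm : (0 : ℝ) < g.m := by exact_mod_cast hg.pos
  have hχ0 : ∀ v, 0 ≤ χ v := fun v => NNReal.coe_nonneg _
  have hχ1 : ∀ v, χ v ≤ 1 := fun v => by exact_mod_cast cxChi_le_one g.m (g.sites X) v
  have hcard : ((g.Dm X).card : ℝ) ≤ 100 * (g.m : ℝ) ^ 2 * X.card := by exact_mod_cast reg_Dm_card g hg X
  refine ⟨fun v => χ v * f v, fun v hv => ?_, ?_⟩
  · simp only [hχ]
    rw [cxChi_eq_one g.m _ v hv]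
    simp
  -- the `ℓ²` part
  have hA : (fun v => χ v * f v) ⬝ᵥ (fun v => χ v * f v) ≤ (g.Dm X).card * t ^ 2 := by
    simp only [dotProduct]
    rw [← Finset.sum_subset (Finset.subset_univ (g.Dm X)) (fun v _ hv => by
      have := (cxChi_off g hg X v hv).1
      simp only [hχ, this]
      simp)]
    rw [← nsmul_eq_mul]
    refine Finset.sum_le_card_nsmul _ _ _ fun v hv => ?_
    have h1 := cx_abs_le_tnorm g X f v hv
    have h2 : |χ v * f v| ≤ t := by
      rw [abs_mul, abs_of_nonneg (hχ0 v)]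
      calc χ v * |f v| ≤ 1 * t := mul_le_mul (hχ1 v) h1 (abs_nonneg _) zero_le_one
        _ = t := one_mul _
    calc χ v * f v * (χ v * f v) = |χ v * f v| ^ 2 := by rw [sq_abs]; ring
      _ ≤ t ^ 2 := pow_le_pow_left₀ (abs_nonneg _) h2 2
  -- the Dirichlet part
  have hB : (fun v => χ v * f v) ⬝ᵥ (lap G).mulVec (fun v => χ v * f v) ≤ (1 / 2) * ((g.Dm X).card * (4 * (2 * t / g.m) ^ 2)) := by
    rw [cx_dirichlet]
    refine mul_le_mul_of_nonneg_left ?_ (by norm_num)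
    rw [← Finset.sum_subset (Finset.subset_univ (g.Dm X)) (fun v _ hv => by
      obtain ⟨h1, h2⟩ := cxChi_off g hg X v hv
      refine Finset.sum_eq_zero fun e _ => ?_
      simp only [hχ, h1, h2 e]
      simp)]
    rw [← nsmul_eq_mul]
    refine Finset.sum_le_card_nsmul _ _ _ fun v hv => ?_
    have h4 : ∀ e : Fin 4, (χ (regNb G v e) * f (regNb G v e) - χ v * f v) ^ 2 ≤ (2 * t / g.m) ^ 2 := by
      intro e
      have h1 := cx_abs_le_tnorm g X f v hv
      have h2 := cx_abs_dif_le_tnorm g hg X f v hv e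
      have h3 := cxChi_abs_step g.m hg.pos (g.sites X) v (regNb G v e) (cxD_nb v e)
      have e1 : χ (regNb G v e) * f (regNb G v e) - χ v * f v
          = χ (regNb G v e) * (f (regNb G v e) - f v) + (χ (regNb G v e) - χ v) * f v := by ring
      have h5 : |χ (regNb G v e) * f (regNb G v e) - χ v * f v| ≤ 2 * t / g.m := by
        rw [e1]
        refine (abs_add_le _ _).trans ?_
        rw [abs_mul, abs_mul, abs_of_nonneg (hχ0 _)]
        have h6 : χ (regNb G v e) * |f (regNb G v e) - f v| ≤ 1 * (t / g.m) :=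
          mul_le_mul (hχ1 _) h2 (abs_nonneg _) zero_le_one
        have h7 : |χ (regNb G v e) - χ v| * |f v| ≤ 1 / g.m * t := mul_le_mul h3 h1 (abs_nonneg _) (by positivity)
        calc _ ≤ 1 * (t / g.m) + 1 / g.m * t := add_le_add h6 h7
          _ = 2 * t / g.m := by ring
      rw [← sq_abs]
      exact pow_le_pow_left₀ (abs_nonneg _) h5 2
    calc ∑ e : Fin 4, (χ (regNb G v e) * f (regNb G v e) - χ v * f v) ^ 2 ≤ ∑ _e : Fin 4, (2 * t / g.m) ^ 2 :=
          Finset.sum_le_sum fun e _ => h4 e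
      _ = 4 * (2 * t / g.m) ^ 2 := by simp
  have hX : (0 : ℝ) ≤ X.card := Nat.cast_nonneg _
  have e2 : ((g.m : ℝ) ^ 2)⁻¹ * ((g.Dm X).card * t ^ 2) ≤ 100 * t ^ 2 * X.card := by
    calc ((g.m : ℝ) ^ 2)⁻¹ * ((g.Dm X).card * t ^ 2) ≤ ((g.m : ℝ) ^ 2)⁻¹ * ((100 * (g.m : ℝ) ^ 2 * X.card) * t ^ 2) := by
          gcongr
      _ = 100 * t ^ 2 * X.card := by field_simp
  have e3 : (1 / 2 : ℝ) * ((g.Dm X).card * (4 * (2 * t / g.m) ^ 2)) ≤ 800 * t ^ 2 * X.card := by
    calc (1 / 2 : ℝ) * ((g.Dm X).card * (4 * (2 * t / g.m) ^ 2))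
        ≤ (1 / 2 : ℝ) * ((100 * (g.m : ℝ) ^ 2 * X.card) * (4 * (2 * t / g.m) ^ 2)) := by gcongr
      _ = 800 * t ^ 2 * X.card := by field_simp; ring
  have e4 : ((g.m : ℝ) ^ 2)⁻¹ * ((fun v => χ v * f v) ⬝ᵥ (fun v => χ v * f v)) ≤ ((g.m : ℝ) ^ 2)⁻¹ * ((g.Dm X).card * t ^ 2) :=
    mul_le_mul_of_nonneg_left hA (by positivity)
  linarith

end

end Claimed.Agent.R285.Entry
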