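import Claimed.Agent.R285.Entry.VregB
import Claimed.Agent.R285.Entry.VregC
import Claimed.Agent.R285.Reg.Gauss

/-!
# ROW 285, post BP-ENT-AVG ([F] L4.7 part 3, `cutoff-entry.tex` l.2011-2237), ABSTRACT HALF            (architect helper176)

Model-independent linear algebra + Gaussian integration behind (ent:dominating-open-energy), (ent:entry-completion), (ent:entry-trace), (ent:real-translation).
`M` = matrix of the open energy `E_D^0`, `Lm` = the map `𝖲` from the standard Gaussian coordinates to the observations, `Q` = Hessian of the localized cost `2 q_π`.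

* `avg_trace_le_rank`: "the contraction bounds every eigenvalue, the rank counts them": `Q ≤ h M`, `‖M^{1/2} L‖ ≤ 1`  ⟹  `tr (Lᵀ Q L) ≤ h rank Q`.
  This ONE lemma gives all five terms of (ent:entry-trace): broad energies (`h = 1`, rank `≤` number of cells) and face squares (`h = C_P` by cell Poincaré, rank one):
  the separate variance computation of the paper (`Var ≤ a ‖Φ_f‖² + 2`) is not needed.
* `avg_translate`: (ent:entry-completion) + (ent:real-translation) in one inequality.  The Hölder factor `W` of the paper is dropped (`W ≥ 1` is free in the real estimate), so the margin is `1 - h₁`.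
* `avg_bridge`: the law of `B ζ + e` (`ζ ~ N(0, C)`, `e` white) is the image of the standard Gaussian under `[B R, 1]`, `R Rᵀ = C`.
* `avg_cameron`: the three together, in the Cameron coordinates of `RG.Vobs`.
-/

set_option autoImplicit false

namespace Claimed.Agent.R285.Entry

open scoped BigOperators ENNReal NNReal
open MeasureTheory ProbabilityTheory

noncomputable section

variable {O Ξ V K : Type} [Fintype O] [Fintype Ξ] [Fintype V]

/-- the form of `Lᵀ Q L` -/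
theorem avg_qf_conj (Q : Matrix O O ℝ) (Lm : Matrix O Ξ ℝ) (ξ : Ξ → ℝ) :
    qf (Lm.transpose * Q * Lm) ξ = qf Q (Lm.mulVec ξ) := by
  rw [qf, qf, ← Matrix.mulVec_mulVec, ← Matrix.mulVec_mulVec, dotProduct_comm ξ, quad_transpose_dot,
    dotProduct_comm]

theorem avg_psd_conj (Q : Matrix O O ℝ) (hQ : Q.PosSemidef) (Lm : Matrix O Ξ ℝ) :
    (Lm.transpose * Q * Lm).PosSemidef := by
  have h := hQ.conjTranspose_mul_mul_same Lm
  rwa [Matrix.conjTranspose_eq_transpose_of_trivial] at h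

/-- a positive semidefinite matrix `S ≤ h` has trace at most `h rank S` -/
theorem avg_trace_le_rank_self (S : Matrix Ξ Ξ ℝ) (hS : S.PosSemidef) (h : ℝ)
    (hb : ∀ ξ : Ξ → ℝ, qf S ξ ≤ h * (ξ ⬝ᵥ ξ)) : S.trace ≤ h * (S.rank : ℝ) := by
  classical
  have hH := hS.isHermitian
  have hev : ∀ i, hH.eigenvalues i ≤ h := by
    intro i
    have h1 := hH.eigenvalues_eq i
    have h2 := hb (⇑(hH.eigenvectorBasis i))
    have h3 : (⇑(hH.eigenvectorBasis i) : Ξ → ℝ) ⬝ᵥ ⇑(hH.eigenvectorBasis i) = 1 := by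
      have h4 := hH.eigenvectorBasis.orthonormal.1 i
      have h5 : ‖hH.eigenvectorBasis i‖ ^ 2 = 1 := by rw [h4]; norm_num
      rw [EuclideanSpace.real_norm_sq_eq] at h5
      rw [dotProduct, ← h5]
      exact Finset.sum_congr rfl fun j _ => by ring
    rw [h3, mul_one] at h2
    rw [h1]
    simpa [qf] using h2
  have htr : S.trace = ∑ i, hH.eigenvalues i := by
    have := hH.trace_eq_sum_eigenvalues
    simpa using this
  have hrk : S.rank = Fintype.card {i // hH.eigenvalues i ≠ 0} := hH.rank_eq_card_non_zero_eigs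
  rw [htr, hrk, Fintype.card_subtype, ← Finset.sum_filter_ne_zero]
  have := Finset.sum_le_card_nsmul (Finset.univ.filter fun i => hH.eigenvalues i ≠ 0)
    (fun i => hH.eigenvalues i) h (fun i _ => hev i)
  rw [nsmul_eq_mul] at this
  linarith

/-- **the trace lemma** behind (ent:entry-trace) -/
theorem avg_trace_le_rank (M Q : Matrix O O ℝ) (Lm : Matrix O Ξ ℝ) (hQ : Q.PosSemidef) (hc : Contr M Lm) (h : ℝ) (h0 : 0 ≤ h)
    (hQM : ∀ y, qf Q y ≤ h * qf M y) : (Lm.transpose * Q * Lm).trace ≤ h * (Q.rank : ℝ) := by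
  have h1 := avg_trace_le_rank_self (Lm.transpose * Q * Lm) (avg_psd_conj Q hQ Lm) h (fun ξ => by
    rw [avg_qf_conj]
    exact (hQM _).trans (mul_le_mul_of_nonneg_left (hc ξ) h0))
  have h2 : (Lm.transpose * Q * Lm).rank ≤ Q.rank :=
    (Matrix.rank_mul_le_left _ _).trans (Matrix.rank_mul_le_right _ _)
  exact h1.trans (mul_le_mul_of_nonneg_left (by exact_mod_cast h2) h0)

/-- a matrix whose rows outside `s` vanish has rank at most `|s|` -/
theorem avg_rank_le_card (Q : Matrix O O ℝ) (s : Finset O) (hs : ∀ i j, i ∉ s → Q i j = 0) : Q.rank ≤ s.card := by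
  classical
  have e : Q = Matrix.diagonal (fun i => if i ∈ s then (1 : ℝ) else 0) * Q := by
    ext i j
    rw [Matrix.diagonal_mul]
    by_cases hi : i ∈ s
    · simp [hi]
    · simp [hi, hs i j hi]
  rw [e]
  refine (Matrix.rank_mul_le_left _ _).trans ?_
  rw [Matrix.rank_diagonal, Fintype.card_subtype]
  refine le_of_eq (congrArg Finset.card ?_)
  ext i
  simp

/-- (ent:entry-completion) + (ent:real-translation): the regulator stays at `f`, the real translate `g` is paid by the gap `h₁ < h_*` -/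
theorem avg_translate {M : Matrix O O ℝ} {Lm : Matrix O Ξ ℝ} {hs p1 : ℝ} (h : VHyp M Lm hs p1) (h1 : ℝ) (h10 : 0 < h1)
    (h1s : h1 < hs) (Q : Matrix O O ℝ) (hQ : Q.PosSemidef) (hQM : ∀ y, qf Q y ≤ h1 * qf M y) (f g : O → ℝ) :
    ∫⁻ ξ, ENNReal.ofReal (Real.exp (qf Q (f + g + Lm.mulVec ξ) / 2)) ∂(stdG Ξ)
      ≤ ENNReal.ofReal (Real.exp ((Lm.transpose * Q * Lm).trace / (2 * (1 - h1)) + Vreg M Lm hs p1 f
          + h1 * hs / (2 * (hs - h1)) * qf M g)) := by
  have h' : VHyp M Lm h1 p1 := ⟨h.psd, h.contr, h10, h.p1_gt, by nlinarith [h.margin, h.p1_gt]⟩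
  refine (vreg_average h' h1 le_rfl Q hQ hQM (f + g)).trans ?_
  refine ENNReal.ofReal_le_ofReal (Real.exp_le_exp.2 ?_)
  have := vreg_translate h h1 h10 h1s f g
  linarith

/-- every `R ξ` is `R Rᵀ u` with `⟨u, R Rᵀ u⟩ ≤ |ξ|²` -/
theorem avg_exists_cameron (R : Matrix V Ξ ℝ) (ξ : Ξ → ℝ) :
    ∃ u : V → ℝ, (R * R.transpose).mulVec u = R.mulVec ξ ∧ u ⬝ᵥ (R * R.transpose).mulVec u ≤ ξ ⬝ᵥ ξ := by
  classical
  have hle : LinearMap.range (R * R.transpose).mulVecLin ≤ LinearMap.range R.mulVecLin := by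
    rw [Matrix.mulVecLin_mul]
    exact LinearMap.range_comp_le_range _ _
  have hrk : Module.finrank ℝ (LinearMap.range (R * R.transpose).mulVecLin)
      = Module.finrank ℝ (LinearMap.range R.mulVecLin) := Matrix.rank_self_mul_transpose R
  have heq := Submodule.eq_of_le_of_finrank_eq hle hrk
  have hmem : R.mulVec ξ ∈ LinearMap.range (R * R.transpose).mulVecLin := by
    rw [heq]
    exact ⟨ξ, rfl⟩
  obtain ⟨u, hu⟩ := hmem
  rw [Matrix.mulVecLin_apply] at hu
  refine ⟨u, hu, ?_⟩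
  have h2 : R.transpose.mulVec u ⬝ᵥ R.transpose.mulVec u = u ⬝ᵥ R.mulVec ξ := by
    rw [quad_transpose_dot, Matrix.mulVec_mulVec, hu]
  have h3 : R.transpose.mulVec u ⬝ᵥ ξ = u ⬝ᵥ R.mulVec ξ := quad_transpose_dot _ _ _
  have h4 : 0 ≤ (ξ - R.transpose.mulVec u) ⬝ᵥ (ξ - R.transpose.mulVec u) := by
    rw [dotProduct]
    exact Finset.sum_nonneg fun i _ => mul_self_nonneg _
  rw [sub_dotProduct, dotProduct_sub, dotProduct_sub, h2, h3,
    dotProduct_comm ξ (R.transpose.mulVec u), h3] at h4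
  rw [hu]
  linarith

theorem avg_fromCols_mulVec [DecidableEq O] (A : Matrix O V ℝ) (ξ : V ⊕ O → ℝ) :
    (Matrix.fromCols A (1 : Matrix O O ℝ)).mulVec ξ = A.mulVec (ξ ∘ Sum.inl) + ξ ∘ Sum.inr := by
  rw [Matrix.fromCols_mulVec, Matrix.one_mulVec]

theorem avg_sum_dot (ξ : V ⊕ O → ℝ) :
    ξ ⬝ᵥ ξ = (ξ ∘ Sum.inl) ⬝ᵥ (ξ ∘ Sum.inl) + (ξ ∘ Sum.inr) ⬝ᵥ (ξ ∘ Sum.inr) := by
  simp [dotProduct, Fintype.sum_sum_type]

/-- (9.15) in Cameron coordinates gives (9.15) in standard coordinates -/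
theorem avg_contr [DecidableEq O] (M : Matrix O O ℝ) (B : Matrix O V ℝ) (C R : Matrix V V ℝ) (hR : R * R.transpose = C)
    (hc : ∀ (x : V → ℝ) (e : O → ℝ), qf M (B.mulVec (C.mulVec x) + e) ≤ x ⬝ᵥ C.mulVec x + e ⬝ᵥ e) :
    Contr M (Matrix.fromCols (B * R) (1 : Matrix O O ℝ)) := by
  intro ξ
  obtain ⟨u, hu1, hu2⟩ := avg_exists_cameron R (ξ ∘ Sum.inl)
  rw [hR] at hu1 hu2
  have h := hc u (ξ ∘ Sum.inr)
  rw [avg_fromCols_mulVec, ← Matrix.mulVec_mulVec, ← hu1, avg_sum_dot]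
  linarith

/-- the law of `B ζ + e` -/
theorem avg_bridge [DecidableEq V] [DecidableEq O] (C R : Matrix V V ℝ) (hR : R * R.transpose = C) (B : Matrix O V ℝ)
    (F : (O → ℝ) → ℝ≥0∞) (hF : Measurable F) :
    ∫⁻ ζ, ∫⁻ e, F (B.mulVec ζ + e) ∂(stdG O) ∂(Reg.regGauss C)
      = ∫⁻ ξ, F ((Matrix.fromCols (B * R) (1 : Matrix O O ℝ)).mulVec ξ) ∂(stdG (V ⊕ O)) := by
  have hmap : Reg.regGauss C = (stdG V).map (fun ζ => R.mulVec ζ) := by
    have h := Reg.reg_gauss_map (Γ := (1 : Matrix V V ℝ)) Matrix.PosSemidef.one R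
    rw [Matrix.mul_one, hR, Reg.regg_gauss_one] at h
    exact h.symm
  have hmR : Measurable (fun ζ : V → ℝ => R.mulVec ζ) := by
    have hc : Continuous (fun ζ : V → ℝ => R.mulVec ζ) := by fun_prop
    exact hc.measurable
  have hm2 : Measurable (fun p : (V → ℝ) × (O → ℝ) => F (B.mulVec p.1 + p.2)) := by
    have hc : Continuous (fun p : (V → ℝ) × (O → ℝ) => B.mulVec p.1 + p.2) := by fun_prop
    exact hF.comp hc.measurable
  have hm3 : Measurable (fun p : (V → ℝ) × (O → ℝ) => F (B.mulVec (R.mulVec p.1) + p.2)) := by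
    have hc : Continuous (fun p : (V → ℝ) × (O → ℝ) => B.mulVec (R.mulVec p.1) + p.2) := by fun_prop
    exact hF.comp hc.measurable
  rw [hmap, lintegral_map hm2.lintegral_prod_right' hmR, ← lintegral_prod _ hm3.aemeasurable]
  have hmp := measurePreserving_sumPiEquivProdPi (X := fun _ : V ⊕ O => ℝ) (fun _ => gaussianReal 0 1)
  have h := hmp.lintegral_comp hm3
  unfold stdG
  rw [← h]
  refine lintegral_congr fun ξ => ?_
  rw [avg_fromCols_mulVec, ← Matrix.mulVec_mulVec]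
  rfl

theorem avg_qf_sum {K : Type} (s : Finset K) (w : K → ℝ) (Qk : K → Matrix O O ℝ) (y : O → ℝ) :
    qf (∑ k ∈ s, w k • Qk k) y = ∑ k ∈ s, w k * qf (Qk k) y := by
  classical
  induction s using Finset.induction_on with
  | empty => simp [qf]
  | insert a s ha ih =>
    rw [Finset.sum_insert ha, Finset.sum_insert ha, ← ih]
    simp only [qf, Matrix.add_mulVec, Matrix.smul_mulVec, dotProduct_add, dotProduct_smul, smul_eq_mul]

theorem avg_trace_sum {K : Type} (s : Finset K) (w : K → ℝ) (Qk : K → Matrix O O ℝ) (Lm : Matrix O Ξ ℝ) :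
    (Lm.transpose * (∑ k ∈ s, w k • Qk k) * Lm).trace = ∑ k ∈ s, w k * (Lm.transpose * Qk k * Lm).trace := by
  rw [Matrix.mul_sum, Matrix.sum_mul, Matrix.trace_sum]
  refine Finset.sum_congr rfl fun k _ => ?_
  rw [Matrix.mul_smul, Matrix.smul_mul, Matrix.trace_smul, smul_eq_mul]

/-- **the abstract averaging theorem**, in the Cameron coordinates of `RG.Vobs`.
`M` open energy; the cost is `½ ∑_k w_k Q_k`, each piece `Q_k ≤ h_k M` of rank `≤ r_k`; the SUM is dominated by `h₁ M`, `h₁ < h_*`. -/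
theorem avg_cameron [DecidableEq V] [DecidableEq O] (M : Matrix O O ℝ) (hM : M.PosSemidef) (B : Matrix O V ℝ)
    (C : Matrix V V ℝ) (hC : C.PosSemidef)
    (hc : ∀ (x : V → ℝ) (e : O → ℝ), qf M (B.mulVec (C.mulVec x) + e) ≤ x ⬝ᵥ C.mulVec x + e ⬝ᵥ e)
    (hs p1 h1 : ℝ) (hp1 : 1 < p1) (hmar : p1 * hs < 1) (h10 : 0 < h1) (h1s : h1 < hs)
    {K : Type} (s : Finset K) (w : K → ℝ) (Qk : K → Matrix O O ℝ) (hk : K → ℝ) (rk : K → ℕ)
    (hw : ∀ k ∈ s, 0 ≤ w k) (hQk : ∀ k ∈ s, (Qk k).PosSemidef) (hk0 : ∀ k ∈ s, 0 ≤ hk k)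
    (hQM : ∀ k ∈ s, ∀ y, qf (Qk k) y ≤ hk k * qf M y) (hrk : ∀ k ∈ s, (Qk k).rank ≤ rk k)
    (hdom : ∀ y, ∑ k ∈ s, w k * qf (Qk k) y ≤ h1 * qf M y) (f g : O → ℝ) :
    ∫⁻ ζ, ∫⁻ e, ENNReal.ofReal (Real.exp ((∑ k ∈ s, w k * qf (Qk k) (f + g + (B.mulVec ζ + e))) / 2))
        ∂(stdG O) ∂(Reg.regGauss C)
      ≤ ENNReal.ofReal (Real.exp ((∑ k ∈ s, w k * (hk k * rk k)) / (2 * (1 - h1)) + VregC M B C hs p1 f
          + h1 * hs / (2 * (hs - h1)) * qf M g)) := by
  obtain ⟨R, hR⟩ := exists_factor C hC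
  have hcon := avg_contr M B C R hR hc
  have hV : VHyp M (Matrix.fromCols (B * R) (1 : Matrix O O ℝ)) hs p1 :=
    ⟨hM, hcon, h10.trans h1s, hp1, hmar⟩
  have hQ : (∑ k ∈ s, w k • Qk k).PosSemidef :=
    Matrix.posSemidef_sum s fun k hk' => (hQk k hk').smul (hw k hk')
  have hF : Measurable fun y : O → ℝ =>
      ENNReal.ofReal (Real.exp ((∑ k ∈ s, w k * qf (Qk k) (f + g + y)) / 2)) := by
    have hcn : Continuous fun y : O → ℝ => (∑ k ∈ s, w k * qf (Qk k) (f + g + y)) / 2 := by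
      unfold qf
      fun_prop
    exact ENNReal.measurable_ofReal.comp (Real.measurable_exp.comp hcn.measurable)
  rw [avg_bridge C R hR B _ hF]
  have h1lt : h1 < 1 := by nlinarith
  have hmain := avg_translate hV h1 h10 h1s _ hQ (fun y => by rw [avg_qf_sum]; exact hdom y) f g
  simp only [avg_qf_sum] at hmain
  refine hmain.trans (ENNReal.ofReal_le_ofReal (Real.exp_le_exp.2 ?_))
  rw [vregC_eq M B C R hR hs p1 (by linarith) f, avg_trace_sum]
  have htr : ∑ k ∈ s, w k * ((Matrix.fromCols (B * R) (1 : Matrix O O ℝ)).transpose * Qk k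
      * Matrix.fromCols (B * R) (1 : Matrix O O ℝ)).trace ≤ ∑ k ∈ s, w k * (hk k * rk k) := by
    refine Finset.sum_le_sum fun k hk' => mul_le_mul_of_nonneg_left ?_ (hw k hk')
    refine (avg_trace_le_rank M (Qk k) _ (hQk k hk') hcon (hk k) (hk0 k hk') (hQM k hk')).trans ?_
    exact mul_le_mul_of_nonneg_left (by exact_mod_cast hrk k hk') (hk0 k hk')
  have hpos : 0 < 2 * (1 - h1) := by linarith
  have := div_le_div_of_nonneg_right htr hpos.le
  linarith

end

end Claimed.Agent.R285.Entry
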