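import Claimed.Agent.R285.Hol.Cv
import Claimed.Agent.R285.Hol.Sz

/-!
# ROW 285, post BP-ENT-CPLX, file C: COMPLEX DIRECTIONS BY A COMPLEX CAMERON-MARTIN SHIFT            (owner helper140)
NOTHING IS SORRIED HERE.

## REPAIR / SIMPLIFICATION of [F] `cutoff-entry.tex` l.2238-2406 (= [B] s9.5, [C] (5.26), [E] l.366-444)
The papers bound `F_π (ψ + (x + i y) f)` through the theta comparison (ent:complex-comparison), the Gaussian limit of the centred imaginary ratio on pinned `P`-boxes, the imaginary wall estimate [B] (9.31),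
(ent:imaginary-shape), the rough strip bound (ent:rough-strip) and three lines.   NONE OF THIS IS NEEDED for the norm D4'.   `F_π = conv C_{<m} F`, `F` = the noise average of the pattern factor, ENTIRE in the field, and
for a real direction `u = C_{<m} η`
      `conv C F (φ + i u) = e^{⟨η, C η⟩/2} ∫ e^{i ⟨η, ζ⟩} F (φ + ζ) dμ_C (ζ)`        (complex Cameron-Martin),  hence
      `|conv C F (φ + i u)| ≤ e^{⟨η, C η⟩/2} ∫ |F (φ + ζ)| dμ_C (ζ)`                 (`cx_conv_im_le`):  only REAL fields on the right.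
`F` only sees the sites of `X`; a direction with `‖f‖_{m, D_m(X)} < h₀` is cut off inside `D_m (X)` (`CplxK.cx_cutoff`) and `C_{<m}⁻¹ ≤ K (m⁻² + A)` (`CplxK.cx_low_solve`), so that `⟨η, C η⟩ ≤ K' h₀² |X|`:
the same cost `e^{C |X|}` as in the papers.   The real estimate (ent:real-pattern) is proved for the ABSOLUTE VALUE of the integrand, so it bounds the right side.
The only thing needed at complex fields is QUALITATIVE: `CxDom` (the sup of `|F|` over complex balls of any radius is integrable), which is needed anyway for holomorphy.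

* `cxN r F x` = sup of `|F|` over the complex ball of radius `r` around the real field `x`;  `CxDom Γ F`: `∫ cxN r F (φ + ζ) dμ_Γ (ζ) < ∞` for all `r`, `φ`.
* `cx_conv_differentiable`: `conv Γ F` is entire.      * `cx_cm_shift`: the complex Cameron-Martin formula for all `a ∈ ℂ`.      * `cx_conv_im_le`.
-/

set_option autoImplicit false

namespace Claimed.Agent.R285.Entry

open scoped BigOperators ENNReal NNReal
open MeasureTheory ProbabilityTheory Filter Topology
open Claimed.Agent.R285.RG Claimed.Agent.R285.Hol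

noncomputable section

variable {G : Geom}

/-- the sup of `|F|` over the complex ball of radius `r` around the real field `x` -/
def cxN (r : ℝ) (F : Fn G) (x : G.V → ℝ) : ℝ≥0∞ := ⨆ w : {w : G.V → ℂ // ‖w‖ ≤ r}, (‖F (toC x + w.1)‖₊ : ℝ≥0∞)

/-- qualitative domination at complex fields -/
def CxDom (Γ : Matrix G.V G.V ℝ) (F : Fn G) : Prop :=
  ∀ (r : ℝ) (φ : G.V → ℝ), ∫⁻ ζ, cxN r F (φ + ζ) ∂(gauss G Γ) ≠ ⊤

theorem le_cxN (r : ℝ) (F : Fn G) (x : G.V → ℝ) (w : G.V → ℂ) (hw : ‖w‖ ≤ r) : (‖F (toC x + w)‖₊ : ℝ≥0∞) ≤ cxN r F x :=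
  le_iSup (fun w : {w : G.V → ℂ // ‖w‖ ≤ r} => (‖F (toC x + w.1)‖₊ : ℝ≥0∞)) ⟨w, hw⟩

theorem cxN_measurable (r : ℝ) (F : Fn G) (hF : Continuous F) : Measurable (cxN r F) := by
  refine LowerSemicontinuous.measurable ?_
  unfold cxN
  refine lowerSemicontinuous_iSup fun w => Continuous.lowerSemicontinuous ?_
  exact ENNReal.continuous_coe.comp (continuous_nnnorm.comp (hF.comp (toC_continuous.add continuous_const)))

theorem cxN_lt_top (r : ℝ) (F : Fn G) (hF : Continuous F) (x : G.V → ℝ) : cxN r F x < ⊤ := by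
  have hc : IsCompact (Metric.closedBall (0 : G.V → ℂ) r) := isCompact_closedBall 0 r
  obtain ⟨C, hC⟩ := hc.exists_bound_of_continuousOn
    (f := fun w => F (toC x + w)) (hF.comp (continuous_const.add continuous_id)).continuousOn
  refine lt_of_le_of_lt (iSup_le fun w => ?_) (ENNReal.ofReal_lt_top (r := C))
  exact coe_nnnorm_le_ofReal (hC w.1 (by simpa using w.2))

theorem norm_le_cxN_toReal (r : ℝ) (F : Fn G) (hF : Continuous F) (x : G.V → ℝ) (w : G.V → ℂ) (hw : ‖w‖ ≤ r) :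
    ‖F (toC x + w)‖ ≤ (cxN r F x).toReal := by
  have h1 := le_cxN r F x w hw
  have h2 := ENNReal.toReal_mono (cxN_lt_top r F hF x).ne h1
  simpa using h2

/-- exponential moments of the majorant, from the real Cameron-Martin shift -/
theorem exp_cxN_integrable (Γ : Matrix G.V G.V ℝ) (hΓ : Γ.PosSemidef) (F : Fn G) (hF : Continuous F) (hdom : CxDom Γ F)
    (r : ℝ) (η : G.V → ℝ) (c : ℝ) :
    Integrable (fun ζ => Real.exp (c * (η ⬝ᵥ ζ)) * (cxN r F ζ).toReal) (gauss G Γ) := by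
  have hm : Measurable (cxN r F) := cxN_measurable r F hF
  have h1 := gauss_shift_lintegral Γ hΓ (c • η) _ hm
  have h2 : ∫⁻ ζ, cxN r F (ζ + Γ.mulVec (c • η)) ∂(gauss G Γ) ≠ ⊤ := by
    have := hdom r (Γ.mulVec (c • η))
    simp_rw [add_comm (Γ.mulVec (c • η))] at this
    exact this
  rw [h1] at h2
  have h4 := integrable_toReal_of_lintegral_ne_top ((cm_density_measurable Γ (c • η)).mul hm).aemeasurable h2
  have h5 := h4.const_mul (Real.exp (((c • η) ⬝ᵥ Γ.mulVec (c • η)) / 2))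
  refine h5.congr (Eventually.of_forall fun ζ => ?_)
  simp only [Pi.mul_apply, ENNReal.toReal_mul, ENNReal.toReal_ofReal (Real.exp_pos _).le]
  rw [← mul_assoc, ← Real.exp_add]
  congr 2
  have h6 : (c • η) ⬝ᵥ ζ = c * (η ⬝ᵥ ζ) := by rw [smul_dotProduct, smul_eq_mul]
  rw [h6]
  ring

theorem cxN_integrable (Γ : Matrix G.V G.V ℝ) (hΓ : Γ.PosSemidef) (F : Fn G) (hF : Continuous F) (hdom : CxDom Γ F) (r : ℝ) :
    Integrable (fun ζ => (cxN r F ζ).toReal) (gauss G Γ) := by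
  have := exp_cxN_integrable Γ hΓ F hF hdom r 0 0
  simpa using this

/-- `conv Γ F` is entire -/
theorem cx_conv_differentiable (Γ : Matrix G.V G.V ℝ) (hΓ : Γ.PosSemidef) (F : Fn G) (hF : Differentiable ℂ F)
    (hdom : CxDom Γ F) : Differentiable ℂ (conv Γ F) := by
  rw [← differentiableOn_univ]
  unfold conv
  refine hol_integral (gauss G Γ) _ isOpen_univ (fun z ζ => F (z + toC ζ)) (fun ζ => ?_) (fun z _ => ?_) (fun z _ => ?_)
  · exact (hF.comp (by fun_prop)).differentiableOn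
  · exact (hF.continuous.comp (continuous_const.add toC_continuous)).aestronglyMeasurable
  · refine ⟨1, one_pos, fun ζ => (cxN (‖z‖ + 1) F ζ).toReal, cxN_integrable Γ hΓ F hF.continuous hdom _, fun z' hz' ζ => ?_⟩
    rw [add_comm z']
    refine norm_le_cxN_toReal _ F hF.continuous ζ z' ?_
    rw [Metric.mem_ball, dist_eq_norm] at hz'
    calc ‖z'‖ = ‖z + (z' - z)‖ := by congr 1; abel
      _ ≤ ‖z‖ + ‖z' - z‖ := norm_add_le _ _
      _ ≤ ‖z‖ + 1 := by linarith

theorem cx_cmFun_differentiable (Γ : Matrix G.V G.V ℝ) (hΓ : Γ.PosSemidef) (F : Fn G) (hF : Differentiable ℂ F)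
    (hdom : CxDom Γ F) (η : G.V → ℝ) (z : G.V → ℂ) :
    DifferentiableOn ℂ (fun a => ∫ ζ, cmFun Γ F η z a ζ ∂(gauss G Γ)) Set.univ := by
  set u := Γ.mulVec η with hu
  set q := η ⬝ᵥ u with hq
  refine hol_integral (gauss G Γ) _ isOpen_univ (fun a ζ => cmFun Γ F η z a ζ) (fun ζ => ?_)
    (fun a _ => ?_) (fun a₀ _ => ?_)
  · unfold cmFun
    refine DifferentiableOn.mul (by fun_prop) ?_
    exact (hF.comp (by fun_prop)).differentiableOn
  · unfold cmFun
    refine Continuous.aestronglyMeasurable (Continuous.mul ?_ ?_)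
    · have := dot_continuous (G := G) η
      fun_prop
    · exact hF.continuous.comp ((continuous_const.add toC_continuous).add continuous_const)
  · set r : ℝ := ‖z‖ + (‖a₀‖ + 1) * ‖toC u‖ with hr
    set C := Real.exp ((‖a₀‖ + 1) ^ 2 * |q| / 2) with hC
    refine ⟨1, one_pos, fun ζ => C * (Real.exp (-(a₀.re - 1) * (η ⬝ᵥ ζ)) * (cxN r F ζ).toReal
      + Real.exp (-(a₀.re + 1) * (η ⬝ᵥ ζ)) * (cxN r F ζ).toReal), ?_, fun a ha ζ => ?_⟩
    · exact ((exp_cxN_integrable Γ hΓ F hF.continuous hdom r η _).add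
        (exp_cxN_integrable Γ hΓ F hF.continuous hdom r η _)).const_mul _
    · rw [Metric.mem_ball, dist_eq_norm] at ha
      have hna : ‖a‖ ≤ ‖a₀‖ + 1 := by
        calc ‖a‖ = ‖a₀ + (a - a₀)‖ := by congr 1; ring
          _ ≤ ‖a₀‖ + ‖a - a₀‖ := norm_add_le _ _
          _ ≤ ‖a₀‖ + 1 := by linarith
      have hFb : ‖F (z + toC ζ + a • toC u)‖ ≤ (cxN r F ζ).toReal := by
        have h1 : z + toC ζ + a • toC u = toC ζ + (z + a • toC u) := by abel
        rw [h1]
        refine norm_le_cxN_toReal r F hF.continuous ζ _ ?_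
        calc ‖z + a • toC u‖ ≤ ‖z‖ + ‖a • toC u‖ := norm_add_le _ _
          _ = ‖z‖ + ‖a‖ * ‖toC u‖ := by rw [norm_smul]
          _ ≤ r := by rw [hr]; gcongr
      unfold cmFun
      rw [← hu, ← hq, norm_mul, Complex.norm_exp]
      have hP : 0 ≤ (cxN r F ζ).toReal := ENNReal.toReal_nonneg
      have hexp : Real.exp ((-(a * ((η ⬝ᵥ ζ : ℝ) : ℂ)) - a ^ 2 * (q : ℂ) / 2).re)
          ≤ C * (Real.exp (-(a₀.re - 1) * (η ⬝ᵥ ζ)) + Real.exp (-(a₀.re + 1) * (η ⬝ᵥ ζ))) := by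
        have h1 : (-(a * ((η ⬝ᵥ ζ : ℝ) : ℂ)) - a ^ 2 * (q : ℂ) / 2).re = -(a.re * (η ⬝ᵥ ζ)) + -((a ^ 2).re * q / 2) := by
          simp [Complex.mul_re]
          ring
        rw [h1, Real.exp_add, mul_comm]
        have h2 : -((a ^ 2).re * q / 2) ≤ (‖a₀‖ + 1) ^ 2 * |q| / 2 := by
          have h3 : |(a ^ 2).re| ≤ (‖a₀‖ + 1) ^ 2 := by
            calc |(a ^ 2).re| ≤ ‖a ^ 2‖ := Complex.abs_re_le_norm _
              _ = ‖a‖ ^ 2 := norm_pow _ _
              _ ≤ (‖a₀‖ + 1) ^ 2 := by gcongr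
          have h4 : -((a ^ 2).re * q) ≤ |(a ^ 2).re| * |q| := by
            rw [← abs_mul]; exact neg_le_abs _
          have h5 : |(a ^ 2).re| * |q| ≤ (‖a₀‖ + 1) ^ 2 * |q| := by gcongr
          linarith
        have h6 : |a.re - a₀.re| ≤ 1 := by
          rw [← Complex.sub_re]
          exact (Complex.abs_re_le_norm _).trans ha.le
        exact mul_le_mul (Real.exp_le_exp.2 h2) (exp_mul_le_add _ _ _ _ h6) (Real.exp_pos _).le (Real.exp_pos _).le
      calc Real.exp ((-(a * ((η ⬝ᵥ ζ : ℝ) : ℂ)) - a ^ 2 * (q : ℂ) / 2).re) * ‖F (z + toC ζ + a • toC u)‖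
          ≤ (C * (Real.exp (-(a₀.re - 1) * (η ⬝ᵥ ζ)) + Real.exp (-(a₀.re + 1) * (η ⬝ᵥ ζ))))
              * (cxN r F ζ).toReal :=
            mul_le_mul hexp hFb (norm_nonneg _) (by positivity)
        _ = _ := by ring

/-- **complex Cameron-Martin** for entire functions with `CxDom`, every complex multiple of the direction `Γ η`. -/
theorem cx_cm_shift (Γ : Matrix G.V G.V ℝ) (hΓ : Γ.PosSemidef) (F : Fn G) (hF : Differentiable ℂ F) (hdom : CxDom Γ F)
    (η : G.V → ℝ) (z : G.V → ℂ) (a : ℂ) : ∫ ζ, cmFun Γ F η z a ζ ∂(gauss G Γ) = conv Γ F z :=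
  eqOn_of_real_eq isOpen_univ isPreconnected_univ (cx_cmFun_differentiable Γ hΓ F hF hdom η z)
    (differentiableOn_const (conv Γ F z)) (Set.mem_univ _) (fun a _ => cmFun_real Γ hΓ F η z a) (Set.mem_univ a)

/-- **the imaginary direction costs `e^{⟨η, Γ η⟩/2}`; only real fields on the right.** -/
theorem cx_conv_im_le (Γ : Matrix G.V G.V ℝ) (hΓ : Γ.PosSemidef) (F : Fn G) (hF : Differentiable ℂ F) (hdom : CxDom Γ F)
    (η φ : G.V → ℝ) :
    ‖conv Γ F (toC φ + Complex.I • toC (Γ.mulVec η))‖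
      ≤ Real.exp ((η ⬝ᵥ Γ.mulVec η) / 2) * ∫ ζ, ‖F (toC (φ + ζ))‖ ∂(gauss G Γ) := by
  rw [← cx_cm_shift Γ hΓ F hF hdom η _ (-Complex.I), ← integral_const_mul]
  refine (norm_integral_le_integral_norm _).trans (le_of_eq ?_)
  refine integral_congr_ae (Eventually.of_forall fun ζ => ?_)
  simp only [cmFun]
  rw [norm_mul, Complex.norm_exp]
  congr 2
  · have hI : (-Complex.I) ^ 2 = -1 := by rw [neg_sq, Complex.I_sq]
    rw [hI]
    simp [Complex.mul_re]
    ring
  · congr 1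
    rw [toC_add]
    ext v
    simp only [Pi.add_apply, Pi.smul_apply, smul_eq_mul]
    ring

/-- the same in `ℝ≥0∞` -/
theorem cx_conv_im_le' (Γ : Matrix G.V G.V ℝ) (hΓ : Γ.PosSemidef) (F : Fn G) (hF : Differentiable ℂ F) (hdom : CxDom Γ F)
    (η φ : G.V → ℝ) :
    (‖conv Γ F (toC φ + Complex.I • toC (Γ.mulVec η))‖₊ : ℝ≥0∞)
      ≤ ENNReal.ofReal (Real.exp ((η ⬝ᵥ Γ.mulVec η) / 2)) * ∫⁻ ζ, (‖F (toC (φ + ζ))‖₊ : ℝ≥0∞) ∂(gauss G Γ) := by
  have h1 := cx_conv_im_le Γ hΓ F hF hdom η φ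
  have hc : Continuous fun ζ : G.V → ℝ => F (toC (φ + ζ)) :=
    hF.continuous.comp (toC_continuous.comp (continuous_const.add continuous_id))
  rw [integral_norm_eq_lintegral_enorm hc.aestronglyMeasurable] at h1
  by_cases htop : ∫⁻ ζ, ‖F (toC (φ + ζ))‖ₑ ∂(gauss G Γ) = ⊤
  · have h2 : ∫⁻ ζ, (‖F (toC (φ + ζ))‖₊ : ℝ≥0∞) ∂(gauss G Γ) = ⊤ := htop
    rw [h2, ENNReal.mul_top (by simpa using Real.exp_pos _)]
    exact le_top
  · have h3 := coe_nnnorm_le_ofReal h1
    rw [ENNReal.ofReal_mul (Real.exp_pos _).le, ENNReal.ofReal_toReal htop] at h3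
    exact h3

end

end Claimed.Agent.R285.Entry
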