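-- KEEP
import Mathlib

/-!
# ROW 285, Entry toolkit (cut of BP-READ-B9, [B] s9 `entry.tex`): DEFINITIONS            (owner helper229)

Model-independent linear algebra / Gaussian / combinatorial notions behind [B] (9.12)-(9.17), (9.26)-(9.28), (9.34).
They are used by [B] L9.2 (= `B4.obs_extra`, `B4.obs_regulator`), [C] L5.x, [F] s4, [E] s3.   Only definitions here.  Leaves: one file each in this folder.
-/

set_option autoImplicit false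

namespace Claimed.Agent.R285.Entry

open scoped BigOperators ENNReal NNReal
open MeasureTheory ProbabilityTheory

noncomputable section

variable {O Ξ V : Type} [Fintype O] [Fintype Ξ] [Fintype V]

/-- the quadratic form of a matrix -/
def qf (M : Matrix O O ℝ) (y : O → ℝ) : ℝ := y ⬝ᵥ M.mulVec y

/-- the standard Gaussian on `Ξ → ℝ` (Gaussian Hilbert coordinates) -/
def stdG (Ξ : Type) [Fintype Ξ] : Measure (Ξ → ℝ) := Measure.pi fun _ => gaussianReal 0 1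

/-- (9.15): `‖M^{1/2} L‖ ≤ 1` -/
def Contr (M : Matrix O O ℝ) (Lm : Matrix O Ξ ℝ) : Prop := ∀ ξ : Ξ → ℝ, qf M (Lm.mulVec ξ) ≤ ξ ⬝ᵥ ξ

/-- (9.13): `V(f) = ½ sup_ξ { h_* E(f + L ξ) - p₁⁻¹ |ξ|² }`, `E = qf M` -/
def Vreg (M : Matrix O O ℝ) (Lm : Matrix O Ξ ℝ) (hs p1 : ℝ) (f : O → ℝ) : ℝ :=
  (1 / 2) * ⨆ ξ : Ξ → ℝ, (hs * qf M (f + Lm.mulVec ξ) - p1⁻¹ * (ξ ⬝ᵥ ξ))

/-- the same in Cameron coordinates (`ζ = C x`, `‖ζ‖² = ⟨x, C x⟩`) plus an independent white noise on the observations: the shape of `RG.Vobs` -/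
def VregC (M : Matrix O O ℝ) (B : Matrix O V ℝ) (C : Matrix V V ℝ) (hs p1 : ℝ) (f : O → ℝ) : ℝ :=
  (1 / 2) * ⨆ x : (V → ℝ) × (O → ℝ),
    (hs * qf M (f + B.mulVec (C.mulVec x.1) + x.2) - p1⁻¹ * (x.1 ⬝ᵥ C.mulVec x.1 + x.2 ⬝ᵥ x.2))

/-- the standing hypotheses (9.12), (9.15) -/
structure VHyp (M : Matrix O O ℝ) (Lm : Matrix O Ξ ℝ) (hs p1 : ℝ) : Prop where
  psd : M.PosSemidef
  contr : Contr M Lm
  hs_pos : 0 < hs
  p1_gt : 1 < p1
  margin : p1 * hs < 1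

/-- `E(y) = min_v { ⟨v, A v⟩ + ‖B v - y‖² }`  ([B] (3.x) `an:comparison-energy`; `A` already contains `1/a'`) -/
def obsE (A : Matrix V V ℝ) (B : Matrix O V ℝ) (y : O → ℝ) : ℝ :=
  ⨅ v : V → ℝ, (v ⬝ᵥ A.mulVec v + ∑ o, (B.mulVec v o - y o) ^ 2)

section tree

variable {ι 𝔹 : Type}

/-- two items are adjacent when their covers are within the connection neighbourhood -/
def ItemAdj (cover : ι → Finset 𝔹) (adj : 𝔹 → 𝔹 → Prop) (I I' : ι) : Prop := ∃ B ∈ cover I, ∃ B' ∈ cover I', adj B B'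

/-- a connected collection of items -/
def ItemConn (cover : ι → Finset 𝔹) (adj : 𝔹 → 𝔹 → Prop) (𝒞 : Finset ι) : Prop :=
  𝒞.Nonempty ∧ ∀ I ∈ 𝒞, ∀ I' ∈ 𝒞,
    Relation.ReflTransGen (fun a b => a ∈ 𝒞 ∧ b ∈ 𝒞 ∧ ItemAdj cover adj a b) I I'

end tree

end

end Claimed.Agent.R285.Entry
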