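-- KEEP
import Claimed.Agent.R285.Base.HeightDefs

/-!
# ROW 285, ENTRY, package BP-ENT-NORM (#13340, architect helper229), file 1: FACTOR MODELS, DEFINITIONS ONLY (no sorry).

ONE vocabulary for all EXACT finite statements of the entry expansion ([F] s4.6-4.7, [B] s9, [C] s5.3, [E] s3.1): Markov property, factorisation over disconnected pieces, fibres over guard data,
restoration ratios, zero-guard probabilities, seam inequality.  No geometry, no subtype graphs: ALL topologies of one volume live on the SAME site type.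

* `Fac` = finite sets of sites `V`, of INTEGER linear forms `d e` (`e : E`; a bond is `δ_tgt - δ_src`) with temperatures `b e`, and of REAL linear forms `r o` (`o : O`; observation rows, averaged bonds; they act on `2π h`).
* `Msk` ("topology with pins") = free sites `A`, present Bessel factors `E`, present Gaussian factors `O`.   Cutting = removing factors (`del`), restoring = `add` (a pair `F : Fs` of Bessel and Gaussian factors), hard pin on `B` = `pin B` (removes `B` from the free sites),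
  open patch = `res U` (free sites `A ∩ U`, the factors living in `U`), interior with boundary data = `loc I` (free sites `I`, all factors which touch `I`).
* `Dat` = background height `x` (prescribed data on the non-free sites: guard data), connection `τ`, observation centres `c`.
* `M.Z D Ψ = ∑_{g supported on M.A} Ψ(x+g) ∏_{e ∈ M.E} p_{b_e}(d_e(x+g) + τ_e) exp(-½ ∑_{o ∈ M.O} (r_o(2π(x+g)) - c_o)²)`.
* `M.Ok` = positive temperatures + the present factors separate the REAL fields supported on `A` (every constant is pinned or confined); then `M.sys : LSys` is proper and `M.Z D 1 = M.sys.w (M.amb D)` (`FacKit`).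
* `M.Le M'` = `M'` has more precision (more factors, more pins, more sites which the factors of `M` do not see) = `LSys.Ref M.sys M'.sys`.
Instances: `Entry/NormTop.lean` (`F4a.Top c`).   [C] s5: the same `Fac` with the averaged bonds as further real forms.
-/

set_option autoImplicit false

namespace Claimed.Agent.R285.Entry

open scoped BigOperators
open Claimed.Agent.R285

noncomputable section

/-- a finite factor model on integer heights -/
structure Fac where
  V : Type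
  E : Type
  O : Type
  [fV : Fintype V]
  [dV : DecidableEq V]
  [fE : Fintype E]
  [dE : DecidableEq E]
  [fO : Fintype O]
  [dO : DecidableEq O]
  /-- temperatures of the Bessel factors -/
  b : E → ℝ
  /-- integer forms -/
  d : E → V → ℤ
  /-- real forms -/
  r : O → V → ℝ

attribute [instance] Fac.fV Fac.dV Fac.fE Fac.dE Fac.fO Fac.dO

namespace Fac

variable (𝔉 : Fac)

/-- integer heights -/
abbrev Ht : Type := 𝔉.V → ℤ

/-- the value of an integer form -/
def dv (e : 𝔉.E) (h : 𝔉.Ht) : ℤ := ∑ v, 𝔉.d e v * h v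

/-- the value of a real form on the physical height `2π h` -/
def rv (o : 𝔉.O) (h : 𝔉.Ht) : ℝ := ∑ v, 𝔉.r o v * (2 * Real.pi * (h v : ℝ))

/-- integer heights supported on `B` -/
def sup (B : Finset 𝔉.V) : AddSubgroup 𝔉.Ht where
  carrier := {g | ∀ v, v ∉ B → g v = 0}
  zero_mem' := fun _ _ => rfl
  add_mem' := by
    intro g g' hg hg' v hv
    simp [hg v hv, hg' v hv]
  neg_mem' := by
    intro g hg v hv
    simp [hg v hv]

/-- `Ψ` does not depend on the heights in `B` -/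
def Inv (B : Finset 𝔉.V) (Ψ : 𝔉.Ht → ℝ) : Prop := ∀ h, ∀ n ∈ 𝔉.sup B, Ψ (h + n) = Ψ h

/-- bounded functional -/
def Bdd (Ψ : 𝔉.Ht → ℝ) : Prop := ∃ C : ℝ, ∀ h, |Ψ h| ≤ C

/-- a set of factors: Bessel factors and Gaussian factors.  (XY law: restorations have `F.2 = ∅`; [C] s5: the averaged bonds across the restored faces.) -/
abbrev Fs : Type := Finset 𝔉.E × Finset 𝔉.O

/-- free sites, present Bessel factors, present Gaussian factors -/
structure Msk where
  A : Finset 𝔉.V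
  E : Finset 𝔉.E
  O : Finset 𝔉.O

/-- background height (data on the non-free sites), connection, observation centres -/
structure Dat where
  x : 𝔉.Ht
  τ : 𝔉.E → ℤ
  c : 𝔉.O → ℝ

instance facDatZero : Zero 𝔉.Dat := ⟨⟨0, 0, 0⟩⟩

variable {𝔉}

/-- the same connection and centres, another background -/
def Dat.bk (D : 𝔉.Dat) (h : 𝔉.Ht) : 𝔉.Dat := ⟨h, D.τ, D.c⟩

/-- translation of the background -/
def Dat.shift (D : 𝔉.Dat) (γ : 𝔉.Ht) : 𝔉.Dat := ⟨D.x + γ, D.τ, D.c⟩

/-- the product of the Bessel weights of the factors in `F` -/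
def rwE (F : Finset 𝔉.E) (D : 𝔉.Dat) (h : 𝔉.Ht) : ℝ := ∏ e ∈ F, bes (𝔉.b e) (𝔉.dv e h + D.τ e)

/-- **the weight of the factors in `F`** (Bessel factors `F.1`, Gaussian factors `F.2`) -/
def rw (F : 𝔉.Fs) (D : 𝔉.Dat) (h : 𝔉.Ht) : ℝ := rwE F.1 D h * Real.exp (-(∑ o ∈ F.2, (𝔉.rv o h - D.c o) ^ 2) / 2)

/-- positive temperatures -/
def Fs.Pos (F : 𝔉.Fs) : Prop := ∀ e ∈ F.1, 0 < 𝔉.b e

/-- no factor of `F` sees a site of `J` -/
def Fs.Off (F : 𝔉.Fs) (J : Finset 𝔉.V) : Prop := (∀ e ∈ F.1, ∀ v ∈ J, 𝔉.d e v = 0) ∧ ∀ o ∈ F.2, ∀ v ∈ J, 𝔉.r o v = 0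

/-- among the sites of `A` the factors of `F` see only sites of `H` -/
def Fs.In (F : 𝔉.Fs) (A H : Finset 𝔉.V) : Prop :=
  (∀ e ∈ F.1, ∀ v ∈ A, 𝔉.d e v ≠ 0 → v ∈ H) ∧ ∀ o ∈ F.2, ∀ v ∈ A, 𝔉.r o v ≠ 0 → v ∈ H

/-- union of a family of sets of factors -/
def Fs.bU {ι : Type} (s : Finset ι) (F : ι → 𝔉.Fs) : 𝔉.Fs := (s.biUnion fun i => (F i).1, s.biUnion fun i => (F i).2)

namespace Msk

variable (M : 𝔉.Msk)

/-- the weight of a height -/
def wt (D : 𝔉.Dat) (h : 𝔉.Ht) : ℝ := rw (M.E, M.O) D h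

/-- **the partition sum with a functional of the height** -/
def Z (D : 𝔉.Dat) (Ψ : 𝔉.Ht → ℝ) : ℝ := ∑' g : 𝔉.sup M.A, Ψ (D.x + (g : 𝔉.Ht)) * M.wt D (D.x + (g : 𝔉.Ht))

/-- the partition sum -/
def Z1 (D : 𝔉.Dat) : ℝ := M.Z D fun _ => 1

/-- the centred partition sum at zero observation -/
def Z0 : ℝ := M.Z1 0

/-- expectation -/
def Ex (D : 𝔉.Dat) (Ψ : 𝔉.Ht → ℝ) : ℝ := M.Z D Ψ / M.Z1 D

/-- positive temperatures; the present factors separate the real fields supported on the free sites -/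
def Ok : Prop :=
  (∀ e ∈ M.E, 0 < 𝔉.b e) ∧
    ∀ u : 𝔉.V → ℝ, (∀ v, v ∉ M.A → u v = 0) → (∀ e ∈ M.E, ∑ v, (𝔉.d e v : ℝ) * u v = 0) →
      (∀ o ∈ M.O, ∑ v, 𝔉.r o v * u v = 0) → u = 0

/-- hard pin on `B` -/
def pin (B : Finset 𝔉.V) : 𝔉.Msk := ⟨M.A \ B, M.E, M.O⟩

/-- restoring factors -/
def add (F : 𝔉.Fs) : 𝔉.Msk := ⟨M.A, M.E ∪ F.1, M.O ∪ F.2⟩

/-- the factors of `F` are not present -/
def New (F : 𝔉.Fs) : Prop := Disjoint F.1 M.E ∧ Disjoint F.2 M.O

/-- deleting factors -/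
def del (F : Finset 𝔉.E) (F' : Finset 𝔉.O) : 𝔉.Msk := ⟨M.A, M.E \ F, M.O \ F'⟩

open Classical in
/-- the Bessel factors which touch `I` -/
def EI (I : Finset 𝔉.V) : Finset 𝔉.E := M.E.filter fun e => ∃ v ∈ I, 𝔉.d e v ≠ 0

open Classical in
/-- the Gaussian factors which touch `I` -/
def OI (I : Finset 𝔉.V) : Finset 𝔉.O := M.O.filter fun o => ∃ v ∈ I, 𝔉.r o v ≠ 0

/-- the interior model on `I`: free sites `I`, all factors which touch `I`; everything else is boundary data -/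
def loc (I : Finset 𝔉.V) : 𝔉.Msk := ⟨I, M.EI I, M.OI I⟩

open Classical in
/-- the OPEN PATCH on `U`: free sites `A ∩ U`, the factors all of whose free sites lie in `U` (new free wall at the boundary of `U`) -/
def res (U : Finset 𝔉.V) : 𝔉.Msk :=
  ⟨M.A ∩ U, M.E.filter fun e => ∀ v ∈ M.A, 𝔉.d e v ≠ 0 → v ∈ U, M.O.filter fun o => ∀ v ∈ M.A, 𝔉.r o v ≠ 0 → v ∈ U⟩

/-- conditional expectation of `g` given the heights off `I` -/
def cE (I : Finset 𝔉.V) (D : 𝔉.Dat) (g : 𝔉.Ht → ℝ) (h : 𝔉.Ht) : ℝ := (M.loc I).Z (D.bk h) g / (M.loc I).Z1 (D.bk h)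

/-- `M'` has more precision than `M` -/
structure Le (M M' : 𝔉.Msk) : Prop where
  E : M.E ⊆ M'.E
  O : M.O ⊆ M'.O
  dE : ∀ e ∈ M.E, ∀ v ∈ M'.A, v ∉ M.A → 𝔉.d e v = 0
  dO : ∀ o ∈ M.O, ∀ v ∈ M'.A, v ∉ M.A → 𝔉.r o v = 0

/-- no present factor touches both `I` and `J` -/
def Sep (I J : Finset 𝔉.V) : Prop :=
  (∀ e ∈ M.E, (∃ v ∈ I, 𝔉.d e v ≠ 0) → ∀ v ∈ J, 𝔉.d e v = 0) ∧ (∀ o ∈ M.O, (∃ v ∈ I, 𝔉.r o v ≠ 0) → ∀ v ∈ J, 𝔉.r o v = 0)

/-- centred restoration ratio `Z_restored^0(0) / Z_cut^0(0)` -/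
def T (F : 𝔉.Fs) : ℝ := (M.add F).Z0 / M.Z0

/-- centred probability of the zero pin on `B` at zero observation -/
def P (B : Finset 𝔉.V) : ℝ := (M.pin B).Z0 / M.Z0

/-- `e^{D(H,q)}`, `D` = the centred pin interaction -/
def xPin (H q : Finset 𝔉.V) : ℝ := (M.pin (H ∪ q)).Z0 * M.Z0 / ((M.pin H).Z0 * (M.pin q).Z0)

/-! ### the abstract system of a mask -/

/-- `h ↦ (d_e h, r_o (2π h))` on the present factors -/
def coord : 𝔉.Ht →+ ((M.E → ℤ) × (M.O → ℝ)) where
  toFun h := (fun e => 𝔉.dv e.1 h, fun o => 𝔉.rv o.1 h)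
  map_zero' := by
    ext <;> simp [Fac.dv, Fac.rv]
  map_add' h h' := by
    ext
    · simp [Fac.dv, mul_add, Finset.sum_add_distrib]
    · simp [Fac.rv, mul_add, Finset.sum_add_distrib]

/-- the abstract system -/
def sys : LSys := { E := M.E, O := M.O, b := fun e => 𝔉.b e.1, L := (𝔉.sup M.A).map M.coord }

/-- the affine datum -/
def amb (D : 𝔉.Dat) : M.sys.Amb :=
  (show M.sys.Amb from M.coord D.x) + (show M.sys.Amb from (fun e => D.τ e.1, fun o => - D.c o.1))

end Msk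

end Fac

open Fac in
/-- the kernel quotient `χ K_o / K_c` as a function of the heights off the interior `I` -/
def rho {𝔉 : Fac} (M : 𝔉.Msk) (I : Finset 𝔉.V) (F : 𝔉.Fs) (χ : ℝ) (D : 𝔉.Dat) (h : 𝔉.Ht) : ℝ := M.cE I D (fun h' => χ * rw F D h') h

open Fac in
/-- `δ = |χ K_o - β K_c| / (χ K_o + β K_c)` -/
def dlt {𝔉 : Fac} (M : 𝔉.Msk) (I : Finset 𝔉.V) (F : 𝔉.Fs) (χ β : ℝ) (D : 𝔉.Dat) (h : 𝔉.Ht) : ℝ :=
  |rho M I F χ D h - β| / (rho M I F χ D h + β)

end

end Claimed.Agent.R285.Entry
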