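import Claimed.Agent.R285.Entry.Defs

/-!
# ROW 285, Entry toolkit, leaf L-B9-GAUSS1: the one-dimensional Gaussian integral of `exp (linear + quadratic)`
PLAN: `gaussianReal 0 1` has density `(2π)^{-1/2} exp (-t²/2)` (`integral_gaussianReal_eq_integral_smul`); complete the square; `integral_gaussian` (`∫ exp (-b t²) = √(π / b)`), translation invariance.
-/

set_option autoImplicit false

namespace Claimed.Agent.R285.Entry

open scoped BigOperators ENNReal NNReal
open MeasureTheory ProbabilityTheory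

noncomputable section

/-- completion of the square: the tilted density is a multiple of another Gaussian density -/
theorem gauss1_density (β lam : ℝ) (hl : lam < 1) (t : ℝ) :
    gaussianPDFReal 0 1 t * Real.exp (β * t + lam * t ^ 2 / 2)
      = ((Real.sqrt (1 - lam))⁻¹ * Real.exp (β ^ 2 / (2 * (1 - lam))))
        * gaussianPDFReal (β / (1 - lam)) (Real.toNNReal (1 - lam)⁻¹) t := by
  have ha : 0 < 1 - lam := by linarith
  have hc : ((Real.toNNReal (1 - lam)⁻¹ : ℝ≥0) : ℝ) = (1 - lam)⁻¹ :=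
    Real.coe_toNNReal _ (by positivity)
  have h1 : Real.sqrt (2 * Real.pi * (1 - lam)⁻¹) = Real.sqrt (2 * Real.pi) * (Real.sqrt (1 - lam))⁻¹ := by
    rw [Real.sqrt_mul (by positivity), Real.sqrt_inv]
  have hs : Real.sqrt (1 - lam) ≠ 0 := (Real.sqrt_pos.2 ha).ne'
  have hp : Real.sqrt (2 * Real.pi) ≠ 0 := by positivity
  rw [gaussianPDFReal, gaussianPDFReal, hc, h1]
  simp only [NNReal.coe_one, mul_one, sub_zero]
  have e1 : (Real.sqrt (2 * Real.pi))⁻¹ * Real.exp (-t ^ 2 / 2) * Real.exp (β * t + lam * t ^ 2 / 2)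
      = (Real.sqrt (2 * Real.pi))⁻¹ * Real.exp (-t ^ 2 / 2 + (β * t + lam * t ^ 2 / 2)) := by
    rw [Real.exp_add (-t ^ 2 / 2)]
    ring
  have e2 : (Real.sqrt (1 - lam))⁻¹ * Real.exp (β ^ 2 / (2 * (1 - lam))) *
      ((Real.sqrt (2 * Real.pi) * (Real.sqrt (1 - lam))⁻¹)⁻¹ *
        Real.exp (-(t - β / (1 - lam)) ^ 2 / (2 * (1 - lam)⁻¹)))
      = (Real.sqrt (2 * Real.pi))⁻¹ * Real.exp (β ^ 2 / (2 * (1 - lam))
        + -(t - β / (1 - lam)) ^ 2 / (2 * (1 - lam)⁻¹)) := by
    rw [Real.exp_add]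
    field_simp
  rw [e1, e2]
  congr 2
  field_simp
  ring

theorem gauss_exp_quad_one (β lam : ℝ) (hl : lam < 1) :
    ∫ t, Real.exp (β * t + lam * t ^ 2 / 2) ∂(gaussianReal 0 1) = (Real.sqrt (1 - lam))⁻¹ * Real.exp (β ^ 2 / (2 * (1 - lam))) := by
  have ha : 0 < 1 - lam := by linarith
  have hv : Real.toNNReal (1 - lam)⁻¹ ≠ 0 := by
    rw [Ne, Real.toNNReal_eq_zero, not_le]
    positivity
  rw [integral_gaussianReal_eq_integral_smul one_ne_zero]
  simp only [smul_eq_mul, gauss1_density β lam hl]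
  rw [integral_const_mul, integral_gaussianPDFReal_eq_one _ hv, mul_one]

theorem gauss_exp_quad_one_integrable (β lam : ℝ) (hl : lam < 1) :
    Integrable (fun t : ℝ => Real.exp (β * t + lam * t ^ 2 / 2)) (gaussianReal 0 1) := by
  rw [gaussianReal_of_var_ne_zero 0 one_ne_zero,
    integrable_withDensity_iff (measurable_gaussianPDF _ _) (ae_of_all _ fun _ => gaussianPDF_lt_top)]
  simp only [toReal_gaussianPDF]
  have e : (fun t : ℝ => Real.exp (β * t + lam * t ^ 2 / 2) * gaussianPDFReal 0 1 t)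
      = fun t => ((Real.sqrt (1 - lam))⁻¹ * Real.exp (β ^ 2 / (2 * (1 - lam))))
        * gaussianPDFReal (β / (1 - lam)) (Real.toNNReal (1 - lam)⁻¹) t := by
    funext t
    rw [mul_comm, gauss1_density β lam hl]
  rw [e]
  exact (integrable_gaussianPDFReal _ _).const_mul _

end

end Claimed.Agent.R285.Entry
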