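import Claimed.Agent.R285.Entry.GoodGeoA
import Claimed.Agent.R285.Entry.NtCut

/-!
# ROW 285, post BP-ENT-GOODGEO (#17867): THE FIELDS `box`, `faces` OF `GoodGeo`  (pieces of halos in the boxes of the `P`-grid)      (helper190)
Prefix `ggb_`.  Tile facts: `Ent/GeoLip.lean` (helper108), `Ent/Geo.lean`, `Ent/LinkGeo.lean`.  Bridge to `NoDiag`: `Entry/GoodGeoA.lean`.  The `P`-grid: `Entry/NtCut.lean` (`pc1_*`, `pc_*`).
```
s1  ggb_win1 (one coordinate), GgbWin, ggb_win     the window of a box: it carries exactly the cells of the box, its inner faces are the faces of the volume which start in the box and are not removed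
s2  ggbTop A U t b = piece of (topU U).restr A     ggb_mem_cells, ggb_mem_faces, ggb_ok, ggb_fits, ggb_nodiag;  ggb_cut, ggb_glue, ggb_restr
s3  deep marks                                     ggb_deep, ggb_near_ring, ggb_stay, ggb_geo, ggb_mark
s4  cards, exit                                    ggb_box, ggb_faces
s5  (helper161) the unit sector                    ggb_gaugeB, ggb_gaugeT, eg_geoU : GoodGeoU c R P
```
-/

set_option autoImplicit false

namespace Claimed.Agent.R285.Entry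

open scoped BigOperators
open Claimed.Agent.R285 Claimed.Agent.R285.RG Claimed.Agent.R285.F4a Claimed.Agent.R285.Ent Claimed.Agent.R285.Geo

variable {G : Geom} {c : Grid G} {R P : ℕ}

/-! ## 1. The window of a box -/

theorem ggb_w1_div_eq {P s q : ℕ} (hP : 0 < P) : s / P = q ↔ q * P ≤ s ∧ s < q * P + P := by
  constructor
  · rintro rfl
    have h1 := Nat.div_add_mod s P
    have h2 := Nat.mod_lt s hP
    have h3 : s / P * P = P * (s / P) := Nat.mul_comm _ _
    omega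
  · rintro ⟨h1, h2⟩
    have a1 : q ≤ s / P := (Nat.le_div_iff_mul_le hP).2 h1
    have a2 : s / P < q + 1 := (Nat.div_lt_iff_lt_mul hP).2 (by rw [Nat.succ_mul]; exact h2)
    omega

theorem ggb_w1_back {n t x : ℕ} (ht : t ≤ n) (hx : x < n) : ((x + n - t) % n + t) % n = x := by
  rcases pc1_shift_val ht hx with ⟨a1, a2⟩ | ⟨a1, a2⟩
  · rw [a2, Nat.sub_add_cancel a1, Nat.mod_eq_of_lt hx]
  · rw [a2, Nat.sub_add_cancel (by omega), Nat.add_mod_right, Nat.mod_eq_of_lt hx]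

theorem ggb_w1_fwd {n t σ : ℕ} (ht : t ≤ n) (hσ : σ < n) : ((t + σ) % n + n - t) % n = σ := by
  rcases pc1_n_mod (n := n) (a := t + σ) (by omega) with ⟨h1, h2⟩ | ⟨h1, h2⟩
  · rw [h2, show t + σ + n - t = σ + n by omega, Nat.add_mod_right, Nat.mod_eq_of_lt hσ]
  · rw [h2, show t + σ - n + n - t = σ by omega, Nat.mod_eq_of_lt hσ]

/-- the intervals of the torus in the shifted coordinate -/
theorem ggb_w1_H {n P : ℕ} (hP : 0 < P) (hPn : P ≤ n) (q : ℕ) :
    ∃ a m : ℕ, m ≤ 2 * P ∧ a + m ≤ n ∧ ∀ s < n, (min (s / P) (n / P - 1) = q ↔ a ≤ s ∧ s < a + m) := by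
  have hN := Nat.div_add_mod n P
  have hr := Nat.mod_lt n hP
  have hN1 : 1 ≤ n / P := (Nat.le_div_iff_mul_le hP).2 (by rw [Nat.one_mul]; exact hPn)
  rcases lt_trichotomy (q + 1) (n / P) with h | h | h
  · refine ⟨q * P, P, by omega, ?_, fun s _ => ?_⟩
    · have h1 : (q + 1) * P ≤ n / P * P := Nat.mul_le_mul_right P h.le
      have h2 : n / P * P ≤ n := Nat.div_mul_le_self n P
      rw [Nat.succ_mul] at h1
      omega
    · rw [← ggb_w1_div_eq hP]
      generalize s / P = A at *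
      generalize n / P = Q at *
      omega
  · rw [← h] at hN
    have e1 : P * (q + 1) = q * P + P := by ring
    refine ⟨q * P, n - q * P, by omega, by omega, fun s hs => ?_⟩
    have e := Nat.le_div_iff_mul_le hP (x := q) (y := s)
    rw [← h]
    generalize s / P = A at *
    constructor
    · intro h1
      have h2 : q ≤ A := by omega
      have h3 := e.1 h2
      omega
    · rintro ⟨h1, -⟩
      have h2 := e.2 h1
      omega
  · refine ⟨0, 0, by omega, by omega, fun s _ => ?_⟩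
    generalize s / P = A at *
    generalize n / P = Q at *
    omega

theorem ggb_w1_per (h : G.bc = BC.per) {t : ℕ} (ht : t ≤ c.n) (q a m : ℕ) (ham : a + m ≤ c.n)
    (H : ∀ s < c.n, (min (s / P) (c.n / P - 1) = q ↔ a ≤ s ∧ s < a + m)) (o : Fin c.n) (ho : (o : ℕ) = (t + a) % c.n) :
    (∀ x : Fin c.n, plab c P t x = q ↔ ∃ κ < m, (x : ℕ) = ((o : ℕ) + κ) % c.n) ∧
      ∀ (x : Fin c.n) (κ : ℕ), κ < m → (x : ℕ) = ((o : ℕ) + κ) % c.n → (κ + 1 < m ↔ (G.bc = BC.per ∨ (x : ℕ) + 1 < c.n) ∧ ¬ cut1 c P t x) := by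
  have hS : ∀ (x : Fin c.n) (κ : ℕ), κ < m → (x : ℕ) = ((o : ℕ) + κ) % c.n → ((x : ℕ) + c.n - t) % c.n = a + κ := by
    intro x κ hκ e
    rw [e, ho, Nat.mod_add_mod, Nat.add_assoc]
    exact ggb_w1_fwd ht (by omega)
  have hF : ∀ x : Fin c.n, plab c P t x = q ↔ ∃ κ < m, (x : ℕ) = ((o : ℕ) + κ) % c.n := by
    intro x
    rw [pc1_plab_per h, H _ (Nat.mod_lt _ x.pos)]
    constructor
    · rintro ⟨h1, h2⟩
      refine ⟨((x : ℕ) + c.n - t) % c.n - a, by omega, ?_⟩
      rw [ho, Nat.mod_add_mod, Nat.add_assoc, Nat.add_sub_cancel' h1, Nat.add_comm]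
      exact (ggb_w1_back ht x.2).symm
    · rintro ⟨κ, hκ, e⟩
      rw [hS x κ hκ e]
      omega
  refine ⟨hF, fun x κ hκ e => ?_⟩
  have hs := hS x κ hκ e
  have hq : plab c P t x = q := (hF x).2 ⟨κ, hκ, e⟩
  have enx : ((nx x : Fin c.n) : ℕ) = ((x : ℕ) + 1) % c.n := rfl
  constructor
  · intro hk
    refine ⟨Or.inl h, ?_⟩
    rintro ⟨-, h1 | ⟨-, h1⟩⟩
    · apply h1
      rw [hq]
      refine (hF _).2 ⟨κ + 1, hk, ?_⟩
      rw [enx, e, Nat.mod_add_mod, Nat.add_assoc]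
    · rw [pc1_pshift_per h, hs] at h1
      omega
  · rintro ⟨-, hc⟩
    by_contra hk
    apply hc
    refine ⟨Or.inl h, ?_⟩
    by_cases hn : ((x : ℕ) + c.n - t) % c.n + 1 = c.n
    · exact Or.inr ⟨h, by rw [pc1_pshift_per h]; exact hn⟩
    · refine Or.inl fun e2 => ?_
      have hlt : ((x : ℕ) + c.n - t) % c.n < c.n := Nat.mod_lt _ x.pos
      rw [hq, pc1_plab_per h, enx, pc1_shift_nx ht x.2 hn, H _ (by omega), hs] at e2
      omega

theorem ggb_w1_free (h : G.bc = BC.free) {t : ℕ} (q m : ℕ) (o : Fin c.n) (hom : (o : ℕ) + m ≤ c.n)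
    (H : ∀ x < c.n, ((x + P - t) / P = q ↔ (o : ℕ) ≤ x ∧ x < (o : ℕ) + m)) :
    (∀ x : Fin c.n, plab c P t x = q ↔ ∃ κ < m, (x : ℕ) = ((o : ℕ) + κ) % c.n) ∧
      ∀ (x : Fin c.n) (κ : ℕ), κ < m → (x : ℕ) = ((o : ℕ) + κ) % c.n → (κ + 1 < m ↔ (G.bc = BC.per ∨ (x : ℕ) + 1 < c.n) ∧ ¬ cut1 c P t x) := by
  constructor
  · intro x
    rw [pc1_plab_free h, H x x.2]
    constructor
    · rintro ⟨h1, h2⟩
      refine ⟨(x : ℕ) - o, by omega, ?_⟩
      rw [Nat.mod_eq_of_lt (by omega)]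
      omega
    · rintro ⟨κ, hκ, e⟩
      rw [Nat.mod_eq_of_lt (by omega)] at e
      omega
  · intro x κ hκ e
    rw [Nat.mod_eq_of_lt (by omega)] at e
    have hq : plab c P t x = q := by
      rw [pc1_plab_free h, H x x.2]
      omega
    constructor
    · intro hk
      have hx1 : (x : ℕ) + 1 < c.n := by omega
      have enx : ((nx x : Fin c.n) : ℕ) = (x : ℕ) + 1 := Nat.mod_eq_of_lt hx1
      refine ⟨Or.inr hx1, ?_⟩
      rintro ⟨-, h1 | ⟨h1, -⟩⟩
      · apply h1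
        rw [hq, pc1_plab_free h, enx, H _ hx1]
        omega
      · rw [h] at h1
        cases h1
    · rintro ⟨h1, hc⟩
      have hx1 : (x : ℕ) + 1 < c.n := h1.resolve_left (by rw [h]; exact fun e => by cases e)
      have enx : ((nx x : Fin c.n) : ℕ) = (x : ℕ) + 1 := Nat.mod_eq_of_lt hx1
      by_contra hk
      apply hc
      refine ⟨Or.inr hx1, Or.inl fun e2 => ?_⟩
      rw [hq, pc1_plab_free h, enx, H _ hx1] at e2
      omega

/-- L-GG-WIN1.  **One coordinate**: the fibre `plab = q` is a cyclic interval `o, o + 1, .., o + m - 1` of length `m ≤ 2 P`, and the step from its `κ`-th point stays inside iff it is a step of the volume which the grid does not remove.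
Free square (`pc1_plab_free`): `plab x = (x + P - t) / P`, fibre `= [q P + t - P, q P + t) ∩ [0, n)`; `o` = its first point, `m` = its length (`o = 0`, `m = 0` if it is empty).
Torus (`pc1_plab_per`, `pc1_shift_val`, `pc1_n_mod`, `pc1_shift_nx`): with `s = (x + n - t) % n`, `N = n / P`: `q + 1 < N`: `s ∈ [q P, q P + P)`, `o = (t + q P) % n`, `m = P`;  `q + 1 = N`: `s ∈ [q P, n)`, `m = n - q P < 2 P`;  `q + 1 > N`: `m = 0`. -/
theorem ggb_win1 {t : ℕ} (ht : t < P) (hPn : P ≤ c.n) (q : ℕ) :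
    ∃ (o : Fin c.n) (m : ℕ), m ≤ 2 * P ∧ m ≤ c.n ∧ (G.bc = BC.free → (o : ℕ) + m ≤ c.n) ∧
      (∀ x : Fin c.n, plab c P t x = q ↔ ∃ κ < m, (x : ℕ) = ((o : ℕ) + κ) % c.n) ∧
      ∀ (x : Fin c.n) (κ : ℕ), κ < m → (x : ℕ) = ((o : ℕ) + κ) % c.n → (κ + 1 < m ↔ (G.bc = BC.per ∨ (x : ℕ) + 1 < c.n) ∧ ¬ cut1 c P t x) := by
  have hP : 0 < P := by omega
  have hn : 0 < c.n := by omega
  rcases pc1_bc G with hbc | hbc
  · obtain ⟨a, m, h1, h2, H⟩ := ggb_w1_H hP hPn q
    obtain ⟨h3, h4⟩ := ggb_w1_per (c := c) (P := P) hbc (t := t) (by omega) q a m h2 H ⟨(t + a) % c.n, Nat.mod_lt _ hn⟩ rfl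
    refine ⟨⟨(t + a) % c.n, Nat.mod_lt _ hn⟩, m, h1, by omega, ?_, h3, h4⟩
    intro e
    rw [hbc] at e
    cases e
  · have key : ∀ x, ((x + P - t) / P = q ↔ q * P + t - P ≤ x ∧ x < q * P + t) := by
      intro x
      rw [ggb_w1_div_eq hP]
      omega
    by_cases hlo : q * P + t - P < c.n
    · have hom : q * P + t - P + (min (q * P + t) c.n - (q * P + t - P)) ≤ c.n := by omega
      obtain ⟨h3, h4⟩ := ggb_w1_free (c := c) (P := P) hbc (t := t) q (min (q * P + t) c.n - (q * P + t - P)) ⟨q * P + t - P, hlo⟩ hom (fun x hx => by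
        rw [key x]
        show _ ↔ q * P + t - P ≤ x ∧ x < q * P + t - P + _
        omega)
      exact ⟨⟨q * P + t - P, hlo⟩, _, by omega, by omega, fun _ => hom, h3, h4⟩
    · obtain ⟨h3, h4⟩ := ggb_w1_free (c := c) (P := P) hbc (t := t) q 0 ⟨0, hn⟩ (by show 0 + 0 ≤ c.n; omega) (fun x hx => by
        rw [key x]
        show _ ↔ 0 ≤ x ∧ x < 0 + 0
        omega)
      exact ⟨⟨0, hn⟩, 0, by omega, by omega, fun _ => by show 0 + 0 ≤ c.n; omega, h3, h4⟩

/-- `W` is the window of the box `b` of the grid with offset `t` -/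
structure GgbWin (c : Grid G) (P : ℕ) (t b : ℕ × ℕ) {m₁ m₂ : ℕ} (W : EgWin c m₁ m₂) : Prop where
  le₁ : m₁ ≤ 2 * P
  le₂ : m₂ ≤ 2 * P
  mem : ∀ i : c.I, i ∈ (pcut c P t).box b ↔ ∃ κ, i = W.emb κ
  face : ∀ f : Face c, f.1 ∈ (pcut c P t).box b → (W.FaceIn f ↔ IsFace c f ∧ f ∉ (pcut c P t).sm)

theorem ggb_mem_box {t b : ℕ × ℕ} {i : c.I} : i ∈ (pcut c P t).box b ↔ plab c P t.1 i.1 = b.1 ∧ plab c P t.2 i.2 = b.2 := by
  unfold Cut.box
  rw [Finset.mem_filter]
  show _ ∧ (plab c P t.1 i.1, plab c P t.2 i.2) = b ↔ _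
  rw [Prod.ext_iff]
  exact and_iff_right (Finset.mem_univ _)

theorem ggb_win {t : ℕ × ℕ} (ht : t.1 < P ∧ t.2 < P) (hPn : P ≤ c.n) (b : ℕ × ℕ) :
    ∃ (m₁ m₂ : ℕ) (W : EgWin c m₁ m₂), GgbWin c P t b W := by
  obtain ⟨o₁, m₁, a1, a2, a3, a4, a5⟩ := ggb_win1 (c := c) ht.1 hPn b.1
  obtain ⟨o₂, m₂, b1, b2, b3, b4, b5⟩ := ggb_win1 (c := c) ht.2 hPn b.2
  refine ⟨m₁, m₂, ⟨(o₁, o₂), a2, b2, fun hG => ⟨a3 hG, b3 hG⟩⟩, a1, b1, ?_, ?_⟩
  · intro i
    rw [ggb_mem_box, a4, b4]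
    constructor
    · rintro ⟨⟨κ₁, h1, e1⟩, κ₂, h2, e2⟩
      exact ⟨(⟨κ₁, h1⟩, ⟨κ₂, h2⟩), Prod.ext (Fin.ext e1) (Fin.ext e2)⟩
    · rintro ⟨κ, rfl⟩
      exact ⟨⟨κ.1, κ.1.2, rfl⟩, κ.2, κ.2.2, rfl⟩
  · rintro ⟨i, d⟩ hi
    rw [ggb_mem_box, a4, b4] at hi
    obtain ⟨⟨κ₁, h1, e1⟩, κ₂, h2, e2⟩ := hi
    rw [pc_mem_sm]
    cases d
    · show _ ↔ (G.bc = BC.per ∨ (i.2 : ℕ) + 1 < c.n) ∧ ¬ cut1 c P t.2 i.2
      rw [← b5 i.2 κ₂ h2 e2]
      constructor
      · rintro ⟨κ, hin, e⟩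
        have hin' : (κ.2 : ℕ) + 1 < m₂ := hin
        have e' : i = _ := e
        exact (b5 i.2 κ₂ h2 e2).2 ((b5 i.2 κ.2 κ.2.2 (by rw [e']; rfl)).1 hin')
      · intro hk
        exact ⟨(⟨κ₁, h1⟩, ⟨κ₂, h2⟩), hk, Prod.ext (Fin.ext e1) (Fin.ext e2)⟩
    · show _ ↔ (G.bc = BC.per ∨ (i.1 : ℕ) + 1 < c.n) ∧ ¬ cut1 c P t.1 i.1
      rw [← a5 i.1 κ₁ h1 e1]
      constructor
      · rintro ⟨κ, hin, e⟩
        have hin' : (κ.1 : ℕ) + 1 < m₁ := hin
        have e' : i = _ := e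
        exact (a5 i.1 κ₁ h1 e1).2 ((a5 i.1 κ.1 κ.1.2 (by rw [e']; rfl)).1 hin')
      · intro hk
        exact ⟨(⟨κ₁, h1⟩, ⟨κ₂, h2⟩), hk, Prod.ext (Fin.ext e1) (Fin.ext e2)⟩

/-! ## 2. Pieces -/

/-- the piece of `(topU c R U).restr A` in the box `b` -/
noncomputable def ggbTop (c : Grid G) (R P : ℕ) (A : Finset c.I) (U : Finset EvId) (t b : ℕ × ℕ) : Top c := (pcut c P t).piece ((topU c R U).restr A) b

theorem ggb_hPiece (S O : Finset EvId) (t b : ℕ × ℕ) : hPiece c R P S O t b = ggbTop c R P (halC c R S) (skp c R S ∪ O) t b := rfl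

variable {A : Finset c.I} {U : Finset EvId} {t b : ℕ × ℕ}

theorem ggb_cells : (ggbTop c R P A U t b).cells = A ∩ (pcut c P t).box b := by
  show ((topU c R U).cells ∩ A) ∩ (pcut c P t).box b = _
  rw [topU_cells, Finset.univ_inter]

theorem ggb_mem_cells {i : c.I} : i ∈ (ggbTop c R P A U t b).cells ↔ i ∈ A ∧ i ∈ (pcut c P t).box b := by
  rw [ggb_cells, Finset.mem_inter]

theorem ggb_mem_faces {f : Face c} : f ∈ (ggbTop c R P A U t b).faces ↔
    (IsFace c f ∧ (tile c R (fnb c f) = tile c R f.1 ∨ evKey c R f ∈ U)) ∧ (f.1 ∈ A ∧ fnb c f ∈ A) ∧ f ∉ (pcut c P t).sm ∧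
      f.1 ∈ (pcut c P t).box b ∧ fnb c f ∈ (pcut c P t).box b := by
  unfold ggbTop Cut.piece
  rw [nt_mem_restr_faces]
  show f ∈ ((topU c R U).restr A).faces \ (pcut c P t).sm ∧ _ ↔ _
  rw [Finset.mem_sdiff, nt_mem_restr_faces, mem_topU_faces]
  tauto

theorem ggb_ok : (ggbTop c R P A U t b).Ok := by
  intro f hf
  obtain ⟨h1, h2, -, h4⟩ := ggb_mem_faces.1 hf
  exact ⟨h1.1, ggb_mem_cells.2 ⟨h2.1, h4.1⟩, ggb_mem_cells.2 ⟨h2.2, h4.2⟩⟩

variable {m₁ m₂ : ℕ} {W : EgWin c m₁ m₂}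

/-- a face inside the window of a box stays in the box -/
theorem ggb_face_box (hW : GgbWin c P t b W) {f : Face c} (hf : W.FaceIn f) :
    f.1 ∈ (pcut c P t).box b ∧ fnb c f ∈ (pcut c P t).box b ∧ IsFace c f ∧ f ∉ (pcut c P t).sm := by
  have h1 : f.1 ∈ (pcut c P t).box b := by
    obtain ⟨κ, -, e⟩ := hf
    exact (hW.mem _).2 ⟨κ, e⟩
  obtain ⟨h2, h3⟩ := (hW.face f h1).1 hf
  refine ⟨h1, ?_, h2, h3⟩
  have e := pc_ok P t f h2 h3
  unfold Cut.box at h1 ⊢
  rw [Finset.mem_filter] at h1 ⊢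
  exact ⟨Finset.mem_univ _, e.trans h1.2⟩

theorem ggb_fits (hW : GgbWin c P t b W) : W.Fits (ggbTop c R P A U t b) := by
  constructor
  · intro i hi
    exact (hW.mem i).1 (ggb_mem_cells.1 hi).2
  · intro f hf
    obtain ⟨h1, -, h3, h4⟩ := ggb_mem_faces.1 hf
    exact (hW.face f h4.1).2 ⟨h1.1, h3⟩

/-- **the shape of a piece of a union of tiles has Lipschitz components** -/
theorem ggb_nodiag (h : Adm c R) (hc : Whole c) (hU : RC c R U) (hW : GgbWin c P t b W) (A' : Finset Tile) :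
    (W.shape (ggbTop c R P (cellsOf c R A') U t b)).NoDiag := by
  refine gga_nodiag h hc hU W _ ggb_ok (ggb_fits hW) ?_ ?_
  · intro f hf h1 h2
    obtain ⟨b1, b2, b3, b4⟩ := ggb_face_box hW hf
    rw [ggb_mem_faces]
    exact ⟨fun hh => hh.1.2, fun hh => ⟨⟨b3, hh⟩, ⟨(ggb_mem_cells.1 h1).1, (ggb_mem_cells.1 h2).1⟩, b4, b1, b2⟩⟩
  · intro z w1 w2 w3 _
    rw [ggb_cells]
    obtain ⟨b1, b2, b3, -⟩ := ggb_face_box hW w1
    obtain ⟨-, d2, d3, -⟩ := ggb_face_box hW w2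
    obtain ⟨-, e2, -, -⟩ := ggb_face_box hW w3
    exact gl_pres_sat h A' _ z b3 d3 ⟨b1, b2, d2, e2⟩

/-- cutting an event -/
theorem ggb_cut (k : EvId) : (ggbTop c R P A U t b).cut (cutF c R k) = ggbTop c R P A (U.erase k) t b := by
  refine top_ext ?_ ?_
  · show (ggbTop c R P A U t b).cells = _
    rw [ggb_cells, ggb_cells]
  · ext f
    show f ∈ (ggbTop c R P A U t b).faces \ cutF c R k ↔ _
    rw [Finset.mem_sdiff, ggb_mem_faces, ggb_mem_faces, nt_mem_cutF, Finset.mem_erase]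
    by_cases e : tile c R (fnb c f) = tile c R f.1 <;> tauto

/-- restoring an event whose core lies deep in the piece -/
theorem ggb_glue {k : EvId} (hA : core c R k ⊆ A) (hb : core c R k ⊆ (pcut c P t).box b)
    (hsm : ∀ f ∈ (pcut c P t).sm, f.1 ∉ core c R k ∨ fnb c f ∉ core c R k) :
    (ggbTop c R P A U t b).glue (cutF c R k) = ggbTop c R P A (insert k U) t b := by
  refine top_ext ?_ ?_
  · show (ggbTop c R P A U t b).cells = _
    rw [ggb_cells, ggb_cells]
  · ext f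
    show f ∈ (ggbTop c R P A U t b).faces ∪ cutF c R k ↔ _
    rw [Finset.mem_union, ggb_mem_faces, ggb_mem_faces, Finset.mem_insert]
    constructor
    · rintro (hh | hh)
      · exact ⟨⟨hh.1.1, hh.1.2.imp id Or.inr⟩, hh.2⟩
      · obtain ⟨c1, c2, c3⟩ := nt_cutF_core hh
        refine ⟨⟨c1, Or.inr (Or.inl (nt_mem_cutF.1 hh).2)⟩, ⟨hA c2, hA c3⟩, fun hs => ?_, hb c2, hb c3⟩
        rcases hsm f hs with h' | h'
        · exact h' c2
        · exact h' c3
    · rintro ⟨⟨c1, c2⟩, c3⟩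
      by_cases e : tile c R (fnb c f) = tile c R f.1
      · exact Or.inl ⟨⟨c1, Or.inl e⟩, c3⟩
      · rcases c2 with c2 | c2 | c2
        · exact absurd c2 e
        · exact Or.inr (nt_mem_cutF.2 ⟨⟨c1, e⟩, c2⟩)
        · exact Or.inl ⟨⟨c1, Or.inr c2⟩, c3⟩

/-- a region deep in the piece sees the uncut topology -/
theorem ggb_restr {A' : Finset c.I} (hA : A' ⊆ A) (hb : A' ⊆ (pcut c P t).box b)
    (hsm : ∀ f ∈ (pcut c P t).sm, f.1 ∉ A' ∨ fnb c f ∉ A') :
    (ggbTop c R P A U t b).restr A' = (topU c R U).restr A' := by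
  refine top_ext ?_ ?_
  · show (ggbTop c R P A U t b).cells ∩ A' = (topU c R U).cells ∩ A'
    rw [ggb_cells, topU_cells, Finset.univ_inter]
    exact Finset.inter_eq_right.2 (Finset.subset_inter hA hb)
  · ext f
    rw [nt_mem_restr_faces, nt_mem_restr_faces, ggb_mem_faces, mem_topU_faces]
    constructor
    · rintro ⟨hh, h2⟩
      exact ⟨hh.1, h2⟩
    · rintro ⟨hh, h2, h3⟩
      refine ⟨⟨hh, ⟨hA h2, hA h3⟩, fun hs => ?_, hb h2, hb h3⟩, h2, h3⟩
      rcases hsm f hs with h' | h'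
      · exact h' h2
      · exact h' h3

/-! ## 3. Deep marks -/

theorem ggb_deep {S : Finset EvId} {k : EvId} (hk : k ∈ (pcut c P t).keptB R S b) :
    k ∈ S ∧ tpatch c R k ⊆ (pcut c P t).box b ∧ ∀ f ∈ (pcut c P t).sm, f.1 ∉ tpatch c R k ∨ fnb c f ∉ tpatch c R k := by
  classical
  unfold Cut.keptB at hk
  obtain ⟨h1, h2, h3⟩ := Finset.mem_filter.1 hk
  refine ⟨h1, fun i hi => ?_, h3⟩
  unfold Cut.box
  exact Finset.mem_filter.2 ⟨Finset.mem_univ _, h2 i hi⟩

/-- horizontal edge tile: the end column of the edge tile and the adjacent column of the vertex tile of `(xj, yj)`, in the row `y0` -/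
theorem ggb_nr_h (h : Adm c R) {a b : ℕ} {x0 y0 xj yj : Fin c.n} (h0 : tile c R (x0, y0) = (true, true, a, b))
    (hB0 : Box c R (true, true, a, b) 0 (x0, y0)) (hBj : Box c R (true, true, a, b) (R / 8) (xj, yj))
    (hV : (tile c R (xj, yj)).1 = false ∧ (tile c R (xj, yj)).2.1 = true) :
    ∃ xE xV : Fin c.n, tile c R (xE, y0) = (true, true, a, b) ∧ tile c R (xV, y0) = tile c R (xj, yj) ∧
      ((xV : ℕ) + 1 = xE ∨ (xE : ℕ) + 1 = xV) := by
  have h64 := h.d64
  have hp := h.pos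
  obtain ⟨⟨p1, p2, p3⟩, wy0⟩ : Win c R 0 a (R / 4 - 0) (3 * (R / 4) + 0) x0 ∧ Win c R (R / 2) b (7 * (R / 16) - 1 - 0) (9 * (R / 16) + 1 + 0) y0 := hB0
  obtain ⟨⟨q1, q2, q3⟩, wyj⟩ : Win c R 0 a (R / 4 - R / 8) (3 * (R / 4) + R / 8) xj ∧ Win c R (R / 2) b (7 * (R / 16) - 1 - R / 8) (9 * (R / 16) + 1 + R / 8) yj := hBj
  rw [Nat.add_zero] at p1 p2 p3 q1 q2 q3
  rw [red_div h] at p1 q1
  have d0 := Nat.div_add_mod (x0 : ℕ) R
  have dj := Nat.div_add_mod (xj : ℕ) R
  rw [p1] at d0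
  rw [q1] at dj
  have l0 := x0.2
  have lj := xj.2
  have wy0' : Win c R (R / 2) b (R / 4) (3 * (R / 4)) y0 := wy0.mono (by omega) (by omega)
  have wyj' : Win c R (R / 2) b (R / 4) (3 * (R / 4)) yj := wyj.mono (by omega) (by omega)
  have hjV : (xj : ℕ) % R < R / 4 ∨ 3 * (R / 4) ≤ (xj : ℕ) % R := by
    rcases tile_cases h (xj, yj) with ⟨c1, e1⟩ | ⟨c1, e1⟩ | ⟨c1, e1⟩ | ⟨c1, e1⟩
    · exact c1.1
    · rw [e1] at hV; exact absurd hV.1 (by simp)
    · rw [e1] at hV; exact absurd hV.1 (by simp)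
    · rw [e1] at hV; exact absurd hV.2 (by simp)
  have hE : ∀ xE : Fin c.n, (xE : ℕ) / R = a → (R / 4 ≤ (xE : ℕ) % R ∧ (xE : ℕ) % R < 3 * (R / 4)) → tile c R (xE, y0) = (true, true, a, b) := by
    intro xE e1 e2
    have t0 := lg_tile_mid h (x := x0) ⟨by omega, by omega⟩ y0
    have tE := lg_tile_mid h e2 y0
    rw [h0] at t0
    by_cases q : ((y0 : ℕ) + R / 16) % R < R / 8
    · rw [if_pos q] at t0 tE
      rw [tE, t0, e1, p1]
    · rw [if_neg q] at t0
      exact absurd (congrArg Prod.fst t0) (by simp)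
  rcases hjV with hL | hR
  · -- the left end
    have wV : ∀ x : Fin c.n, (∃ u, (x : ℕ) = R * a + u ∧ u < R / 4) → Win c R (R / 2) (red c R a) (R / 4) (3 * (R / 4)) x := by
      rintro x ⟨u, e, hu⟩
      obtain ⟨z1, z2⟩ := dm_of (R := R) (x := (x : ℕ) + R / 2) (a := a) (u := u + R / 2) (by omega) (by omega)
      exact ⟨by rw [z1], by omega, by omega⟩
    refine ⟨⟨R * a + R / 4, by omega⟩, ⟨R * a + R / 4 - 1, by omega⟩, ?_, ?_, Or.inl ?_⟩
    · obtain ⟨z1, z2⟩ := dm_of (R := R) (x := R * a + R / 4) (a := a) (u := R / 4) rfl (by omega)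
      exact hE _ z1 (by show R / 4 ≤ (R * a + R / 4) % R ∧ (R * a + R / 4) % R < 3 * (R / 4); omega)
    · rw [lg_tile_V h (wV _ ⟨R / 4 - 1, by show R * a + R / 4 - 1 = _; omega, by omega⟩) wy0',
        lg_tile_V h (wV xj ⟨(xj : ℕ) % R, by omega, hL⟩) wyj']
    · show R * a + R / 4 - 1 + 1 = R * a + R / 4
      omega
  · -- the right end
    have wV : ∀ x : Fin c.n, (∃ u, (x : ℕ) = R * a + u ∧ 3 * (R / 4) ≤ u ∧ u < R) → Win c R (R / 2) (red c R (a + 1)) (R / 4) (3 * (R / 4)) x := by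
      rintro x ⟨u, e, hu, hu'⟩
      obtain ⟨z1, z2⟩ := dm_of (R := R) (x := (x : ℕ) + R / 2) (a := a + 1) (u := u - R / 2) (by rw [Nat.mul_add, Nat.mul_one]; omega) (by omega)
      exact ⟨by rw [z1], by omega, by omega⟩
    refine ⟨⟨R * a + 3 * (R / 4) - 1, by omega⟩, ⟨R * a + 3 * (R / 4), by omega⟩, ?_, ?_, Or.inr ?_⟩
    · obtain ⟨z1, z2⟩ := dm_of (R := R) (x := R * a + 3 * (R / 4) - 1) (a := a) (u := 3 * (R / 4) - 1) (by omega) (by omega)
      exact hE _ z1 (by show R / 4 ≤ (R * a + 3 * (R / 4) - 1) % R ∧ (R * a + 3 * (R / 4) - 1) % R < 3 * (R / 4); omega)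
    · rw [lg_tile_V h (wV _ ⟨3 * (R / 4), rfl, le_rfl, by omega⟩) wy0',
        lg_tile_V h (wV xj ⟨(xj : ℕ) % R, by omega, hR, Nat.mod_lt _ hp⟩) wyj']
    · show R * a + 3 * (R / 4) - 1 + 1 = R * a + 3 * (R / 4)
      omega

/-- the conclusion from a face between the edge tile and the vertex tile -/
theorem ggb_nr_fin (h : Adm c R) {k : EvId} (hE : k.1 = true) {j i j' : c.I} {g : Face c} (hF : IsFace c g)
    (hij : (i = g.1 ∧ j' = fnb c g) ∨ (i = fnb c g ∧ j' = g.1)) (ti : tile c R i = k) (tj : tile c R j' = tile c R j)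
    (hV : (tile c R j).1 = false ∧ (tile c R j).2.1 = true) :
    tile c R j ∈ events c R ∧ ¬ Disjoint (patch c R (tile c R j)) (patch c R k) := by
  have hne' : tile c R j' ≠ tile c R i := by
    intro e
    rw [tj, ti] at e
    have := congrArg Prod.fst e
    rw [hV.1, hE] at this
    exact absurd this (by simp)
  have hne : tile c R (fnb c g) ≠ tile c R g.1 := by
    rcases hij with ⟨rfl, rfl⟩ | ⟨rfl, rfl⟩
    · exact hne'
    · exact hne'.symm
  have hg : g ∈ seam c R := mem_seam.2 ⟨hF, hne⟩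
  obtain ⟨-, e2, e3⟩ := gl_end_ring h hg hij (by rw [ti]; exact hE) (by rw [tj]; exact hV)
  rw [tj, ti] at e3
  rw [tj] at e2
  exact ⟨e2 ▸ Finset.mem_image_of_mem _ hg, e3⟩

/-- L-GG-RING.  **A vertex tile near the core of an edge event is one of its two end rings**: it is an event and the two patches meet.
`k = (true, d, a, b)`; by `lg_core_swap`, `tile_swap` one may take `d = true`: `core ⊆ Box k 0` (`core_box`), `nbh_box`: `j ∈ Box k (R/8)`, so the vertex tile of `j` is `(false, true, a, b)` or `(false, true, a + 1, b)` (`tile_cases`, `Win`);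
the cell of the edge tile at this end (`lg_cell_at`) and its neighbour in the vertex tile give a seam face `g` to which `gl_end_ring` applies. -/
theorem ggb_near_ring (h : Adm c R) {k : EvId} (hk : k ∈ events c R) (hE : k.1 = true) {j : c.I} (hj : j ∈ nbh c (R / 8) (core c R k))
    (hV : (tile c R j).1 = false ∧ (tile c R j).2.1 = true) :
    tile c R j ∈ events c R ∧ ¬ Disjoint (patch c R (tile c R j)) (patch c R k) := by
  obtain ⟨j0, hj0, tj0⟩ := event_eq_tile hk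
  have B0 := core_box h hj0
  have Bj := nbh_box h le_rfl hj
  obtain ⟨x0, y0⟩ := j0
  obtain ⟨xj, yj⟩ := j
  obtain ⟨e, d, a, b⟩ := k
  simp only at hE
  subst hE
  cases d
  · -- vertical edge tile: exchange the coordinates
    have s0 : tile c R (y0, x0) = (true, true, b, a) := by rw [tile_swap h, tj0]; rfl
    have sB0 : Box c R (true, true, b, a) 0 (y0, x0) := (Box_swap (true, false, a, b) 0 x0 y0).2 B0
    have sBj : Box c R (true, true, b, a) (R / 8) (yj, xj) := (Box_swap (true, false, a, b) (R / 8) xj yj).2 Bj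
    have sV : (tile c R (yj, xj)).1 = false ∧ (tile c R (yj, xj)).2.1 = true := by
      rw [tile_swap h]
      obtain ⟨v1, v2⟩ := hV
      simp [swT, v1, v2]
    obtain ⟨yE, yV, t1, t2, hadj⟩ := ggb_nr_h h s0 sB0 sBj sV
    have t1' : tile c R (x0, yE) = (true, false, a, b) := by rw [tile_swap h, t1]; rfl
    have t2' : tile c R (x0, yV) = tile c R (xj, yj) := by rw [tile_swap h, t2, tile_swap h, swT_swT]
    rcases hadj with e | e
    · exact ggb_nr_fin h rfl (g := ((x0, yV), false)) (i := (x0, yE)) (j' := (x0, yV))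
        (Or.inr (by show (yV : ℕ) + 1 < c.n; rw [e]; exact yE.2))
        (Or.inr ⟨by show (x0, yE) = (x0, nx yV); rw [lg_nx e], rfl⟩) t1' t2' hV
    · exact ggb_nr_fin h rfl (g := ((x0, yE), false)) (i := (x0, yE)) (j' := (x0, yV))
        (Or.inr (by show (yE : ℕ) + 1 < c.n; rw [e]; exact yV.2))
        (Or.inl ⟨rfl, by show (x0, yV) = (x0, nx yE); rw [lg_nx e]⟩) t1' t2' hV
  · obtain ⟨xE, xV, t1, t2, hadj⟩ := ggb_nr_h h tj0 B0 Bj hV
    rcases hadj with e | e
    · exact ggb_nr_fin h rfl (g := ((xV, y0), true)) (i := (xE, y0)) (j' := (xV, y0))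
        (Or.inr (by show (xV : ℕ) + 1 < c.n; rw [e]; exact xE.2))
        (Or.inr ⟨by show (xE, y0) = (nx xV, y0); rw [lg_nx e], rfl⟩) t1 t2 hV
    · exact ggb_nr_fin h rfl (g := ((xE, y0), true)) (i := (xE, y0)) (j' := (xV, y0))
        (Or.inr (by show (xE : ℕ) + 1 < c.n; rw [e]; exact xV.2))
        (Or.inl ⟨rfl, by show (xV, y0) = (nx xE, y0); rw [lg_nx e]⟩) t1 t2 hV

/-- the vertex tiles near an edge mark are cut in every halo topology -/
theorem ggb_ring_cut (h : Adm c R) {S O : Finset EvId} (hS : Valid c R S) (hO : O ⊆ S) {k : EvId} (hk : k ∈ S) (hE : k.1 = true) {j : c.I}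
    (hj : j ∈ nbh c (R / 8) (core c R k)) (hV : (tile c R j).1 = false ∧ (tile c R j).2.1 = true) : tile c R j ∉ skp c R S ∪ O := by
  intro he
  rcases Finset.mem_union.1 he with he | he
  · have := (mem_skp.1 he).2.1
    rw [hV.1] at this
    exact absurd this (by simp)
  · have hks : k ∈ skp c R S := mem_skp.2 ⟨hS.1 hk, hE, tile c R j, hO he, hV.1, (ggb_near_ring h (hS.1 hk) hE hj hV).2⟩
    exact Finset.disjoint_left.1 hS.2 hk hks

/-- the event of a seam face with exactly one end in a vertex tile -/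
theorem ggb_key_V (h : Adm c R) {f : Face c} (hF : IsFace c f) (hne : tile c R (fnb c f) ≠ tile c R f.1) {i j : c.I}
    (hij : (i = f.1 ∧ j = fnb c f) ∨ (i = fnb c f ∧ j = f.1)) (hV : (tile c R j).1 = false ∧ (tile c R j).2.1 = true) : evKey c R f = tile c R j := by
  have hi : ¬ ((tile c R i).1 = false ∧ (tile c R i).2.1 = true) := by
    intro hi
    rcases hij with ⟨rfl, rfl⟩ | ⟨rfl, rfl⟩
    · exact hne (gl_VV h hF hi hV)
    · exact hne (gl_VV h hF hV hi)
  rw [evKey_eq]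
  rcases hij with ⟨rfl, rfl⟩ | ⟨rfl, rfl⟩
  · exact (lg_key_V hi hV).1
  · exact (lg_key_V hi hV).2

/-- a cell of a core in a vertex tile: the event is this tile -/
theorem ggb_core_V (h : Adm c R) {k : EvId} {j : c.I} (hj : j ∈ core c R k) (hV : (tile c R j).1 = false ∧ (tile c R j).2.1 = true) : tile c R j = k := by
  obtain ⟨f, hf, e, hjf⟩ := mem_core.1 hj
  obtain ⟨hF, hne⟩ := mem_seam.1 hf
  rw [← e]
  rcases hjf with rfl | rfl
  · exact (ggb_key_V h hF hne (Or.inr ⟨rfl, rfl⟩) hV).symm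
  · exact (ggb_key_V h hF hne (Or.inl ⟨rfl, rfl⟩) hV).symm

/-- **a retained face which starts in the tiles of a mark and ends near its core ends in the tiles of the mark** -/
theorem ggb_stay (h : Adm c R) {S O : Finset EvId} (hS : Valid c R S) (hO : O ⊆ S) {k : EvId} (hk : k ∈ S) {f : Face c} (hF : IsFace c f)
    (hu : tile c R (fnb c f) = tile c R f.1 ∨ evKey c R f ∈ skp c R S ∪ O) {i j : c.I} (hij : (i = f.1 ∧ j = fnb c f) ∨ (i = fnb c f ∧ j = f.1))
    (hi : i ∈ ctl c R k) (hj : j ∈ nbh c (R / 8) (core c R k)) : j ∈ ctl c R k := by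
  rcases lg_cover h (hS.1 hk) le_rfl hj with q | ⟨hE, hV⟩
  · exact lg_mem_ctl.2 q
  · by_cases e : tile c R (fnb c f) = tile c R f.1
    · obtain ⟨j', hj', e'⟩ := lg_mem_ctl.1 hi
      refine lg_mem_ctl.2 ⟨j', hj', e'.trans ?_⟩
      rcases hij with ⟨rfl, rfl⟩ | ⟨rfl, rfl⟩
      · exact e.symm
      · exact e
    · rcases hu with hu | hu
      · exact absurd hu e
      · rw [ggb_key_V h hF e hij hV] at hu
        exact absurd hu (ggb_ring_cut h hS hO hk hE hj hV)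

theorem ggb_num (h : Adm c R) : 1 ≤ R / 64 ∧ R / 64 + 1 ≤ R / 32 ∧ R / 32 ≤ R / 16 ∧ R / 32 ≤ R / 8 ∧ R / 64 ≤ R / 8 := by
  obtain ⟨r, rfl⟩ := h.d64
  have := h.pos
  omega

/-- **the metric hypotheses on a deep mark of a piece** -/
theorem ggb_geo (h : Adm c R) {S O : Finset EvId} (hS : Valid c R S) (hO : O ⊆ S) {k : EvId} (hk : k ∈ (pcut c P t).keptB R S b) :
    (evMark c R k).Geo (hPiece c R P S O t b) (R / 64) := by
  classical
  obtain ⟨hkS, hbox, hsm⟩ := ggb_deep hk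
  obtain ⟨n1, n2, n3, n4, n5⟩ := ggb_num h
  have hev := hS.1 hkS
  have hhal : tpatch c R k ⊆ halC c R S := tpatch_subset_halC h (Finset.mem_union_left _ hkS)
  have hcore : core c R k ⊆ tpatch c R k := (core_subset_patch k).trans (patch_subset_tpatch k)
  have hnsk : k ∉ skp c R S := fun hh => Finset.disjoint_left.1 hS.2 hkS hh
  rw [ggb_hPiece]
  -- one step from the interior stays in the patch
  have step : ∀ f ∈ (ggbTop c R P (halC c R S) (skp c R S ∪ O) t b).faces ∪ cutF c R k, ∀ i j : c.I,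
      ((i = f.1 ∧ j = fnb c f) ∨ (i = fnb c f ∧ j = f.1)) → i ∈ inner c R k → j ∈ inner c R k ∪ guard c R k := by
    intro f hf i j hij hi
    have hjp : j ∈ patch c R k := by
      rcases Finset.mem_union.1 hf with hf | hf
      · obtain ⟨⟨hF, hu⟩, -⟩ := ggb_mem_faces.1 hf
        obtain ⟨hi1, hi2⟩ := Finset.mem_inter.1 hi
        obtain ⟨a, ha, hd⟩ := mem_nbh.1 hi1
        have hd1 : c.idist i j ≤ 1 := by
          rcases hij with ⟨rfl, rfl⟩ | ⟨rfl, rfl⟩
          · exact idist_face hF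
          · rw [geo_idist_comm]; exact idist_face hF
        have hjn : j ∈ nbh c (R / 32) (core c R k) := mem_nbh.2 ⟨a, ha, (geo_idist_triangle c a i j).trans (by omega)⟩
        exact Finset.mem_inter.2 ⟨hjn, ggb_stay h hS hO hkS hF hu hij hi2 (nbh_mono n4 (Finset.Subset.refl _) hjn)⟩
      · obtain ⟨-, c2, c3⟩ := nt_cutF_core hf
        rcases hij with ⟨-, rfl⟩ | ⟨-, rfl⟩
        · exact core_subset_patch k c3
        · exact core_subset_patch k c2
    by_cases hji : j ∈ inner c R k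
    · exact Finset.mem_union_left _ hji
    · exact Finset.mem_union_right _ (Finset.mem_sdiff.2 ⟨hjp, hji⟩)
  refine ⟨?_, fun f hf => nt_cutF_core hf, core_subset_inner k, inner_subset_patch k, Finset.sdiff_subset, ?_, Finset.disjoint_sdiff, ?_, ?_⟩
  · -- cur
    by_cases hkO : k ∈ O
    · left
      intro f hf
      obtain ⟨c1, c2, c3⟩ := nt_cutF_core hf
      refine ggb_mem_faces.2 ⟨⟨c1, Or.inr ?_⟩, ⟨hhal (hcore c2), hhal (hcore c3)⟩, fun hs => ?_, hbox (hcore c2), hbox (hcore c3)⟩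
      · rw [(nt_mem_cutF.1 hf).2]
        exact Finset.mem_union_right _ hkO
      · rcases hsm f hs with h' | h'
        · exact h' (hcore c2)
        · exact h' (hcore c3)
    · right
      rw [Finset.disjoint_left]
      intro f hf hfT
      obtain ⟨⟨-, hne⟩, e⟩ := nt_mem_cutF.1 hf
      rcases (ggb_mem_faces.1 hfT).1.2 with hu | hu
      · exact hne hu
      · rw [e] at hu
        rcases Finset.mem_union.1 hu with hu | hu
        · exact hnsk hu
        · exact hkO hu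
  · -- O_sub
    intro i hi
    exact ggb_mem_cells.2 ⟨hhal (patch_subset_tpatch k hi), hbox (patch_subset_tpatch k hi)⟩
  · -- sepG
    intro f hf
    exact ⟨fun hi => step f hf _ _ (Or.inl ⟨rfl, rfl⟩) hi, fun hi => step f hf _ _ (Or.inr ⟨rfl, rfl⟩) hi⟩
  · -- far
    refine ⟨Finset.univ.filter fun j => ((tile c R j).1 = false ∧ (tile c R j).2.1 = true) → tile c R j ∈ insert k (skp c R S ∪ O), ?_, ?_, ?_⟩
    · intro j hj
      refine Finset.mem_filter.2 ⟨Finset.mem_univ _, fun hV => ?_⟩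
      obtain ⟨j', hj', e⟩ := lg_mem_ctl.1 (Finset.mem_inter.1 hj).2
      rw [← e] at hV ⊢
      exact Finset.mem_insert.2 (Or.inl (ggb_core_V h hj' hV))
    · intro f hf
      have hfu : IsFace c f ∧ (tile c R (fnb c f) = tile c R f.1 ∨ evKey c R f ∈ insert k (skp c R S ∪ O)) := by
        rcases Finset.mem_union.1 hf with hf | hf
        · obtain ⟨⟨hF, hu⟩, -⟩ := ggb_mem_faces.1 hf
          exact ⟨hF, hu.imp id (Finset.mem_insert_of_mem)⟩
        · obtain ⟨⟨hF, -⟩, e⟩ := nt_mem_cutF.1 hf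
          exact ⟨hF, Or.inr (Finset.mem_insert.2 (Or.inl e))⟩
      obtain ⟨hF, hu⟩ := hfu
      simp only [Finset.mem_filter, Finset.mem_univ, true_and]
      by_cases e : tile c R (fnb c f) = tile c R f.1
      · rw [e]
      · have hu' : evKey c R f ∈ insert k (skp c R S ∪ O) := hu.resolve_left e
        constructor
        · intro _ hV
          rw [← ggb_key_V h hF e (Or.inl ⟨rfl, rfl⟩) hV]
          exact hu'
        · intro _ hV
          rw [← ggb_key_V h hF e (Or.inr ⟨rfl, rfl⟩) hV]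
          exact hu'
    · intro i hi j hj hjD
      by_contra hlt
      have hjn : j ∈ nbh c (R / 64) (core c R k) := mem_nbh.2 ⟨i, hi, by omega⟩
      have hjc : j ∉ ctl c R k := fun hh => hjD (Finset.mem_inter.2 ⟨hjn, hh⟩)
      rcases lg_cover h hev n5 hjn with q | ⟨hE, hV⟩
      · exact hjc (lg_mem_ctl.2 q)
      · rcases Finset.mem_insert.1 ((Finset.mem_filter.1 hj).2 hV) with e | e
        · rw [e, hE] at hV
          exact absurd hV.1 (by simp)
        · exact ggb_ring_cut h hS hO hkS hE (nbh_mono n5 (Finset.Subset.refl _) hjn) hV e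

/-- the two patches of a deep mark of a piece are the patches of the path without marks -/
theorem ggb_patch (h : Adm c R) {S O : Finset EvId} (hS : Valid c R S) (hO : O ⊆ S) {k : EvId} (hk : k ∈ (pcut c P t).keptB R S b) :
    egPo (hPiece c R P S O t b) (evMark c R k) = topO c R k ∧ egPc (hPiece c R P S O t b) (evMark c R k) = topC c R k := by
  obtain ⟨hkS, hbox, hsm⟩ := ggb_deep hk
  have hhal : tpatch c R k ⊆ halC c R S := tpatch_subset_halC h (Finset.mem_union_left _ hkS)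
  have hcore : core c R k ⊆ tpatch c R k := (core_subset_patch k).trans (patch_subset_tpatch k)
  have hpt := patch_subset_tpatch (c := c) (R := R) k
  have hsm' : ∀ (A' : Finset c.I), A' ⊆ tpatch c R k → ∀ f ∈ (pcut c P t).sm, f.1 ∉ A' ∨ fnb c f ∉ A' := fun A' hA' f hf =>
    (hsm f hf).imp (fun q q' => q (hA' q')) (fun q q' => q (hA' q'))
  obtain ⟨e1, e2⟩ := halo_patch h hS (U := skp c R S ∪ O) Finset.subset_union_left (Finset.union_subset_union_right hO) hkS
  rw [ggb_hPiece]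
  constructor
  · show ((ggbTop c R P (halC c R S) (skp c R S ∪ O) t b).glue (cutF c R k)).restr (patch c R k) = _
    rw [ggb_glue (hcore.trans hhal) (hcore.trans hbox) (hsm' _ hcore), ggb_restr (hpt.trans hhal) (hpt.trans hbox) (hsm' _ hpt), e1]
  · show ((ggbTop c R P (halC c R S) (skp c R S ∪ O) t b).cut (cutF c R k)).restr (patch c R k) = _
    rw [ggb_cut, ggb_restr (hpt.trans hhal) (hpt.trans hbox) (hsm' _ hpt), e2]

/-- **a deep mark of a piece is a deep mark in the window of the box**; also the restored open patch has Lipschitz components -/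
theorem ggb_mark (h : Adm c R) (hc : Whole c) (hW : GgbWin c P t b W) {S O : Finset EvId} (hS : Valid c R S) (hO : O ⊆ S) {k : EvId}
    (hk : k ∈ (pcut c P t).keptB R S b) :
    (evMark c R k).Ok W (hPiece c R P S O t b) (R / 64) ∧ (W.shape (topO c R k)).NoDiag := by
  obtain ⟨hkS, hbox, hsm⟩ := ggb_deep hk
  obtain ⟨n1, n2, n3, n4, n5⟩ := ggb_num h
  have hev := hS.1 hkS
  have hhal : tpatch c R k ⊆ halC c R S := tpatch_subset_halC h (Finset.mem_union_left _ hkS)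
  have hcore : core c R k ⊆ tpatch c R k := (core_subset_patch k).trans (patch_subset_tpatch k)
  have hnsk : k ∉ skp c R S := fun hh => Finset.disjoint_left.1 hS.2 hkS hh
  obtain ⟨eO, eC⟩ := ggb_patch (P := P) (t := t) (b := b) h hS hO hk
  have hfW : ∀ f ∈ cutF c R k, W.FaceIn f := by
    intro f hf
    obtain ⟨c1, c2, c3⟩ := nt_cutF_core hf
    refine (hW.face f (hbox (hcore c2))).2 ⟨c1, fun hs => ?_⟩
    rcases hsm f hs with h' | h'
    · exact h' (hcore c2)
    · exact h' (hcore c3)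
  have hfit : W.Fits (hPiece c R P S O t b) := ggb_fits hW
  have hPr : ∀ z : c.I, IsFace c (z, true) → IsFace c (z, false) → Pres c R (patch c R k) z := fun z z1 z2 =>
    gl_pres_nbh h hev (by omega) n3 z z1 z2
  refine ⟨⟨ggb_geo h hS hO hk, hfW, ?_, ?_, ?_⟩, ?_⟩
  · show (W.shape ((hPiece c R P S O t b).cut (cutF c R k))).NoDiag
    rw [ggb_hPiece, ggb_cut]
    have e : (skp c R S ∪ O).erase k = skp c R S ∪ O.erase k := by
      rw [Finset.erase_union_distrib, Finset.erase_eq_of_notMem hnsk]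
    rw [e]
    exact ggb_nodiag h hc (gl_rc_halo h hS ((Finset.erase_subset _ _).trans hO)) hW _
  · show (W.shape ((hPiece c R P S O t b).glue (cutF c R k))).NoDiag
    rw [ggb_hPiece, ggb_glue (hcore.trans hhal) (hcore.trans hbox)
      (fun f hf => (hsm f hf).imp (fun q q' => q (hcore q')) (fun q q' => q (hcore q')))]
    have e : insert k (skp c R S ∪ O) = skp c R S ∪ insert k O := by
      rw [Finset.union_insert]
    rw [e]
    exact ggb_nodiag h hc (gl_rc_halo h hS (Finset.insert_subset hkS hO)) hW _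
  · have hf : W.Fits (egPc (hPiece c R P S O t b) (evMark c R k)) := eg_fits_restr W _ (eg_fits_cut W _ hfit _) _
    rw [eC] at hf ⊢
    exact gga_nodiag_restr h hc (gl_rc_pre' h k) W (patch c R k) hf hPr
  · have hf : W.Fits (egPo (hPiece c R P S O t b) (evMark c R k)) := eg_fits_restr W _ (eg_fits_glue W _ hfit _ hfW) _
    rw [eO] at hf
    exact gga_nodiag_restr h hc (gl_rc_pre h k) W (patch c R k) hf hPr

/-! ## 4. Exit -/

/-- **the field `box` of `GoodGeo`** (with the shape of the restored open patch, asked by helper255) -/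
theorem ggb_box (h : Adm c R) (hc : Whole c) (hRP : R ∣ P) (hPn : P ≤ c.n) (S O : Finset EvId) (t b : ℕ × ℕ) (hS : Valid c R S) (hO : O ⊆ S)
    (ht : t ∈ pcuts R P) :
    (hPiece c R P S O t b).Ok ∧ ∃ (m₁ m₂ : ℕ) (W : EgWin c m₁ m₂), m₁ ≤ 2 * P ∧ m₂ ≤ 2 * P ∧ W.Fits (hPiece c R P S O t b) ∧
      (W.shape (hPiece c R P S O t b)).NoDiag ∧
      ∀ k ∈ (pcut c P t).keptB R S b, ((evMark c R k).Ok W (hPiece c R P S O t b) (R / 64) ∧
        egPo (hPiece c R P S O t b) (evMark c R k) = topO c R k ∧ egPc (hPiece c R P S O t b) (evMark c R k) = topC c R k) ∧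
        (W.shape (topO c R k)).NoDiag := by
  obtain ⟨m₁, m₂, W, hW⟩ := ggb_win (c := c) (pc_lt h.pos hRP ht) hPn b
  refine ⟨ggb_ok, m₁, m₂, W, hW.le₁, hW.le₂, ggb_fits hW, ggb_nodiag h hc (gl_rc_halo h hS hO) hW _, fun k hk => ?_⟩
  obtain ⟨a1, a2⟩ := ggb_mark h hc hW hS hO hk
  exact ⟨⟨a1, ggb_patch h hS hO hk⟩, a2⟩

theorem ggb_mem_hFaces {S : Finset EvId} {f : Face c} : f ∈ hFaces c R P S t b ↔
    IsFace c f ∧ (f.1 ∈ halC c R S ∧ fnb c f ∈ halC c R S) ∧ f ∉ (pcut c P t).sm ∧ f.1 ∈ (pcut c P t).box b ∧ fnb c f ∈ (pcut c P t).box b := by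
  unfold hFaces Cut.piece
  rw [nt_mem_restr_faces]
  show f ∈ ((Top.full c).restr (halC c R S)).faces \ (pcut c P t).sm ∧ _ ↔ _
  rw [Finset.mem_sdiff, nt_mem_restr_faces, mem_full_faces]
  tauto

/-- **the field `faces` of `GoodGeo`** -/
theorem ggb_faces (h : Adm c R) (hRP : R ∣ P) (hPn : P ≤ c.n) (S O : Finset EvId) (t b : ℕ × ℕ) (hS : Valid c R S) (_hO : O ⊆ S) (ht : t ∈ pcuts R P) :
    (hPiece c R P S O t b).faces ⊆ hFaces c R P S t b ∧ (∀ k ∈ (pcut c P t).keptB R S b, cutF c R k ⊆ hFaces c R P S t b) ∧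
      (hFaces c R P S t b).card ≤ 2 * (2 * P) ^ 2 ∧ ((pcut c P t).keptB R S b).card ≤ (2 * P) ^ 2 := by
  classical
  have hbc := pc_box_card (c := c) (pc_lt h.pos hRP ht) hPn b
  refine ⟨?_, ?_, ?_, ?_⟩
  · intro f hf
    rw [ggb_hPiece] at hf
    obtain ⟨a1, a2⟩ := ggb_mem_faces.1 hf
    exact ggb_mem_hFaces.2 ⟨a1.1, a2⟩
  · intro k hk f hf
    obtain ⟨hkS, hbox, hsm⟩ := ggb_deep hk
    have hhal : tpatch c R k ⊆ halC c R S := tpatch_subset_halC h (Finset.mem_union_left _ hkS)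
    have hcore : core c R k ⊆ tpatch c R k := (core_subset_patch k).trans (patch_subset_tpatch k)
    obtain ⟨c1, c2, c3⟩ := nt_cutF_core hf
    refine ggb_mem_hFaces.2 ⟨c1, ⟨hhal (hcore c2), hhal (hcore c3)⟩, fun hs => ?_, hbox (hcore c2), hbox (hcore c3)⟩
    rcases hsm f hs with h' | h'
    · exact h' (hcore c2)
    · exact h' (hcore c3)
  · have hsub : hFaces c R P S t b ⊆ (pcut c P t).box b ×ˢ (Finset.univ : Finset Bool) := by
      intro f hf
      exact Finset.mem_product.2 ⟨(ggb_mem_hFaces.1 hf).2.2.2.1, Finset.mem_univ _⟩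
    calc (hFaces c R P S t b).card ≤ ((pcut c P t).box b ×ˢ (Finset.univ : Finset Bool)).card := Finset.card_le_card hsub
      _ = ((pcut c P t).box b).card * 2 := by rw [Finset.card_product]; rfl
      _ ≤ 2 * (2 * P) ^ 2 := by omega
  · have hd : ∀ k ∈ (pcut c P t).keptB R S b, ∀ k' ∈ (pcut c P t).keptB R S b, k ≠ k' → Disjoint (patch c R k) (patch c R k') :=
      fun k hk k' hk' hne => valid_patch_disjoint h hS (ggb_deep hk).1 (ggb_deep hk').1 hne
    have h1 : (((pcut c P t).keptB R S b).biUnion (patch c R)).card = ∑ k ∈ (pcut c P t).keptB R S b, (patch c R k).card :=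
      Finset.card_biUnion hd
    have h2 : ((pcut c P t).keptB R S b).card ≤ ∑ k ∈ (pcut c P t).keptB R S b, (patch c R k).card := by
      rw [Finset.card_eq_sum_ones]
      refine Finset.sum_le_sum fun k hk => ?_
      obtain ⟨i, hi⟩ := core_ne (hS.1 (ggb_deep hk).1)
      exact Finset.card_pos.2 ⟨i, core_subset_patch k hi⟩
    have h3 : ((pcut c P t).keptB R S b).biUnion (patch c R) ⊆ (pcut c P t).box b := by
      intro i hi
      obtain ⟨k, hk, hik⟩ := Finset.mem_biUnion.1 hi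
      exact (ggb_deep hk).2.1 (patch_subset_tpatch k hik)
    calc ((pcut c P t).keptB R S b).card ≤ (((pcut c P t).keptB R S b).biUnion (patch c R)).card := by rw [h1]; exact h2
      _ ≤ ((pcut c P t).box b).card := Finset.card_le_card h3
      _ ≤ (2 * P) ^ 2 := hbc

/-! ## 5. The unit sector: `GoodGeoU`      (helper161, 050a2243f; restored here verbatim after the two files of the same name collided) -/

theorem ggb_src_mem {i : c.I} : i ∈ egSrc c ↔ ((i.1 : ℕ) + 1 = c.n / 2 ∨ (i.1 : ℕ) = c.n / 2) ∧ ((i.2 : ℕ) + 1 = c.n / 2 ∨ (i.2 : ℕ) = c.n / 2) := by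
  simp [egSrc]

/-- the labels of the free square are monotone -/
theorem ggb_plab_mono (hfree : G.bc = BC.free) (P t : ℕ) {x x' : Fin c.n} (h : (x : ℕ) ≤ x') : plab c P t x ≤ plab c P t x' := by
  unfold plab pshift
  rw [hfree]
  dsimp only
  exact Nat.div_le_div_right (by omega)

theorem ggb_gaugeB (hfree : G.bc = BC.free) (R P : ℕ) (S : Finset EvId) (t b : ℕ × ℕ)
    (hd : Disjoint ((pcut c P t).box b) (egSrc c)) : EgGauge (hFaces c R P S t b) (tauU c) := by
  refine eg_src_gauge hfree _ (fun f hf => (ggb_mem_hFaces.1 hf).1) ?_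
  by_contra hcon
  rw [not_or] at hcon
  push Not at hcon
  obtain ⟨⟨f, hf, -, hf1, hf2⟩, ⟨f', hf', -, hf1', hf2'⟩⟩ := hcon
  have hb := nt_box_mem.1 (ggb_mem_hFaces.1 hf).2.2.2.1
  have hb' := nt_box_mem.1 (ggb_mem_hFaces.1 hf').2.2.2.1
  have hn : c.n / 2 - 1 < c.n := by have := f.1.1.2; omega
  refine (Finset.disjoint_left.1 hd) (?_ : (f.1.1, (⟨c.n / 2 - 1, hn⟩ : Fin c.n)) ∈ _) ?_
  · rw [nt_box_mem]
    have e1 : plab c P t.1 f.1.1 = b.1 := congrArg Prod.fst hb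
    have e2 : plab c P t.2 f.1.2 = b.2 := congrArg Prod.snd hb
    have e2' : plab c P t.2 f'.1.2 = b.2 := congrArg Prod.snd hb'
    have m1 : plab c P t.2 f'.1.2 ≤ plab c P t.2 ⟨c.n / 2 - 1, hn⟩ := ggb_plab_mono hfree P t.2 (by show (f'.1.2 : ℕ) ≤ c.n / 2 - 1; omega)
    have m2 : plab c P t.2 ⟨c.n / 2 - 1, hn⟩ ≤ plab c P t.2 f.1.2 := ggb_plab_mono hfree P t.2 (by show c.n / 2 - 1 ≤ (f.1.2 : ℕ); omega)
    show (plab c P t.1 f.1.1, plab c P t.2 ⟨c.n / 2 - 1, hn⟩) = b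
    exact Prod.ext e1 (by show plab c P t.2 ⟨c.n / 2 - 1, hn⟩ = b.2; omega)
  · rw [ggb_src_mem]
    exact ⟨Or.inl hf1, Or.inl (by show c.n / 2 - 1 + 1 = c.n / 2; omega)⟩

/-! ### tiles and the source -/

theorem ggb_div {R A y : ℕ} (h1 : R * A ≤ y) (h2 : y < R * A + R) : y / R = A :=
  Nat.div_eq_of_lt_le (by rw [Nat.mul_comm]; exact h1) (by rw [Nat.add_mul, Nat.one_mul, Nat.mul_comm]; exact h2)

/-- a tile which crosses the horizontal line through the source, in the column left of the source, contains a source cell -/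
theorem ggb_col {R : ℕ} (h : Adm c R) (hfree : G.bc = BC.free) {x y y' z : Fin c.n} {A : ℕ} (hx : (x : ℕ) + 1 = R * A) (hy : R * A ≤ (y : ℕ))
    (hy' : (y' : ℕ) < R * A) (hz : (z : ℕ) + 1 = R * A) (e : tile c R (x, y) = tile c R (x, y')) : tile c R (x, z) = tile c R (x, y) := by
  have h64 := h.d64
  have hp := h.pos
  obtain ⟨A', rfl⟩ : ∃ A', A = A' + 1 := by
    rcases A with _ | A'
    · simp at hx
    · exact ⟨A', rfl⟩
  have eA : R * (A' + 1) = R * A' + R := by ring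
  obtain ⟨xd, xm⟩ := dm_of (R := R) (x := (x : ℕ)) (a := A') (u := R - 1) (by omega) (by omega)
  obtain ⟨zd, zm⟩ := dm_of (R := R) (x := (z : ℕ)) (a := A') (u := R - 1) (by omega) (by omega)
  have yd : A' + 1 ≤ (y : ℕ) / R := (Nat.le_div_iff_mul_le hp).2 (by rw [Nat.mul_comm]; exact hy)
  have yd' : (y' : ℕ) / R < A' + 1 := (Nat.div_lt_iff_lt_mul hp).2 (by rw [Nat.mul_comm]; exact hy')
  have T1 := tile_cases h (x, y)
  have T2 := tile_cases h (x, y')
  simp only [red_free hfree] at T1 T2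
  rw [e] at T1
  rcases T1 with ⟨c1, e1⟩ | ⟨c1, e1⟩ | ⟨c1, e1⟩ | ⟨c1, e1⟩ <;> rcases T2 with ⟨c2, e2⟩ | ⟨c2, e2⟩ | ⟨c2, e2⟩ | ⟨c2, e2⟩ <;>
    have e3 := e1.symm.trans e2 <;> simp only [Prod.mk.injEq, Bool.false_eq_true, Bool.true_eq_false, false_and, and_false, true_and] at e3
  · -- both vertex tiles
    rw [e, e2, tile_V (i := (x, z)) ((near_iff h _).2 (by right; show 3 * (R / 4) ≤ (x : ℕ) % R; omega))
      ((near_iff h _).2 (by right; show 3 * (R / 4) ≤ (z : ℕ) % R; omega))]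
    simp only [red_free hfree]
    have q1 : A' + 1 ≤ ((y : ℕ) + R / 4) / R := (Nat.le_div_iff_mul_le hp).2 (by rw [Nat.mul_comm]; omega)
    have q2 : ((y' : ℕ) + R / 4) / R < A' + 1 + 1 := (Nat.div_lt_iff_lt_mul hp).2 (by
      have : (A' + 1 + 1) * R = R * A' + R + R := by ring
      omega)
    have q3 : ((z : ℕ) + R / 4) / R = A' + 1 := ggb_div (by omega) (by omega)
    have q4 : ((y' : ℕ) + R / 4) / R = A' + 1 := by omega
    show (false, true, ((x : ℕ) + R / 4) / R, ((z : ℕ) + R / 4) / R) = (false, true, ((x : ℕ) + R / 4) / R, ((y' : ℕ) + R / 4) / R)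
    rw [q3, q4]
  · exfalso; omega
  · exfalso; omega
  · exfalso; omega

theorem ggb_mem_tileTop {R : ℕ} {t : Tile} {f : Face c} : f ∈ (tileTop c R t).faces ↔ IsFace c f ∧ tile c R f.1 = t ∧ tile c R (fnb c f) = t := by
  unfold tileTop
  rw [nt_mem_restr_faces, mem_full_faces, mem_cellsOf, mem_cellsOf, Finset.mem_singleton, Finset.mem_singleton]

theorem ggb_gaugeT {R : ℕ} (h : Adm c R) (hfree : G.bc = BC.free) (h2 : 2 * R ∣ c.n) (t : Tile)
    (hd : Disjoint (cellsOf c R {t}) (egSrc c)) : EgGauge (tileTop c R t).faces (tauU c) := by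
  refine eg_src_gauge hfree _ (fun f hf => (ggb_mem_tileTop.1 hf).1) ?_
  by_contra hcon
  rw [not_or] at hcon
  push Not at hcon
  obtain ⟨⟨f, hf, -, hf1, hf2⟩, ⟨f', hf', -, hf1', hf2'⟩⟩ := hcon
  obtain ⟨A, hA⟩ := h2
  have hn2 : c.n / 2 = R * A := by
    rw [hA, Nat.mul_assoc]
    exact Nat.mul_div_cancel_left _ (by norm_num)
  rw [hn2] at hf1 hf2 hf1' hf2'
  have hn : R * A - 1 < c.n := by have := f.1.1.2; omega
  have ht := (ggb_mem_tileTop.1 hf).2.1
  have ht' := (ggb_mem_tileTop.1 hf').2.1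
  have ex : f'.1.1 = f.1.1 := Fin.ext (by omega)
  have e1 : f.1 = (f.1.1, f.1.2) := rfl
  have e2 : f'.1 = (f.1.1, f'.1.2) := by rw [← ex]
  rw [e1] at ht
  rw [e2] at ht'
  have key := ggb_col h hfree (x := f.1.1) (y := f.1.2) (y' := f'.1.2) (z := ⟨R * A - 1, hn⟩) hf1 hf2 hf2' (by show R * A - 1 + 1 = R * A; omega)
    (ht.trans ht'.symm)
  refine (Finset.disjoint_left.1 hd) (?_ : (f.1.1, (⟨R * A - 1, hn⟩ : Fin c.n)) ∈ _) ?_
  · rw [mem_cellsOf, Finset.mem_singleton, key, ht]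
  · rw [ggb_src_mem, hn2]
    exact ⟨Or.inl hf1, Or.inl (by show R * A - 1 + 1 = R * A; omega)⟩

theorem eg_geoU {R : ℕ} (h : Adm c R) (hfree : G.bc = BC.free) (h2 : 2 * R ∣ c.n) (P : ℕ) : GoodGeoU c R P :=
  ⟨fun S t b _ hd => ggb_gaugeB hfree R P S t b hd, fun t _ hd => ggb_gaugeT h hfree h2 t hd⟩

end Claimed.Agent.R285.Entry
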