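import Claimed.Agent.R285.Entry.NtPar

/-!
# ROW 285, ENTRY, post NORM (#13340, architect helper229), STEP (D2): THE BOXES AS COSTS.   Prefix `nb_`.
[F] cutoff-entry.tex l.1746-1760 (classification), l.1975-2010 (bad and compulsory boxes, (ent:threshold-charge)).   Every box factor `Q_b` is bounded FOR ALL `y` by  good branch + bad branch:
`Q_b ≤ C0 γ^|K_b| e^{ea 𝓔_b} + e^{-lam U²} e^{lam 𝓔_b} e^{(1 - c_*)/2 E_{T_b}}`   (source-free box),      `Q_b ≤ bg e^{(1 - c_*)/2 E_{T_b}}`   (box at the source).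
Notation: `θt = pcut c p.P t`, `Gt = halTop c Y.R S O`.
LEAVES: L-NB-SIZE (`nb_boxF`, `nb_piece`, `nb_keptB_card`, `nb_labs_card`, `nb_src_card`), L-NB-BOX (`nb_point`, `nb_box`, `nb_boxZ`, `nb_boxes`), L-NB-WT (`nb_wt`).
-/

set_option autoImplicit false

namespace Claimed.Agent.R285.Entry

open scoped BigOperators
open Claimed.Agent.R285 Claimed.Agent.R285.RG Claimed.Agent.R285.F4a Claimed.Agent.R285.Ent

noncomputable section

variable {G : Geom} {c : Grid G} (Y : Phy c) {p : NPar} {Zs Z : Finset c.I}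

/-! ## 1. Sizes  (L-NB-SIZE) -/

/-- a box of the `P`-grid has at most `4 P²` cells -/
theorem nb_box_card283 (H : NIn Y p Zs Z) {t : ℕ × ℕ} (ht : t ∈ pcuts Y.R p.P) (b : ℕ × ℕ) : ((pcut c p.P t).box b).card ≤ 4 * p.P ^ 2 := by
  have h := pc_box_card (c := c) (pc_lt H.geo.pos H.dvdP ht) H.Pn b
  calc ((pcut c p.P t).box b).card ≤ (2 * p.P) ^ 2 := h
    _ = 4 * p.P ^ 2 := by ring

/-- the original faces of a box lie in the box and in the halo; there are at most `2 |box| ≤ 8 P²` of them (`pc_box_card`, `pc_lt`; a face is determined by its first cell and its direction) -/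
theorem nb_boxF (H : NIn Y p Zs Z) (S : Finset EvId) {t : ℕ × ℕ} (ht : t ∈ pcuts Y.R p.P) (b : ℕ × ℕ) :
    (∀ f ∈ Y.boxF S (pcut c p.P t) b, IsFace c f ∧ f.1 ∈ (pcut c p.P t).box b ∩ halC c Y.R S ∧ fnb c f ∈ (pcut c p.P t).box b ∩ halC c Y.R S) ∧
      ((Y.boxF S (pcut c p.P t) b).card : ℝ) ≤ 8 * (p.P : ℝ) ^ 2 := by
  classical
  have h1 : ∀ f ∈ Y.boxF S (pcut c p.P t) b, IsFace c f ∧ f.1 ∈ (pcut c p.P t).box b ∩ halC c Y.R S ∧ fnb c f ∈ (pcut c p.P t).box b ∩ halC c Y.R S := by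
    intro f hf
    have a1 := nt_mem_restr_faces.1 hf
    have a2 := nt_mem_restr_faces.1 (Finset.mem_sdiff.1 a1.1).1
    have a3 : IsFace c f := (nt_ok_full f a2.1).1
    exact ⟨a3, Finset.mem_inter.2 ⟨a1.2.1, a2.2.1⟩, Finset.mem_inter.2 ⟨a1.2.2, a2.2.2⟩⟩
  refine ⟨h1, ?_⟩
  have hsub : Y.boxF S (pcut c p.P t) b ⊆ ((pcut c p.P t).box b) ×ˢ (Finset.univ : Finset Bool) := by
    intro f hf
    exact Finset.mem_product.2 ⟨(Finset.mem_inter.1 (h1 f hf).2.1).1, Finset.mem_univ _⟩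
  have h2 : (Y.boxF S (pcut c p.P t) b).card ≤ 8 * p.P ^ 2 := by
    have h3 := Finset.card_le_card hsub
    rw [Finset.card_product, Finset.card_univ, Fintype.card_bool] at h3
    have h4 := nb_box_card283 Y H ht b
    omega
  exact_mod_cast h2

theorem nb_piece (H : NIn Y p Zs Z) (S O : Finset EvId) {t : ℕ × ℕ} (ht : t ∈ pcuts Y.R p.P) (b : ℕ × ℕ) :
    ((pcut c p.P t).piece (halTop c Y.R S O) b).Ok ∧ ((pcut c p.P t).piece (halTop c Y.R S O) b).cells ⊆ (pcut c p.P t).box b ∩ halC c Y.R S ∧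
      (((pcut c p.P t).piece (halTop c Y.R S O) b).cells.card : ℝ) ≤ 4 * (p.P : ℝ) ^ 2 := by
  classical
  have hsub : ((pcut c p.P t).piece (halTop c Y.R S O) b).cells ⊆ (pcut c p.P t).box b ∩ halC c Y.R S := by
    intro i hi
    have h1 : i ∈ (halTop c Y.R S O).cells ∩ (pcut c p.P t).box b := hi
    rw [nt_halTop_cells] at h1
    exact Finset.mem_inter.2 ⟨(Finset.mem_inter.1 h1).2, (Finset.mem_inter.1 h1).1⟩
  refine ⟨nt_ok_restr _ (nt_ok_cut _ (nt_ok_halTop _ _ _) _) _, hsub, ?_⟩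
  have h2 : ((pcut c p.P t).piece (halTop c Y.R S O) b).cells.card ≤ 4 * p.P ^ 2 :=
    (Finset.card_le_card (hsub.trans Finset.inter_subset_left)).trans (nb_box_card283 Y H ht b)
  exact_mod_cast h2

/-- the testing patches of the marks deep in `b` are pairwise disjoint nonempty subsets of the box (`geo.tp_disj`, `geo.tp_ne`, `Finset.card_le_card_of_injOn` or `card_biUnion`) -/
theorem nb_keptB_card (H : NIn Y p Zs Z) {S : Finset EvId} (hS : Valid c Y.R S) {t : ℕ × ℕ} (ht : t ∈ pcuts Y.R p.P) (b : ℕ × ℕ) :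
    ((pcut c p.P t).keptB Y.R S b).card ≤ 4 * p.P ^ 2 := by
  classical
  have hmem : ∀ k ∈ (pcut c p.P t).keptB Y.R S b, k ∈ S ∧ (pcut c p.P t).DeepIn Y.R k b := by
    intro k hk
    unfold Cut.keptB at hk
    exact Finset.mem_filter.1 hk
  have hd : ∀ k ∈ (pcut c p.P t).keptB Y.R S b, ∀ k' ∈ (pcut c p.P t).keptB Y.R S b, k ≠ k' → Disjoint (tpatch c Y.R k) (tpatch c Y.R k') :=
    fun k hk k' hk' hne => H.geo.tp_disj S hS k (hmem k hk).1 k' (hmem k' hk').1 hne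
  have h1 : (((pcut c p.P t).keptB Y.R S b).biUnion (tpatch c Y.R)).card = ∑ k ∈ (pcut c p.P t).keptB Y.R S b, (tpatch c Y.R k).card :=
    Finset.card_biUnion hd
  have h2 : ((pcut c p.P t).keptB Y.R S b).card ≤ ∑ k ∈ (pcut c p.P t).keptB Y.R S b, (tpatch c Y.R k).card := by
    rw [Finset.card_eq_sum_ones]
    refine Finset.sum_le_sum fun k hk => ?_
    obtain ⟨i, hi⟩ := H.geo.tp_ne k (hS.1 (hmem k hk).1)
    exact Finset.card_pos.2 ⟨i, nt_box_core_tp Y.R k hi⟩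
  have h3 : ((pcut c p.P t).keptB Y.R S b).biUnion (tpatch c Y.R) ⊆ (pcut c p.P t).box b := by
    intro i hi
    obtain ⟨k, hk, hik⟩ := Finset.mem_biUnion.1 hi
    exact nt_box_mem.2 ((hmem k hk).2.1 i hik)
  calc ((pcut c p.P t).keptB Y.R S b).card ≤ (((pcut c p.P t).keptB Y.R S b).biUnion (tpatch c Y.R)).card := by rw [h1]; exact h2
    _ ≤ ((pcut c p.P t).box b).card := Finset.card_le_card h3
    _ ≤ 4 * p.P ^ 2 := nb_box_card283 Y H ht b

/-- `halC S` is the union of `≤ 32 |S|` tiles (`geo.halT_card`), a tile lies in `nbh c R {i0}` (`geo.tile_diam`) and meets at most four boxes (`pc_labs`, `2 R + 1 ≤ P`) -/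
theorem nb_labs_card (H : NIn Y p Zs Z) (S O : Finset EvId) {t : ℕ × ℕ} (ht : t ∈ pcuts Y.R p.P) :
    ((pcut c p.P t).labs (halTop c Y.R S O)).card ≤ 128 * S.card := by
  classical
  have hR := H.geo.pos
  have h64 := H.big64
  have htile : ∀ τ : Tile, ((cellsOf c Y.R {τ}).image (pcut c p.P t).lab).card ≤ 4 := by
    intro τ
    rcases (cellsOf c Y.R {τ}).eq_empty_or_nonempty with he | ⟨i0, hi0⟩
    · rw [he]; simp
    · have hsub : cellsOf c Y.R {τ} ⊆ nbh c Y.R {i0} := by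
        intro i hi
        rw [nt_brk_mem_nbh]
        refine ⟨i0, Finset.mem_singleton_self _, (H.geo.tile_diam i0 i ?_).le⟩
        rw [Finset.mem_singleton.1 (mem_cellsOf.1 hi0), Finset.mem_singleton.1 (mem_cellsOf.1 hi)]
      exact (Finset.card_le_card (Finset.image_subset_image hsub)).trans
        (pc_labs (pc_lt hR H.dvdP ht) H.Pn i0 Y.R (by omega))
  have hsub : (pcut c p.P t).labs (halTop c Y.R S O) ⊆ (halT c Y.R S).biUnion fun τ => (cellsOf c Y.R {τ}).image (pcut c p.P t).lab := by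
    intro b hb
    unfold Cut.labs at hb
    rw [nt_halTop_cells] at hb
    obtain ⟨i, hi, rfl⟩ := Finset.mem_image.1 hb
    exact Finset.mem_biUnion.2 ⟨tile c Y.R i, mem_cellsOf.1 hi, Finset.mem_image_of_mem _ (mem_cellsOf.2 (Finset.mem_singleton_self _))⟩
  calc ((pcut c p.P t).labs (halTop c Y.R S O)).card
      ≤ ((halT c Y.R S).biUnion fun τ => (cellsOf c Y.R {τ}).image (pcut c p.P t).lab).card := Finset.card_le_card hsub
    _ ≤ ∑ τ ∈ halT c Y.R S, ((cellsOf c Y.R {τ}).image (pcut c p.P t).lab).card := Finset.card_biUnion_le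
    _ ≤ ∑ _τ ∈ halT c Y.R S, 4 := Finset.sum_le_sum fun τ _ => htile τ
    _ = (halT c Y.R S).card * 4 := by rw [Finset.sum_const, smul_eq_mul]
    _ ≤ 128 * S.card := by
        have := H.geo.halT_card S
        omega

open Classical in
/-- a box which meets the source has its label in `Zs.image lab`: at most four (`zone.four`); none of them is met by a halo away from the zone (`zone.box`) -/
theorem nb_src_card (H : NIn Y p Zs Z) (S O : Finset EvId) {t : ℕ × ℕ} (ht : t ∈ pcuts Y.R p.P) :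
    (((pcut c p.P t).labs (halTop c Y.R S O)).filter fun b => ¬ Disjoint ((pcut c p.P t).box b) Zs).card ≤ 4 ∧
      (Disjoint (halC c Y.R S) Z → ((pcut c p.P t).labs (halTop c Y.R S O)).filter (fun b => ¬ Disjoint ((pcut c p.P t).box b) Zs) = ∅) := by
  constructor
  · have hsub : ((pcut c p.P t).labs (halTop c Y.R S O)).filter (fun b => ¬ Disjoint ((pcut c p.P t).box b) Zs) ⊆ Zs.image (pcut c p.P t).lab := by
      intro b hb
      obtain ⟨z, hz1, hz2⟩ := Finset.not_disjoint_iff.1 (Finset.mem_filter.1 hb).2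
      exact Finset.mem_image.2 ⟨z, hz2, nt_box_mem.1 hz1⟩
    exact (Finset.card_le_card hsub).trans (H.zone.four t ht)
  · intro hd
    refine Finset.filter_eq_empty_iff.2 fun b hb => ?_
    rw [not_not]
    by_contra hcon
    have h1 := H.zone.box t ht b hcon
    unfold Cut.labs at hb
    rw [nt_halTop_cells] at hb
    obtain ⟨i, hi, hib⟩ := Finset.mem_image.1 hb
    exact Finset.disjoint_left.1 hd hi (h1 (nt_box_mem.2 hib))

/-! ## 2. One box, all boxes  (L-NB-BOX) -/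

/-- good data: `box.good`; bad data: `nt_QT_mem`, `box.reserve` (`nb_piece`; the cells of the piece avoid `Zs`), `1 ≤ e^{lam (𝓔_b - U²)}` -/
theorem nb_point (H : NIn Y p Zs Z) {S O : Finset EvId} (hS : Valid c Y.R S) (hO : O ⊆ S) {t : ℕ × ℕ} (ht : t ∈ pcuts Y.R p.P) (b : ℕ × ℕ)
    (hb : Disjoint ((pcut c p.P t).box b) Zs) (y : c.I → ℝ) :
    Y.QT ((pcut c p.P t).piece (halTop c Y.R S O) b) ((pcut c p.P t).keptB Y.R S b) y
      ≤ p.C0 * p.γ ^ ((pcut c p.P t).keptB Y.R S b).card * Real.exp (p.ea * Y.boxE S (pcut c p.P t) b y)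
        + Real.exp (-p.lam * p.U ^ 2) * (Real.exp (p.lam * Y.boxE S (pcut c p.P t) b y)
            * Real.exp ((1 - p.cstar) / 2 * ((pcut c p.P t).piece (halTop c Y.R S O) b).Eobs p.a Y.W.τ y)) := by
  obtain ⟨hTok, hTsub, -⟩ := nb_piece Y H S O ht b
  obtain ⟨T, hT⟩ : ∃ T, T = (pcut c p.P t).piece (halTop c Y.R S O) b := ⟨_, rfl⟩
  obtain ⟨K, hK⟩ : ∃ K, K = (pcut c p.P t).keptB Y.R S b := ⟨_, rfl⟩
  obtain ⟨E, hE⟩ : ∃ E, E = Y.boxE S (pcut c p.P t) b y := ⟨_, rfl⟩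
  have hgood := H.box.good S O t b hS hO ht hb y
  rw [← hT] at hTok hTsub hgood
  rw [← hK, ← hE] at hgood
  rw [← hT, ← hK, ← hE]
  have hC0 : 0 ≤ p.C0 := zero_le_one.trans H.C01
  rcases le_or_gt E (p.U ^ 2) with h | h
  · refine (hgood h).trans (le_add_of_nonneg_right ?_)
    positivity
  · have h1 := (nt_QT_mem Y H.ok H.str.N_pos T hTok K y).2
    have hdis : Disjoint T.cells Zs := Finset.disjoint_of_subset_left (hTsub.trans Finset.inter_subset_left) hb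
    have h2 := H.box.reserve T hTok hdis y
    have h3 : 1 ≤ Real.exp (-p.lam * p.U ^ 2) * Real.exp (p.lam * E) := by
      rw [← Real.exp_add]
      apply Real.one_le_exp
      nlinarith [H.lam0]
    have h4 : 0 ≤ p.C0 * p.γ ^ K.card * Real.exp (p.ea * E) :=
      mul_nonneg (mul_nonneg hC0 (pow_nonneg H.γ0.le _)) (Real.exp_pos _).le
    have h5 : Real.exp ((1 - p.cstar) / 2 * T.Eobs p.a Y.W.τ y)
        ≤ Real.exp (-p.lam * p.U ^ 2) * (Real.exp (p.lam * E) * Real.exp ((1 - p.cstar) / 2 * T.Eobs p.a Y.W.τ y)) := by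
      rw [← mul_assoc]
      exact le_mul_of_one_le_left (Real.exp_pos _).le h3
    linarith

/-- PLAN: `bdr_dom` with the right side of `nb_point` (`nt_QT_mem`: `0 ≤ QT`); `bdr_add` of  (i) `bdr_smul` of `bdr_face` (`e = ea`, `F = boxF`; `Y.boxE .. = fE c Y.W.τ (boxF ..)` by `rfl`)  and  (ii) `bdr_smul` of `bdr_mul (bdr_face (e = lam)) (bdr_top (e = 1 - cstar))`;
`bdr_mono` to the load `p.hbox` and to the weights `p.wgood`, `p.wbad` (`nb_boxF`, `nb_piece`, `θ0`; `Real.exp_add`). -/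
theorem nb_box (H : NIn Y p Zs Z) {S O : Finset EvId} (hS : Valid c Y.R S) (hO : O ⊆ S) {t : ℕ × ℕ} (ht : t ∈ pcuts Y.R p.P) (b : ℕ × ℕ)
    (hb : Disjoint ((pcut c p.P t).box b) Zs) :
    BdR p.a Y.W.τ p.θ ((pcut c p.P t).box b ∩ halC c Y.R S) p.hbox
      (fun y => Y.QT ((pcut c p.P t).piece (halTop c Y.R S O) b) ((pcut c p.P t).keptB Y.R S b) y)
      (p.wgood ((pcut c p.P t).keptB Y.R S b).card + p.wbad) := by
  have hpt := nb_point Y H hS hO ht b hb
  obtain ⟨hTok, hTsub, hTcard⟩ := nb_piece Y H S O ht b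
  obtain ⟨hF, hFcard⟩ := nb_boxF Y H S ht b
  have hQ0 := fun y => (nt_QT_mem Y H.ok H.str.N_pos _ hTok ((pcut c p.P t).keptB Y.R S b) y).1
  have hEdef : ∀ y, Y.boxE S (pcut c p.P t) b y = fE c Y.W.τ (Y.boxF S (pcut c p.P t) b) y := fun _ => rfl
  obtain ⟨T, hT⟩ : ∃ T, T = (pcut c p.P t).piece (halTop c Y.R S O) b := ⟨_, rfl⟩
  obtain ⟨K, hK⟩ : ∃ K, K = (pcut c p.P t).keptB Y.R S b := ⟨_, rfl⟩
  obtain ⟨F, hFd⟩ : ∃ F, F = Y.boxF S (pcut c p.P t) b := ⟨_, rfl⟩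
  obtain ⟨D, hD⟩ : ∃ D, D = (pcut c p.P t).box b ∩ halC c Y.R S := ⟨_, rfl⟩
  simp only [hEdef] at hpt
  rw [← hT] at hTok hTsub hTcard hpt hQ0
  rw [← hK] at hpt hQ0
  rw [← hFd] at hF hFcard hpt
  rw [← hD] at hF hTsub
  rw [← hT, ← hK, ← hD]
  have hθ := H.θ0
  have hCp := H.Cp0
  have hea := H.ea0
  have hlam := H.lam0.le
  have hcs : 0 ≤ 1 - p.cstar := by linarith [H.cs1]
  have hcs1 : 1 - p.cstar ≤ 1 := by linarith [H.cs0]
  have hC0 : 0 ≤ p.C0 := zero_le_one.trans H.C01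
  have hP2 : (0 : ℝ) ≤ (p.P : ℝ) ^ 2 := by positivity
  have hz : 0 ≤ p.C0 * p.γ ^ K.card := mul_nonneg hC0 (pow_nonneg H.γ0.le _)
  have hh1 : 8 * p.ea * p.Cp ≤ p.hbox := by
    unfold NPar.hbox
    nlinarith [mul_nonneg hlam hCp]
  have hh2 : 8 * p.lam * p.Cp + (1 - p.cstar) ≤ p.hbox := by
    unfold NPar.hbox
    nlinarith [mul_nonneg hea hCp]
  -- good branch
  have g1 := bdr_smul (a := p.a) (τ := Y.W.τ) hθ (p.C0 * p.γ ^ K.card) hz (by positivity)
    (bdr_face (a := p.a) (τ := Y.W.τ) hθ hCp H.co F hF hea)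
  have g1' : BdR p.a Y.W.τ p.θ D p.hbox (fun y => p.C0 * p.γ ^ K.card * Real.exp (p.ea * fE c Y.W.τ F y)) (p.wgood K.card) := by
    refine bdr_mono (Finset.Subset.refl _) hh1 ?_ g1
    unfold NPar.wgood
    refine mul_le_mul_of_nonneg_left (Real.exp_le_exp.2 (mul_le_mul_of_nonneg_left ?_ hθ)) hz
    have : 4 * p.ea * p.Cp * (F.card : ℝ) ≤ 4 * p.ea * p.Cp * (8 * (p.P : ℝ) ^ 2) :=
      mul_le_mul_of_nonneg_left hFcard (by positivity)
    linarith
  -- bad branch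
  have g2 := bdr_smul (a := p.a) (τ := Y.W.τ) hθ (Real.exp (-p.lam * p.U ^ 2)) (Real.exp_pos _).le (by positivity)
    (bdr_mul hθ (bdr_face (a := p.a) (τ := Y.W.τ) hθ hCp H.co F hF hlam) (bdr_top (a := p.a) (τ := Y.W.τ) (θ := p.θ) T hTok hTsub hcs))
  rw [Finset.union_self] at g2
  have g2' : BdR p.a Y.W.τ p.θ D p.hbox (fun y => Real.exp (-p.lam * p.U ^ 2) * (Real.exp (p.lam * fE c Y.W.τ F y)
      * Real.exp ((1 - p.cstar) / 2 * T.Eobs p.a Y.W.τ y))) p.wbad := by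
    refine bdr_mono (Finset.Subset.refl _) hh2 ?_ g2
    unfold NPar.wbad
    rw [← Real.exp_add, ← Real.exp_add]
    apply Real.exp_le_exp.2
    have e1 : 4 * p.lam * p.Cp * (F.card : ℝ) ≤ 4 * p.lam * p.Cp * (8 * (p.P : ℝ) ^ 2) :=
      mul_le_mul_of_nonneg_left hFcard (by positivity)
    have e2 : (1 - p.cstar) * (T.cells.card : ℝ) ≤ 1 * (4 * (p.P : ℝ) ^ 2) :=
      mul_le_mul hcs1 hTcard (Nat.cast_nonneg _) zero_le_one
    have e3 : p.θ * (4 * p.lam * p.Cp * (F.card : ℝ)) + p.θ * ((1 - p.cstar) * (T.cells.card : ℝ))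
        ≤ p.θ * (32 * p.lam * p.Cp * (p.P : ℝ) ^ 2 + 4 * (p.P : ℝ) ^ 2) := by
      rw [← mul_add]
      exact mul_le_mul_of_nonneg_left (by linarith) hθ
    linarith
  refine bdr_dom (bdr_add hθ g1' g2') fun y => ?_
  rw [abs_of_nonneg (hQ0 y)]
  exact (hpt y).trans (le_abs_self _)

/-- `nt_QT_mem`, `box.reserveZ`, `bdr_top`, `bdr_smul` -/
theorem nb_boxZ (H : NIn Y p Zs Z) (S O : Finset EvId) {t : ℕ × ℕ} (ht : t ∈ pcuts Y.R p.P) (b : ℕ × ℕ) :
    BdR p.a Y.W.τ p.θ ((pcut c p.P t).box b ∩ halC c Y.R S) p.hbox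
      (fun y => Y.QT ((pcut c p.P t).piece (halTop c Y.R S O) b) ((pcut c p.P t).keptB Y.R S b) y) p.wsrc := by
  obtain ⟨hTok, hTsub, hTcard⟩ := nb_piece Y H S O ht b
  have hQ := fun y => nt_QT_mem Y H.ok H.str.N_pos _ hTok ((pcut c p.P t).keptB Y.R S b) y
  obtain ⟨T, hT⟩ : ∃ T, T = (pcut c p.P t).piece (halTop c Y.R S O) b := ⟨_, rfl⟩
  obtain ⟨K, hK⟩ : ∃ K, K = (pcut c p.P t).keptB Y.R S b := ⟨_, rfl⟩
  obtain ⟨D, hD⟩ : ∃ D, D = (pcut c p.P t).box b ∩ halC c Y.R S := ⟨_, rfl⟩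
  rw [← hT] at hTok hTsub hTcard hQ
  rw [← hK] at hQ
  rw [← hD] at hTsub
  rw [← hT, ← hK, ← hD]
  have hθ := H.θ0
  have hcs : 0 ≤ 1 - p.cstar := by linarith [H.cs1]
  have hcs1 : 1 - p.cstar ≤ 1 := by linarith [H.cs0]
  have hbg : 0 ≤ p.bg := zero_le_one.trans H.bg1
  have hh : 1 - p.cstar ≤ p.hbox := by
    unfold NPar.hbox
    nlinarith [mul_nonneg H.lam0.le H.Cp0, mul_nonneg H.ea0 H.Cp0]
  have g := bdr_smul (a := p.a) (τ := Y.W.τ) hθ p.bg hbg hcs (bdr_top (a := p.a) (τ := Y.W.τ) (θ := p.θ) T hTok hTsub hcs)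
  have g' : BdR p.a Y.W.τ p.θ D p.hbox (fun y => p.bg * Real.exp ((1 - p.cstar) / 2 * T.Eobs p.a Y.W.τ y)) p.wsrc := by
    refine bdr_mono (Finset.Subset.refl _) hh ?_ g
    unfold NPar.wsrc
    refine mul_le_mul_of_nonneg_left (Real.exp_le_exp.2 (mul_le_mul_of_nonneg_left ?_ hθ)) hbg
    have e2 : (1 - p.cstar) * (T.cells.card : ℝ) ≤ 1 * (4 * (p.P : ℝ) ^ 2) :=
      mul_le_mul hcs1 hTcard (Nat.cast_nonneg _) zero_le_one
    linarith
  refine bdr_dom g' fun y => ?_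
  rw [abs_of_nonneg (hQ y).1]
  exact ((hQ y).2.trans (H.box.reserveZ T hTok y)).trans (le_abs_self _)

open Classical in
/-- the weight of the box `b` -/
def wbox (Y : Phy c) (p : NPar) (Zs : Finset c.I) (S : Finset EvId) (t b : ℕ × ℕ) : ℝ :=
  if Disjoint ((pcut c p.P t).box b) Zs then p.wgood ((pcut c p.P t).keptB Y.R S b).card + p.wbad else p.wsrc

/-- `bdr_prod_disj` (the boxes are pairwise disjoint), `bdr_mono` -/
theorem nb_boxes (H : NIn Y p Zs Z) {S O : Finset EvId} (hS : Valid c Y.R S) (hO : O ⊆ S) {t : ℕ × ℕ} (ht : t ∈ pcuts Y.R p.P) :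
    BdR p.a Y.W.τ p.θ (halC c Y.R S) p.hbox
      (fun y => ∏ b ∈ (pcut c p.P t).labs (halTop c Y.R S O), Y.QT ((pcut c p.P t).piece (halTop c Y.R S O) b) ((pcut c p.P t).keptB Y.R S b) y)
      (∏ b ∈ (pcut c p.P t).labs (halTop c Y.R S O), wbox Y p Zs S t b) := by
  classical
  have hh : 0 ≤ p.hbox := by
    unfold NPar.hbox
    nlinarith [mul_nonneg H.lam0.le H.Cp0, mul_nonneg H.ea0 H.Cp0, H.cs1]
  have h1 := bdr_prod_disj (a := p.a) (τ := Y.W.τ) H.θ0 ((pcut c p.P t).labs (halTop c Y.R S O))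
    (fun b => (pcut c p.P t).box b ∩ halC c Y.R S) hh ?_
    (fun b y => Y.QT ((pcut c p.P t).piece (halTop c Y.R S O) b) ((pcut c p.P t).keptB Y.R S b) y)
    (fun b => wbox Y p Zs S t b) ?_
  · refine bdr_mono ?_ le_rfl le_rfl h1
    intro i hi
    obtain ⟨b, -, hb⟩ := Finset.mem_biUnion.1 hi
    exact (Finset.mem_inter.1 hb).2
  · intro b _ b' _ hne
    rw [Finset.disjoint_left]
    intro i hi hi'
    have e1 : (pcut c p.P t).lab i = b := (Finset.mem_filter.1 (Finset.mem_inter.1 hi).1).2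
    have e2 : (pcut c p.P t).lab i = b' := (Finset.mem_filter.1 (Finset.mem_inter.1 hi').1).2
    exact hne (e1.symm.trans e2)
  · intro b _
    unfold wbox
    split_ifs with hb
    · exact nb_box Y H hS hO ht b hb
    · exact nb_boxZ Y H S O ht b

/-! ## 3. The weight of all boxes  (L-NB-WT) -/

open Classical in
/-- the retained far marks sit in the source-free boxes met by the halo -/
theorem nb_wt_far283 (H : NIn Y p Zs Z) {S : Finset EvId} (hS : Valid c Y.R S) (O : Finset EvId) {t : ℕ × ℕ} (ht : t ∈ pcuts Y.R p.P) :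
    ((pcut c p.P t).kept Y.R (farS c Y.R Z S)).card
      ≤ ∑ b ∈ ((pcut c p.P t).labs (halTop c Y.R S O)).filter (fun b => Disjoint ((pcut c p.P t).box b) Zs), ((pcut c p.P t).keptB Y.R S b).card := by
  have hsub : (pcut c p.P t).kept Y.R (farS c Y.R Z S)
      ⊆ (((pcut c p.P t).labs (halTop c Y.R S O)).filter (fun b => Disjoint ((pcut c p.P t).box b) Zs)).biUnion ((pcut c p.P t).keptB Y.R S) := by
    intro k hk
    unfold Cut.kept at hk
    obtain ⟨hkf, b, hb⟩ := Finset.mem_filter.1 hk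
    unfold farS at hkf
    obtain ⟨hkS, hkZ⟩ := Finset.mem_filter.1 hkf
    obtain ⟨i, hi⟩ := H.geo.tp_ne k (hS.1 hkS)
    have hit : i ∈ tpatch c Y.R k := nt_box_core_tp Y.R k hi
    have hiS : i ∈ halC c Y.R S := H.geo.tp_halC S k (Finset.mem_union_left _ hkS) hit
    have hik : i ∈ halC c Y.R {k} := H.geo.tp_halC {k} k (Finset.mem_union_left _ (Finset.mem_singleton_self k)) hit
    have hib : (pcut c p.P t).lab i = b := hb.1 i hit
    refine Finset.mem_biUnion.2 ⟨b, Finset.mem_filter.2 ⟨?_, ?_⟩, ?_⟩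
    · unfold Cut.labs
      rw [nt_halTop_cells]
      exact Finset.mem_image.2 ⟨i, hiS, hib⟩
    · by_contra hcon
      exact Finset.disjoint_left.1 hkZ hik (H.zone.box t ht b hcon (nt_box_mem.2 hib))
    · unfold Cut.keptB
      exact Finset.mem_filter.2 ⟨hkS, hb⟩
  exact (Finset.card_le_card hsub).trans Finset.card_biUnion_le

open Classical in
/-- **PLAN.**  Split `labs` into source-free boxes and boxes at the source (`Finset.prod_filter_mul_prod_filter_not`).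
Source-free: `wgood K_b + wbad ≤ A0 γ^{K_b}` (`hn.bad`, `nb_keptB_card`, `γ ≤ 1`), so the product is `≤ A0^|labs| γ^{∑ K_b}` (`1 ≤ A0`, `nb_labs_card`).
`∑_{b source-free} K_b ≥ |kept_t (farS S)|`: a mark `k ∈ farS S` deep in `b`: `b ∈ labs` (`nt_kept_part`), and `b` is source-free, otherwise `tpatch k ⊆ box b ⊆ Z` (`zone.box`) while `tpatch k ⊆ halC {k}` (`geo.tp_halC`) is nonempty and disjoint from `Z`.
`γ^m = (√γ)^{2m} ≤ (√γ)^{|farS S|}` for `m = |kept_t (farS S)|` (`ht`).      At the source: `nb_src_card`, `1 ≤ wsrc`. -/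
theorem nb_wt (H : NIn Y p Zs Z) (hn : NNum p Y.R) {S O : Finset EvId} (hS : Valid c Y.R S) (hO : O ⊆ S) {t : ℕ × ℕ}
    (ht : t ∈ goodT c Y.R p.P (farS c Y.R Z S)) :
    ∏ b ∈ (pcut c p.P t).labs (halTop c Y.R S O), wbox Y p Zs S t b
      ≤ p.A0 ^ (128 * S.card) * Real.sqrt p.γ ^ (farS c Y.R Z S).card * (if Disjoint (halC c Y.R S) Z then 1 else p.wsrc ^ 4) := by
  unfold goodT at ht
  obtain ⟨ht, hgood⟩ := Finset.mem_filter.1 ht
  have hγ0 := H.γ0
  have hγ1 := H.γ1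
  obtain ⟨E, hE⟩ : ∃ E : ℝ, E = Real.exp (p.θ * (32 * p.ea * p.Cp * (p.P : ℝ) ^ 2)) := ⟨_, rfl⟩
  have hE0 : 0 < E := hE ▸ Real.exp_pos _
  have hC0 : 0 < p.C0 := lt_of_lt_of_le one_pos H.C01
  have hA0 : p.A0 = p.C0 * E + 1 := by rw [hE]; rfl
  have hA1 : 1 ≤ p.A0 := by
    rw [hA0]
    have : 0 < p.C0 * E := mul_pos hC0 hE0
    linarith
  have hw1 : 1 ≤ p.wsrc := by
    unfold NPar.wsrc
    have h1 : 1 ≤ Real.exp (p.θ * (4 * (p.P : ℝ) ^ 2)) := Real.one_le_exp (mul_nonneg H.θ0 (by positivity))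
    exact one_le_mul_of_one_le_of_one_le H.bg1 h1
  have hwb0 : 0 < p.wbad := Real.exp_pos _
  obtain ⟨Lb, hLb⟩ : ∃ Lb, Lb = (pcut c p.P t).labs (halTop c Y.R S O) := ⟨_, rfl⟩
  rw [← hLb]
  rw [← Finset.prod_filter_mul_prod_filter_not Lb (fun b => Disjoint ((pcut c p.P t).box b) Zs)]
  -- the source-free boxes
  have h1 : ∏ b ∈ Lb.filter (fun b => Disjoint ((pcut c p.P t).box b) Zs), wbox Y p Zs S t b
      ≤ p.A0 ^ (128 * S.card) * Real.sqrt p.γ ^ (farS c Y.R Z S).card := by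
    have a1 : ∀ b ∈ Lb.filter (fun b => Disjoint ((pcut c p.P t).box b) Zs),
        wbox Y p Zs S t b ≤ p.A0 * p.γ ^ ((pcut c p.P t).keptB Y.R S b).card := by
      intro b hb
      unfold wbox
      rw [if_pos (Finset.mem_filter.1 hb).2]
      have hK := nb_keptB_card Y H hS ht b
      have h2 : p.wbad ≤ p.γ ^ ((pcut c p.P t).keptB Y.R S b).card := hn.bad.trans (pow_le_pow_of_le_one hγ0.le hγ1 hK)
      have h3 : p.wgood ((pcut c p.P t).keptB Y.R S b).card = p.C0 * E * p.γ ^ ((pcut c p.P t).keptB Y.R S b).card := by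
        unfold NPar.wgood
        rw [← hE]
        ring
      rw [h3, hA0]
      linarith
    have a0 : ∀ b ∈ Lb.filter (fun b => Disjoint ((pcut c p.P t).box b) Zs), 0 ≤ wbox Y p Zs S t b := by
      intro b hb
      unfold wbox
      rw [if_pos (Finset.mem_filter.1 hb).2]
      have : 0 < p.wgood ((pcut c p.P t).keptB Y.R S b).card := by
        unfold NPar.wgood
        exact mul_pos (mul_pos hC0 (pow_pos hγ0 _)) (Real.exp_pos _)
      linarith
    refine (Finset.prod_le_prod a0 a1).trans ?_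
    rw [Finset.prod_mul_distrib, Finset.prod_const, Finset.prod_pow_eq_pow_sum]
    have b1 : p.A0 ^ (Lb.filter (fun b => Disjoint ((pcut c p.P t).box b) Zs)).card ≤ p.A0 ^ (128 * S.card) := by
      refine pow_le_pow_right₀ hA1 ((Finset.card_le_card (Finset.filter_subset _ _)).trans ?_)
      rw [hLb]
      exact nb_labs_card Y H S O ht
    have hfar := nb_wt_far283 Y H hS O ht
    rw [← hLb] at hfar
    have hs0 : 0 ≤ Real.sqrt p.γ := Real.sqrt_nonneg _
    have hs1 : Real.sqrt p.γ ≤ 1 := Real.sqrt_le_one.2 hγ1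
    have b2 : p.γ ^ (∑ b ∈ Lb.filter (fun b => Disjoint ((pcut c p.P t).box b) Zs), ((pcut c p.P t).keptB Y.R S b).card)
        ≤ Real.sqrt p.γ ^ (farS c Y.R Z S).card := by
      calc p.γ ^ (∑ b ∈ Lb.filter (fun b => Disjoint ((pcut c p.P t).box b) Zs), ((pcut c p.P t).keptB Y.R S b).card)
          ≤ p.γ ^ ((pcut c p.P t).kept Y.R (farS c Y.R Z S)).card := pow_le_pow_of_le_one hγ0.le hγ1 hfar
        _ = Real.sqrt p.γ ^ (2 * ((pcut c p.P t).kept Y.R (farS c Y.R Z S)).card) := by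
            rw [pow_mul, Real.sq_sqrt hγ0.le]
        _ ≤ Real.sqrt p.γ ^ (farS c Y.R Z S).card := pow_le_pow_of_le_one hs0 hs1 hgood
    exact mul_le_mul b1 b2 (pow_nonneg hγ0.le _) (pow_nonneg (zero_le_one.trans hA1) _)
  -- the boxes at the source
  have h2 : ∏ b ∈ Lb.filter (fun b => ¬ Disjoint ((pcut c p.P t).box b) Zs), wbox Y p Zs S t b
      ≤ if Disjoint (halC c Y.R S) Z then 1 else p.wsrc ^ 4 := by
    have hsrc := nb_src_card Y H S O ht
    rw [← hLb] at hsrc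
    have e : ∏ b ∈ Lb.filter (fun b => ¬ Disjoint ((pcut c p.P t).box b) Zs), wbox Y p Zs S t b
        = p.wsrc ^ (Lb.filter (fun b => ¬ Disjoint ((pcut c p.P t).box b) Zs)).card := by
      rw [← Finset.prod_const]
      refine Finset.prod_congr rfl fun b hb => ?_
      unfold wbox
      rw [if_neg (Finset.mem_filter.1 hb).2]
    rw [e]
    split_ifs with hd
    · rw [hsrc.2 hd]
      simp
    · exact pow_le_pow_right₀ hw1 hsrc.1
  have h20 : 0 ≤ ∏ b ∈ Lb.filter (fun b => ¬ Disjoint ((pcut c p.P t).box b) Zs), wbox Y p Zs S t b := by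
    refine Finset.prod_nonneg fun b hb => ?_
    unfold wbox
    rw [if_neg (Finset.mem_filter.1 hb).2]
    linarith
  exact mul_le_mul h1 h2 h20 (mul_nonneg (pow_nonneg (zero_le_one.trans hA1) _) (pow_nonneg (Real.sqrt_nonneg _) _))

end

end Claimed.Agent.R285.Entry
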