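import Claimed.Agent.R285.Entry.NtDefs
import Claimed.Agent.R285.Ent.Avg

/-!
# ROW 285, ENTRY, post NORM (#13340, architect helper229), STEP (D1): THE CALCULUS OF `BdR`.   Prefix `bdr_`.   Paper-free.
`BdR a τ θ D h g w` (`Entry/NtDefs.lean`) = `Ent.Bd` (`Ent/If.lean`) for real functions of real observations.   The binary rules are `Ent.av_cost : CostStmt` (proved, `Ent/Avg.lean`) through `bdr_iff`, or direct (lists of costs: `Ent.avProd`, `av_*`).
LEAVES: L-BDR-CALC (`bdr_iff` … `bdr_prod_disj`), L-BDR-ATOM (`bdr_single`, `bdr_top`, `bdr_face`), L-BDR-EXIT (`bd_of_bdr`).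
-/

set_option autoImplicit false

namespace Claimed.Agent.R285.Entry

open scoped BigOperators
open Claimed.Agent.R285 Claimed.Agent.R285.RG Claimed.Agent.R285.F4a Claimed.Agent.R285.Ent

noncomputable section

variable {G : Geom} {c : Grid G}

/-- a real function of the real part of the observation -/
def liftR (g : (c.I → ℝ) → ℝ) : (c.I → ℂ) → ℂ := fun y => ((g fun i => (y i).re : ℝ) : ℂ)

/-! ## 1. Calculus  (L-BDR-CALC) -/

/-- `(→)`: `‖liftR g (y + i k)‖ = |g y|`;  `(←)`: `k = 0 ∈ imK c D 0 R` -/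
theorem bdr_iff (a : ℝ) (τ : Face c → ℤ) (R : ℕ) (θ : ℝ) (D : Finset c.I) (h : ℝ) (g : (c.I → ℝ) → ℝ) (w : ℝ) :
    BdR a τ θ D h g w ↔ Bd a τ R 0 θ D h (liftR g) w := by
  have e : ∀ (y k : c.I → ℝ), ‖liftR g fun i => (y i : ℂ) + (k i : ℂ) * Complex.I‖ = |g y| := by
    intro y k
    unfold liftR
    rw [Complex.norm_real, Real.norm_eq_abs]
    congr 2
    funext i
    simp
  constructor
  · rintro ⟨L, h1, h2, h3⟩
    exact ⟨L, fun y k _ => (e y k).le.trans (h1 y), h2, h3⟩
  · rintro ⟨L, h1, h2, h3⟩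
    refine ⟨L, fun y => ?_, h2, h3⟩
    have h0 : (0 : c.I → ℝ) ∈ imK c D 0 R := ⟨fun i _ => by simp, fun f _ _ _ => by simp⟩
    exact (e y 0).ge.trans (h1 y 0 h0)

variable {a : ℝ} {τ : Face c → ℤ} {θ : ℝ}

theorem bdr_const (hθ : 0 ≤ θ) (D : Finset c.I) {h : ℝ} (hh : 0 ≤ h) (z : ℝ) : BdR a τ θ D h (fun _ => z) |z| := by
  by_cases hz : z = 0
  · refine ⟨[], ?_, by simp, by simp [Lwt, hz]⟩
    intro y
    simp [Lval, hz]
  · have hz' : 0 < |z| := abs_pos.2 hz
    refine ⟨[⟨Real.log |z|, []⟩], ?_, ?_, ?_⟩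
    · intro y
      simp only [Lval, Cost.val, Cost.q, List.map_cons, List.map_nil, List.sum_cons, List.sum_nil, add_zero, zero_div,
        Real.exp_log hz', le_refl]
    · intro C hC
      rw [List.mem_singleton] at hC
      subst hC
      exact ⟨by simp, fun i => by simpa [Cost.load] using hh⟩
    · simp only [Lwt, Cost.wt, Cost.size, List.map_cons, List.map_nil, List.sum_cons, List.sum_nil, add_zero, mul_zero,
        Real.exp_log hz', le_refl]

theorem bdr_mono {D D' : Finset c.I} {h h' w w' : ℝ} {g : (c.I → ℝ) → ℝ} (hD : D ⊆ D') (hh : h ≤ h') (hw : w ≤ w') (H : BdR a τ θ D h g w) :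
    BdR a τ θ D' h' g w' := by
  obtain ⟨L, h1, h2, h3⟩ := H
  exact ⟨L, h1, fun C hC => av_In_mono hD hh (h2 C hC), h3.trans hw⟩

/-- domination -/
theorem bdr_dom {D : Finset c.I} {h w : ℝ} {g g' : (c.I → ℝ) → ℝ} (H : BdR a τ θ D h g w) (hg : ∀ y, |g' y| ≤ |g y|) : BdR a τ θ D h g' w := by
  obtain ⟨L, h1, h2, h3⟩ := H
  exact ⟨L, fun y => (hg y).trans (h1 y), h2, h3⟩

theorem bdr_add (hθ : 0 ≤ θ) {D : Finset c.I} {h w w' : ℝ} {g g' : (c.I → ℝ) → ℝ} (H : BdR a τ θ D h g w) (H' : BdR a τ θ D h g' w') :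
    BdR a τ θ D h (fun y => g y + g' y) (w + w') := by
  obtain ⟨L, h1, h2, h3⟩ := H
  obtain ⟨L', h1', h2', h3'⟩ := H'
  refine ⟨L ++ L', ?_, ?_, ?_⟩
  · intro y
    refine (abs_add_le _ _).trans ?_
    have : Lval a τ (L ++ L') y = Lval a τ L y + Lval a τ L' y := by simp [Lval]
    rw [this]
    exact add_le_add (h1 y) (h1' y)
  · intro C hC
    rcases List.mem_append.1 hC with hC | hC
    · exact h2 C hC
    · exact h2' C hC
  · have : Lwt θ (L ++ L') = Lwt θ L + Lwt θ L' := by simp [Lwt]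
    rw [this]
    exact add_le_add h3 h3'

/-- products: loads add -/
theorem bdr_mul (hθ : 0 ≤ θ) {D D' : Finset c.I} {h h' w w' : ℝ} {g g' : (c.I → ℝ) → ℝ} (H : BdR a τ θ D h g w) (H' : BdR a τ θ D' h' g' w') :
    BdR a τ θ (D ∪ D') (h + h') (fun y => g y * g' y) (w * w') := by
  obtain ⟨L, h1, h2, h3⟩ := H
  obtain ⟨L', h1', h2', h3'⟩ := H'
  refine ⟨avProd L L', ?_, ?_, ?_⟩
  · intro y
    rw [abs_mul]
    have : Lval a τ (avProd L L') y = Lval a τ L y * Lval a τ L' y :=
      av_sum_prod (fun C => C.val a τ y) (fun C C' => av_val_mul C C' a τ y) L L'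
    rw [this]
    exact mul_le_mul (h1 y) (h1' y) (abs_nonneg _) (av_Lval_nonneg a τ L y)
  · intro E hE
    obtain ⟨C, hC, C', hC', rfl⟩ := av_mem_prod hE
    exact av_In_mul (h2 C hC) (h2' C' hC')
  · have : Lwt θ (avProd L L') = Lwt θ L * Lwt θ L' :=
      av_sum_prod (fun C => C.wt θ) (fun C C' => av_wt_mul C C' θ) L L'
    rw [this]
    exact mul_le_mul h3 h3' (av_Lwt_nonneg θ L') ((av_Lwt_nonneg θ L).trans h3)

/-- products on disjoint regions: the load does not grow -/
theorem bdr_mul_disj (hθ : 0 ≤ θ) {D D' : Finset c.I} {h w w' : ℝ} {g g' : (c.I → ℝ) → ℝ} (hd : Disjoint D D') (H : BdR a τ θ D h g w)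
    (H' : BdR a τ θ D' h g' w') : BdR a τ θ (D ∪ D') h (fun y => g y * g' y) (w * w') := by
  obtain ⟨L, h1, h2, h3⟩ := H
  obtain ⟨L', h1', h2', h3'⟩ := H'
  refine ⟨avProd L L', ?_, ?_, ?_⟩
  · intro y
    rw [abs_mul]
    have : Lval a τ (avProd L L') y = Lval a τ L y * Lval a τ L' y :=
      av_sum_prod (fun C => C.val a τ y) (fun C C' => av_val_mul C C' a τ y) L L'
    rw [this]
    exact mul_le_mul (h1 y) (h1' y) (abs_nonneg _) (av_Lval_nonneg a τ L y)
  · intro E hE
    obtain ⟨C, hC, C', hC', rfl⟩ := av_mem_prod hE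
    exact av_In_mul_disj hd (h2 C hC) (h2' C' hC')
  · have : Lwt θ (avProd L L') = Lwt θ L * Lwt θ L' :=
      av_sum_prod (fun C => C.wt θ) (fun C C' => av_wt_mul C C' θ) L L'
    rw [this]
    exact mul_le_mul h3 h3' (av_Lwt_nonneg θ L') ((av_Lwt_nonneg θ L).trans h3)

/-- multiplication by a constant -/
theorem bdr_smul (hθ : 0 ≤ θ) {D : Finset c.I} {h w : ℝ} {g : (c.I → ℝ) → ℝ} (z : ℝ) (hz : 0 ≤ z) (hh : 0 ≤ h) (H : BdR a τ θ D h g w) :
    BdR a τ θ D h (fun y => z * g y) (z * w) := by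
  have h1 := bdr_mul hθ (bdr_const (a := a) (τ := τ) hθ D (le_refl (0 : ℝ)) z) H
  rwa [Finset.union_self, zero_add, abs_of_nonneg hz] at h1

theorem bdr_sum (hθ : 0 ≤ θ) {ι : Type} (s : Finset ι) (D : Finset c.I) {h : ℝ} (hh : 0 ≤ h) (g : ι → (c.I → ℝ) → ℝ) (w : ι → ℝ)
    (H : ∀ i ∈ s, BdR a τ θ D h (g i) (w i)) : BdR a τ θ D h (fun y => ∑ i ∈ s, g i y) (∑ i ∈ s, w i) := by
  classical
  induction s using Finset.induction_on with
  | empty =>
    have h0 := bdr_const (a := a) (τ := τ) hθ D hh 0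
    simpa using h0
  | insert i s hi ih =>
    have h1 := bdr_add hθ (H i (Finset.mem_insert_self i s)) (ih fun j hj => H j (Finset.mem_insert_of_mem hj))
    simpa only [Finset.sum_insert hi] using h1

theorem bdr_prod_disj (hθ : 0 ≤ θ) {ι : Type} [DecidableEq ι] (s : Finset ι) (D : ι → Finset c.I) {h : ℝ} (hh : 0 ≤ h)
    (hd : ∀ i ∈ s, ∀ j ∈ s, i ≠ j → Disjoint (D i) (D j)) (g : ι → (c.I → ℝ) → ℝ) (w : ι → ℝ) (H : ∀ i ∈ s, BdR a τ θ (D i) h (g i) (w i)) :
    BdR a τ θ (s.biUnion D) h (fun y => ∏ i ∈ s, g i y) (∏ i ∈ s, w i) := by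
  induction s using Finset.induction_on with
  | empty =>
    have h0 := bdr_const (a := a) (τ := τ) hθ (∅ : Finset c.I) hh 1
    simpa using h0
  | insert i s hi ih =>
    have hdis : Disjoint (D i) (s.biUnion D) := by
      rw [Finset.disjoint_biUnion_right]
      intro j hj
      exact hd i (Finset.mem_insert_self i s) j (Finset.mem_insert_of_mem hj) fun e => hi (e ▸ hj)
    have h1 := bdr_mul_disj hθ hdis (H i (Finset.mem_insert_self i s))
      (ih (fun j hj k hk => hd j (Finset.mem_insert_of_mem hj) k (Finset.mem_insert_of_mem hk))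
        fun j hj => H j (Finset.mem_insert_of_mem hj))
    simpa only [Finset.prod_insert hi, Finset.biUnion_insert] using h1

/-- the weight of a bound is nonnegative -/
theorem bdr_wt_nonneg {D : Finset c.I} {h w : ℝ} {g : (c.I → ℝ) → ℝ} (H : BdR a τ θ D h g w) : 0 ≤ w := by
  obtain ⟨L, -, -, h3⟩ := H
  exact (av_Lwt_nonneg θ L).trans h3

/-! ## 2. Atoms  (L-BDR-ATOM) -/

theorem bdr_single {D : Finset c.I} {h : ℝ} (C : Cost c) (hC : C.In D h) {g : (c.I → ℝ) → ℝ} (hg : ∀ y, |g y| ≤ C.val a τ y) : BdR a τ θ D h g (C.wt θ) := by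
  refine ⟨[C], fun y => ?_, fun C' hC' => ?_, ?_⟩
  · simpa [Lval] using hg y
  · rw [List.mem_singleton] at hC'
    exact hC' ▸ hC
  · simp [Lwt]

/-- **a broad energy**: the cost `⟨0, [(T, e)]⟩` -/
theorem bdr_top (T : Top c) (hT : T.Ok) {D : Finset c.I} (hD : T.cells ⊆ D) {e : ℝ} (he : 0 ≤ e) :
    BdR a τ θ D e (fun y => Real.exp (e / 2 * T.Eobs a τ y)) (Real.exp (θ * (e * T.cells.card))) := by
  classical
  have h1 : BdR a τ θ D e (fun y => Real.exp (e / 2 * T.Eobs a τ y)) ((⟨0, [(T, e)]⟩ : Cost c).wt θ) := by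
    refine bdr_single ⟨0, [(T, e)]⟩ ⟨?_, ?_⟩ ?_
    · intro p hp
      rw [List.mem_singleton] at hp
      subst hp
      exact ⟨hT, hD, he⟩
    · intro i
      simp only [Cost.load, List.map_cons, List.map_nil, List.sum_cons, List.sum_nil, add_zero]
      split_ifs
      · exact le_rfl
      · exact he
    · intro y
      rw [abs_of_pos (Real.exp_pos _)]
      apply le_of_eq
      simp only [Cost.val, Cost.q, List.map_cons, List.map_nil, List.sum_cons, List.sum_nil, add_zero, zero_add]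
      congr 1
      ring
  have e2 : (⟨0, [(T, e)]⟩ : Cost c).wt θ = Real.exp (θ * (e * T.cells.card)) := by
    simp [Cost.wt, Cost.size]
  rwa [e2] at h1

/-- a cell lies in the two-cell topologies of at most four faces -/
theorem bdr_four (F : Finset (Face c)) (i : c.I) :
    (open Classical in (F.filter fun f => i ∈ (twoT c f).cells).card) ≤ 4 := by
  classical
  have hsub : (F.filter fun f => i ∈ (twoT c f).cells)
      ⊆ (Finset.univ.filter fun f : Face c => f.1 = i) ∪ (Finset.univ.filter fun f : Face c => fnb c f = i) := by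
    intro f hf
    have h1 := (Finset.mem_filter.1 hf).2
    simp only [twoT, Top.opn, Top.restr, Top.full, Finset.mem_inter, Finset.mem_univ, true_and, Finset.mem_insert,
      Finset.mem_singleton] at h1
    simp only [Finset.mem_union, Finset.mem_filter, Finset.mem_univ, true_and]
    rcases h1 with h1 | h1
    · exact Or.inl h1.symm
    · exact Or.inr h1.symm
  have c1 : (Finset.univ.filter fun f : Face c => f.1 = i).card ≤ 2 := by
    have : (Finset.univ.filter fun f : Face c => f.1 = i).card ≤ (Finset.univ : Finset Bool).card := by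
      refine Finset.card_le_card_of_injOn Prod.snd (fun _ _ => Finset.mem_univ _) ?_
      intro f hf f' hf' e
      have h1 : f.1 = i := (Finset.mem_filter.1 hf).2
      have h2 : f'.1 = i := (Finset.mem_filter.1 hf').2
      exact Prod.ext (h1.trans h2.symm) e
    simpa using this
  have c2 : (Finset.univ.filter fun f : Face c => fnb c f = i).card ≤ 2 := by
    have : (Finset.univ.filter fun f : Face c => fnb c f = i).card ≤ (Finset.univ : Finset Bool).card := by
      refine Finset.card_le_card_of_injOn Prod.snd (fun _ _ => Finset.mem_univ _) ?_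
      intro f hf f' hf' e
      have h1 : fnb c f = i := (Finset.mem_filter.1 hf).2
      have h2 : fnb c f' = i := (Finset.mem_filter.1 hf').2
      exact Avg.fnb_injective c (Prod.ext (h1.trans h2.symm) e)
    simpa using this
  calc _ ≤ _ := Finset.card_le_card hsub
    _ ≤ _ := Finset.card_union_le _ _
    _ ≤ 4 := by omega


/-- **face squares**: the cost `⟨0, F.toList.map fun f => (twoT c f, 2 e Cp)⟩`.   `val ≥ exp (e ∑ w_f²)` by `hCo`; a cell lies in the two-cell topologies of at most FOUR faces (`f.1 = i`: two faces; `fnb c f = i`: two faces, `nx` is injective), so `load ≤ 8 e Cp`;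
`(twoT c f).cells.card ≤ 2`, so `size ≤ 4 e Cp |F|`. -/
theorem bdr_face (hθ : 0 ≤ θ) {Cp : ℝ} (hCp : 0 ≤ Cp) (hCo : FaceCo c a Cp) (F : Finset (Face c)) {D : Finset c.I}
    (hF : ∀ f ∈ F, IsFace c f ∧ f.1 ∈ D ∧ fnb c f ∈ D) {e : ℝ} (he : 0 ≤ e) :
    BdR a τ θ D (8 * e * Cp) (fun y => Real.exp (e * fE c τ F y)) (Real.exp (θ * (4 * e * Cp * F.card))) := by
  classical
  have hk : 0 ≤ 2 * e * Cp := by positivity
  obtain ⟨C, hC⟩ : ∃ C : Cost c, C = ⟨0, F.toList.map fun f => (twoT c f, 2 * e * Cp)⟩ := ⟨_, rfl⟩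
  have hq : ∀ y, C.q a τ y = ∑ f ∈ F, 2 * e * Cp * (twoT c f).Eobs a τ y := by
    intro y
    rw [hC]
    simp only [Cost.q, List.map_map]
    exact Finset.sum_map_toList F _
  have hload : ∀ i, C.load i = ∑ f ∈ F, if i ∈ (twoT c f).cells then 2 * e * Cp else 0 := by
    intro i
    rw [hC]
    simp only [Cost.load, List.map_map]
    exact Finset.sum_map_toList F _
  have hsize : C.size = ∑ f ∈ F, 2 * e * Cp * ((twoT c f).cells.card : ℝ) := by
    rw [hC]
    simp only [Cost.size, List.map_map]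
    exact Finset.sum_map_toList F _
  have hIn : C.In D (8 * e * Cp) := by
    refine ⟨?_, ?_⟩
    · intro p hp
      rw [hC] at hp
      obtain ⟨f, hf, rfl⟩ := List.mem_map.1 hp
      obtain ⟨-, h2, h3⟩ := hF f (Finset.mem_toList.1 hf)
      refine ⟨Avg.opn_ok c _, ?_, hk⟩
      intro i hi
      simp only [twoT, Top.opn, Top.restr, Top.full, Finset.mem_inter, Finset.mem_univ, true_and, Finset.mem_insert,
        Finset.mem_singleton] at hi
      rcases hi with rfl | rfl
      · exact h2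
      · exact h3
    · intro i
      rw [hload, ← Finset.sum_filter, Finset.sum_const, nsmul_eq_mul]
      have h4 : ((F.filter fun f => i ∈ (twoT c f).cells).card : ℝ) ≤ 4 := by exact_mod_cast bdr_four F i
      calc ((F.filter fun f => i ∈ (twoT c f).cells).card : ℝ) * (2 * e * Cp) ≤ 4 * (2 * e * Cp) :=
            mul_le_mul_of_nonneg_right h4 hk
        _ = 8 * e * Cp := by ring
  have h1 : BdR a τ θ D (8 * e * Cp) (fun y => Real.exp (e * fE c τ F y)) (C.wt θ) := by
    refine bdr_single C hIn fun y => ?_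
    rw [abs_of_pos (Real.exp_pos _), Cost.val, hq]
    apply Real.exp_le_exp.2
    have hκ : C.κ = 0 := by rw [hC]
    rw [hκ, zero_add, fE, Finset.mul_sum, Finset.sum_div]
    refine Finset.sum_le_sum fun f hf => ?_
    have := mul_le_mul_of_nonneg_left (hCo τ y f (hF f hf).1) he
    linarith
  refine bdr_mono (Finset.Subset.refl _) le_rfl ?_ h1
  rw [Cost.wt]
  apply Real.exp_le_exp.2
  have hκ : C.κ = 0 := by rw [hC]
  rw [hκ, zero_add]
  refine mul_le_mul_of_nonneg_left ?_ hθ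
  rw [hsize]
  calc ∑ f ∈ F, 2 * e * Cp * ((twoT c f).cells.card : ℝ) ≤ ∑ _f ∈ F, 2 * e * Cp * 2 := by
        refine Finset.sum_le_sum fun f _ => mul_le_mul_of_nonneg_left ?_ hk
        have : (twoT c f).cells.card ≤ 2 := by
          have h5 : (twoT c f).cells ⊆ {f.1, fnb c f} := by
            simp only [twoT, Top.opn, Top.restr, Top.full]
            exact Finset.inter_subset_right
          exact (Finset.card_le_card h5).trans Finset.card_le_two
        exact_mod_cast this
    _ = 4 * e * Cp * F.card := by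
        rw [Finset.sum_const, nsmul_eq_mul]
        ring

/-! ## 3. Exit  (L-BDR-EXIT) -/

/-- **from real bounds to `Bd` at `H = 0`**: an imaginary part in `imK c D 0 R` vanishes on `D`, and `F` depends only on the observation in `D` -/
theorem bd_of_bdr (R : ℕ) {D : Finset c.I} {h w : ℝ} (F : (c.I → ℂ) → ℂ) (hloc : ∀ y y' : c.I → ℂ, (∀ i ∈ D, y i = y' i) → F y = F y')
    {g : (c.I → ℝ) → ℝ} (H : BdR a τ θ D h g w) (hF : ∀ y : c.I → ℝ, ‖F fun i => (y i : ℂ)‖ ≤ |g y|) : Bd a τ R 0 θ D h F w := by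
  obtain ⟨L, h1, h2, h3⟩ := H
  refine ⟨L, ?_, h2, h3⟩
  intro y k hk
  have hk0 : ∀ i ∈ D, k i = 0 := fun i hi => abs_nonpos_iff.1 (hk.1 i hi)
  have e : (F fun i => (y i : ℂ) + (k i : ℂ) * Complex.I) = F fun i => (y i : ℂ) := by
    refine hloc _ _ fun i hi => ?_
    rw [hk0 i hi]
    simp
  rw [e]
  exact (hF y).trans (h1 y)

end

end Claimed.Agent.R285.Entry
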