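-- KEEP
import Claimed.Agent.R285.Entry.PhyDefs
import Claimed.Agent.R285.Entry.Norm
import Claimed.Agent.R285.Ent.If

/-!
# ROW 285, ENTRY, post NORM (#13340, architect helper229): DEFINITIONS OF THE REDUCTION `Phys ⟸ BoxOK`.   Nothing is proved or sorried here.

THE CHAIN (real observations `y`, `S` valid, `G_O = halTop S O`; [F] cutoff-entry.tex l.1463-1745, 1975-2010):
```
(A) NtHalo   |halo S y|  ≤ ∑_{O ⊆ S} hterm S O y * ET G_O S y                                                    [nm_signed, nm_delta; exact]
(B) NtStep   hterm S O y ≤ x^(2|skp S ∪ O| + |halT S|) * exp (e1 * halE S y) * AT G_O y                            [restoration chain, nm_bracket_T, QLoc.ge, junction terms cancel]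
(C) NtSeam   AT G y * ET G S y ≤ x^|kept| * exp ((E G - E (G.cut sm)) / 2) * ∏_b QT (piece G b) (keptB S b) y      [nm_seam_norm, fk_split]
    NtShape  E G - E (G.cut sm) ≤ C Cg ∑_f swt f * w_f² + Ds ∑_{z ∈ V4 G} σ_z²                                    [QLoc.df]
    NtCut    for every y there is an offset t which keeps half of the marks and has seam cost ≤ 16 Cs (R/P) halE   [counting + Markov]
(D) NtCost   calculus of `BdR`;   NtBox: QT ≤ good + bad on every box;   Ent/Phys.lean: assembly, numerics.
```
* `StepOK`, `Chain` : restoration paths (every patch shows the proxy topologies of the path without marks).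
* `NGeo c R`        : THE METRIC FACTS OWED BY GEO (helper108).
* `cwt`, `Cg`, `Cm` : exponential weights of a set of cells, constants of row sums.
* `BdR`             : `Bd` for real functions of real observations.
* `Src`             : the source (circulation) of the sector.
-/

set_option autoImplicit false

namespace Claimed.Agent.R285.Entry

open scoped BigOperators
open Claimed.Agent.R285 Claimed.Agent.R285.RG Claimed.Agent.R285.F4a Claimed.Agent.R285.Ent

noncomputable section

variable {G : Geom}

/-! ## 1. Restoration paths -/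

/-- the event `k` can be restored in the region `D` after the events of `U`: its patch lies in `D` and shows the proxy topologies;
ISLAND (6th clause, GEOMETRY v2, helper134): the patch is the `R/32`-neighbourhood of the core inside a region `A` which no face of the ambient topology leaves
(real chain: edge event: `A` = the cells of `D` outside the vertex tiles, all rings are still cut; ring event: `A = D`). -/
def StepOK (c : Grid G) (R : ℕ) (D : Finset c.I) (U : Finset EvId) (k : EvId) : Prop :=
  k ∈ events c R ∧ k ∉ U ∧ patch c R k ⊆ D ∧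
    (topU c R (insert k U)).restr (patch c R k) = topO c R k ∧ (topU c R U).restr (patch c R k) = topC c R k ∧
    ∃ A : Finset c.I, patch c R k ⊆ A ∧ A ∩ nbh c (R / 32) (core c R k) ⊆ patch c R k ∧
      ∀ f ∈ ((topU c R (insert k U)).restr D).faces, (f.1 ∈ A ↔ fnb c f ∈ A)

/-- `U` can be restored event by event, starting from the isolated tiles -/
inductive Chain (c : Grid G) (R : ℕ) (D : Finset c.I) : Finset EvId → Prop
  | nil : Chain c R D ∅
  | cons {U : Finset EvId} {k : EvId} : Chain c R D U → StepOK c R D U k → Chain c R D (insert k U)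

/-! ## 2. The metric facts owed by GEO -/

/-- **what NORM uses about tiles, events, patches and halos** (beyond the definitions) -/
structure NGeo (c : Grid G) (R : ℕ) : Prop where
  pos : 0 < R
  d64 : 64 ∣ R
  dvd : R ∣ c.n
  /-- the testing patches of the marks of a valid set are pairwise disjoint -/
  tp_disj : ∀ S, Valid c R S → ∀ k ∈ S, ∀ k' ∈ S, k ≠ k' → Disjoint (tpatch c R k) (tpatch c R k')
  /-- the testing patches lie in the halo -/
  tp_halC : ∀ S, ∀ k ∈ S ∪ skp c R S, tpatch c R k ⊆ halC c R S
  /-- in every halo topology the testing patch of a mark shows the path without marks -/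
  tst : ∀ S O, Valid c R S → O ⊆ S → ∀ k ∈ S,
    (halTop c R S O).restr (tpatch c R k) = if k ∈ O then tstO c R k else tstC c R k
  /-- GEOMETRY v2 (helper210): a retained face of a halo topology which starts in the testing patch of a mark stays in the tiles of this mark
  (ring mark: `nbh (R/16 + 1) (core) ⊆ ctl`; edge mark `k`: the only near exits are ring faces of the two end rings `e`; `e ∈ skp S ∪ O` would give `e ∈ S`, hence `k ∈ skp S`, against `Valid`) -/
  tp_cl : ∀ S O, Valid c R S → O ⊆ S → ∀ k ∈ S, ∀ f ∈ (halTop c R S O).faces,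
    (f.1 ∈ tpatch c R k → fnb c f ∈ ctl c R k) ∧ (fnb c f ∈ tpatch c R k → f.1 ∈ ctl c R k)
  /-- second colour first, then first colour -/
  chain : ∀ S O, Valid c R S → O ⊆ S → Chain c R (halC c R S) (skp c R S ∪ O)
  skp_card : ∀ S, (skp c R S).card ≤ 4 * S.card
  halT_card : ∀ S, (halT c R S).card ≤ 32 * S.card
  halT_sub : ∀ S, S ⊆ events c R → halT c R S ⊆ tiles c R
  halC_mono : ∀ S S', S ⊆ S' → halC c R S ⊆ halC c R S'
  tile_card : ∀ t, (cellsOf c R {t}).card ≤ R ^ 2
  tile_diam : ∀ i i', tile c R i = tile c R i' → c.idist i i' < R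
  /-- a testing patch is small -/
  tp_small : ∀ k ∈ events c R, ∃ i0, tpatch c R k ⊆ nbh c R {i0}
  tp_ne : ∀ k ∈ events c R, (core c R k).Nonempty

/-! ## 3. Exponential weights -/

/-- the exponential weight of the set `A` seen from the cell `i` -/
def cwt (c : Grid G) (κ : ℝ) (A : Finset c.I) (i : c.I) : ℝ := ∑ j ∈ A, Real.exp (-κ * c.idist j i)

/-- `∑_j e^{-κ d(i,j)} ≤ Cs κ` (`F4a.sum_exp_idist`) -/
def Cs (κ : ℝ) : ℝ := (2 / (1 - Real.exp (-κ / 2))) ^ 2

/-- the constant of `sh_quad` -/
def Cg (κ : ℝ) : ℝ := 4 * Cs (κ / 2)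

/-- the constant of the sum over all cores -/
def Cm (κ : ℝ) : ℝ := 2 * (1 + Real.exp κ) * Cs κ

/-! ## 4. Real bounds -/

variable {c : Grid G}

/-- **`g` is bounded in the region `D`, with load `≤ h`, by the weight `w`** (real functions of real observations) -/
def BdR (a : ℝ) (τ : Face c → ℤ) (θ : ℝ) (D : Finset c.I) (h : ℝ) (g : (c.I → ℝ) → ℝ) (w : ℝ) : Prop :=
  ∃ L : List (Cost c), (∀ y, |g y| ≤ Lval a τ L y) ∧ (∀ C ∈ L, C.In D h) ∧ Lwt θ L ≤ w

/-- the sum of `w_f²` over a set of faces -/
def fE (c : Grid G) (τ : Face c → ℤ) (F : Finset (Face c)) (y : c.I → ℝ) : ℝ := ∑ f ∈ F, wf c τ y f ^ 2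

/-! ## 5. The source -/

/-- the circulation lives at the source cells `Zs` and is bounded by `cz` (`T.Ok` is needed: a full junction of a topology without cells, or through a free wall, would carry circulation) -/
def Src (Y : Phy c) (Zs : Finset c.I) (cz : ℝ) : Prop :=
  0 ≤ cz ∧ ∀ T : Top c, T.Ok → ∀ y : c.I → ℝ, ∑ z ∈ T.V4, sig c z (Y.w y) ^ 2 ≤ if Disjoint T.cells Zs then 0 else cz

/-- the zone `Z` contains every box which meets the source, and few events are near it -/
structure ZoneOK (c : Grid G) (R P : ℕ) (Zs Z : Finset c.I) (nZ : ℕ) : Prop where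
  box : ∀ t ∈ pcuts R P, ∀ b, ¬ Disjoint ((pcut c P t).box b) Zs → (pcut c P t).box b ⊆ Z
  sub : Zs ⊆ Z
  /-- the source meets at most four boxes (`pc_labs`: the source is small) -/
  four : ∀ t ∈ pcuts R P, (Zs.image (pcut c P t).lab).card ≤ 4
  cnt : ((events c R).filter fun k => ¬ Disjoint (halC c R {k}) Z).card ≤ nZ

end

end Claimed.Agent.R285.Entry
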