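import Claimed.Agent.R285.Entry.NtBase

/-!
# ROW 285, ENTRY, post NORM (#13340, architect helper229), STEP (A): THE SIGNED HALO FACTOR IS BOUNDED BY ITS POSITIVE TOPOLOGIES WITH `∏ δ_k` UNDER THEIR GUARD LAWS.   Prefix `nt_`.
[F] cutoff-entry.tex l.1463-1480.   `M₀ = Y.M (halTop S ∅)` = the halo topology with ALL marks cut; mark `k`: interior `Y.evI k`, restored factors `Y.evF k`, `χ_k = Y.chiE k y`, `β_k = Y.prox k y`.
LEAVES: L-NT-HALO-A (`nt_interiors`, `nt_cores`, `nt_glue_O`, `nt_Xi_O`, `nt_dl_eq`), L-NT-HALO-B (`nt_halo_le`).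
-/

set_option autoImplicit false

namespace Claimed.Agent.R285.Entry

open scoped BigOperators
open Claimed.Agent.R285 Claimed.Agent.R285.RG Claimed.Agent.R285.F4a Claimed.Agent.R285.Ent Fac

noncomputable section

variable {G : Geom} {c : Grid G} (Y : Phy c)

theorem nt_ha_patch_sub (R : ℕ) (k : EvId) : patch c R k ⊆ tpatch c R k :=
  Finset.inter_subset_inter_right (nt_dl_nbh_mono (Nat.div_le_div_left (by norm_num) (by norm_num)) _)

theorem nt_ha_cells (R : ℕ) (S O : Finset EvId) : (halTop c R S O).cells = halC c R S := by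
  simp [halTop, Top.restr, topU, Top.cut, Top.full]

theorem nt_ha_disj {R : ℕ} (hg : NGeo c R) {S : Finset EvId} (hS : Valid c R S) {k k' : EvId} (hk : k ∈ S) (hk' : k' ∈ S) (hne : k ≠ k') :
    Disjoint (patch c R k) (patch c R k') :=
  (hg.tp_disj S hS k hk k' hk' hne).mono (nt_ha_patch_sub R k) (nt_ha_patch_sub R k')

/-- a retained face of a halo topology with one end in the interior of a mark has both ends in the patch (`hg.tp_cl`, `nt_brk_face`) -/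
theorem nt_ha_face {R : ℕ} (hg : NGeo c R) {S O : Finset EvId} (hS : Valid c R S) (hO : O ⊆ S) {k : EvId} (hk : k ∈ S) {f : Face c}
    (hf : f ∈ (halTop c R S O).faces) : (f.1 ∈ inner c R k → fnb c f ∈ patch c R k) ∧ (fnb c f ∈ inner c R k → f.1 ∈ patch c R k) := by
  have hr : R / 64 + 1 ≤ R / 32 := by
    obtain ⟨m, hm⟩ := hg.d64
    have := hg.pos
    omega
  have hF := nt_brk_face ((nt_ok_halTop R S O) f hf).1 (core c R k) hr
  have hcl := hg.tp_cl S O hS hO k hk f hf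
  have hit : inner c R k ⊆ tpatch c R k := (nt_dl_inner_sub R k).trans (nt_ha_patch_sub R k)
  constructor
  · intro h
    exact Finset.mem_inter.2 ⟨hF.1 (Finset.mem_inter.1 h).1, hcl.1 (hit h)⟩
  · intro h
    exact Finset.mem_inter.2 ⟨hF.2 (Finset.mem_inter.1 h).1, hcl.2 (hit h)⟩

/-- `sub`: `hY.A_eq`, `inner ⊆ patch ⊆ halC S`.   `sep`: `hY.sep` with `J = inner k`, `J' = inner k'`: a face from `inner k` ends in `patch k` (`nt_ha_face`), which is disjoint from `inner k'`. -/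
theorem nt_interiors (hY : Y.Ok) (hg : NGeo c Y.R) {S : Finset EvId} (hS : Valid c Y.R S) : Interiors (Y.M (halTop c Y.R S ∅)) S Y.evI := by
  constructor
  · intro k hk
    rw [hY.A_eq, nt_ha_cells]
    exact nt_st_mono Y ((nt_dl_inner_sub _ k).trans (nt_patch_halC (Finset.mem_union_left _ hk)))
  · intro k hk k' hk' hne
    have hd := nt_ha_disj hg hS hk hk' hne
    refine hY.sep _ _ _ (nt_ok_halTop _ _ _) (hd.mono (nt_dl_inner_sub _ k) (nt_dl_inner_sub _ k')) fun f hf => ⟨?_, ?_⟩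
    · rintro ⟨h1, h2⟩
      exact Finset.disjoint_left.1 hd ((nt_ha_face hg hS (Finset.empty_subset _) hk hf).1 h1) (nt_dl_inner_sub _ k' h2)
    · rintro ⟨h1, h2⟩
      exact Finset.disjoint_left.1 hd ((nt_ha_face hg hS (Finset.empty_subset _) hk hf).2 h2) (nt_dl_inner_sub _ k' h1)

theorem nt_ha_cut_disj {R : ℕ} {S : Finset EvId} (hS : Valid c R S) {k : EvId} (hk : k ∈ S) : Disjoint (cutF c R k) (halTop c R S ∅).faces := by
  rw [Finset.disjoint_left]
  intro f h1 h2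
  rw [nt_mem_cutF] at h1
  unfold halTop at h2
  rw [nt_mem_restr_faces, mem_topU_faces, Finset.union_empty] at h2
  rcases h2.1.2 with h3 | h3
  · exact h1.1.2 h3
  · exact Finset.disjoint_left.1 hS.2 hk (h1.2 ▸ h3)

/-- PLAN: `nt_FFs_pos`, `nt_FFs_new` (`nt_topU_union`: the faces of the marks are not in `halTop S ∅`, as `S` is disjoint from `skp S`), `nt_FFs_disj` + `nt_cutF_disj`, `nt_FFs_off` + `nt_cutF_core` (`core k ⊆ tpatch k` disjoint from `inner k' ⊆ tpatch k'`). -/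
theorem nt_cores (hY : Y.Ok) (hg : NGeo c Y.R) {S : Finset EvId} (hS : Valid c Y.R S) : Cores (Y.M (halTop c Y.R S ∅)) S Y.evI Y.evF := by
  constructor
  · intro k _
    exact nt_FFs_pos Y hY _
  · intro k hk
    exact nt_FFs_new Y hY _ (nt_ok_halTop _ _ _) _ (nt_ha_cut_disj hS hk)
  · intro k _ k' _ hne
    exact nt_FFs_disj Y hY _ _ (nt_cutF_disj hne)
  · intro k hk k' hk' hne
    exact nt_FFs_off Y hY _ (core c Y.R k) (inner c Y.R k') (fun f hf => (nt_cutF_core hf).2)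
      ((nt_ha_disj hg hS hk hk' hne).mono (nt_dl_core_sub _ k) (nt_dl_inner_sub _ k'))

theorem nt_ha_union {R : ℕ} {S O : Finset EvId} (hS : Valid c R S) (hO : O ⊆ S) :
    halTop c R S O = ⟨(halTop c R S ∅).cells, (halTop c R S ∅).faces ∪ O.biUnion (cutF c R)⟩ ∧
      Disjoint (O.biUnion (cutF c R)) (halTop c R S ∅).faces := by
  have := nt_topU_union (c := c) R (skp c R S) O (halC c R S) (Finset.disjoint_of_subset_left hO hS.2)
    (fun k hk => (nt_dl_core_sub R k).trans (nt_patch_halC (Finset.mem_union_left _ (hO hk))))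
  unfold halTop
  rwa [Finset.union_empty]

/-- PLAN: `nt_topU_union` (`U = skp S`, `D = halC S`), `hY.glue`, `nt_FFs_biUnion`. -/
theorem nt_glue_O (hY : Y.Ok) (hg : NGeo c Y.R) {S O : Finset EvId} (hS : Valid c Y.R S) (hO : O ⊆ S) :
    Y.M (halTop c Y.R S O) = (Y.M (halTop c Y.R S ∅)).add (Fs.bU O Y.evF) := by
  obtain ⟨h1, h2⟩ := nt_ha_union (c := c) hS hO
  have h3 : (⟨(halTop c Y.R S ∅).cells, (halTop c Y.R S ∅).faces ∪ O.biUnion (cutF c Y.R)⟩ : Top c).Ok := h1 ▸ nt_ok_halTop _ _ _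
  rw [h1, hY.glue _ _ (nt_ok_halTop _ _ _) h3 h2, nt_FFs_biUnion]
  rfl

theorem nt_Xi_O (hg : NGeo c Y.R) {S O : Finset EvId} (hS : Valid c Y.R S) (hO : O ⊆ S) (y : c.I → ℝ) :
    Y.Xi (halTop c Y.R S O) y = Y.Xi (halTop c Y.R S ∅) y * ∏ k ∈ O, Y.chiE k y := by
  obtain ⟨h1, h2⟩ := nt_ha_union (c := c) hS hO
  unfold Phy.Xi Phy.chiE
  rw [h1]
  show ∏ f ∈ (halTop c Y.R S ∅).faces ∪ O.biUnion (cutF c Y.R), Y.Xf y f = _
  rw [Finset.prod_union h2.symm, Finset.prod_biUnion]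
  intro k _ k' _ hne
  exact nt_cutF_disj hne

/-- **the local kernel is the kernel of the proxy patch.**  PLAN: `nm_dlt_congr` with `D = D'`; `hloc`: `hY.loc (halTop S ∅) (topC k) (inner k)`: by `hg.tst` (`O = ∅`) and `nt_restr_restr_of_sub`, `(halTop S ∅).restr (patch k) = topC k`;
a cell of `disc T (T.restr (patch k))` is outside the patch or a neighbour of such a cell (as in `nt_brk`; you may also use `(nt_brk ..).loc`). -/
theorem nt_dl_eq (hY : Y.Ok) (hg : NGeo c Y.R) {S : Finset EvId} (hS : Valid c Y.R S) {k : EvId} (hk : k ∈ S) (y : c.I → ℝ) :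
    dlt (Y.M (halTop c Y.R S ∅)) (Y.evI k) (Y.evF k) (Y.chiE k y) (Y.prox k y) (Y.D y) = Y.dl k y := by
  have hT : (halTop c Y.R S ∅).restr (patch c Y.R k) = topC c Y.R k := by
    have h1 := hg.tst S ∅ hS (Finset.empty_subset _) k hk
    rw [if_neg (Finset.notMem_empty k)] at h1
    rw [← nt_restr_restr_of_sub _ (nt_ha_patch_sub Y.R k), h1]
    unfold tstC
    rw [nt_restr_restr_of_sub _ (nt_ha_patch_sub Y.R k)]
    rfl
  have hdis : Disjoint (inner c Y.R k) ((halTop c Y.R S ∅).disc (topC c Y.R k)) := by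
    rw [Finset.disjoint_left]
    intro i hi hd
    have hip := nt_dl_inner_sub Y.R k hi
    rw [← hT] at hd
    unfold Top.disc at hd
    rw [Finset.mem_filter] at hd
    rcases hd.2 with h | ⟨f, hfi, h⟩
    · apply h
      show i ∈ (halTop c Y.R S ∅).cells ↔ i ∈ (halTop c Y.R S ∅).cells ∩ patch c Y.R k
      rw [Finset.mem_inter]
      exact ⟨fun h => ⟨h, hip⟩, fun h => h.1⟩
    · apply h
      rw [nt_mem_restr_faces]
      refine ⟨fun hf => ⟨hf, ?_⟩, fun h => h.1⟩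
      have hF := nt_ha_face hg hS (Finset.empty_subset _) hk hf
      rcases hfi with rfl | rfl
      · exact ⟨hip, hF.1 hi⟩
      · exact ⟨hF.2 hi, hip⟩
  exact nm_dlt_congr _ _ _ _ (hY.loc _ _ _ (nt_ok_halTop _ _ _) (nt_dl_ok_topC _ _) hdis) _ _ _ _ (fun _ _ => rfl) (fun _ _ => rfl)

theorem nt_halo_hterm_eq (hY : Y.Ok) (hN : ∀ T, 0 < Y.W.N T) (hg : NGeo c Y.R) {S O : Finset EvId} (hS : Valid c Y.R S) (hO : O ⊆ S) (y : c.I → ℝ) :
    Y.hterm S O y = Y.Xi (halTop c Y.R S ∅) y / (((∏ k ∈ skp c Y.R S, Y.prox k y) * ∏ t ∈ halT c Y.R S, Y.tdiv t y) * ∏ k ∈ S, Y.prox k y)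
      * ((∏ k ∈ S \ O, Y.prox k y) * (∏ k ∈ O, Y.chiE k y) * ((Y.M (halTop c Y.R S ∅)).add (Fs.bU O Y.evF)).Z1 (Y.D y)) := by
  have hd : Disjoint (skp c Y.R S) O := (hS.2.mono_left hO).symm
  have h1 : (∏ k ∈ skp c Y.R S, Y.prox k y) ≠ 0 := (Finset.prod_pos fun k _ => nt_prox_pos Y hN k y).ne'
  have h2 : (∏ t ∈ halT c Y.R S, Y.tdiv t y) ≠ 0 := (Finset.prod_pos fun t _ => nt_tdiv_pos Y hN t y).ne'
  have h3 : (∏ k ∈ S \ O, Y.prox k y) ≠ 0 := (Finset.prod_pos fun k _ => nt_prox_pos Y hN k y).ne'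
  have h4 : (∏ k ∈ O, Y.prox k y) ≠ 0 := (Finset.prod_pos fun k _ => nt_prox_pos Y hN k y).ne'
  unfold Phy.hterm Phy.Zh
  rw [nt_glue_O Y hY hg hS hO, nt_Xi_O Y hg hS hO, Finset.prod_union hd, ← Finset.prod_sdiff hO]
  field_simp

/-- **STEP (A).**
PLAN: `X₀ = Xi (halTop S ∅) y`, `Π = (∏_{skp S} β) (∏_{halT S} tdiv) > 0`.  By `nt_haloTerm_cast`, `halo = ((∑_O (-1)^|S∖O| hterm S O y : ℝ) : ℂ)`.   `hterm S O y = X₀ (∏_O χ) (M₀.add (bU O evF)).Z1 D / (Π ∏_O β)` (`nt_glue_O`, `nt_Xi_O`, `Finset.prod_union` as `O` is disjoint from `skp S`).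
Multiply and divide by `∏_{S∖O} β`: `∑_O (-1)^|S∖O| hterm = X₀ / (Π ∏_S β) * M₀.Z D (∏_{k ∈ S} (χ_k rw (evF k) - β_k))` (`nm_signed`).   `nm_delta` + `nt_dl_eq` + the same algebra backwards;  `(M₀.add ..).Z D (dls S y) = Z1 * ET`. -/
theorem nt_halo_le (hY : Y.Ok) (hN : ∀ T, 0 < Y.W.N T) (hg : NGeo c Y.R) {S : Finset EvId} (hS : Valid c Y.R S) (y : c.I → ℝ) :
    ‖Y.W.halo Y.R S (fun i => (y i : ℂ))‖ ≤ ∑ O ∈ S.powerset, Y.hterm S O y * Y.ET (halTop c Y.R S O) S y := by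
  have hM : (Y.M (halTop c Y.R S ∅)).Ok := hY.ok _ (nt_ok_halTop _ _ _)
  have hI := nt_interiors Y hY hg hS
  have hF := nt_cores Y hY hg hS
  set A : ℝ := Y.Xi (halTop c Y.R S ∅) y / (((∏ k ∈ skp c Y.R S, Y.prox k y) * ∏ t ∈ halT c Y.R S, Y.tdiv t y) * ∏ k ∈ S, Y.prox k y) with hA
  have hA0 : 0 ≤ A := div_nonneg (nt_Xi_mem Y hY _ y).1.le
    (mul_nonneg (mul_nonneg (Finset.prod_nonneg fun k _ => (nt_prox_pos Y hN k y).le) (Finset.prod_nonneg fun t _ => (nt_tdiv_pos Y hN t y).le))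
      (Finset.prod_nonneg fun k _ => (nt_prox_pos Y hN k y).le))
  have e1 : Y.W.halo Y.R S (fun i => (y i : ℂ))
      = ((A * (Y.M (halTop c Y.R S ∅)).Z (Y.D y) (fun h => ∏ k ∈ S, (Y.chiE k y * rw (Y.evF k) (Y.D y) h - Y.prox k y)) : ℝ) : ℂ) := by
    rw [nm_signed _ hM S Y.evI Y.evF hF, Finset.mul_sum]
    unfold Wt.halo
    push_cast
    refine Finset.sum_congr rfl fun O hO => ?_
    rw [nt_haloTerm_cast Y hY, nt_halo_hterm_eq Y hY hN hg hS (Finset.mem_powerset.1 hO) y, ← hA]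
    push_cast
    ring
  have e2 : (fun h => ∏ k ∈ S, dlt (Y.M (halTop c Y.R S ∅)) (Y.evI k) (Y.evF k) (Y.chiE k y) (Y.prox k y) (Y.D y) h) = Y.dls S y := by
    funext h
    exact Finset.prod_congr rfl fun k hk => by rw [nt_dl_eq Y hY hg hS hk y]
  have h3 := nm_delta _ hM S Y.evI hI Y.evF hF (fun k => Y.chiE k y) (fun k => Y.prox k y)
    (fun k _ => (nt_chiE_mem Y hY k y).1.le) (fun k _ => (nt_prox_pos Y hN k y).le) (Y.D y)
  rw [e2] at h3
  rw [e1, Complex.norm_real, Real.norm_eq_abs, abs_mul, abs_of_nonneg hA0]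
  refine (mul_le_mul_of_nonneg_left h3 hA0).trans (le_of_eq ?_)
  rw [Finset.mul_sum]
  refine Finset.sum_congr rfl fun O hO => ?_
  have hOS := Finset.mem_powerset.1 hO
  have hp : 0 < ((Y.M (halTop c Y.R S ∅)).add (Fs.bU O Y.evF)).Z1 (Y.D y) := by
    rw [← nt_glue_O Y hY hg hS hOS]
    exact fk_Z1_pos _ (hY.ok _ (nt_ok_halTop _ _ _)) _
  rw [nt_halo_hterm_eq Y hY hN hg hS hOS y, ← hA]
  unfold Phy.ET Fac.Msk.Ex
  rw [nt_glue_O Y hY hg hS hOS]
  field_simp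

end

end Claimed.Agent.R285.Entry
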