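-- KEEP
import Claimed.Agent.R285.Entry.NtCut
import Claimed.Agent.R285.Entry.NtCost
import Claimed.Agent.R285.Entry.NtHalo

/-!
# ROW 285, ENTRY, post NORM (#13340, architect helper229), STEP (D): PARAMETERS, HYPOTHESES, NUMERICAL CONDITIONS.   DEFINITIONS ONLY.
* `NPar`          all real parameters of the reduction in one record.
* `NIn Y p Zs Z`  everything that is KNOWN in one volume: representation, structure, geometry, matrices, cell Poincaré, source, zone, **`BoxOK`**, signs.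
* `p.ee R`, `p.hbox`, `p.wbad`, `p.A0`, `p.wsrc`, `p.A1 R`, `p.CP R` derived constants.
* `NNum p R`  the numerical conditions (verified in `Ent/PhysNum.lean` for `R = 2^kR`, `P = R⁵`, `γ = e^{-c₀ R}`, `ea = R^{-12}`, `U` large).
-/

set_option autoImplicit false

namespace Claimed.Agent.R285.Entry

open scoped BigOperators
open Claimed.Agent.R285 Claimed.Agent.R285.RG Claimed.Agent.R285.F4a Claimed.Agent.R285.Ent

noncomputable section

variable {G : Geom}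

/-- the parameters: `a` stiffness, `cb` admissible load, `θ` trace constant; `Cq, cc, Ds` (`QLoc`), `Cp` (`FaceCo`); `x, cstar, U, γ, C0, ea, bg` (`BoxOK`); `lam` = `ε₁` of (ent:threshold-charge); `cz` (`Src`);
`P` side of the boxes, `nZ` (`ZoneOK`); exits: `gm` gain of a mark / tile, `big` price of the zone, `CR` crude constant of the positive pattern -/
structure NPar where
  a : ℝ
  cb : ℝ
  θ : ℝ
  Cq : ℝ
  cc : ℝ
  Ds : ℝ
  Cp : ℝ
  x : ℝ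
  cstar : ℝ
  U : ℝ
  γ : ℝ
  C0 : ℝ
  ea : ℝ
  bg : ℝ
  lam : ℝ
  cz : ℝ
  P : ℕ
  nZ : ℕ
  gm : ℝ
  big : ℝ
  CR : ℝ

/-- what is known in one volume -/
structure NIn {c : Grid G} (Y : Phy c) (p : NPar) (Zs Z : Finset c.I) : Prop where
  ok : Y.Ok
  str : Y.W.Str
  geo : NGeo c Y.R
  q : QLoc Y.W p.Cq p.cc p.Ds
  co : FaceCo c p.a p.Cp
  src : Src Y Zs p.cz
  zone : ZoneOK c Y.R p.P Zs Z p.nZ
  box : BoxOK Y p.a p.P Zs p.x p.cstar p.U p.γ p.C0 p.ea p.bg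
  dvdP : Y.R ∣ p.P
  big64 : 64 * Y.R ≤ p.P
  Pn : p.P ≤ c.n
  θ0 : 0 ≤ p.θ
  Cp0 : 0 ≤ p.Cp
  cs0 : 0 < p.cstar
  cs1 : p.cstar < 1
  γ0 : 0 < p.γ
  γ1 : p.γ ≤ 1
  C01 : 1 ≤ p.C0
  ea0 : 0 ≤ p.ea
  bg1 : 1 ≤ p.bg
  lam0 : 0 < p.lam

namespace NPar

variable (p : NPar)

/-- the coefficient of `halE`: proxy cost + seam cost -/
def ee (R : ℕ) : ℝ := e1 p.Cq p.cc R + e2 p.Cq p.cc R p.P

/-- the load of a box -/
def hbox : ℝ := 1 - p.cstar + 8 * (p.lam + p.ea) * p.Cp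

/-- the weight of the good branch of a box with `K` retained marks -/
def wgood (K : ℕ) : ℝ := p.C0 * p.γ ^ K * Real.exp (p.θ * (32 * p.ea * p.Cp * (p.P : ℝ) ^ 2))

/-- the weight of the bad branch of a box -/
def wbad : ℝ := Real.exp (-p.lam * p.U ^ 2 + p.θ * (32 * p.lam * p.Cp * (p.P : ℝ) ^ 2 + 4 * (p.P : ℝ) ^ 2))

/-- the weight of a box which meets the source -/
def wsrc : ℝ := p.bg * Real.exp (p.θ * (4 * (p.P : ℝ) ^ 2))

/-- the constant of a box -/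
def A0 : ℝ := p.C0 * Real.exp (p.θ * (32 * p.ea * p.Cp * (p.P : ℝ) ^ 2)) + 1

/-- the constant of a mark -/
def A1 (R : ℕ) : ℝ := 2 * p.x ^ 43 * Real.exp (p.θ * (256 * p.ee R * p.Cp * (R : ℝ) ^ 2)) * p.A0 ^ 128

/-- the constant of a mark in the positive pattern -/
def CP (R : ℕ) : ℝ := 2 * p.x ^ 42 * Real.exp (p.θ * (256 * e1 p.Cq p.cc R * p.Cp * (R : ℝ) ^ 2 + 32 * (R : ℝ) ^ 2))

end NPar

/-- **the numerical conditions** -/
structure NNum (p : NPar) (R : ℕ) : Prop where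
  load : p.hbox + 8 * p.ee R * p.Cp ≤ p.cb
  bad : p.wbad ≤ p.γ ^ (4 * p.P ^ 2)
  halo : p.A1 R * ((p.P / R : ℕ) : ℝ) ^ 2 * Real.sqrt p.γ ≤ p.gm
  haloZ : p.A1 R ^ p.nZ * ((p.P / R : ℕ) : ℝ) ^ 2 * Real.exp (p.Ds * p.cz / 2) * p.wsrc ^ 4 ≤ p.big
  tile : p.γ + Real.exp (-p.lam * p.U ^ 2) * (p.x * Real.exp (p.θ * ((R : ℝ) ^ 2 + 8 * p.lam * p.Cp * (R : ℝ) ^ 2))
      + Real.exp (p.θ * (8 * p.lam * p.Cp * (R : ℝ) ^ 2))) ≤ p.gm
  tileZ : p.x * p.bg * Real.exp (p.θ * (R : ℝ) ^ 2) ≤ p.big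
  pos : p.CP R ≤ p.CR
  posZ : p.CP R ^ p.nZ * p.bg ≤ p.big
  posT : p.x * Real.exp (p.θ * (R : ℝ) ^ 2) ≤ p.CR
  big1 : 1 ≤ p.big

open Classical in
/-- the marks away from the zone -/
def farS (c : Grid G) (R : ℕ) (Z : Finset c.I) (S : Finset EvId) : Finset EvId := S.filter fun k => Disjoint (halC c R {k}) Z

end

end Claimed.Agent.R285.Entry
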