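import Claimed.Agent.R285.Entry.NtBox

/-!
# ROW 285, ENTRY, post NORM (#13340, architect helper229), STEP (D3): THE ASSEMBLY  `Phys + PhysPos ⟸ NIn + NNum`.   Prefix `ph_`.   Paper-free.
Everything is generic in `Y : Phy c`.   Hypotheses `H : NIn Y p Zs Z` (`Entry/NtPar.lean`: representation, geometry, matrices, `BoxOK`, source, zone, signs) and `hn : NNum p Y.R` (numerical conditions).
```
positive pattern   ∑_O hterm S O y ≤ ∑_O x^(42|S|) (1|bg) e^{e1 halE} e^{(1-c_*)/2 E_{G_O}}                                       nt_hterm_le, box.reserve / reserveZ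
signed halo        ‖halo S y‖ ≤ ∑_O ∑_{t ∈ goodT (farS S)} x^(43|S|) e^{Ds/2 (0|cz)} e^{ee halE} ∏_b QT(piece b)(keptB b) y       nt_halo_le, nt_hterm_le, nt_cut_le
                   cost: bdr_face (halF S) × nb_boxes;  weight: nb_wt;  S = ∅: the positive pattern
tiles              tfac = AT * Z0 / N ≤ x AT;   |tfac - 1| ≤ γ + e^{-lam U²} e^{lam tileE} (x e^{(1-c_*)/2 E_t} + 1)                 pins.nrmT, box.tile, box.reserve
```
LEAVES: L-PH-SIZE (s1), L-PH-POS (s2), L-PH-HALO-P (`ph_halo_point`), L-PH-HALO-B (`ph_halo_bdr`), L-PH-HALO-W (`ph_halo_wt`, `ph_halo`), L-PH-TILE (s4).   `phys_of_box` (s5) is proved.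
-/

set_option autoImplicit false

namespace Claimed.Agent.R285.Entry

open scoped BigOperators
open Claimed.Agent.R285 Claimed.Agent.R285.RG Claimed.Agent.R285.F4a Claimed.Agent.R285.Ent

noncomputable section

variable {G : Geom} {c : Grid G} (Y : Phy c) {p : NPar} {Zs Z : Finset c.I}

/-! ## 1. Sizes and signs  (L-PH-SIZE) -/

/-- `Cs`, `Cg`, `Cm` are nonnegative (a square), `H.q.C_nn` -/
theorem ph_e_nonneg (H : NIn Y p Zs Z) : 0 ≤ e1 p.Cq p.cc Y.R ∧ 0 ≤ e2 p.Cq p.cc Y.R p.P ∧ e1 p.Cq p.cc Y.R ≤ p.ee Y.R := by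
  have hC := H.q.C_nn
  have hs : ∀ κ : ℝ, 0 ≤ Cs κ := fun κ => sq_nonneg _
  have hg : ∀ κ : ℝ, 0 ≤ Cg κ := fun κ => mul_nonneg (by norm_num) (hs _)
  have hm : ∀ κ : ℝ, 0 ≤ Cm κ := fun κ => mul_nonneg (mul_nonneg (by norm_num) (by positivity)) (hs _)
  have h1 : 0 ≤ e1 p.Cq p.cc Y.R := by
    unfold e1
    have := hg p.cc
    have := hm (p.cc / 2)
    positivity
  have h2 : 0 ≤ e2 p.Cq p.cc Y.R p.P := by
    unfold e2
    have := hg (p.cc / 2)
    have := hs (p.cc / 4)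
    positivity
  refine ⟨h1, h2, ?_⟩
  unfold NPar.ee
  linarith

/-- `1 ≤ x` (`box.pins.one`), `0 ≤ Ds` (`q.Ds_nn`), `0 ≤ cz` (`src.1`), `1 ≤ A0`, `1 ≤ A1`, `1 ≤ CP`, `1 ≤ wsrc`, `1 ≤ P / R` -/
theorem ph_signs (H : NIn Y p Zs Z) :
    1 ≤ p.x ∧ 0 ≤ p.Ds ∧ 0 ≤ p.cz ∧ 1 ≤ p.A0 ∧ 1 ≤ p.A1 Y.R ∧ 1 ≤ p.CP Y.R ∧ 1 ≤ p.wsrc ∧ (1 : ℝ) ≤ ((p.P / Y.R : ℕ) : ℝ) := by
  obtain ⟨he1, he2, he12⟩ := ph_e_nonneg Y H
  have hx : 1 ≤ p.x := H.box.pins.one
  have hθ := H.θ0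
  have hCp := H.Cp0
  have hee : 0 ≤ p.ee Y.R := he1.trans he12
  have hC0 : 0 ≤ p.C0 := zero_le_one.trans H.C01
  have hea := H.ea0
  have hA0 : 1 ≤ p.A0 := by
    unfold NPar.A0
    have : 0 ≤ p.C0 * Real.exp (p.θ * (32 * p.ea * p.Cp * (p.P : ℝ) ^ 2)) := by positivity
    linarith
  have hexp : ∀ u : ℝ, 0 ≤ u → 1 ≤ Real.exp u := fun u hu => Real.one_le_exp hu
  refine ⟨hx, H.q.Ds_nn, H.src.1, hA0, ?_, ?_, ?_, ?_⟩
  · unfold NPar.A1
    have h1 : (1 : ℝ) ≤ 2 * p.x ^ 43 := by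
      have := one_le_pow₀ hx (n := 43)
      linarith
    have h2 : 1 ≤ Real.exp (p.θ * (256 * p.ee Y.R * p.Cp * (Y.R : ℝ) ^ 2)) := hexp _ (by positivity)
    have h3 : 1 ≤ p.A0 ^ 128 := one_le_pow₀ hA0
    exact one_le_mul_of_one_le_of_one_le (one_le_mul_of_one_le_of_one_le h1 h2) h3
  · unfold NPar.CP
    have h1 : (1 : ℝ) ≤ 2 * p.x ^ 42 := by
      have := one_le_pow₀ hx (n := 42)
      linarith
    have h2 : 1 ≤ Real.exp (p.θ * (256 * e1 p.Cq p.cc Y.R * p.Cp * (Y.R : ℝ) ^ 2 + 32 * (Y.R : ℝ) ^ 2)) := hexp _ (by positivity)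
    exact one_le_mul_of_one_le_of_one_le h1 h2
  · unfold NPar.wsrc
    exact one_le_mul_of_one_le_of_one_le H.bg1 (hexp _ (by positivity))
  · have h1 : 1 ≤ p.P / Y.R := by
      rw [Nat.le_div_iff_mul_le H.geo.pos]
      have := H.big64
      omega
    exact_mod_cast h1

theorem ph_halC_empty (R : ℕ) : halC c R ∅ = ∅ := by
  have h1 : skp c R ∅ = ∅ := by
    unfold skp
    refine Finset.filter_eq_empty_iff.2 fun v _ => ?_
    rintro ⟨e, he, -⟩
    exact absurd he (Finset.notMem_empty e)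
  unfold halC halT cellsOf
  rw [h1]
  simp

/-- `halC S = ⋃_{t ∈ halT S} cellsOf {t}`; `geo.halT_card`, `geo.tile_card` -/
theorem ph_halC_card (H : NIn Y p Zs Z) (S : Finset EvId) : ((halC c Y.R S).card : ℝ) ≤ 32 * (Y.R : ℝ) ^ 2 * S.card := by
  have h1 : halC c Y.R S ⊆ (halT c Y.R S).biUnion fun t => cellsOf c Y.R {t} := by
    intro i hi
    unfold halC cellsOf at hi
    simp only [Finset.mem_filter] at hi
    refine Finset.mem_biUnion.2 ⟨tile c Y.R i, hi.2, ?_⟩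
    unfold cellsOf
    simp
  have h2 : (halC c Y.R S).card ≤ 32 * S.card * Y.R ^ 2 :=
    calc (halC c Y.R S).card ≤ ((halT c Y.R S).biUnion fun t => cellsOf c Y.R {t}).card := Finset.card_le_card h1
      _ ≤ ∑ t ∈ halT c Y.R S, (cellsOf c Y.R {t}).card := Finset.card_biUnion_le
      _ ≤ ∑ _t ∈ halT c Y.R S, Y.R ^ 2 := Finset.sum_le_sum fun t _ => H.geo.tile_card t
      _ = (halT c Y.R S).card * Y.R ^ 2 := by rw [Finset.sum_const, smul_eq_mul]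
      _ ≤ 32 * S.card * Y.R ^ 2 := Nat.mul_le_mul_right _ (H.geo.halT_card S)
  have h3 : ((halC c Y.R S).card : ℝ) ≤ ((32 * S.card * Y.R ^ 2 : ℕ) : ℝ) := by exact_mod_cast h2
  refine h3.trans (le_of_eq ?_)
  push_cast
  ring

/-- the faces of an induced topology -/
theorem ph_restr_faces (c : Grid G) (D : Finset c.I) :
    (∀ f ∈ ((Top.full c).restr D).faces, IsFace c f ∧ f.1 ∈ D ∧ fnb c f ∈ D) ∧ ((Top.full c).restr D).faces.card ≤ 2 * D.card := by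
  have h1 : ∀ f ∈ ((Top.full c).restr D).faces, IsFace c f ∧ f.1 ∈ D ∧ fnb c f ∈ D := by
    intro f hf
    unfold Top.restr Top.full at hf
    simp only [Finset.mem_filter] at hf
    exact ⟨hf.1.2, hf.2⟩
  refine ⟨h1, ?_⟩
  have h2 : ((Top.full c).restr D).faces ⊆ D ×ˢ (Finset.univ : Finset Bool) := fun f hf =>
    Finset.mem_product.2 ⟨(h1 f hf).2.1, Finset.mem_univ _⟩
  have h3 := Finset.card_le_card h2
  rw [Finset.card_product, Finset.card_univ, Fintype.card_bool] at h3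
  omega

/-- a face is determined by its first cell and its direction -/
theorem ph_halF (H : NIn Y p Zs Z) (S : Finset EvId) :
    (∀ f ∈ Y.halF S, IsFace c f ∧ f.1 ∈ halC c Y.R S ∧ fnb c f ∈ halC c Y.R S) ∧ ((Y.halF S).card : ℝ) ≤ 64 * (Y.R : ℝ) ^ 2 * S.card := by
  obtain ⟨h1, h2⟩ := ph_restr_faces c (halC c Y.R S)
  refine ⟨h1, ?_⟩
  have h3 := ph_halC_card Y H S
  have h4 : ((Y.halF S).card : ℝ) ≤ 2 * ((halC c Y.R S).card : ℝ) := by exact_mod_cast h2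
  linarith

theorem ph_tileTop (H : NIn Y p Zs Z) (t : Tile) :
    (tileTop c Y.R t).Ok ∧ (tileTop c Y.R t).cells = cellsOf c Y.R {t} ∧ ((cellsOf c Y.R {t}).card : ℝ) ≤ (Y.R : ℝ) ^ 2 ∧
      (∀ f ∈ (tileTop c Y.R t).faces, IsFace c f ∧ f.1 ∈ cellsOf c Y.R {t} ∧ fnb c f ∈ cellsOf c Y.R {t}) ∧
      ((tileTop c Y.R t).faces.card : ℝ) ≤ 2 * (Y.R : ℝ) ^ 2 := by
  obtain ⟨h1, h2⟩ := ph_restr_faces c (cellsOf c Y.R {t})
  have hc : (tileTop c Y.R t).cells = cellsOf c Y.R {t} := by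
    unfold tileTop Top.restr Top.full
    simp
  have h3 : ((cellsOf c Y.R {t}).card : ℝ) ≤ (Y.R : ℝ) ^ 2 := by exact_mod_cast H.geo.tile_card t
  refine ⟨fun f hf => ?_, hc, h3, h1, ?_⟩
  · rw [hc]
    exact h1 f hf
  · have h4 : ((tileTop c Y.R t).faces.card : ℝ) ≤ 2 * ((cellsOf c Y.R {t}).card : ℝ) := by exact_mod_cast h2
    linarith

/-- `geo.halC_mono`, `zone.cnt` (`S ∖ farS S` is a set of events whose halo meets `Z`) -/
theorem ph_far (H : NIn Y p Zs Z) {S : Finset EvId} (hS : Valid c Y.R S) :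
    farS c Y.R Z S ⊆ S ∧ (Disjoint (halC c Y.R S) Z → farS c Y.R Z S = S) ∧ S.card ≤ (farS c Y.R Z S).card + p.nZ := by
  classical
  refine ⟨Finset.filter_subset _ _, fun hd => ?_, ?_⟩
  · unfold farS
    refine Finset.filter_true_of_mem fun k hk => ?_
    exact Finset.disjoint_of_subset_left (H.geo.halC_mono {k} S (Finset.singleton_subset_iff.2 hk)) hd
  · have h1 : S \ farS c Y.R Z S ⊆ (events c Y.R).filter fun k => ¬ Disjoint (halC c Y.R {k}) Z := by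
      intro k hk
      rw [Finset.mem_sdiff] at hk
      unfold farS at hk
      simp only [Finset.mem_filter, not_and] at hk
      simp only [Finset.mem_filter]
      exact ⟨hS.1 hk.1, hk.2 hk.1⟩
    have h2 := (Finset.card_le_card h1).trans H.zone.cnt
    have h0 : farS c Y.R Z S ⊆ S := Finset.filter_subset _ _
    have h3 := Finset.card_sdiff_add_card_eq_card h0
    omega

/-! ## 2. The positive pattern  (L-PH-POS) -/

open Classical in
/-- `nt_hterm_le`; the exponent is `≤ 2 (4|S| + |S|) + 32 |S|` (`geo.skp_card`, `geo.halT_card`, `1 ≤ x`); `box.reserve` if the halo avoids `Z ⊇ Zs` (`nt_ha_cells`), `box.reserveZ` otherwise -/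
theorem ph_pos_point (H : NIn Y p Zs Z) {S O : Finset EvId} (hS : Valid c Y.R S) (hO : O ⊆ S) (y : c.I → ℝ) :
    Y.hterm S O y ≤ p.x ^ (42 * S.card) * (if Disjoint (halC c Y.R S) Z then 1 else p.bg)
      * (Real.exp (e1 p.Cq p.cc Y.R * Y.halE S y) * Real.exp ((1 - p.cstar) / 2 * (halTop c Y.R S O).Eobs p.a Y.W.τ y)) := by
  have h1 := nt_hterm_le Y H.ok H.str H.geo H.q H.box.pins hS hO y
  have hx : 1 ≤ p.x := H.box.pins.one
  have hexp : 2 * (skp c Y.R S ∪ O).card + (halT c Y.R S).card ≤ 42 * S.card := by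
    have a1 := H.geo.skp_card S
    have a2 := H.geo.halT_card S
    have a3 := Finset.card_union_le (skp c Y.R S) O
    have a4 := Finset.card_le_card hO
    omega
  have hpow : p.x ^ (2 * (skp c Y.R S ∪ O).card + (halT c Y.R S).card) ≤ p.x ^ (42 * S.card) := pow_le_pow_right₀ hx hexp
  have hAT : Y.AT (halTop c Y.R S O) y ≤ (if Disjoint (halC c Y.R S) Z then 1 else p.bg)
      * Real.exp ((1 - p.cstar) / 2 * (halTop c Y.R S O).Eobs p.a Y.W.τ y) := by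
    split_ifs with hd
    · rw [one_mul]
      exact H.box.reserve _ (nt_ok_halTop _ _ _) (by rw [nt_ha_cells]; exact hd.mono_right H.zone.sub) y
    · exact H.box.reserveZ _ (nt_ok_halTop _ _ _) y
  have hATpos := nt_AT_pos Y H.ok _ (nt_ok_halTop Y.R S O) y
  have hx0 : 0 ≤ p.x := by linarith
  calc Y.hterm S O y ≤ p.x ^ (2 * (skp c Y.R S ∪ O).card + (halT c Y.R S).card) * Real.exp (e1 p.Cq p.cc Y.R * Y.halE S y)
        * Y.AT (halTop c Y.R S O) y := h1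
    _ ≤ p.x ^ (42 * S.card) * Real.exp (e1 p.Cq p.cc Y.R * Y.halE S y) * ((if Disjoint (halC c Y.R S) Z then 1 else p.bg)
        * Real.exp ((1 - p.cstar) / 2 * (halTop c Y.R S O).Eobs p.a Y.W.τ y)) :=
      mul_le_mul (mul_le_mul_of_nonneg_right hpow (Real.exp_pos _).le) hAT hATpos.le
        (mul_nonneg (pow_nonneg hx0 _) (Real.exp_pos _).le)
    _ = _ := by ring

open Classical in
/-- PLAN: `bdr_sum` over `O ∈ S.powerset` of [`bdr_dom` (`ph_pos_point`, `nt_hterm_pos`) of `bdr_smul` of `bdr_mul (bdr_face (e := e1) (F := halF S)) (bdr_top (halTop S O) (e := 1 - cstar))`] (`Y.halE S y = fE c Y.W.τ (Y.halF S) y` by `rfl`);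
load `8 e1 Cp + (1 - cstar) ≤ cb` (`hn.load`, `ph_e_nonneg`); weight of one term `≤ x^(42|S|) (1|bg) exp (θ (256 e1 Cp R² + 32 R²) |S|)` (`ph_halF`, `ph_halC_card`, `1 - cstar ≤ 1`); `|S.powerset| = 2^|S|`. -/
theorem ph_pos_bdr (H : NIn Y p Zs Z) (hn : NNum p Y.R) {S : Finset EvId} (hS : Valid c Y.R S) :
    BdR p.a Y.W.τ p.θ (halC c Y.R S) p.cb (fun y => ∑ O ∈ S.powerset, Y.hterm S O y)
      (p.CP Y.R ^ S.card * (if Disjoint (halC c Y.R S) Z then 1 else p.bg)) := by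
  obtain ⟨he1, he2, hee⟩ := ph_e_nonneg Y H
  have hx : 1 ≤ p.x := H.box.pins.one
  have hx0 : 0 ≤ p.x := by linarith
  have hθ := H.θ0
  have hCp := H.Cp0
  have hcs0 := H.cs0
  have hcs1 := H.cs1
  have hbg : 0 ≤ (if Disjoint (halC c Y.R S) Z then 1 else p.bg) := by
    split_ifs
    · exact zero_le_one
    · linarith [H.bg1]
  have hload : 8 * e1 p.Cq p.cc Y.R * p.Cp + (1 - p.cstar) ≤ p.cb := by
    have h1 := hn.load
    unfold NPar.hbox at h1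
    have h2 : 8 * e1 p.Cq p.cc Y.R * p.Cp ≤ 8 * p.ee Y.R * p.Cp := by gcongr
    have h3 : 0 ≤ 8 * (p.lam + p.ea) * p.Cp := by
      have := H.lam0
      have := H.ea0
      positivity
    linarith
  have hcb : 0 ≤ p.cb := by
    have : 0 ≤ 8 * e1 p.Cq p.cc Y.R * p.Cp := by positivity
    linarith
  set z : ℝ := p.x ^ (42 * S.card) * (if Disjoint (halC c Y.R S) Z then 1 else p.bg) with hz
  have hz0 : 0 ≤ z := mul_nonneg (pow_nonneg hx0 _) hbg
  set W1 : ℝ := z * Real.exp (p.θ * ((256 * e1 p.Cq p.cc Y.R * p.Cp * (Y.R : ℝ) ^ 2 + 32 * (Y.R : ℝ) ^ 2) * S.card)) with hW1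
  have hterm : ∀ O ∈ S.powerset, BdR p.a Y.W.τ p.θ (halC c Y.R S) p.cb (fun y => Y.hterm S O y) W1 := by
    intro O hO
    have hO' := Finset.mem_powerset.1 hO
    have B1 := bdr_face (a := p.a) (τ := Y.W.τ) hθ hCp H.co (Y.halF S) (D := halC c Y.R S) (ph_halF Y H S).1 he1
    have B2 := bdr_top (a := p.a) (τ := Y.W.τ) (θ := p.θ) (halTop c Y.R S O) (nt_ok_halTop _ _ _) (D := halC c Y.R S)
      (by rw [nt_ha_cells]) (e := 1 - p.cstar) (by linarith)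
    have B3 := bdr_mul hθ B1 B2
    rw [Finset.union_self] at B3
    have B4 := bdr_smul hθ z hz0 (by positivity) B3
    have B5 : BdR p.a Y.W.τ p.θ (halC c Y.R S) (8 * e1 p.Cq p.cc Y.R * p.Cp + (1 - p.cstar)) (fun y => Y.hterm S O y) _ :=
      bdr_dom B4 fun y => by
        rw [abs_of_pos (nt_hterm_pos Y H.ok H.str.N_pos S O y)]
        exact (ph_pos_point Y H hS hO' y).trans (le_abs_self _)
    refine bdr_mono (Finset.Subset.refl _) hload ?_ B5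
    rw [hW1, ← Real.exp_add]
    refine mul_le_mul_of_nonneg_left (Real.exp_le_exp.2 ?_) hz0
    rw [← mul_add]
    refine mul_le_mul_of_nonneg_left ?_ hθ
    have c1 := (ph_halF Y H S).2
    have c2 := ph_halC_card Y H S
    rw [nt_ha_cells]
    have d1 : 4 * e1 p.Cq p.cc Y.R * p.Cp * ((Y.halF S).card : ℝ) ≤ 4 * e1 p.Cq p.cc Y.R * p.Cp * (64 * (Y.R : ℝ) ^ 2 * S.card) :=
      mul_le_mul_of_nonneg_left c1 (by positivity)
    have d2 : (1 - p.cstar) * ((halC c Y.R S).card : ℝ) ≤ 1 * (32 * (Y.R : ℝ) ^ 2 * S.card) :=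
      mul_le_mul (by linarith) c2 (by positivity) zero_le_one
    nlinarith [d1, d2]
  have hsum := bdr_sum hθ S.powerset (halC c Y.R S) hcb (fun O y => Y.hterm S O y) (fun _ => W1) hterm
  refine bdr_mono (Finset.Subset.refl _) le_rfl (le_of_eq ?_) hsum
  rw [Finset.sum_const, Finset.card_powerset, nsmul_eq_mul, hW1, hz]
  unfold NPar.CP
  rw [mul_pow, mul_pow, ← pow_mul, ← Real.exp_nat_mul]
  push_cast
  ring_nf

open Classical in
/-- disjoint: `farS S = S`, `hn.pos`;  otherwise `CP^|S| ≤ CP^|farS S| CP^nZ` (`ph_far`, `1 ≤ CP`), `hn.pos`, `hn.posZ` -/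
theorem ph_pos_wt (H : NIn Y p Zs Z) (hn : NNum p Y.R) {S : Finset EvId} (hS : Valid c Y.R S) :
    p.CP Y.R ^ S.card * (if Disjoint (halC c Y.R S) Z then 1 else p.bg)
      ≤ p.CR ^ (farS c Y.R Z S).card * (if Disjoint (halC c Y.R S) Z then 1 else p.big) := by
  obtain ⟨f1, f2, f3⟩ := ph_far Y H hS
  have hCP : 1 ≤ p.CP Y.R := (ph_signs Y H).2.2.2.2.2.1
  have hCP0 : 0 ≤ p.CP Y.R := by linarith
  split_ifs with hd
  · rw [f2 hd, mul_one, mul_one]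
    exact pow_le_pow_left₀ hCP0 hn.pos _
  · have h1 : p.CP Y.R ^ S.card ≤ p.CP Y.R ^ (farS c Y.R Z S).card * p.CP Y.R ^ p.nZ := by
      rw [← pow_add]
      exact pow_le_pow_right₀ hCP f3
    have hbg : 0 ≤ p.bg := by linarith [H.bg1]
    calc p.CP Y.R ^ S.card * p.bg ≤ p.CP Y.R ^ (farS c Y.R Z S).card * p.CP Y.R ^ p.nZ * p.bg := mul_le_mul_of_nonneg_right h1 hbg
      _ = p.CP Y.R ^ (farS c Y.R Z S).card * (p.CP Y.R ^ p.nZ * p.bg) := by ring
      _ ≤ p.CR ^ (farS c Y.R Z S).card * p.big :=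
        mul_le_mul (pow_le_pow_left₀ hCP0 hn.pos _) hn.posZ (mul_nonneg (pow_nonneg hCP0 _) hbg) (pow_nonneg (hCP0.trans hn.pos) _)

open Classical in
/-- `bd_of_bdr` (`nt_haloTerm_loc`, `nt_haloTerm_cast`, `nt_hterm_pos`), `ph_pos_bdr`, `ph_pos_wt`, `bdr_mono` -/
theorem ph_pos_halo (H : NIn Y p Zs Z) (hn : NNum p Y.R) {S : Finset EvId} (hS : Valid c Y.R S) :
    Bd p.a Y.W.τ Y.R 0 p.θ (halC c Y.R S) p.cb (fun y => ∑ O ∈ S.powerset, ((‖Y.W.haloTerm Y.R S O y‖ : ℝ) : ℂ))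
      (p.CR ^ (farS c Y.R Z S).card * if Disjoint (halC c Y.R S) Z then 1 else p.big) := by
  refine bd_of_bdr Y.R _ ?_ (bdr_mono (Finset.Subset.refl _) le_rfl (ph_pos_wt Y H hn hS) (ph_pos_bdr Y H hn hS)) ?_
  · intro y y' h
    refine Finset.sum_congr rfl fun O hO => ?_
    rw [nt_haloTerm_loc Y H.str H.geo (Finset.mem_powerset.1 hO) y y' h]
  · intro y
    have e : (∑ O ∈ S.powerset, ((‖Y.W.haloTerm Y.R S O (fun i => (y i : ℂ))‖ : ℝ) : ℂ)) = ((∑ O ∈ S.powerset, Y.hterm S O y : ℝ) : ℂ) := by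
      push_cast
      refine Finset.sum_congr rfl fun O _ => ?_
      rw [nt_haloTerm_cast Y H.ok, Complex.norm_real, Real.norm_eq_abs, abs_of_pos (nt_hterm_pos Y H.ok H.str.N_pos S O y)]
    rw [e, Complex.norm_real, Real.norm_eq_abs]

/-! ## 3. The signed halo factor -/

open Classical in
/-- the pointwise majorant of the signed halo factor -/
def hmaj (Y : Phy c) (p : NPar) (Zs Z : Finset c.I) (S : Finset EvId) (y : c.I → ℝ) : ℝ :=
  ∑ O ∈ S.powerset, ∑ t ∈ goodT c Y.R p.P (farS c Y.R Z S),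
    p.x ^ (43 * S.card) * Real.exp (p.Ds / 2 * (if Disjoint (halC c Y.R S) Zs then 0 else p.cz))
      * (Real.exp (p.ee Y.R * Y.halE S y)
        * ∏ b ∈ (pcut c p.P t).labs (halTop c Y.R S O), Y.QT ((pcut c p.P t).piece (halTop c Y.R S O) b) ((pcut c p.P t).keptB Y.R S b) y)

/-- **L-PH-HALO-P.**  `nt_halo_le`; for every `O`: `hterm * ET ≤ x^(42|S|) e^{e1 halE} (AT * ET)` (`nt_hterm_le`, exponent as in `ph_pos_point`, `nt_ET_mem`), `nt_cut_le` with `S' = farS S` (`ph_far`, `H.geo.dvd`); `Finset.mul_sum`, `Real.exp_add`, `pow_add`. -/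
theorem ph_halo_point (H : NIn Y p Zs Z) {S : Finset EvId} (hS : Valid c Y.R S) (y : c.I → ℝ) :
    ‖Y.W.halo Y.R S (fun i => (y i : ℂ))‖ ≤ hmaj Y p Zs Z S y := by
  classical
  have hN : ∀ T, 0 < Y.W.N T := H.str.N_pos
  have hx1 : 1 ≤ p.x := H.box.pins.one
  have hx0 : 0 ≤ p.x := zero_le_one.trans hx1
  refine (nt_halo_le Y H.ok hN H.geo hS y).trans ?_
  unfold hmaj
  refine Finset.sum_le_sum fun O hO' => ?_
  have hO : O ⊆ S := Finset.mem_powerset.1 hO'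
  have hTok : (halTop c Y.R S O).Ok := nt_ok_halTop _ _ _
  have hET := (nt_ET_mem Y H.ok hN (halTop c Y.R S O) hTok S y).1
  have hAT := (nt_AT_pos Y H.ok (halTop c Y.R S O) hTok y).le
  have h1 := nt_hterm_le Y H.ok H.str H.geo H.q H.box.pins hS hO y
  have h2 := nt_cut_le Y H.ok H.str H.geo H.q H.box.pins H.src H.dvdP H.big64 H.geo.dvd H.Pn hS hO (ph_far Y H hS).1 y
  -- the exponent
  have hexp : 2 * (skp c Y.R S ∪ O).card + (halT c Y.R S).card ≤ 42 * S.card := by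
    have a1 := Finset.card_union_le (skp c Y.R S) O
    have a2 := H.geo.skp_card S
    have a3 := H.geo.halT_card S
    have a4 := Finset.card_le_card hO
    omega
  have hpow : p.x ^ (2 * (skp c Y.R S ∪ O).card + (halT c Y.R S).card) ≤ p.x ^ (42 * S.card) := pow_le_pow_right₀ hx1 hexp
  have he1 : 0 < Real.exp (e1 p.Cq p.cc Y.R * Y.halE S y) := Real.exp_pos _
  calc Y.hterm S O y * Y.ET (halTop c Y.R S O) S y
      ≤ (p.x ^ (2 * (skp c Y.R S ∪ O).card + (halT c Y.R S).card) * Real.exp (e1 p.Cq p.cc Y.R * Y.halE S y) * Y.AT (halTop c Y.R S O) y)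
          * Y.ET (halTop c Y.R S O) S y := mul_le_mul_of_nonneg_right h1 hET
    _ = p.x ^ (2 * (skp c Y.R S ∪ O).card + (halT c Y.R S).card) *
          (Real.exp (e1 p.Cq p.cc Y.R * Y.halE S y) * (Y.AT (halTop c Y.R S O) y * Y.ET (halTop c Y.R S O) S y)) := by ring
    _ ≤ p.x ^ (42 * S.card) * (Real.exp (e1 p.Cq p.cc Y.R * Y.halE S y) * (Y.AT (halTop c Y.R S O) y * Y.ET (halTop c Y.R S O) S y)) :=
        mul_le_mul_of_nonneg_right hpow (mul_nonneg he1.le (mul_nonneg hAT hET))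
    _ ≤ p.x ^ (42 * S.card) * (Real.exp (e1 p.Cq p.cc Y.R * Y.halE S y) * _) :=
        mul_le_mul_of_nonneg_left (mul_le_mul_of_nonneg_left h2 he1.le) (pow_nonneg hx0 _)
    _ = _ := by
        rw [Finset.mul_sum, Finset.mul_sum]
        refine Finset.sum_congr rfl fun t _ => ?_
        have e43 : p.x ^ (43 * S.card) = p.x ^ (42 * S.card) * p.x ^ S.card := by
          rw [← pow_add]
          congr 1
          ring
        have eee : Real.exp (p.ee Y.R * Y.halE S y) = Real.exp (e1 p.Cq p.cc Y.R * Y.halE S y) * Real.exp (e2 p.Cq p.cc Y.R p.P * Y.halE S y) := by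
          rw [← Real.exp_add]
          congr 1
          unfold NPar.ee
          ring
        rw [e43, eee, Real.exp_add]
        ring

open Classical in
/-- **L-PH-HALO-B.**  PLAN: `bdr_sum` twice; one term: `bdr_smul` of `bdr_mul (bdr_face (e := ee) (F := halF S)) (nb_boxes ..)` (`goodT ⊆ pcuts`); load `8 ee Cp + hbox ≤ cb` (`hn.load`);
weight of one term `≤ x^(43|S|) e^{Ds/2 (0|cz)} exp (θ 256 ee Cp R² |S|) A0^(128|S|) √γ^|farS S| (1|wsrc⁴)` (`ph_halF`, `nb_wt`);   `|goodT| ≤ |pcuts| = (P/R)²` (`pc_card`), `|S.powerset| = 2^|S|`;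
`Disjoint (halC S) Z → Disjoint (halC S) Zs` (`zone.sub`); otherwise `e^{Ds/2 (0|cz)} ≤ e^{Ds cz/2}`. -/
theorem ph_halo_bdr (H : NIn Y p Zs Z) (hn : NNum p Y.R) {S : Finset EvId} (hS : Valid c Y.R S) :
    BdR p.a Y.W.τ p.θ (halC c Y.R S) p.cb (hmaj Y p Zs Z S)
      (p.A1 Y.R ^ S.card * ((p.P / Y.R : ℕ) : ℝ) ^ 2 * Real.sqrt p.γ ^ (farS c Y.R Z S).card
        * (if Disjoint (halC c Y.R S) Z then 1 else Real.exp (p.Ds * p.cz / 2) * p.wsrc ^ 4)) := by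
  obtain ⟨he1, -, he12⟩ := ph_e_nonneg Y H
  obtain ⟨hx1, hDs, hcz, hA0, -, -, hws, -⟩ := ph_signs Y H
  obtain ⟨hF, hFc⟩ := ph_halF Y H S
  have hee : 0 ≤ p.ee Y.R := he1.trans he12
  have hθ := H.θ0
  have hCp := H.Cp0
  have hx0 : 0 ≤ p.x := zero_le_one.trans hx1
  have hhb : 0 ≤ p.hbox := by
    unfold NPar.hbox
    nlinarith [mul_nonneg H.lam0.le H.Cp0, mul_nonneg H.ea0 H.Cp0, H.cs1]
  have heC : 0 ≤ 8 * p.ee Y.R * p.Cp := by positivity
  have hcb : 0 ≤ p.cb := by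
    have := hn.load
    linarith
  obtain ⟨z, hz⟩ : ∃ z : ℝ, z = p.x ^ (43 * S.card) * Real.exp (p.Ds / 2 * (if Disjoint (halC c Y.R S) Zs then 0 else p.cz)) := ⟨_, rfl⟩
  have hz0 : 0 ≤ z := by rw [hz]; positivity
  obtain ⟨v, hv⟩ : ∃ v : ℝ, v = p.A0 ^ (128 * S.card) * Real.sqrt p.γ ^ (farS c Y.R Z S).card * (if Disjoint (halC c Y.R S) Z then 1 else p.wsrc ^ 4) := ⟨_, rfl⟩
  obtain ⟨W1, hW1⟩ : ∃ W1 : ℝ, W1 = z * (Real.exp (p.θ * (256 * p.ee Y.R * p.Cp * (Y.R : ℝ) ^ 2 * S.card)) * v) := ⟨_, rfl⟩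
  have hv0 : 0 ≤ v := by
    rw [hv]
    have : 0 ≤ p.A0 := zero_le_one.trans hA0
    have : 0 ≤ p.wsrc := zero_le_one.trans hws
    split_ifs <;> positivity
  have hW10 : 0 ≤ W1 := by rw [hW1]; positivity
  have hterm : ∀ O ∈ S.powerset, ∀ t ∈ goodT c Y.R p.P (farS c Y.R Z S), BdR p.a Y.W.τ p.θ (halC c Y.R S) p.cb
      (fun y => z * (Real.exp (p.ee Y.R * Y.halE S y)
        * ∏ b ∈ (pcut c p.P t).labs (halTop c Y.R S O), Y.QT ((pcut c p.P t).piece (halTop c Y.R S O) b) ((pcut c p.P t).keptB Y.R S b) y)) W1 := by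
    intro O hO t ht
    have hOS : O ⊆ S := Finset.mem_powerset.1 hO
    have htp : t ∈ pcuts Y.R p.P := by
      unfold goodT at ht
      exact (Finset.mem_filter.1 ht).1
    have b1 := bdr_face (a := p.a) (τ := Y.W.τ) hθ hCp H.co (Y.halF S) (D := halC c Y.R S) hF hee
    have b2 := nb_boxes Y H hS hOS htp
    have b3 := bdr_mul hθ b1 b2
    rw [Finset.union_self] at b3
    have b4 := bdr_smul hθ z hz0 (add_nonneg heC hhb) b3
    refine bdr_mono (Finset.Subset.refl _) (by have := hn.load; linarith) ?_ b4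
    rw [hW1]
    refine mul_le_mul_of_nonneg_left ?_ hz0
    refine mul_le_mul (Real.exp_le_exp.2 (mul_le_mul_of_nonneg_left ?_ hθ)) (hv ▸ nb_wt Y H hn hS hOS ht) (bdr_wt_nonneg b2) (Real.exp_pos _).le
    have h4 : 0 ≤ 4 * p.ee Y.R * p.Cp := by positivity
    calc 4 * p.ee Y.R * p.Cp * ((Y.halF S).card : ℝ) ≤ 4 * p.ee Y.R * p.Cp * (64 * (Y.R : ℝ) ^ 2 * S.card) := mul_le_mul_of_nonneg_left hFc h4
      _ = 256 * p.ee Y.R * p.Cp * (Y.R : ℝ) ^ 2 * S.card := by ring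
  have hsum := bdr_sum (a := p.a) (τ := Y.W.τ) hθ S.powerset (halC c Y.R S) hcb
    (fun O y => ∑ t ∈ goodT c Y.R p.P (farS c Y.R Z S), z * (Real.exp (p.ee Y.R * Y.halE S y)
        * ∏ b ∈ (pcut c p.P t).labs (halTop c Y.R S O), Y.QT ((pcut c p.P t).piece (halTop c Y.R S O) b) ((pcut c p.P t).keptB Y.R S b) y))
    (fun _ => ∑ _t ∈ goodT c Y.R p.P (farS c Y.R Z S), W1)
    (fun O hO => bdr_sum hθ (goodT c Y.R p.P (farS c Y.R Z S)) (halC c Y.R S) hcb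
      (fun t y => z * (Real.exp (p.ee Y.R * Y.halE S y)
        * ∏ b ∈ (pcut c p.P t).labs (halTop c Y.R S O), Y.QT ((pcut c p.P t).piece (halTop c Y.R S O) b) ((pcut c p.P t).keptB Y.R S b) y))
      (fun _ => W1) (hterm O hO))
  have hfun : hmaj Y p Zs Z S = fun y => ∑ O ∈ S.powerset, ∑ t ∈ goodT c Y.R p.P (farS c Y.R Z S), z * (Real.exp (p.ee Y.R * Y.halE S y)
        * ∏ b ∈ (pcut c p.P t).labs (halTop c Y.R S O), Y.QT ((pcut c p.P t).piece (halTop c Y.R S O) b) ((pcut c p.P t).keptB Y.R S b) y) := by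
    funext y
    unfold hmaj
    rw [hz]
  rw [hfun]
  refine bdr_mono (Finset.Subset.refl _) le_rfl ?_ hsum
  rw [Finset.sum_const, Finset.sum_const, Finset.card_powerset, nsmul_eq_mul, nsmul_eq_mul]
  have hgc : ((goodT c Y.R p.P (farS c Y.R Z S)).card : ℝ) ≤ ((p.P / Y.R : ℕ) : ℝ) ^ 2 := by
    have h1 : (goodT c Y.R p.P (farS c Y.R Z S)).card ≤ (p.P / Y.R) ^ 2 := by
      rw [← pc_card (P := p.P) H.geo.pos]
      unfold goodT
      exact Finset.card_filter_le _ _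
    exact_mod_cast h1
  have hzle : z * (if Disjoint (halC c Y.R S) Z then 1 else p.wsrc ^ 4)
      ≤ p.x ^ (43 * S.card) * (if Disjoint (halC c Y.R S) Z then 1 else Real.exp (p.Ds * p.cz / 2) * p.wsrc ^ 4) := by
    rw [hz, mul_assoc]
    refine mul_le_mul_of_nonneg_left ?_ (pow_nonneg hx0 _)
    by_cases hd : Disjoint (halC c Y.R S) Z
    · have hd' : Disjoint (halC c Y.R S) Zs := Finset.disjoint_of_subset_right H.zone.sub hd
      rw [if_pos hd, if_pos hd, if_pos hd']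
      simp
    · rw [if_neg hd, if_neg hd]
      refine mul_le_mul_of_nonneg_right (Real.exp_le_exp.2 ?_) (pow_nonneg (zero_le_one.trans hws) _)
      split_ifs
      · have := mul_nonneg hDs hcz
        linarith
      · exact le_of_eq (by ring)
  have hA1e : p.A1 Y.R ^ S.card = 2 ^ S.card * p.x ^ (43 * S.card) * Real.exp (p.θ * (256 * p.ee Y.R * p.Cp * (Y.R : ℝ) ^ 2 * S.card)) * p.A0 ^ (128 * S.card) := by
    unfold NPar.A1
    rw [mul_pow, mul_pow, mul_pow, ← pow_mul, ← pow_mul, ← Real.exp_nat_mul]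
    congr 3
    ring
  rw [hA1e, hW1, hv]
  have hE0 : 0 < Real.exp (p.θ * (256 * p.ee Y.R * p.Cp * (Y.R : ℝ) ^ 2 * S.card)) := Real.exp_pos _
  have hK : 0 ≤ (2 : ℝ) ^ S.card * Real.exp (p.θ * (256 * p.ee Y.R * p.Cp * (Y.R : ℝ) ^ 2 * S.card)) * p.A0 ^ (128 * S.card) * Real.sqrt p.γ ^ (farS c Y.R Z S).card := by
    have : 0 ≤ p.A0 := zero_le_one.trans hA0
    positivity
  have hif0 : 0 ≤ z * (if Disjoint (halC c Y.R S) Z then 1 else p.wsrc ^ 4) := by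
    have : 0 ≤ p.wsrc := zero_le_one.trans hws
    split_ifs <;> positivity
  calc ((2 ^ S.card : ℕ) : ℝ) * (((goodT c Y.R p.P (farS c Y.R Z S)).card : ℝ) * (z * (Real.exp (p.θ * (256 * p.ee Y.R * p.Cp * (Y.R : ℝ) ^ 2 * S.card))
        * (p.A0 ^ (128 * S.card) * Real.sqrt p.γ ^ (farS c Y.R Z S).card * (if Disjoint (halC c Y.R S) Z then 1 else p.wsrc ^ 4)))))
      = ((2 : ℝ) ^ S.card * Real.exp (p.θ * (256 * p.ee Y.R * p.Cp * (Y.R : ℝ) ^ 2 * S.card)) * p.A0 ^ (128 * S.card) * Real.sqrt p.γ ^ (farS c Y.R Z S).card)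
        * (((goodT c Y.R p.P (farS c Y.R Z S)).card : ℝ) * (z * (if Disjoint (halC c Y.R S) Z then 1 else p.wsrc ^ 4))) := by
        push_cast
        ring
    _ ≤ ((2 : ℝ) ^ S.card * Real.exp (p.θ * (256 * p.ee Y.R * p.Cp * (Y.R : ℝ) ^ 2 * S.card)) * p.A0 ^ (128 * S.card) * Real.sqrt p.γ ^ (farS c Y.R Z S).card)
        * (((p.P / Y.R : ℕ) : ℝ) ^ 2 * (p.x ^ (43 * S.card) * (if Disjoint (halC c Y.R S) Z then 1 else Real.exp (p.Ds * p.cz / 2) * p.wsrc ^ 4))) :=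
        mul_le_mul_of_nonneg_left (mul_le_mul hgc hzle hif0 (by positivity)) hK
    _ = _ := by ring

open Classical in
/-- **L-PH-HALO-W.**  `q = (P/R)² ≥ 1`, `m = |farS S|`.   Disjoint: `m = |S| ≥ 1`, `A1^m q √γ^m ≤ (A1 q √γ)^m ≤ gm^m` (`hn.halo`).
Otherwise `A1^|S| ≤ A1^m A1^nZ` (`ph_far`), `(A1 √γ)^m ≤ (A1 q √γ)^m ≤ gm^m`, `hn.haloZ`. -/
theorem ph_halo_wt (H : NIn Y p Zs Z) (hn : NNum p Y.R) {S : Finset EvId} (hS : Valid c Y.R S) (hne : S.Nonempty) :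
    p.A1 Y.R ^ S.card * ((p.P / Y.R : ℕ) : ℝ) ^ 2 * Real.sqrt p.γ ^ (farS c Y.R Z S).card
        * (if Disjoint (halC c Y.R S) Z then 1 else Real.exp (p.Ds * p.cz / 2) * p.wsrc ^ 4)
      ≤ p.gm ^ (farS c Y.R Z S).card * (if Disjoint (halC c Y.R S) Z then 1 else p.big) := by
  obtain ⟨-, -, -, -, hA1, -, hw1, hq1⟩ := ph_signs Y H
  obtain ⟨-, hfd, hfc⟩ := ph_far Y H hS
  obtain ⟨A, hA⟩ : ∃ A : ℝ, A = p.A1 Y.R := ⟨_, rfl⟩
  obtain ⟨q, hq⟩ : ∃ q : ℝ, q = ((p.P / Y.R : ℕ) : ℝ) ^ 2 := ⟨_, rfl⟩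
  obtain ⟨g, hg⟩ : ∃ g : ℝ, g = Real.sqrt p.γ := ⟨_, rfl⟩
  obtain ⟨m, hm⟩ : ∃ m : ℕ, m = (farS c Y.R Z S).card := ⟨_, rfl⟩
  have hh := hn.halo
  have hz := hn.haloZ
  rw [← hA, ← hq, ← hg] at hh
  rw [← hA, ← hq] at hz
  rw [← hA] at hA1
  rw [← hA, ← hq, ← hg, ← hm]
  rw [← hm] at hfc
  have hq1' : 1 ≤ q := by rw [hq]; exact one_le_pow₀ hq1
  have hg0 : 0 ≤ g := by rw [hg]; exact Real.sqrt_nonneg _
  have hA0 : 0 ≤ A := by linarith
  have hAqg : 0 ≤ A * q * g := by positivity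
  have hpow : (A * q * g) ^ m ≤ p.gm ^ m := pow_le_pow_left₀ hAqg hh m
  by_cases hd : Disjoint (halC c Y.R S) Z
  · rw [if_pos hd, if_pos hd, mul_one, mul_one]
    have hmS : m = S.card := by rw [hm, hfd hd]
    have hm1 : 1 ≤ m := by rw [hmS]; exact Finset.card_pos.2 hne
    rw [← hmS]
    have hqm : q ≤ q ^ m := by
      calc q = q ^ 1 := (pow_one q).symm
        _ ≤ q ^ m := pow_le_pow_right₀ hq1' hm1
    calc A ^ m * q * g ^ m ≤ A ^ m * q ^ m * g ^ m := by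
          refine mul_le_mul_of_nonneg_right (mul_le_mul_of_nonneg_left hqm (by positivity)) (by positivity)
      _ = (A * q * g) ^ m := by rw [mul_pow, mul_pow]
      _ ≤ p.gm ^ m := hpow
  · rw [if_neg hd, if_neg hd]
    have hE : 0 ≤ Real.exp (p.Ds * p.cz / 2) * p.wsrc ^ 4 := by positivity
    have h1 : A ^ S.card ≤ A ^ m * A ^ p.nZ := by
      rw [← pow_add]
      exact pow_le_pow_right₀ hA1 hfc
    have h2 : (A * g) ^ m ≤ (A * q * g) ^ m := by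
      refine pow_le_pow_left₀ (by positivity) ?_ m
      have : A * 1 * g ≤ A * q * g := mul_le_mul_of_nonneg_right (mul_le_mul_of_nonneg_left hq1' hA0) hg0
      simpa using this
    have hgm : 0 ≤ p.gm ^ m := le_trans (by positivity) hpow
    calc A ^ S.card * q * g ^ m * (Real.exp (p.Ds * p.cz / 2) * p.wsrc ^ 4)
        ≤ A ^ m * A ^ p.nZ * q * g ^ m * (Real.exp (p.Ds * p.cz / 2) * p.wsrc ^ 4) := by
          refine mul_le_mul_of_nonneg_right (mul_le_mul_of_nonneg_right (mul_le_mul_of_nonneg_right h1 (by positivity)) (by positivity)) hE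
      _ = (A * g) ^ m * (A ^ p.nZ * q * Real.exp (p.Ds * p.cz / 2) * p.wsrc ^ 4) := by rw [mul_pow]; ring
      _ ≤ p.gm ^ m * p.big := by
          refine mul_le_mul (h2.trans hpow) hz ?_ hgm
          positivity

theorem ph_halo_loc (H : NIn Y p Zs Z) (S : Finset EvId) (y y' : c.I → ℂ) (h : ∀ i ∈ halC c Y.R S, y i = y' i) :
    Y.W.halo Y.R S y = Y.W.halo Y.R S y' := by
  unfold Wt.halo
  refine Finset.sum_congr rfl fun O hO => ?_
  rw [nt_haloTerm_loc Y H.str H.geo (Finset.mem_powerset.1 hO) y y' h]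

open Classical in
/-- `S ≠ ∅`: `bd_of_bdr` with `ph_halo_bdr`, `ph_halo_wt`, `ph_halo_point` (`0 ≤ hmaj` not needed: `le_abs_self`); locality: `Wt.halo` is a sum of `haloTerm`s (`nt_haloTerm_loc`).
`S = ∅`: `ph_pos_bdr` has the weight `CP^0 * 1 = 1` (`ph_halC_empty`) and `‖halo‖ ≤ ∑_O hterm * ET ≤ ∑_O hterm` (`nt_halo_le`, `nt_ET_mem`, `nt_hterm_pos`). -/
theorem ph_halo (H : NIn Y p Zs Z) (hn : NNum p Y.R) {S : Finset EvId} (hS : Valid c Y.R S) :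
    Bd p.a Y.W.τ Y.R 0 p.θ (halC c Y.R S) p.cb (Y.W.halo Y.R S)
      (p.gm ^ (farS c Y.R Z S).card * if Disjoint (halC c Y.R S) Z then 1 else p.big) := by
  rcases S.eq_empty_or_nonempty with rfl | hne
  · have hb := ph_pos_bdr Y H hn hS
    have hd : Disjoint (halC c Y.R ∅) Z := by
      rw [ph_halC_empty]
      exact Finset.disjoint_empty_left _
    have hf : (farS c Y.R Z ∅).card = 0 := by simp [farS]
    rw [if_pos hd, Finset.card_empty, pow_zero] at hb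
    rw [if_pos hd, hf, pow_zero]
    refine bd_of_bdr Y.R (Y.W.halo Y.R ∅) (ph_halo_loc Y H ∅) hb fun y => ?_
    refine (nt_halo_le Y H.ok H.str.N_pos H.geo hS y).trans (le_trans ?_ (le_abs_self _))
    refine Finset.sum_le_sum fun O _ => ?_
    exact mul_le_of_le_one_right (nt_hterm_pos Y H.ok H.str.N_pos _ _ y).le (nt_ET_mem Y H.ok H.str.N_pos _ (nt_ok_halTop _ _ _) _ y).2
  · exact bd_of_bdr Y.R (Y.W.halo Y.R S) (ph_halo_loc Y H S)
      (bdr_mono (Finset.Subset.refl _) le_rfl (ph_halo_wt Y H hn hS hne) (ph_halo_bdr Y H hn hS))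
      fun y => (ph_halo_point Y H hS y).trans (le_abs_self _)

/-! ## 4. Tiles  (L-PH-TILE) -/

/-- `tfac = Zh / (N e^{-E/2}) = AT * Z0 / N` (unfold `Phy.tfac`, `Phy.tdiv`, `Phy.AT`; `Real.exp_neg`), `box.pins.nrmT`, `nt_AT_pos`, `str.N_pos` -/
theorem ph_tfac_le (H : NIn Y p Zs Z) {t : Tile} (ht : t ∈ tiles c Y.R) (y : c.I → ℝ) :
    0 < Y.tfac t y ∧ Y.tfac t y ≤ p.x * Y.AT (tileTop c Y.R t) y := by
  have hT : (tileTop c Y.R t).Ok := nt_ok_restr _ nt_ok_full _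
  have hN := H.str.N_pos (tileTop c Y.R t)
  have hZh := nt_Zh_pos Y H.ok _ hT y
  have hZ0 := nt_Z0_pos Y H.ok _ hT
  have hd := nt_tdiv_pos Y H.str.N_pos t y
  refine ⟨div_pos hZh hd, ?_⟩
  have hx := H.box.pins.nrmT t ht
  unfold Phy.tfac Phy.tdiv Phy.AT
  rw [div_le_iff₀ (mul_pos hN (Real.exp_pos _))]
  have e : p.x * (Real.exp (Y.E (tileTop c Y.R t) y / 2) * Y.Zh (tileTop c Y.R t) y / (Y.M (tileTop c Y.R t)).Z0)
      * (Y.W.N (tileTop c Y.R t) * Real.exp (-Y.E (tileTop c Y.R t) y / 2))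
      = Y.Zh (tileTop c Y.R t) y * (p.x * Y.W.N (tileTop c Y.R t) / (Y.M (tileTop c Y.R t)).Z0) := by
    rw [neg_div, Real.exp_neg]
    have := (Real.exp_pos (Y.E (tileTop c Y.R t) y / 2)).ne'
    field_simp
  rw [e]
  exact le_mul_of_one_le_right hZh.le ((one_le_div hZ0).2 hx)

open Classical in
/-- `ph_tfac_le`, `box.reserve` (`zone.sub`) / `box.reserveZ`, `bdr_top`, `bdr_smul`; load `1 - cstar ≤ cb`; `hn.posT`, `hn.tileZ` -/
theorem ph_tfac_bdr (H : NIn Y p Zs Z) (hn : NNum p Y.R) {t : Tile} (ht : t ∈ tiles c Y.R) :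
    BdR p.a Y.W.τ p.θ (cellsOf c Y.R {t}) p.cb (Y.tfac t) (if Disjoint (cellsOf c Y.R {t}) Z then p.CR else p.big) := by
  obtain ⟨hT, hcell, hcard, -, -⟩ := ph_tileTop Y H t
  obtain ⟨he1, he2, -⟩ := ph_e_nonneg Y H
  obtain ⟨hx1, -, -, -, -, -, -, -⟩ := ph_signs Y H
  have hx0 : 0 ≤ p.x := zero_le_one.trans hx1
  have hcs : 0 ≤ 1 - p.cstar := by linarith [H.cs1]
  have hload : 1 - p.cstar ≤ p.cb := by
    have h1 := hn.load
    unfold NPar.hbox NPar.ee at h1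
    have h2 : 0 ≤ 8 * (p.lam + p.ea) * p.Cp := by
      have := H.lam0.le; have := H.ea0; have := H.Cp0; positivity
    have h3 : 0 ≤ 8 * (e1 p.Cq p.cc Y.R + e2 p.Cq p.cc Y.R p.P) * p.Cp := by
      have := H.Cp0; positivity
    linarith
  have hB : BdR p.a Y.W.τ p.θ (cellsOf c Y.R {t}) (1 - p.cstar)
      (fun y => Real.exp ((1 - p.cstar) / 2 * (tileTop c Y.R t).Eobs p.a Y.W.τ y))
      (Real.exp (p.θ * ((1 - p.cstar) * ((tileTop c Y.R t).cells.card : ℝ)))) :=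
    bdr_top (tileTop c Y.R t) hT hcell.le hcs
  have hw : Real.exp (p.θ * ((1 - p.cstar) * ((tileTop c Y.R t).cells.card : ℝ))) ≤ Real.exp (p.θ * (Y.R : ℝ) ^ 2) := by
    apply Real.exp_le_exp.2
    refine mul_le_mul_of_nonneg_left ?_ H.θ0
    rw [hcell]
    calc (1 - p.cstar) * ((cellsOf c Y.R {t}).card : ℝ) ≤ 1 * ((cellsOf c Y.R {t}).card : ℝ) :=
          mul_le_mul_of_nonneg_right (by linarith [H.cs0]) (Nat.cast_nonneg _)
      _ ≤ (Y.R : ℝ) ^ 2 := by rw [one_mul]; exact hcard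
  by_cases hd : Disjoint (cellsOf c Y.R {t}) Z
  · rw [if_pos hd]
    have hdz : Disjoint (tileTop c Y.R t).cells Zs := by
      rw [hcell]; exact Finset.disjoint_of_subset_right H.zone.sub hd
    have h1 := bdr_smul H.θ0 p.x hx0 hcs hB
    refine bdr_mono (Finset.Subset.refl _) hload ?_ (bdr_dom h1 fun y => ?_)
    · exact (mul_le_mul_of_nonneg_left hw hx0).trans hn.posT
    · obtain ⟨h0, h2⟩ := ph_tfac_le Y H ht y
      rw [abs_of_pos h0]
      refine le_trans ?_ (le_abs_self _)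
      exact h2.trans (mul_le_mul_of_nonneg_left (H.box.reserve _ hT hdz y) hx0)
  · rw [if_neg hd]
    have hbg0 : 0 ≤ p.bg := zero_le_one.trans H.bg1
    have h1 := bdr_smul H.θ0 (p.x * p.bg) (mul_nonneg hx0 hbg0) hcs hB
    refine bdr_mono (Finset.Subset.refl _) hload ?_ (bdr_dom h1 fun y => ?_)
    · exact (mul_le_mul_of_nonneg_left hw (mul_nonneg hx0 hbg0)).trans hn.tileZ
    · obtain ⟨h0, h2⟩ := ph_tfac_le Y H ht y
      rw [abs_of_pos h0]
      refine le_trans ?_ (le_abs_self _)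
      refine h2.trans ?_
      rw [mul_assoc]
      exact mul_le_mul_of_nonneg_left (H.box.reserveZ _ hT y) hx0

/-- good data (`tileE ≤ U²`): `box.tile`;  bad data: `|tfac - 1| ≤ tfac + 1`, `ph_tfac_le`, `box.reserve`, `1 ≤ e^{lam (tileE - U²)}` -/
theorem ph_tile_point (H : NIn Y p Zs Z) {t : Tile} (ht : t ∈ tiles c Y.R) (hd : Disjoint (cellsOf c Y.R {t}) Z) (y : c.I → ℝ) :
    |Y.tfac t y - 1| ≤ p.γ + Real.exp (-p.lam * p.U ^ 2) * (Real.exp (p.lam * Y.tileE t y)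
      * (p.x * Real.exp ((1 - p.cstar) / 2 * (tileTop c Y.R t).Eobs p.a Y.W.τ y) + 1)) := by
  obtain ⟨hT, hcell, -, -, -⟩ := ph_tileTop Y H t
  obtain ⟨hx1, -, -, -, -, -, -, -⟩ := ph_signs Y H
  have hx0 : 0 ≤ p.x := zero_le_one.trans hx1
  have hdz : Disjoint (cellsOf c Y.R {t}) Zs := Finset.disjoint_of_subset_right H.zone.sub hd
  have hdz' : Disjoint (tileTop c Y.R t).cells Zs := by rw [hcell]; exact hdz
  have hB0 : 0 ≤ p.x * Real.exp ((1 - p.cstar) / 2 * (tileTop c Y.R t).Eobs p.a Y.W.τ y) + 1 :=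
    add_nonneg (mul_nonneg hx0 (Real.exp_pos _).le) zero_le_one
  by_cases hg : Y.tileE t y ≤ p.U ^ 2
  · have h1 := H.box.tile t ht hdz y hg
    have h2 : 0 ≤ Real.exp (-p.lam * p.U ^ 2) * (Real.exp (p.lam * Y.tileE t y)
        * (p.x * Real.exp ((1 - p.cstar) / 2 * (tileTop c Y.R t).Eobs p.a Y.W.τ y) + 1)) :=
      mul_nonneg (Real.exp_pos _).le (mul_nonneg (Real.exp_pos _).le hB0)
    linarith
  · obtain ⟨h0, h2⟩ := ph_tfac_le Y H ht y
    have h3 : |Y.tfac t y - 1| ≤ Y.tfac t y + 1 := by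
      rw [abs_le]; constructor <;> linarith
    have h4 : Y.tfac t y + 1 ≤ p.x * Real.exp ((1 - p.cstar) / 2 * (tileTop c Y.R t).Eobs p.a Y.W.τ y) + 1 := by
      have := h2.trans (mul_le_mul_of_nonneg_left (H.box.reserve _ hT hdz' y) hx0)
      linarith
    have h5 : 1 ≤ Real.exp (-p.lam * p.U ^ 2) * Real.exp (p.lam * Y.tileE t y) := by
      rw [← Real.exp_add]
      apply Real.one_le_exp
      have : 0 ≤ p.lam * (Y.tileE t y - p.U ^ 2) := mul_nonneg H.lam0.le (by linarith [not_le.1 hg])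
      linarith
    have h6 := le_mul_of_one_le_left hB0 h5
    rw [mul_assoc] at h6
    linarith [H.γ0]

/-- `bdr_dom` (`ph_tile_point`), `bdr_add (bdr_const γ) (bdr_smul (bdr_mul (bdr_face (e := lam) (F := (tileTop t).faces)) (bdr_add (bdr_smul bdr_top) (bdr_const 1))))`; load `8 lam Cp + (1 - cstar) ≤ hbox ≤ cb`; `ph_tileTop`, `hn.tile` -/
theorem ph_tile_bdr (H : NIn Y p Zs Z) (hn : NNum p Y.R) {t : Tile} (ht : t ∈ tiles c Y.R) (hd : Disjoint (cellsOf c Y.R {t}) Z) :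
    BdR p.a Y.W.τ p.θ (cellsOf c Y.R {t}) p.cb (fun y => Y.tfac t y - 1) p.gm := by
  obtain ⟨hT, hcell, hcard, hF, hFc⟩ := ph_tileTop Y H t
  obtain ⟨he1, he2, -⟩ := ph_e_nonneg Y H
  obtain ⟨hx1, -, -, -, -, -, -, -⟩ := ph_signs Y H
  have hx0 : 0 ≤ p.x := zero_le_one.trans hx1
  have hcs : 0 ≤ 1 - p.cstar := by linarith [H.cs1]
  have hlc : 0 ≤ 8 * p.lam * p.Cp := by
    have := H.lam0.le; have := H.Cp0; positivity
  have hload : 8 * p.lam * p.Cp + (1 - p.cstar) ≤ p.cb := by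
    have h1 := hn.load
    unfold NPar.hbox NPar.ee at h1
    have h2 : 0 ≤ 8 * p.ea * p.Cp := by
      have := H.ea0; have := H.Cp0; positivity
    have h3 : 0 ≤ 8 * (e1 p.Cq p.cc Y.R + e2 p.Cq p.cc Y.R p.P) * p.Cp := by
      have := H.Cp0; positivity
    nlinarith
  have hh0 : 0 ≤ 8 * p.lam * p.Cp + (1 - p.cstar) := add_nonneg hlc hcs
  have hB : BdR p.a Y.W.τ p.θ (cellsOf c Y.R {t}) (1 - p.cstar)
      (fun y => Real.exp ((1 - p.cstar) / 2 * (tileTop c Y.R t).Eobs p.a Y.W.τ y))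
      (Real.exp (p.θ * ((1 - p.cstar) * ((tileTop c Y.R t).cells.card : ℝ)))) :=
    bdr_top (tileTop c Y.R t) hT hcell.le hcs
  have hw : Real.exp (p.θ * ((1 - p.cstar) * ((tileTop c Y.R t).cells.card : ℝ))) ≤ Real.exp (p.θ * (Y.R : ℝ) ^ 2) := by
    apply Real.exp_le_exp.2
    refine mul_le_mul_of_nonneg_left ?_ H.θ0
    rw [hcell]
    calc (1 - p.cstar) * ((cellsOf c Y.R {t}).card : ℝ) ≤ 1 * ((cellsOf c Y.R {t}).card : ℝ) :=
          mul_le_mul_of_nonneg_right (by linarith [H.cs0]) (Nat.cast_nonneg _)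
      _ ≤ (Y.R : ℝ) ^ 2 := by rw [one_mul]; exact hcard
  have hFa : BdR p.a Y.W.τ p.θ (cellsOf c Y.R {t}) (8 * p.lam * p.Cp)
      (fun y => Real.exp (p.lam * fE c Y.W.τ (tileTop c Y.R t).faces y))
      (Real.exp (p.θ * (4 * p.lam * p.Cp * ((tileTop c Y.R t).faces.card : ℝ)))) :=
    bdr_face H.θ0 H.Cp0 H.co (tileTop c Y.R t).faces hF H.lam0.le
  have hwF : Real.exp (p.θ * (4 * p.lam * p.Cp * ((tileTop c Y.R t).faces.card : ℝ)))
      ≤ Real.exp (p.θ * (8 * p.lam * p.Cp * (Y.R : ℝ) ^ 2)) := by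
    apply Real.exp_le_exp.2
    refine mul_le_mul_of_nonneg_left ?_ H.θ0
    have h4 : 0 ≤ 4 * p.lam * p.Cp := by
      have := H.lam0.le; have := H.Cp0; positivity
    calc 4 * p.lam * p.Cp * ((tileTop c Y.R t).faces.card : ℝ) ≤ 4 * p.lam * p.Cp * (2 * (Y.R : ℝ) ^ 2) :=
          mul_le_mul_of_nonneg_left hFc h4
      _ = 8 * p.lam * p.Cp * (Y.R : ℝ) ^ 2 := by ring
  have h1 := bdr_add H.θ0 (bdr_smul H.θ0 p.x hx0 hcs hB)
    (bdr_const (a := p.a) (τ := Y.W.τ) H.θ0 (cellsOf c Y.R {t}) hcs 1)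
  have h2 := bdr_mul H.θ0 hFa h1
  rw [Finset.union_self] at h2
  have h3 := bdr_smul H.θ0 (Real.exp (-p.lam * p.U ^ 2)) (Real.exp_pos _).le hh0 h2
  have h4 := bdr_add H.θ0 (bdr_const (a := p.a) (τ := Y.W.τ) H.θ0 (cellsOf c Y.R {t}) hh0 p.γ) h3
  refine bdr_mono (Finset.Subset.refl _) hload ?_ (bdr_dom h4 fun y => ?_)
  · refine le_trans ?_ hn.tile
    rw [abs_of_pos H.γ0, abs_one]
    refine add_le_add le_rfl (mul_le_mul_of_nonneg_left ?_ (Real.exp_pos _).le)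
    have h5 : Real.exp (p.θ * ((Y.R : ℝ) ^ 2 + 8 * p.lam * p.Cp * (Y.R : ℝ) ^ 2))
        = Real.exp (p.θ * (8 * p.lam * p.Cp * (Y.R : ℝ) ^ 2)) * Real.exp (p.θ * (Y.R : ℝ) ^ 2) := by
      rw [← Real.exp_add]; congr 1; ring
    rw [h5]
    calc Real.exp (p.θ * (4 * p.lam * p.Cp * ((tileTop c Y.R t).faces.card : ℝ)))
          * (p.x * Real.exp (p.θ * ((1 - p.cstar) * ((tileTop c Y.R t).cells.card : ℝ))) + 1)
        ≤ Real.exp (p.θ * (8 * p.lam * p.Cp * (Y.R : ℝ) ^ 2)) * (p.x * Real.exp (p.θ * (Y.R : ℝ) ^ 2) + 1) := by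
          refine mul_le_mul hwF ?_ (add_nonneg (mul_nonneg hx0 (Real.exp_pos _).le) zero_le_one) (Real.exp_pos _).le
          exact add_le_add (mul_le_mul_of_nonneg_left hw hx0) le_rfl
      _ = _ := by ring
  · exact (ph_tile_point Y H ht hd y).trans (le_abs_self _)

/-- `bd_of_bdr`, `nt_tfac_loc`, `nt_tfac_cast` -/
theorem ph_tile (H : NIn Y p Zs Z) (hn : NNum p Y.R) {t : Tile} (ht : t ∈ tiles c Y.R) (hd : Disjoint (cellsOf c Y.R {t}) Z) :
    Bd p.a Y.W.τ Y.R 0 p.θ (cellsOf c Y.R {t}) p.cb (fun y => Y.W.tfac Y.R t y - 1) p.gm := by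
  refine bd_of_bdr Y.R (fun y => Y.W.tfac Y.R t y - 1) (fun y y' h => ?_) (ph_tile_bdr Y H hn ht hd) fun y => ?_
  · show Y.W.tfac Y.R t y - 1 = Y.W.tfac Y.R t y' - 1
    rw [nt_tfac_loc Y H.str t y y' h]
  · show ‖Y.W.tfac Y.R t (fun i => (y i : ℂ)) - 1‖ ≤ |Y.tfac t y - 1|
    rw [nt_tfac_cast Y H.ok t y]
    have : ((Y.tfac t y : ℝ) : ℂ) - 1 = ((Y.tfac t y - 1 : ℝ) : ℂ) := by push_cast; rfl
    rw [this, Complex.norm_real, Real.norm_eq_abs]

open Classical in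
theorem ph_tfac (H : NIn Y p Zs Z) (hn : NNum p Y.R) {t : Tile} (ht : t ∈ tiles c Y.R) :
    Bd p.a Y.W.τ Y.R 0 p.θ (cellsOf c Y.R {t}) p.cb (Y.W.tfac Y.R t) (if Disjoint (cellsOf c Y.R {t}) Z then p.CR else p.big) := by
  refine bd_of_bdr Y.R (Y.W.tfac Y.R t) (fun y y' h => nt_tfac_loc Y H.str t y y' h) (ph_tfac_bdr Y H hn ht) fun y => ?_
  rw [nt_tfac_cast Y H.ok t y, Complex.norm_real, Real.norm_eq_abs]

/-! ## 5. The exit -/

/-- **`Phys + PhysPos ⟸ BoxOK`**, in one volume, for every representation -/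
theorem phys_of_box (H : NIn Y p Zs Z) (hn : NNum p Y.R) :
    Phys Y.W Y.R Z p.a p.cb p.θ 0 p.gm p.big ∧ PhysPos Y.W Y.R Z p.a p.cb p.θ p.CR p.big := by
  refine ⟨⟨fun S hS => ph_halo Y H hn hS, fun t ht hd => ph_tile Y H hn ht hd, fun t ht hd => ?_⟩,
    ⟨fun S hS => ph_pos_halo Y H hn hS, fun t ht => ph_tfac Y H hn ht⟩⟩
  have h := ph_tfac Y H hn ht
  rwa [if_neg hd] at h

end

end Claimed.Agent.R285.Entry
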