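import Claimed.Agent.R285.Entry.NtStep

/-!
# ROW 285, ENTRY, post NORM (#13340, architect helper229), STEP (C): THE REAL CUT OF A POSITIVE HALO TOPOLOGY INTO BOXES.   Prefix `nt_`.
[F] cutoff-entry.tex l.1590-1700: (ent:seam-joint), (ent:box-factor), (ent:seam-normalized).   `θ : Cut c` is ANY cut of the volume into labelled boxes (`θ.Ok`); `G = halTop S O`; `K = θ.kept R S` the marks whose testing patch is deep in a box.
LEAVES: L-NT-TSTBRK (`nt_tst_brk`), L-NT-SEAM-Z (`nt_seam_Z`), L-NT-BOXSPLIT (`nt_kept_part`, `nt_box_Z`, `nt_box_Z0`, `nt_box_Xi`, `nt_box_E`), L-NT-SEAM (`nt_seam`).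
-/

set_option autoImplicit false

namespace Claimed.Agent.R285.Entry

open scoped BigOperators
open Claimed.Agent.R285 Claimed.Agent.R285.RG Claimed.Agent.R285.F4a Claimed.Agent.R285.Ent Fac

noncomputable section

variable {G : Geom} {c : Grid G} (Y : Phy c)

/-- the testing patch of the mark `k` in the branch `O` -/
def tstT (c : Grid G) (R : ℕ) (O : Finset EvId) (k : EvId) : Top c := if k ∈ O then tstO c R k else tstC c R k

theorem nt_cJ_sub_tpatch (k : EvId) : Y.cJ k ⊆ tpatch c Y.R k :=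
  Finset.inter_subset_inter_right (nt_brk_nbh_mono (by omega) _)

theorem nt_halTop_cells (R : ℕ) (S O : Finset EvId) : (halTop c R S O).cells = halC c R S := by
  simp [halTop, Top.restr, topU, Top.cut, Top.full]

/-- **the testing patch of a deep mark is common to the halo topology and to its cut.**
GEOMETRY v2: `tpatch k`, `cJ k` are neighbourhoods of the core INSIDE `ctl k`; `nt_brk_gen` with `I = cJ k`, `P = tpatch k` for `T = G` and `T = G.cut θ.sm`: a retained face at `cJ k` ends in `nbh (R/16)` (`nt_brk_face`, `3 (R/64) + 1 ≤ R/16`) and in `ctl k` (`hg.tp_cl`);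
`tpatch k ⊆ halC S = T.cells`: `hg.tp_halC`; `G.restr (tpatch k) = tstT ..` is `hg.tst`; `(G.cut θ.sm).restr (tpatch k) = G.restr (tpatch k)` because no removed face has both cells in the testing patch (`hd.2`). -/
theorem nt_tst_brk (hY : Y.Ok) (hg : NGeo c Y.R) {S O : Finset EvId} (hS : Valid c Y.R S) (hO : O ⊆ S) (θ : Cut c) {k : EvId} {b : ℕ × ℕ}
    (hk : k ∈ S) (hd : θ.DeepIn Y.R k b) :
    Brk (Y.M (tstT c Y.R O k)) (Y.M (halTop c Y.R S O)) (Y.evQ k) (Y.evJ k) ∧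
      Brk (Y.M (tstT c Y.R O k)) (Y.M ((halTop c Y.R S O).cut θ.sm)) (Y.evQ k) (Y.evJ k) := by
  classical
  have hG0 : (halTop c Y.R S O).Ok := nt_ok_halTop _ _ _
  have h12 := nt_cJ_sub_tpatch Y k
  have hsub : tpatch c Y.R k ⊆ (halTop c Y.R S O).cells := by
    rw [nt_halTop_cells]
    exact hg.tp_halC S k (Finset.mem_union_left _ hk)
  have hr : 3 * (Y.R / 64) + 1 ≤ Y.R / 16 := by
    obtain ⟨m, hm⟩ := hg.d64
    have := hg.pos
    omega
  have hF : ∀ f ∈ (halTop c Y.R S O).faces, (f.1 ∈ Y.cJ k → fnb c f ∈ tpatch c Y.R k) ∧ (fnb c f ∈ Y.cJ k → f.1 ∈ tpatch c Y.R k) := by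
    intro f hf
    have h1 := nt_brk_face (hG0 f hf).1 (core c Y.R k) hr
    have h2 := hg.tp_cl S O hS hO k hk f hf
    exact ⟨fun h => Finset.mem_inter.2 ⟨h1.1 (Finset.mem_inter.1 h).1, h2.1 (h12 h)⟩,
      fun h => Finset.mem_inter.2 ⟨h1.2 (Finset.mem_inter.1 h).1, h2.2 (h12 h)⟩⟩
  have e0 : (halTop c Y.R S O).restr (tpatch c Y.R k) = tstT c Y.R O k := hg.tst S O hS hO k hk
  have e1 : ((halTop c Y.R S O).cut θ.sm).restr (tpatch c Y.R k) = tstT c Y.R O k := by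
    rw [← e0]
    show (⟨_, _⟩ : Top c) = ⟨_, _⟩
    congr 1
    ext f
    simp only [Top.cut, Finset.mem_filter, Finset.mem_sdiff]
    constructor
    · rintro ⟨⟨h1, -⟩, h2⟩
      exact ⟨h1, h2⟩
    · rintro ⟨h1, h2⟩
      refine ⟨⟨h1, fun hs => ?_⟩, h2⟩
      rcases hd.2 f hs with h | h
      · exact h h2.1
      · exact h h2.2
  refine ⟨?_, ?_⟩
  · have := nt_brk_gen Y hY _ hG0 (Y.cJ k) (tpatch c Y.R k) h12 hsub hF
    rwa [e0] at this
  · have := nt_brk_gen Y hY _ (nt_ok_cut _ hG0 θ.sm) (Y.cJ k) (tpatch c Y.R k) h12 hsub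
      (fun f hf => hF f (Finset.sdiff_subset hf))
    rwa [e1] at this

/-- **(ent:seam-joint) summed against `∏ δ`, with `𝗉_G^0 / 𝗉_cut^0 ≤ x^|K|`.**
PLAN: `nm_seam_norm` with `K = θ.kept R S`, `M = Y.M (G.cut sm)`, `M' = Y.M G`, `p = evG`, `q = evQ`, `J = evJ`, `Mo = fun k => Y.M (tstT c R O k)`, `Ψ = dls K y`.
`h`: `hY.le`; `hA`: `hY.A_eq` (same cells); `hB`, `hB'`: `nt_tst_brk`; `hp`: `guard ⊆ patch = nbh (R/32) ⊆ nbh (3 (R/64))`; `hfar`: `guard j ⊆ tpatch j`, `cJ k ⊆ tpatch k`, `hg.tp_disj`, `nt_st_disj`; `hx`: `hP.tstO`, `hP.tstC` (split on `k ∈ O`);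
`h0`, `hb`: `nt_dls_mem`, `nt_dls_bdd`; `hΨ`: `nt_dls_inv`. -/
theorem nt_seam_Z (hY : Y.Ok) (hN : ∀ T, 0 < Y.W.N T) (hg : NGeo c Y.R) {x : ℝ} (hP : Y.Pins x) {S O : Finset EvId} (hS : Valid c Y.R S) (hO : O ⊆ S)
    (θ : Cut c) (y : c.I → ℝ) :
    (Y.M (halTop c Y.R S O)).Z (Y.D y) (Y.dls (θ.kept Y.R S) y) / (Y.M (halTop c Y.R S O)).Z0
      ≤ x ^ (θ.kept Y.R S).card *
        ((Y.M ((halTop c Y.R S O).cut θ.sm)).Z (Y.D y) (Y.dls (θ.kept Y.R S) y) / (Y.M ((halTop c Y.R S O).cut θ.sm)).Z0) := by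
  have hKS : ∀ k ∈ θ.kept Y.R S, k ∈ S ∧ ∃ b, θ.DeepIn Y.R k b := fun k hk => by
    simp only [Cut.kept, Finset.mem_filter] at hk
    exact hk
  have hT : (halTop c Y.R S O).Ok := nt_ok_halTop _ _ _
  have hTc : ((halTop c Y.R S O).cut θ.sm).Ok := nt_ok_cut _ hT _
  have hbrk : ∀ k ∈ θ.kept Y.R S, Brk (Y.M (tstT c Y.R O k)) (Y.M (halTop c Y.R S O)) (Y.evQ k) (Y.evJ k) ∧
      Brk (Y.M (tstT c Y.R O k)) (Y.M ((halTop c Y.R S O).cut θ.sm)) (Y.evQ k) (Y.evJ k) := fun k hk => by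
    obtain ⟨hkS, b, hd⟩ := hKS k hk
    exact nt_tst_brk Y hY hg hS hO θ hkS hd
  have h64 : Y.R / 32 ≤ 3 * (Y.R / 64) := by
    obtain ⟨t, ht⟩ := hg.d64
    rw [ht]
    omega
  -- the guard lies inside the outer guard and in the testing patch
  have hgJ : ∀ k, guard c Y.R k ⊆ Y.cJ k := by
    intro k i hi
    have hp : i ∈ patch c Y.R k := (Finset.mem_sdiff.1 hi).1
    have h1 : i ∈ nbh c (3 * (Y.R / 64)) (core c Y.R k) := nt_brk_nbh_mono h64 _ (Finset.mem_inter.1 hp).1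
    first
      | exact h1
      | exact Finset.mem_inter.2 ⟨h1, (Finset.mem_inter.1 hp).2⟩
  have hgT : ∀ k, guard c Y.R k ⊆ tpatch c Y.R k := by
    intro k i hi
    have hp : i ∈ patch c Y.R k := (Finset.mem_sdiff.1 hi).1
    exact Finset.mem_inter.2 ⟨nt_brk_nbh_mono (Nat.div_le_div_left (by norm_num) (by norm_num)) _ (Finset.mem_inter.1 hp).1,
      (Finset.mem_inter.1 hp).2⟩
  have hcell : ∀ k, (tstT c Y.R O k).cells ⊆ tpatch c Y.R k := by
    intro k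
    unfold tstT
    split_ifs
    · exact Finset.inter_subset_right
    · exact Finset.inter_subset_right
  have hJT : ∀ k ∈ θ.kept Y.R S, Y.evJ k ⊆ Y.st (tpatch c Y.R k) := by
    intro k hk v hv
    have h1 := (Finset.mem_sdiff.1 ((hbrk k hk).1.subo hv)).1
    rw [hY.A_eq] at h1
    exact nt_st_mono Y (hcell k) h1
  refine nm_seam_norm (θ.kept Y.R S) (M := Y.M ((halTop c Y.R S O).cut θ.sm)) (M' := Y.M (halTop c Y.R S O))
    (hY.le _ _ hTc hT (Finset.Subset.refl _) Finset.sdiff_subset) ?_ (hY.ok _ hTc) (hY.ok _ hT)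
    Y.evG Y.evQ Y.evJ (fun k => Y.M (tstT c Y.R O k)) (fun k hk => (hbrk k hk).2) (fun k hk => (hbrk k hk).1)
    (fun k _ => nt_st_mono Y (hgJ k)) ?_ x ?_ (Y.D y) (Y.dls (θ.kept Y.R S) y)
    (fun h => (nt_dls_mem Y hY hN _ y h).1) (nt_dls_bdd Y hY hN _ y) ?_
  · rw [hY.A_eq, hY.A_eq]
    rfl
  · intro k hk j hj hjk
    refine Finset.disjoint_of_subset_left (nt_st_mono Y (hgT j)) (Finset.disjoint_of_subset_right (hJT k hk) ?_)
    exact nt_st_disj Y (hg.tp_disj S hS j (hKS j hj).1 k (hKS k hk).1 hjk)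
  · intro k hk
    have hke : k ∈ events c Y.R := hS.1 (hKS k hk).1
    show (Y.M (tstT c Y.R O k)).xPin (Y.evG k) (Y.evQ k) ≤ x
    unfold tstT
    split_ifs
    · exact hP.tstO k hke
    · exact hP.tstC k hke
  · refine nt_dls_inv Y hY _ y _ fun k hk => ?_
    exact Finset.disjoint_left.2 fun v hv hv' => (Finset.mem_sdiff.1 hv).2 (Finset.mem_biUnion.2 ⟨k, hk, hv'⟩)

theorem nt_box_core_tp (R : ℕ) (k : EvId) : core c R k ⊆ tpatch c R k := by
  intro i hi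
  refine Finset.mem_inter.2 ⟨?_, ?_⟩
  · simp only [nbh, Finset.mem_filter, Finset.mem_univ, true_and]
    exact ⟨i, hi, by rw [Alg.idist_self]; exact Nat.zero_le _⟩
  · simp only [ctl, cellsOf, Finset.mem_filter, Finset.mem_univ, true_and]
    exact Finset.mem_image_of_mem _ hi

theorem nt_box_guard_tp (R : ℕ) (k : EvId) : guard c R k ⊆ tpatch c R k := by
  intro i hi
  have h1 : i ∈ patch c R k := (Finset.mem_sdiff.1 hi).1
  exact Finset.inter_subset_inter_right (nt_dl_nbh_mono (Nat.div_le_div_left (by norm_num) (by norm_num)) _) h1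

theorem nt_box_mem {θ : Cut c} {b : ℕ × ℕ} {i : c.I} : i ∈ θ.box b ↔ θ.lab i = b := by
  simp [Cut.box]

theorem nt_box_disj (θ : Cut c) {b b' : ℕ × ℕ} (h : b ≠ b') : Disjoint (θ.box b) (θ.box b') := by
  rw [Finset.disjoint_left]
  intro i h1 h2
  exact h ((nt_box_mem.1 h1).symm.trans (nt_box_mem.1 h2))

/-- a retained face of a cut topology lies in one box met by the topology -/
theorem nt_box_face {T : Top c} (hT : T.Ok) {θ : Cut c} (hθ : θ.Ok) {f : Face c} (hf : f ∈ (T.cut θ.sm).faces) :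
    θ.lab f.1 ∈ θ.labs T ∧ f.1 ∈ θ.box (θ.lab f.1) ∧ fnb c f ∈ θ.box (θ.lab f.1) := by
  have h1 := Finset.mem_sdiff.1 hf
  obtain ⟨a1, a2, -⟩ := hT f h1.1
  exact ⟨Finset.mem_image_of_mem _ a2, nt_box_mem.2 rfl, nt_box_mem.2 (hθ f a1 h1.2)⟩

/-- the mask of a cut topology splits over the boxes -/
theorem nt_box_split (hY : Y.Ok) (T : Top c) (hT : T.Ok) (θ : Cut c) (hθ : θ.Ok) :
    (Y.M (T.cut θ.sm)).Split fun b : {b // b ∈ θ.labs T} => Y.M (θ.piece T b.1) := by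
  refine hY.split (T.cut θ.sm) (nt_ok_cut T hT _) (fun b : {b // b ∈ θ.labs T} => θ.box b.1) ?_ ?_ ?_
  · intro i j hij
    exact nt_box_disj θ fun h => hij (Subtype.ext h)
  · intro i hi
    exact Finset.mem_biUnion.2 ⟨⟨θ.lab i, Finset.mem_image_of_mem _ hi⟩, Finset.mem_univ _, nt_box_mem.2 rfl⟩
  · intro f hf
    obtain ⟨h1, h2, h3⟩ := nt_box_face hT hθ hf
    exact ⟨⟨_, h1⟩, h2, h3⟩

/-- the retained marks are partitioned by the boxes met by the halo (`tpatch k ⊆ halC S` is nonempty: `hg.tp_ne`, `core ⊆ tpatch`) -/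
theorem nt_kept_part (hg : NGeo c Y.R) {S : Finset EvId} (hS : Valid c Y.R S) (O : Finset EvId) (θ : Cut c) :
    θ.kept Y.R S = (θ.labs (halTop c Y.R S O)).biUnion (θ.keptB Y.R S) ∧
      ∀ b b', b ≠ b' → Disjoint (θ.keptB Y.R S b) (θ.keptB Y.R S b') := by
  classical
  have hpt : ∀ k ∈ S, ∃ i, i ∈ tpatch c Y.R k ∧ i ∈ halC c Y.R S := by
    intro k hk
    obtain ⟨i, hi⟩ := hg.tp_ne k (hS.1 hk)
    have h1 := nt_box_core_tp Y.R k hi
    exact ⟨i, h1, hg.tp_halC S k (Finset.mem_union_left _ hk) h1⟩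
  constructor
  · ext k
    simp only [Cut.kept, Cut.keptB, Cut.labs, Finset.mem_filter, Finset.mem_biUnion, Finset.mem_image]
    constructor
    · rintro ⟨hk, b, hb⟩
      obtain ⟨i, hi, hi'⟩ := hpt k hk
      exact ⟨b, ⟨i, Finset.mem_inter.2 ⟨Finset.mem_univ _, hi'⟩, hb.1 i hi⟩, hk, hb⟩
    · rintro ⟨b, -, hk, hb⟩
      exact ⟨hk, b, hb⟩
  · intro b b' hbb
    rw [Finset.disjoint_left]
    intro k h1 h2
    simp only [Cut.keptB, Finset.mem_filter] at h1 h2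
    obtain ⟨i, hi, -⟩ := hpt k h1.1
    exact hbb ((h1.2.1 i hi).symm.trans (h2.2.1 i hi))

/-- PLAN: `hY.split (T.cut sm)` with `ι = {b // b ∈ θ.labs T}`, regions `θ.box b` (`hθ`: a face which is not removed stays in one box), `fk_split` at the datum `0` with `Ψ = 1`, `Finset.prod_coe_sort`. -/
theorem nt_box_Z0 (hY : Y.Ok) (T : Top c) (hT : T.Ok) (θ : Cut c) (hθ : θ.Ok) : (Y.M (T.cut θ.sm)).Z0 = ∏ b ∈ θ.labs T, (Y.M (θ.piece T b)).Z0 := by
  have h := fk_split _ _ (nt_box_split Y hY T hT θ hθ) (hY.ok _ (nt_ok_cut T hT _)) 0 (fun _ _ => 1)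
    (fun _ => nm_bdd_const 1) (fun _ _ _ => nm_inv_const _ 1)
  simp only [Finset.prod_const_one] at h
  rw [← Finset.prod_coe_sort]
  exact h

/-- PLAN: the same splitting, `fk_split` with `Ψ b = dls (keptB S b) y`; `dls (kept S) = ∏_b dls (keptB S b)` (`nt_kept_part`, `Finset.prod_biUnion`); invariance: `nt_dls_inv` (the guard of a mark deep in `b` lies in `st (box b)`, disjoint from the sites of another box). -/
theorem nt_box_Z (hY : Y.Ok) (hN : ∀ T, 0 < Y.W.N T) (hg : NGeo c Y.R) {S : Finset EvId} (hS : Valid c Y.R S) (O : Finset EvId) (θ : Cut c) (hθ : θ.Ok) (y : c.I → ℝ) :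
    (Y.M ((halTop c Y.R S O).cut θ.sm)).Z (Y.D y) (Y.dls (θ.kept Y.R S) y)
      = ∏ b ∈ θ.labs (halTop c Y.R S O), (Y.M (θ.piece (halTop c Y.R S O) b)).Z (Y.D y) (Y.dls (θ.keptB Y.R S b) y) := by
  classical
  have hT : (halTop c Y.R S O).Ok := nt_ok_halTop _ _ _
  obtain ⟨hp1, hp2⟩ := nt_kept_part Y hg hS O θ
  have h := fk_split _ _ (nt_box_split Y hY _ hT θ hθ) (hY.ok _ (nt_ok_cut _ hT _)) (Y.D y)
    (fun b : {b // b ∈ θ.labs (halTop c Y.R S O)} => Y.dls (θ.keptB Y.R S b.1) y)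
    (fun b => nt_dls_bdd Y hY hN _ y) (by
      intro i j hij
      refine nt_dls_inv Y hY _ y _ fun k hk => ?_
      rw [hY.A_eq]
      refine nt_st_disj Y ?_
      have hk' : θ.DeepIn Y.R k i.1 := (Finset.mem_filter.1 hk).2
      rw [Finset.disjoint_left]
      intro x hx hx'
      have h1 : θ.lab x = j.1 := nt_box_mem.1 (Finset.mem_inter.1 hx).2
      have h2 : θ.lab x = i.1 := hk'.1 x (nt_box_guard_tp _ _ hx')
      exact hij (Subtype.ext (h2.symm.trans h1)))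
  have e : Y.dls (θ.kept Y.R S) y
      = fun x => ∏ b : {b // b ∈ θ.labs (halTop c Y.R S O)}, Y.dls (θ.keptB Y.R S b.1) y x := by
    funext x
    rw [Finset.prod_coe_sort (θ.labs (halTop c Y.R S O)) (fun b => Y.dls (θ.keptB Y.R S b) y x)]
    unfold Phy.dls
    rw [hp1, Finset.prod_biUnion fun b _ b' _ hbb => hp2 b b' hbb]
  rw [e, h, Finset.prod_coe_sort (θ.labs (halTop c Y.R S O))
    (fun b => (Y.M (θ.piece (halTop c Y.R S O) b)).Z (Y.D y) (Y.dls (θ.keptB Y.R S b) y))]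

theorem nt_box_Xi (T : Top c) (hT : T.Ok) (θ : Cut c) (hθ : θ.Ok) (y : c.I → ℝ) : Y.Xi (T.cut θ.sm) y = ∏ b ∈ θ.labs T, Y.Xi (θ.piece T b) y := by
  classical
  unfold Phy.Xi
  rw [← Finset.prod_fiberwise_of_maps_to (g := fun f : Face c => θ.lab f.1) (fun f hf => (nt_box_face hT hθ hf).1)]
  refine Finset.prod_congr rfl fun b _ => Finset.prod_congr ?_ fun _ _ => rfl
  ext f
  rw [Finset.mem_filter]
  show _ ↔ f ∈ ((T.cut θ.sm).restr (θ.box b)).faces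
  rw [nt_mem_restr_faces]
  constructor
  · rintro ⟨h1, rfl⟩
    exact ⟨h1, (nt_box_face hT hθ h1).2⟩
  · rintro ⟨h1, h2, -⟩
    exact ⟨h1, nt_box_mem.1 h2⟩

/-- `nt_E_split` -/
theorem nt_box_E (hW : Y.W.Str) (T : Top c) (hT : T.Ok) (θ : Cut c) (hθ : θ.Ok) (y : c.I → ℝ) : Y.E (T.cut θ.sm) y = ∑ b ∈ θ.labs T, Y.E (θ.piece T b) y := by
  classical
  refine nt_E_split Y hW (T.cut θ.sm) (θ.labs T) θ.box (fun i _ j _ hij => nt_box_disj θ hij) ?_ ?_ y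
  · intro i hi
    exact Finset.mem_biUnion.2 ⟨θ.lab i, Finset.mem_image_of_mem _ hi, nt_box_mem.2 rfl⟩
  · intro f hf
    obtain ⟨h1, h2, h3⟩ := nt_box_face hT hθ hf
    exact ⟨_, h1, h2, h3⟩

/-- **STEP (C)** = (ent:seam-normalized).
PLAN: `AT G * ET G S ≤ AT G * ET G K` (`nt_ET_anti`, `K = kept ⊆ S`) `= e^{E_G/2} Xi_G * (Z_G (dls K) / Z0_G)` (cancel `Z1 > 0`);  `nt_seam_Z`;  `Xi_G ≤ Xi_{G.cut}` (`nt_Xi_anti`);
`e^{E_cut/2} Xi_cut Z_cut(dls K) / Z0_cut = ∏_b QT (piece b) (keptB b)` (`nt_box_E`, `nt_box_Xi`, `nt_box_Z`, `nt_box_Z0`, `Real.exp_sum`, `Finset.prod_mul_distrib`, `Finset.prod_div_distrib`; in every piece cancel `Z1 > 0`). -/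
theorem nt_seam (hY : Y.Ok) (hW : Y.W.Str) (hg : NGeo c Y.R) {x : ℝ} (hP : Y.Pins x) {S O : Finset EvId} (hS : Valid c Y.R S) (hO : O ⊆ S)
    (θ : Cut c) (hθ : θ.Ok) (y : c.I → ℝ) :
    Y.AT (halTop c Y.R S O) y * Y.ET (halTop c Y.R S O) S y
      ≤ x ^ (θ.kept Y.R S).card * Real.exp ((Y.E (halTop c Y.R S O) y - Y.E ((halTop c Y.R S O).cut θ.sm) y) / 2)
        * ∏ b ∈ θ.labs (halTop c Y.R S O), Y.QT (θ.piece (halTop c Y.R S O) b) (θ.keptB Y.R S b) y := by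
  have hN : ∀ T, 0 < Y.W.N T := hW.N_pos
  set T := halTop c Y.R S O with hTdef
  have hT : T.Ok := nt_ok_halTop _ _ _
  have hTc : (T.cut θ.sm).Ok := nt_ok_cut T hT θ.sm
  have hpc : ∀ b, (θ.piece T b).Ok := fun b => nt_ok_restr _ hTc _
  have hKS : θ.kept Y.R S ⊆ S := by
    classical
    intro k hk
    unfold Cut.kept at hk
    exact (Finset.mem_filter.1 hk).1
  -- a general cancellation
  have hQ : ∀ (T' : Top c), T'.Ok → ∀ K' : Finset EvId,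
      Y.AT T' y * Y.ET T' K' y = Real.exp (Y.E T' y / 2) * Y.Xi T' y * ((Y.M T').Z (Y.D y) (Y.dls K' y) / (Y.M T').Z0) := by
    intro T' hT' K'
    have h1 : 0 < (Y.M T').Z1 (Y.D y) := fk_Z1_pos _ (hY.ok T' hT') _
    have h0 : 0 < (Y.M T').Z0 := nt_Z0_pos Y hY T' hT'
    unfold Phy.AT Phy.ET Phy.Zh Fac.Msk.Ex
    field_simp
  -- the product over the boxes
  have hprod : ∏ b ∈ θ.labs T, Y.QT (θ.piece T b) (θ.keptB Y.R S b) y
      = Real.exp (Y.E (T.cut θ.sm) y / 2) * Y.Xi (T.cut θ.sm) y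
        * ((Y.M (T.cut θ.sm)).Z (Y.D y) (Y.dls (θ.kept Y.R S) y) / (Y.M (T.cut θ.sm)).Z0) := by
    have e1 : ∀ b ∈ θ.labs T, Y.QT (θ.piece T b) (θ.keptB Y.R S b) y
        = Real.exp (Y.E (θ.piece T b) y / 2) * Y.Xi (θ.piece T b) y
          * ((Y.M (θ.piece T b)).Z (Y.D y) (Y.dls (θ.keptB Y.R S b) y) / (Y.M (θ.piece T b)).Z0) :=
      fun b _ => hQ _ (hpc b) _
    rw [Finset.prod_congr rfl e1, Finset.prod_mul_distrib, Finset.prod_mul_distrib, Finset.prod_div_distrib,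
      ← nt_box_Z0 Y hY T hT θ hθ, ← nt_box_Xi Y T hT θ hθ y, ← Real.exp_sum, ← Finset.sum_div, ← nt_box_E Y hW T hT θ hθ y,
      hTdef, ← nt_box_Z Y hY hN hg hS O θ hθ y]
  rw [hprod]
  have hA := nt_AT_pos Y hY T hT y
  have h1 : Y.AT T y * Y.ET T S y ≤ Y.AT T y * Y.ET T (θ.kept Y.R S) y :=
    mul_le_mul_of_nonneg_left (nt_ET_anti Y hY hN T hT hKS y) hA.le
  refine h1.trans ?_
  rw [hQ T hT]
  have h2 := nt_seam_Z Y hY hN hg hP hS hO θ y
  rw [← hTdef] at h2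
  have h3 : Y.Xi T y ≤ Y.Xi (T.cut θ.sm) y := nt_Xi_anti Y hY T (T.cut θ.sm) Finset.sdiff_subset y
  have hXi := (nt_Xi_mem Y hY T y).1
  have hx : 0 ≤ x ^ (θ.kept Y.R S).card := pow_nonneg (zero_le_one.trans hP.one) _
  have hZc : 0 ≤ (Y.M (T.cut θ.sm)).Z (Y.D y) (Y.dls (θ.kept Y.R S) y) / (Y.M (T.cut θ.sm)).Z0 :=
    div_nonneg (fk_Z_nonneg _ (hY.ok _ hTc).1 _ _ fun z => (nt_dls_mem Y hY hN _ y z).1) (nt_Z0_pos Y hY _ hTc).le
  have e2 : Real.exp ((Y.E T y - Y.E (T.cut θ.sm) y) / 2) * Real.exp (Y.E (T.cut θ.sm) y / 2) = Real.exp (Y.E T y / 2) := by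
    rw [← Real.exp_add]
    congr 1
    ring
  calc Real.exp (Y.E T y / 2) * Y.Xi T y * ((Y.M T).Z (Y.D y) (Y.dls (θ.kept Y.R S) y) / (Y.M T).Z0)
      ≤ Real.exp (Y.E T y / 2) * Y.Xi T y * (x ^ (θ.kept Y.R S).card *
          ((Y.M (T.cut θ.sm)).Z (Y.D y) (Y.dls (θ.kept Y.R S) y) / (Y.M (T.cut θ.sm)).Z0)) :=
        mul_le_mul_of_nonneg_left h2 (mul_nonneg (Real.exp_pos _).le hXi.le)
    _ ≤ Real.exp (Y.E T y / 2) * Y.Xi (T.cut θ.sm) y * (x ^ (θ.kept Y.R S).card *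
          ((Y.M (T.cut θ.sm)).Z (Y.D y) (Y.dls (θ.kept Y.R S) y) / (Y.M (T.cut θ.sm)).Z0)) :=
        mul_le_mul_of_nonneg_right (mul_le_mul_of_nonneg_left h3 (Real.exp_pos _).le) (mul_nonneg hx hZc)
    _ = x ^ (θ.kept Y.R S).card * Real.exp ((Y.E T y - Y.E (T.cut θ.sm) y) / 2) *
          (Real.exp (Y.E (T.cut θ.sm) y / 2) * Y.Xi (T.cut θ.sm) y
            * ((Y.M (T.cut θ.sm)).Z (Y.D y) (Y.dls (θ.kept Y.R S) y) / (Y.M (T.cut θ.sm)).Z0)) := by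
        rw [← e2]
        ring

end

end Claimed.Agent.R285.Entry
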