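import Claimed.Agent.R285.Entry.NtBase
import Claimed.Agent.R285.Face.Geo

/-!
# ROW 285, ENTRY, post NORM (#13340, architect helper229): THE GAUSSIAN SHAPES.   Prefixes `sh_` (abstract), `nt_`.   Paper-free.
[F] cutoff-entry.tex l.1531-1537 ("Apply the identical accounting to the Gaussian shapes"), l.1606-1622 (seam cost).
Everything follows from `QLoc` (matrix bounds), `Wt.Str.Q_supp` and row sums (`F4a.sum_exp_idist` in `Face/Geo.lean`).
LEAVES: L-SH-LIN (`sh_sig_lin`, `sh_E_eq`, `sh_Hr_supp`), L-SH-CWT (`sh_cwt_*`, `sh_row`, `sh_cores`), L-SH-QUAD (`sh_quad`), L-SH-SEAM (`nt_seam_E`), L-SH-V4 (`nt_step_V4`), L-SH-STEP (`nt_step_E`).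
-/

set_option autoImplicit false

namespace Claimed.Agent.R285.Entry

open scoped BigOperators
open Claimed.Agent.R285 Claimed.Agent.R285.RG Claimed.Agent.R285.F4a Claimed.Agent.R285.Ent

noncomputable section

variable {G : Geom} {c : Grid G}

/-! ## 1. Linear algebra  (L-SH-LIN) -/

theorem sh_sig_lin (z : c.I) (w : Face c → ℝ) : sig c z w = ∑ f, sig c z (Pi.single f 1) * w f := by
  unfold sig
  simp only [sub_mul, add_mul, Finset.sum_add_distrib, Finset.sum_sub_distrib, Pi.single_apply, ite_mul, one_mul, zero_mul,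
    Finset.sum_ite_eq, Finset.mem_univ, if_true]

/-- (ent:face-decomposition) for the quadratic forms -/
theorem sh_E_eq (W : Wt c) (Ds : ℝ) (T : Top c) (w : Face c → ℝ) :
    ∑ f, ∑ f', W.Q T f f' * w f * w f' = ∑ f, ∑ f', Hr W Ds T f f' * w f * w f' + Ds * ∑ z ∈ T.V4, sig c z w ^ 2 := by
  have key : ∑ z ∈ T.V4, sig c z w ^ 2
      = ∑ f, ∑ f', (∑ z ∈ T.V4, sig c z (Pi.single f 1) * sig c z (Pi.single f' 1)) * w f * w f' := by
    have h1 : ∀ z, sig c z w ^ 2 = ∑ f, ∑ f', sig c z (Pi.single f 1) * sig c z (Pi.single f' 1) * w f * w f' := by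
      intro z
      rw [sq]
      conv_lhs => rw [sh_sig_lin z w]
      rw [Finset.sum_mul_sum]
      refine Finset.sum_congr rfl fun f _ => Finset.sum_congr rfl fun f' _ => ?_
      ring
    simp only [h1]
    rw [Finset.sum_comm]
    refine Finset.sum_congr rfl fun f _ => ?_
    rw [Finset.sum_comm]
    refine Finset.sum_congr rfl fun f' _ => ?_
    rw [Finset.sum_mul, Finset.sum_mul]
  rw [key, Finset.mul_sum, ← Finset.sum_add_distrib]
  refine Finset.sum_congr rfl fun f _ => ?_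
  rw [Finset.mul_sum, ← Finset.sum_add_distrib]
  refine Finset.sum_congr rfl fun f' _ => ?_
  unfold Hr
  ring

theorem sh_sig_single_zero {T : Top c} {z : c.I} (hz : z ∈ T.V4) {f : Face c} (hf : f ∉ T.faces) : sig c z (Pi.single f 1) = 0 := by
  classical
  unfold Top.V4 at hz
  obtain ⟨h1, h2, h3, h4⟩ := (Finset.mem_filter.1 hz).2
  unfold sig
  have key : ∀ g : Face c, g ∈ T.faces → (Pi.single f 1 : Face c → ℝ) g = 0 := by
    intro g hg
    apply Pi.single_eq_of_ne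
    rintro rfl
    exact hf hg
  rw [key _ h1, key _ h2, key _ h3, key _ h4]
  ring

/-- absent entries vanish (the four faces of a full junction are present) -/
theorem sh_Hr_supp {W : Wt c} (hW : W.Str) (Ds : ℝ) (T : Top c) (f f' : Face c) (h : f ∉ T.faces ∨ f' ∉ T.faces) : Hr W Ds T f f' = 0 := by
  unfold Hr
  rw [hW.Q_supp T f f' h, Finset.sum_eq_zero, mul_zero, sub_zero]
  intro z hz
  rcases h with h | h
  · rw [sh_sig_single_zero hz h, zero_mul]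
  · rw [sh_sig_single_zero hz h, mul_zero]

/-! ## 2. Exponential weights  (L-SH-CWT) -/

theorem sh_den_pos {κ : ℝ} (hκ : 0 < κ) : 0 < 1 - Real.exp (-κ / 2) := by
  have : Real.exp (-κ / 2) < 1 := by
    rw [Real.exp_lt_one_iff]
    linarith
  linarith

theorem sh_Cs_pos {κ : ℝ} (hκ : 0 < κ) : 0 < Cs κ := by
  have := sh_den_pos hκ
  unfold Cs
  positivity

/-- `Cs` is decreasing -/
theorem sh_Cs_anti {κ κ' : ℝ} (hκ : 0 < κ) (h : κ ≤ κ') : Cs κ' ≤ Cs κ := by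
  have h1 := sh_den_pos hκ
  have h2 := sh_den_pos (lt_of_lt_of_le hκ h)
  have h3 : Real.exp (-κ' / 2) ≤ Real.exp (-κ / 2) := Real.exp_le_exp.2 (by linarith)
  unfold Cs
  refine pow_le_pow_left₀ (by positivity) ?_ 2
  exact div_le_div_of_nonneg_left (by norm_num) h1 (by linarith)

theorem sh_cwt_nonneg (κ : ℝ) (A : Finset c.I) (i : c.I) : 0 ≤ cwt c κ A i :=
  Finset.sum_nonneg fun _ _ => (Real.exp_pos _).le

theorem sh_cwt_rate {κ κ' : ℝ} (h : κ ≤ κ') (A : Finset c.I) (i : c.I) : cwt c κ' A i ≤ cwt c κ A i := by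
  refine Finset.sum_le_sum fun j _ => Real.exp_le_exp.2 ?_
  have : (0 : ℝ) ≤ c.idist j i := Nat.cast_nonneg _
  nlinarith

theorem sh_cwt_mono (κ : ℝ) {A A' : Finset c.I} (h : A ⊆ A') (i : c.I) : cwt c κ A i ≤ cwt c κ A' i :=
  Finset.sum_le_sum_of_subset_of_nonneg h fun _ _ _ => (Real.exp_pos _).le

/-- triangle inequality -/
theorem sh_cwt_tri {κ : ℝ} (hκ : 0 ≤ κ) (A : Finset c.I) (i i' : c.I) : cwt c κ A i' * Real.exp (-κ * c.idist i i') ≤ cwt c κ A i := by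
  unfold cwt
  rw [Finset.sum_mul]
  refine Finset.sum_le_sum fun j _ => ?_
  rw [← Real.exp_add]
  refine Real.exp_le_exp.2 ?_
  have h1 : (c.idist j i : ℝ) ≤ c.idist j i' + c.idist i i' := by
    have := Alg.idist_triangle c j i' i
    rw [Alg.idist_comm c i' i] at this
    exact_mod_cast this
  nlinarith

/-- `e^{-κ D} ≤ cwt`, if `D` is the distance of `i` to a point of `A` -/
theorem sh_cwt_ge (κ : ℝ) {A : Finset c.I} {j : c.I} (hj : j ∈ A) (i : c.I) : Real.exp (-κ * c.idist j i) ≤ cwt c κ A i :=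
  Finset.single_le_sum (f := fun j => Real.exp (-κ * c.idist j i)) (fun _ _ => (Real.exp_pos _).le) hj

theorem sh_cwt_le {κ : ℝ} (hκ : 0 < κ) (A : Finset c.I) (i : c.I) : cwt c κ A i ≤ Cs κ := by
  refine (sh_cwt_mono κ (Finset.subset_univ A) i).trans ?_
  have := sum_exp_idist κ hκ c i
  unfold cwt Cs
  simpa only [Alg.idist_comm c i] using this

/-- row sums over faces -/
theorem sh_row {κ : ℝ} (hκ : 0 < κ) (i : c.I) : ∑ f : Face c, Real.exp (-κ * c.idist i f.1) ≤ 2 * Cs κ := by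
  have := sum_exp_idist κ hκ c i
  rw [Fintype.sum_prod_type]
  simp only [Finset.sum_const, Finset.card_univ, Fintype.card_bool, nsmul_eq_mul, Nat.cast_ofNat]
  rw [← Finset.mul_sum]
  unfold Cs
  linarith

/-- **all cores together.**  PLAN: `cwt κ (core k) i ≤ ∑_{f ∈ cutF k} (e^{-κ d(f.1,i)} + e^{-κ d(fnb f,i)})` (`core` = union of two images, `Finset.sum_image_le`-type bound by nonnegativity); the `cutF k` are pairwise disjoint sets of faces (`nt_cutF_disj`, `Finset.sum_biUnion`);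
`e^{-κ d(fnb f,i)} ≤ e^κ e^{-κ d(f.1,i)}` (`nt_cutF_core`, `nt_face_dist`, triangle inequality); `sh_row`. -/
theorem sh_cores {κ : ℝ} (hκ : 0 < κ) (R : ℕ) (U : Finset EvId) (i : c.I) : ∑ k ∈ U, cwt c κ (core c R k) i ≤ Cm κ := by
  classical
  have h1 : ∀ k, cwt c κ (core c R k) i ≤ (1 + Real.exp κ) * ∑ f ∈ cutF c R k, Real.exp (-κ * c.idist i f.1) := by
    intro k
    have e0 : ∀ j : c.I, 0 ≤ Real.exp (-κ * c.idist j i) := fun j => (Real.exp_pos _).le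
    have a1 : cwt c κ (core c R k) i ≤ ∑ j ∈ (cutF c R k).image Prod.fst, Real.exp (-κ * c.idist j i)
        + ∑ j ∈ (cutF c R k).image (fnb c), Real.exp (-κ * c.idist j i) := by
      unfold cwt core
      rw [← Finset.sum_union_inter]
      exact le_add_of_nonneg_right (Finset.sum_nonneg fun j _ => e0 j)
    have a2 : ∑ j ∈ (cutF c R k).image Prod.fst, Real.exp (-κ * c.idist j i) ≤ ∑ f ∈ cutF c R k, Real.exp (-κ * c.idist i f.1) := by
      refine (Finset.sum_image_le_of_nonneg fun j _ => e0 j).trans (le_of_eq ?_)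
      refine Finset.sum_congr rfl fun f _ => ?_
      rw [Alg.idist_comm]
    have a3 : ∑ j ∈ (cutF c R k).image (fnb c), Real.exp (-κ * c.idist j i)
        ≤ Real.exp κ * ∑ f ∈ cutF c R k, Real.exp (-κ * c.idist i f.1) := by
      refine (Finset.sum_image_le_of_nonneg fun j _ => e0 j).trans ?_
      rw [Finset.mul_sum]
      refine Finset.sum_le_sum fun f hf => ?_
      rw [← Real.exp_add]
      refine Real.exp_le_exp.2 ?_
      have b1 := nt_face_dist (nt_cutF_core hf).1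
      have b2 := Alg.idist_triangle c i (fnb c f) f.1
      rw [Alg.idist_comm c (fnb c f) f.1, Alg.idist_comm c i (fnb c f)] at b2
      have b3 : (c.idist i f.1 : ℝ) ≤ c.idist (fnb c f) i + 1 := by
        have : c.idist i f.1 ≤ c.idist (fnb c f) i + 1 := by omega
        exact_mod_cast this
      nlinarith
    linarith
  have h2 : ∑ k ∈ U, ∑ f ∈ cutF c R k, Real.exp (-κ * c.idist i f.1) ≤ 2 * Cs κ := by
    rw [← Finset.sum_biUnion (fun k _ k' _ hkk => nt_cutF_disj hkk)]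
    exact (Finset.sum_le_sum_of_subset_of_nonneg (Finset.subset_univ _) fun _ _ _ => (Real.exp_pos _).le).trans (sh_row hκ i)
  calc ∑ k ∈ U, cwt c κ (core c R k) i ≤ ∑ k ∈ U, (1 + Real.exp κ) * ∑ f ∈ cutF c R k, Real.exp (-κ * c.idist i f.1) :=
        Finset.sum_le_sum fun k _ => h1 k
    _ = (1 + Real.exp κ) * ∑ k ∈ U, ∑ f ∈ cutF c R k, Real.exp (-κ * c.idist i f.1) := by rw [Finset.mul_sum]
    _ ≤ (1 + Real.exp κ) * (2 * Cs κ) := mul_le_mul_of_nonneg_left h2 (by positivity)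
    _ = Cm κ := by unfold Cm; ring

/-! ## 3. A localised matrix is a localised quadratic form  (L-SH-QUAD) -/

/-- the pointwise bound of a localised matrix -/
theorem sh_quad_pt {κ K : ℝ} (hκ : 0 < κ) (hK : 0 ≤ K) (A : Finset c.I) (Mx : Face c → Face c → ℝ)
    (hM : ∀ (f f' : Face c) (D : ℕ), (∀ i ∈ A, D ≤ c.idist i f.1 ∧ D ≤ c.idist i f'.1) →
      |Mx f f'| ≤ K * Real.exp (-κ * c.idist f.1 f'.1 - κ * D)) (f f' : Face c) :
    |Mx f f'| ≤ K * (Real.exp (-κ * c.idist f.1 f'.1) * (cwt c κ A f.1 + cwt c κ A f'.1)) := by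
  rcases A.eq_empty_or_nonempty with rfl | hA
  · have h1 : ∀ D : ℕ, |Mx f f'| ≤ K * Real.exp (-κ * c.idist f.1 f'.1 - κ * D) := fun D => hM f f' D (by simp)
    have h2 : Filter.Tendsto (fun D : ℕ => K * Real.exp (-κ * c.idist f.1 f'.1 - κ * D)) Filter.atTop (nhds (K * 0)) := by
      refine Filter.Tendsto.const_mul K (Real.tendsto_exp_atBot.comp ?_)
      refine Filter.tendsto_atBot_add_const_left _ _ ?_
      have : Filter.Tendsto (fun D : ℕ => κ * (D : ℝ)) Filter.atTop Filter.atTop :=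
        Filter.Tendsto.const_mul_atTop hκ tendsto_natCast_atTop_atTop
      simpa using this
    have h3 := ge_of_tendsto' h2 h1
    simp only [mul_zero] at h3
    simpa [cwt] using h3
  · obtain ⟨i0, hi0, he⟩ := Finset.exists_mem_eq_inf' hA (fun i => min (c.idist i f.1) (c.idist i f'.1))
    have h1 := hM f f' (A.inf' hA (fun i => min (c.idist i f.1) (c.idist i f'.1))) (fun i hi => by
      have := Finset.inf'_le (fun i => min (c.idist i f.1) (c.idist i f'.1)) hi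
      exact ⟨this.trans (min_le_left _ _), this.trans (min_le_right _ _)⟩)
    refine h1.trans (mul_le_mul_of_nonneg_left ?_ hK)
    rw [sub_eq_add_neg, Real.exp_add]
    refine mul_le_mul_of_nonneg_left ?_ (Real.exp_pos _).le
    rw [he]
    have n1 := sh_cwt_nonneg κ A f.1
    have n2 := sh_cwt_nonneg κ A f'.1
    rcases min_choice (c.idist i0 f.1) (c.idist i0 f'.1) with h | h
    · rw [h]
      have := sh_cwt_ge κ hi0 f.1
      rw [neg_mul] at this
      linarith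
    · rw [h]
      have := sh_cwt_ge κ hi0 f'.1
      rw [neg_mul] at this
      linarith

/-- the row sums of the majorant -/
theorem sh_quad_row {κ : ℝ} (hκ : 0 < κ) (A : Finset c.I) (f : Face c) :
    ∑ f' : Face c, Real.exp (-κ * c.idist f.1 f'.1) * (cwt c κ A f.1 + cwt c κ A f'.1) ≤ Cg κ * cwt c (κ / 2) A f.1 := by
  have hκ2 : 0 < κ / 2 := by positivity
  have hv := sh_cwt_nonneg (κ / 2) A f.1
  have h1 : ∀ f' : Face c, Real.exp (-κ * c.idist f.1 f'.1) * (cwt c κ A f.1 + cwt c κ A f'.1)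
      ≤ Real.exp (-(κ / 2) * c.idist f.1 f'.1) * (2 * cwt c (κ / 2) A f.1) := by
    intro f'
    have d0 : (0 : ℝ) ≤ c.idist f.1 f'.1 := Nat.cast_nonneg _
    have a1 : Real.exp (-κ * c.idist f.1 f'.1) = Real.exp (-(κ / 2) * c.idist f.1 f'.1) * Real.exp (-(κ / 2) * c.idist f.1 f'.1) := by
      rw [← Real.exp_add]
      congr 1
      ring
    have a2 : Real.exp (-(κ / 2) * c.idist f.1 f'.1) ≤ 1 := by
      rw [Real.exp_le_one_iff]
      nlinarith
    have a3 : cwt c κ A f.1 ≤ cwt c (κ / 2) A f.1 := sh_cwt_rate (by linarith) A f.1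
    have a4 : cwt c κ A f'.1 ≤ cwt c (κ / 2) A f'.1 := sh_cwt_rate (by linarith) A f'.1
    have a5 := sh_cwt_tri hκ2.le A f.1 f'.1
    have e0 := (Real.exp_pos (-(κ / 2) * c.idist f.1 f'.1)).le
    have b1 : Real.exp (-(κ / 2) * c.idist f.1 f'.1) * cwt c κ A f.1 ≤ cwt c (κ / 2) A f.1 :=
      (mul_le_mul_of_nonneg_left a3 e0).trans (by simpa using mul_le_mul_of_nonneg_right a2 hv)
    have b2 : Real.exp (-(κ / 2) * c.idist f.1 f'.1) * cwt c κ A f'.1 ≤ cwt c (κ / 2) A f.1 :=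
      (mul_le_mul_of_nonneg_left a4 e0).trans (by rw [mul_comm]; exact a5)
    rw [a1, mul_assoc]
    refine mul_le_mul_of_nonneg_left ?_ e0
    rw [mul_add]
    linarith
  refine (Finset.sum_le_sum fun f' _ => h1 f').trans ?_
  rw [← Finset.sum_mul]
  have h2 := sh_row hκ2 f.1
  have := mul_le_mul_of_nonneg_right h2 (by positivity : 0 ≤ 2 * cwt c (κ / 2) A f.1)
  refine this.trans (le_of_eq ?_)
  unfold Cg
  ring

/-- **PLAN.**  `A = ∅`: `hM` for all `D` forces `Mx = 0`.   `A ≠ ∅`: for `f, f'` let `D` be the minimum over `i ∈ A` of `min (d(i,f.1)) (d(i,f'.1))`; then `e^{-κ D} ≤ cwt κ A f.1 + cwt κ A f'.1` (`sh_cwt_ge`).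
`|w_f w_f'| ≤ (w_f² + w_f'²)/2` and the symmetry `f ↔ f'` give `|∑∑| ≤ K ∑_{f ∈ F} w_f² [cwt_κ(f) ∑_{f'} e^{-κ d} + ∑_{f'} e^{-κ d(f,f')} cwt_κ(f')]`.
First sum: `sh_row` (`≤ 2 Cs κ ≤ 2 Cs (κ/2)`), `cwt_κ ≤ cwt_{κ/2}`.   Second: `e^{-κ d} cwt_κ(f') ≤ e^{-κ d/2} (e^{-κ d/2} cwt_{κ/2}(f')) ≤ e^{-κ d/2} cwt_{κ/2}(f)` (`sh_cwt_rate`, `sh_cwt_tri`), `sh_row` at `κ/2`. -/
theorem sh_quad {κ K : ℝ} (hκ : 0 < κ) (hK : 0 ≤ K) (A : Finset c.I) (F : Finset (Face c)) (Mx : Face c → Face c → ℝ)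
    (hsupp : ∀ f f', (f ∉ F ∨ f' ∉ F) → Mx f f' = 0)
    (hM : ∀ (f f' : Face c) (D : ℕ), (∀ i ∈ A, D ≤ c.idist i f.1 ∧ D ≤ c.idist i f'.1) →
      |Mx f f'| ≤ K * Real.exp (-κ * c.idist f.1 f'.1 - κ * D))
    (w : Face c → ℝ) :
    |∑ f, ∑ f', Mx f f' * w f * w f'| ≤ K * Cg κ * ∑ f ∈ F, cwt c (κ / 2) A f.1 * w f ^ 2 := by
  classical
  set T : Face c → Face c → ℝ := fun f f' => Real.exp (-κ * c.idist f.1 f'.1) * (cwt c κ A f.1 + cwt c κ A f'.1) with hTdef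
  have hT0 : ∀ f f', 0 ≤ T f f' := fun f f' =>
    mul_nonneg (Real.exp_pos _).le (add_nonneg (sh_cwt_nonneg κ A f.1) (sh_cwt_nonneg κ A f'.1))
  have hTs : ∀ f f', T f f' = T f' f := by
    intro f f'
    simp only [hTdef]
    rw [Alg.idist_comm c f.1 f'.1, add_comm]
  have hpt := sh_quad_pt hκ hK A Mx hM
  -- restriction to `F`
  have e1 : ∑ f, ∑ f', Mx f f' * w f * w f' = ∑ f ∈ F, ∑ f' ∈ F, Mx f f' * w f * w f' := by
    rw [← Finset.sum_subset (Finset.subset_univ F) (fun f _ hf => Finset.sum_eq_zero fun f' _ => by rw [hsupp f f' (Or.inl hf)]; ring)]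
    refine Finset.sum_congr rfl fun f _ => ?_
    rw [← Finset.sum_subset (Finset.subset_univ F) (fun f' _ hf' => by rw [hsupp f f' (Or.inr hf')]; ring)]
  have e2 : ∀ f f', |Mx f f' * w f * w f'| ≤ K * T f f' * (w f ^ 2 / 2) + K * T f f' * (w f' ^ 2 / 2) := by
    intro f f'
    rw [mul_assoc, abs_mul, ← mul_add]
    refine mul_le_mul (hpt f f') ?_ (abs_nonneg _) (mul_nonneg hK (hT0 f f'))
    rw [abs_le]
    constructor <;> nlinarith [sq_nonneg (w f + w f'), sq_nonneg (w f - w f')]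
  have e3 : ∑ f ∈ F, ∑ f' ∈ F, K * T f f' * (w f' ^ 2 / 2) = ∑ f ∈ F, ∑ f' ∈ F, K * T f f' * (w f ^ 2 / 2) := by
    rw [Finset.sum_comm]
    refine Finset.sum_congr rfl fun f _ => Finset.sum_congr rfl fun f' _ => ?_
    rw [hTs]
  rw [e1]
  calc |∑ f ∈ F, ∑ f' ∈ F, Mx f f' * w f * w f'| ≤ ∑ f ∈ F, ∑ f' ∈ F, |Mx f f' * w f * w f'| :=
        (Finset.abs_sum_le_sum_abs _ _).trans (Finset.sum_le_sum fun f _ => Finset.abs_sum_le_sum_abs _ _)
    _ ≤ ∑ f ∈ F, ∑ f' ∈ F, (K * T f f' * (w f ^ 2 / 2) + K * T f f' * (w f' ^ 2 / 2)) :=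
        Finset.sum_le_sum fun f _ => Finset.sum_le_sum fun f' _ => e2 f f'
    _ = ∑ f ∈ F, ∑ f' ∈ F, K * T f f' * w f ^ 2 := by
        simp only [Finset.sum_add_distrib]
        rw [e3, ← Finset.sum_add_distrib]
        refine Finset.sum_congr rfl fun f _ => ?_
        rw [← Finset.sum_add_distrib]
        refine Finset.sum_congr rfl fun f' _ => ?_
        ring
    _ = ∑ f ∈ F, K * w f ^ 2 * ∑ f' ∈ F, T f f' := by
        refine Finset.sum_congr rfl fun f _ => ?_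
        rw [Finset.mul_sum]
        refine Finset.sum_congr rfl fun f' _ => ?_
        ring
    _ ≤ ∑ f ∈ F, K * w f ^ 2 * (Cg κ * cwt c (κ / 2) A f.1) := by
        refine Finset.sum_le_sum fun f _ => mul_le_mul_of_nonneg_left ?_ (by positivity)
        exact (Finset.sum_le_sum_of_subset_of_nonneg (Finset.subset_univ F) fun f' _ _ => hT0 f f').trans (sh_quad_row hκ A f)
    _ = K * Cg κ * ∑ f ∈ F, cwt c (κ / 2) A f.1 * w f ^ 2 := by
        rw [Finset.mul_sum]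
        refine Finset.sum_congr rfl fun f _ => ?_
        ring

/-! ## 4. The seam cost  (L-SH-SEAM) -/

variable (Y : Phy c)

/-- **the shape difference of a cut.**  PLAN: `sh_E_eq` for `T` and `T.cut θ.sm`.   Regular part: `sh_quad` with `Mx = Hr T - Hr (T.cut sm)`, `A = θ.smC` (`nt_disc_cut`), `F = T.faces` (`sh_Hr_supp`), `K = C`, `κ = cc/2`:
`hQ.df` and `min (e^{-cc d}) (e^{-cc D}) ≤ e^{-(cc/2) d - (cc/2) D}`;  `θ.swt κ i = cwt c κ θ.smC i` by definition.   Junction part: `(T.cut sm).V4 ⊆ T.V4`, squares are nonnegative, `hQ.Ds_nn`. -/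
theorem nt_seam_E (hW : Y.W.Str) {C cc Ds : ℝ} (hQ : QLoc Y.W C cc Ds) (T : Top c) (hT : T.Ok) (θ : Cut c) (y : c.I → ℝ) :
    Y.E T y - Y.E (T.cut θ.sm) y
      ≤ C * Cg (cc / 2) * ∑ f ∈ T.faces, θ.swt (cc / 4) f.1 * Y.w y f ^ 2 + Ds * ∑ z ∈ T.V4, sig c z (Y.w y) ^ 2 := by
  have hT' : (T.cut θ.sm).Ok := nt_ok_cut T hT θ.sm
  have hcc := hQ.cc_pos
  have hfs : ∀ f : Face c, f ∉ T.faces → f ∉ (T.cut θ.sm).faces := by
    intro f hf h
    exact hf (Finset.mem_sdiff.1 h).1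
  have hq := sh_quad (c := c) (κ := cc / 2) (K := C) (by linarith) hQ.C_nn θ.smC T.faces
    (fun f f' => Hr Y.W Ds T f f' - Hr Y.W Ds (T.cut θ.sm) f f')
    (by
      intro f f' h
      rw [sh_Hr_supp hW Ds T f f' h, sh_Hr_supp hW Ds (T.cut θ.sm) f f' (h.imp (hfs f) (hfs f')), sub_zero])
    (by
      intro f f' D hD
      refine (hQ.df T (T.cut θ.sm) hT hT' f f' D fun i hi => hD i (nt_disc_cut T θ.sm hi)).trans ?_
      refine mul_le_mul_of_nonneg_left ?_ hQ.C_nn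
      rcases le_total ((c.idist f.1 f'.1 : ℕ) : ℝ) (D : ℝ) with h | h
      · refine (min_le_right _ _).trans (Real.exp_le_exp.2 ?_)
        nlinarith
      · refine (min_le_left _ _).trans (Real.exp_le_exp.2 ?_)
        nlinarith)
    (Y.w y)
  have e1 : Y.E T y = ∑ f, ∑ f', Hr Y.W Ds T f f' * Y.w y f * Y.w y f' + Ds * ∑ z ∈ T.V4, sig c z (Y.w y) ^ 2 :=
    sh_E_eq Y.W Ds T (Y.w y)
  have e2 : Y.E (T.cut θ.sm) y = ∑ f, ∑ f', Hr Y.W Ds (T.cut θ.sm) f f' * Y.w y f * Y.w y f'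
      + Ds * ∑ z ∈ (T.cut θ.sm).V4, sig c z (Y.w y) ^ 2 := sh_E_eq Y.W Ds (T.cut θ.sm) (Y.w y)
  have e3 : ∑ f, ∑ f', (Hr Y.W Ds T f f' - Hr Y.W Ds (T.cut θ.sm) f f') * Y.w y f * Y.w y f' =
      ∑ f, ∑ f', Hr Y.W Ds T f f' * Y.w y f * Y.w y f' - ∑ f, ∑ f', Hr Y.W Ds (T.cut θ.sm) f f' * Y.w y f * Y.w y f' := by
    rw [← Finset.sum_sub_distrib]
    refine Finset.sum_congr rfl fun f _ => ?_
    rw [← Finset.sum_sub_distrib]
    refine Finset.sum_congr rfl fun f' _ => ?_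
    ring
  have e4 : 0 ≤ Ds * ∑ z ∈ (T.cut θ.sm).V4, sig c z (Y.w y) ^ 2 :=
    mul_nonneg hQ.Ds_nn (Finset.sum_nonneg fun z _ => sq_nonneg _)
  have e5 : ∑ f ∈ T.faces, cwt c (cc / 2 / 2) θ.smC f.1 * Y.w y f ^ 2 = ∑ f ∈ T.faces, θ.swt (cc / 4) f.1 * Y.w y f ^ 2 := by
    have : cc / 2 / 2 = cc / 4 := by ring
    rw [this]
    rfl
  rw [e5, e3] at hq
  have h6 := le_abs_self (∑ f, ∑ f', Hr Y.W Ds T f f' * Y.w y f * Y.w y f'
    - ∑ f, ∑ f', Hr Y.W Ds (T.cut θ.sm) f f' * Y.w y f * Y.w y f')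
  rw [e1, e2]
  linarith

/-! ## 5. One restoration step  (L-SH-V4, L-SH-STEP) -/

theorem nt_mem_V4 {T : Top c} {z : c.I} : z ∈ T.V4 ↔ (z, true) ∈ T.faces ∧ (fnb c (z, true), false) ∈ T.faces ∧
    (fnb c (z, false), true) ∈ T.faces ∧ (z, false) ∈ T.faces := by
  classical
  unfold Top.V4
  simp only [Finset.mem_filter, Finset.mem_univ, true_and]

theorem nt_V4_mono {T T' : Top c} (h : T.faces ⊆ T'.faces) : T.V4 ⊆ T'.V4 := by
  intro z hz
  rw [nt_mem_V4] at hz ⊢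
  exact ⟨h hz.1, h hz.2.1, h hz.2.2.1, h hz.2.2.2⟩

theorem nt_topU_faces_mono (R : ℕ) {U U' : Finset EvId} (h : U ⊆ U') (D : Finset c.I) :
    ((topU c R U).restr D).faces ⊆ ((topU c R U').restr D).faces := by
  intro f hf
  rw [nt_mem_restr_faces, mem_topU_faces] at hf ⊢
  exact ⟨⟨hf.1.1, hf.1.2.imp id fun h' => h h'⟩, hf.2⟩

theorem nt_restr_faces_mono (T : Top c) {A B : Finset c.I} (h : A ⊆ B) : (T.restr A).faces ⊆ (T.restr B).faces := by
  intro f hf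
  rw [nt_mem_restr_faces] at hf ⊢
  exact ⟨hf.1, h hf.2.1, h hf.2.2⟩

theorem nt_core_nbh (R r : ℕ) (k : EvId) : core c R k ⊆ nbh c r (core c R k) := by
  intro i hi
  exact nt_brk_mem_nbh.2 ⟨i, hi, by rw [Alg.idist_self]; exact Nat.zero_le _⟩

theorem nt_core_ctl (R : ℕ) (k : EvId) : core c R k ⊆ ctl c R k := by
  intro i hi
  exact mem_cellsOf.2 (Finset.mem_image_of_mem _ hi)

/-- a face which is created by the step is a cut face of the event -/
theorem nt_step_new {R : ℕ} {D : Finset c.I} {U : Finset EvId} {k : EvId} {f : Face c}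
    (h1 : f ∈ ((topU c R (insert k U)).restr D).faces) (h2 : f ∉ ((topU c R U).restr D).faces) : f ∈ cutF c R k := by
  rw [nt_mem_restr_faces, mem_topU_faces] at h1 h2
  rw [nt_mem_cutF]
  rcases h1.1.2 with h3 | h3
  · exact absurd ⟨⟨h1.1.1, Or.inl h3⟩, h1.2⟩ h2
  · rcases Finset.mem_insert.1 h3 with h3 | h3
    · refine ⟨⟨h1.1.1, fun h4 => h2 ⟨⟨h1.1.1, Or.inl h4⟩, h1.2⟩⟩, h3⟩
    · exact absurd ⟨⟨h1.1.1, Or.inr h3⟩, h1.2⟩ h2

/-- the island clause of `StepOK` in local form: near the core no face of the ambient topology leaves the tiles at the cut faces -/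
theorem nt_step_ctl {R : ℕ} {D : Finset c.I} {U : Finset EvId} {k : EvId} (hk : StepOK c R D U k) :
    ∀ f ∈ ((topU c R (insert k U)).restr D).faces, f.1 ∈ nbh c (R / 32) (core c R k) → fnb c f ∈ nbh c (R / 32) (core c R k) →
      (f.1 ∈ ctl c R k ↔ fnb c f ∈ ctl c R k) := by
  obtain ⟨-, -, -, -, -, A, hA1, hA2, hA3⟩ := hk
  intro f hf h1 h2
  constructor
  · intro h
    exact (Finset.mem_inter.1 (hA2 (Finset.mem_inter.2 ⟨(hA3 f hf).1 (hA1 (Finset.mem_inter.2 ⟨h1, h⟩)), h2⟩))).2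
  · intro h
    exact (Finset.mem_inter.1 (hA2 (Finset.mem_inter.2 ⟨(hA3 f hf).2 (hA1 (Finset.mem_inter.2 ⟨h2, h⟩)), h1⟩))).2

/-- **the junction terms cancel.**  PLAN: write `T⁺, T⁻` for the two ambient topologies; `topO k = T⁺.restr (patch k)`, `topC k = T⁻.restr (patch k)` (`hk`, `nt_restr_restr_of_sub`), `T⁺.faces = T⁻.faces ∪ cutF k` (`nt_topU_insert`).
`T⁻.V4 ⊆ T⁺.V4`; a junction `z ∈ T⁺.V4 \ T⁻.V4` has one of its four faces in `cutF k`, so its four cells are within distance `2` of the core (`nt_face_dist`), hence in the patch (`2 ≤ R/32`): `T⁺.V4 \ T⁻.V4 = (topO k).V4 \ (topC k).V4`.  `Finset.sum_sdiff`. -/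
theorem nt_step_V4 {R : ℕ} (hg : NGeo c R) {D : Finset c.I} {U : Finset EvId} {k : EvId} (hk : StepOK c R D U k) (φ : c.I → ℝ) :
    (∑ z ∈ ((topU c R (insert k U)).restr D).V4, φ z - ∑ z ∈ ((topU c R U).restr D).V4, φ z)
      - (∑ z ∈ (topO c R k).V4, φ z - ∑ z ∈ (topC c R k).V4, φ z) = 0 := by
  classical
  have hF := nt_step_ctl hk
  obtain ⟨-, -, hD, hO, hC, -⟩ := hk
  have hR : 1 ≤ R / 32 := by
    obtain ⟨q, hq⟩ := hg.d64
    have := hg.pos
    omega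
  have s1 : ((topU c R U).restr D).V4 ⊆ ((topU c R (insert k U)).restr D).V4 :=
    nt_V4_mono (nt_topU_faces_mono R (Finset.subset_insert k U) D)
  have s2 : (topC c R k).V4 ⊆ (topO c R k).V4 := by
    rw [← hO, ← hC]
    exact nt_V4_mono (nt_topU_faces_mono R (Finset.subset_insert k U) _)
  have hz : ∀ z ∈ ((topU c R (insert k U)).restr D).V4, z ∉ ((topU c R U).restr D).V4 → z ∈ (topO c R k).V4 := by
    intro z h1 h2
    rw [nt_mem_V4] at h1 h2
    obtain ⟨f1, f2, f3, f4⟩ := h1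
    have hok := nt_ok_restr _ (nt_ok_topU (c := c) R (insert k U)) D
    have b1 := nt_brk_face (hok _ f1).1 (core c R k) (r1 := 0) (r2 := R / 32) hR
    have b2 := nt_brk_face (hok _ f2).1 (core c R k) (r1 := 0) (r2 := R / 32) hR
    have b3 := nt_brk_face (hok _ f3).1 (core c R k) (r1 := 0) (r2 := R / 32) hR
    have b4 := nt_brk_face (hok _ f4).1 (core c R k) (r1 := 0) (r2 := R / 32) hR
    have g1 := hF _ f1
    have g2 := hF _ f2
    have g3 := hF _ f3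
    have g4 := hF _ f4
    have ed : fnb c (fnb c (z, false), true) = fnb c (fnb c (z, true), false) := by
      simp [fnb]
    simp only [ed] at b1 b2 b3 b4 g1 g2 g3 g4
    have key : ∀ f ∈ cutF c R k, (f.1 ∈ nbh c 0 (core c R k) ∧ f.1 ∈ nbh c (R / 32) (core c R k) ∧ f.1 ∈ ctl c R k) ∧
        (fnb c f ∈ nbh c 0 (core c R k) ∧ fnb c f ∈ nbh c (R / 32) (core c R k) ∧ fnb c f ∈ ctl c R k) := by
      intro f hf
      have := nt_cutF_core hf
      exact ⟨⟨nt_core_nbh R _ k this.2.1, nt_core_nbh R _ k this.2.1, nt_core_ctl R k this.2.1⟩,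
        ⟨nt_core_nbh R _ k this.2.2, nt_core_nbh R _ k this.2.2, nt_core_ctl R k this.2.2⟩⟩
    have hall : (z ∈ patch c R k ∧ fnb c (z, true) ∈ patch c R k) ∧ fnb c (z, false) ∈ patch c R k ∧
        fnb c (fnb c (z, true), false) ∈ patch c R k := by
      simp only [patch, Finset.mem_inter]
      by_cases c1 : (z, true) ∈ ((topU c R U).restr D).faces
      · by_cases c2 : (fnb c (z, true), false) ∈ ((topU c R U).restr D).faces
        · by_cases c3 : (fnb c (z, false), true) ∈ ((topU c R U).restr D).faces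
          · have c4 : (z, false) ∉ ((topU c R U).restr D).faces := fun c4 => h2 ⟨c1, c2, c3, c4⟩
            obtain ⟨⟨Za, Na, Ca⟩, ⟨Zc, Nc, Cc⟩⟩ := key _ (nt_step_new f4 c4)
            have Nb := b1.1 Za
            have Nd := b3.1 Zc
            exact ⟨⟨⟨Na, Ca⟩, ⟨Nb, (g1 Na Nb).1 Ca⟩⟩, ⟨Nc, Cc⟩, ⟨Nd, (g3 Nc Nd).1 Cc⟩⟩
          · obtain ⟨⟨Zc, Nc, Cc⟩, ⟨Zd, Nd, Cd⟩⟩ := key _ (nt_step_new f3 c3)
            rw [ed] at Zd Nd Cd
            have Na := b4.2 Zc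
            have Nb := b2.2 Zd
            exact ⟨⟨⟨Na, (g4 Na Nc).2 Cc⟩, ⟨Nb, (g2 Nb Nd).2 Cd⟩⟩, ⟨Nc, Cc⟩, ⟨Nd, Cd⟩⟩
        · obtain ⟨⟨Zb, Nb, Cb⟩, ⟨Zd, Nd, Cd⟩⟩ := key _ (nt_step_new f2 c2)
          have Na := b1.2 Zb
          have Nc := b3.2 Zd
          exact ⟨⟨⟨Na, (g1 Na Nb).2 Cb⟩, ⟨Nb, Cb⟩⟩, ⟨Nc, (g3 Nc Nd).2 Cd⟩, ⟨Nd, Cd⟩⟩
      · obtain ⟨⟨Za, Na, Ca⟩, ⟨Zb, Nb, Cb⟩⟩ := key _ (nt_step_new f1 c1)
        have Nc := b4.1 Za
        have Nd := b2.1 Zb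
        exact ⟨⟨⟨Na, Ca⟩, ⟨Nb, Cb⟩⟩, ⟨Nc, (g4 Na Nc).1 Ca⟩, ⟨Nd, (g2 Nb Nd).1 Cb⟩⟩
    rw [← hO, nt_mem_V4]
    simp only [nt_mem_restr_faces, ed]
    exact ⟨⟨(nt_mem_restr_faces.1 f1).1, hall.1.1, hall.1.2⟩, ⟨(nt_mem_restr_faces.1 f2).1, hall.1.2, hall.2.2⟩,
      ⟨(nt_mem_restr_faces.1 f3).1, hall.2.1, hall.2.2⟩, ⟨(nt_mem_restr_faces.1 f4).1, hall.1.1, hall.2.1⟩⟩
  have e : ((topU c R (insert k U)).restr D).V4 \ ((topU c R U).restr D).V4 = (topO c R k).V4 \ (topC c R k).V4 := by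
    ext z
    rw [Finset.mem_sdiff, Finset.mem_sdiff]
    constructor
    · rintro ⟨h1, h2⟩
      refine ⟨hz z h1 h2, fun h3 => h2 ?_⟩
      rw [← hC] at h3
      exact nt_V4_mono (nt_restr_faces_mono _ hD) h3
    · rintro ⟨h1, h2⟩
      refine ⟨?_, fun h3 => h2 ?_⟩
      · rw [← hO] at h1
        exact nt_V4_mono (nt_restr_faces_mono _ hD) h1
      · rw [← hO] at h1
        rw [← hC]
        rw [nt_mem_V4] at h1 h3 ⊢
        simp only [nt_mem_restr_faces] at h1 h3 ⊢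
        exact ⟨⟨h3.1.1, h1.1.2⟩, ⟨h3.2.1.1, h1.2.1.2⟩, ⟨h3.2.2.1.1, h1.2.2.1.2⟩, ⟨h3.2.2.2.1, h1.2.2.2.2⟩⟩
  rw [← Finset.sum_sdiff s1, ← Finset.sum_sdiff s2, e]
  ring

/-- the full junctions of a topology which splits -/
theorem nt_V4_split {T : Top c} {O₁ O₂ : Finset c.I} (h : Splits T O₁ O₂) (φ : c.I → ℝ) :
    ∑ z ∈ T.V4, φ z = ∑ z ∈ (T.restr O₁).V4, φ z + ∑ z ∈ (T.restr O₂).V4, φ z := by
  classical
  obtain ⟨hd, -, hf⟩ := h
  have hdis : Disjoint (T.restr O₁).V4 (T.restr O₂).V4 := by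
    rw [Finset.disjoint_left]
    intro z h1 h2
    rw [nt_mem_V4] at h1 h2
    exact Finset.disjoint_left.1 hd (nt_mem_restr_faces.1 h1.1).2.1 (nt_mem_restr_faces.1 h2.1).2.1
  have hun : T.V4 = (T.restr O₁).V4 ∪ (T.restr O₂).V4 := by
    ext z
    rw [Finset.mem_union]
    constructor
    · intro hz
      rw [nt_mem_V4] at hz
      obtain ⟨f1, f2, f3, f4⟩ := hz
      have n12 : ∀ {i : c.I}, i ∈ O₁ → i ∉ O₂ := fun h1 h2 => Finset.disjoint_left.1 hd h1 h2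
      rcases hf _ f1 with a1 | a1
      · left
        have a2 := (hf _ f2).resolve_right fun a => n12 a1.2 a.1
        have a4 := (hf _ f4).resolve_right fun a => n12 a1.1 a.1
        have a3 := (hf _ f3).resolve_right fun a => n12 a4.2 a.1
        rw [nt_mem_V4]
        simp only [nt_mem_restr_faces]
        exact ⟨⟨f1, a1⟩, ⟨f2, a2⟩, ⟨f3, a3⟩, ⟨f4, a4⟩⟩
      · right
        have a2 := (hf _ f2).resolve_left fun a => n12 a.1 a1.2
        have a4 := (hf _ f4).resolve_left fun a => n12 a.1 a1.1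
        have a3 := (hf _ f3).resolve_left fun a => n12 a.1 a4.2
        rw [nt_mem_V4]
        simp only [nt_mem_restr_faces]
        exact ⟨⟨f1, a1⟩, ⟨f2, a2⟩, ⟨f3, a3⟩, ⟨f4, a4⟩⟩
    · rintro (hz | hz)
      · exact nt_V4_mono (fun f hf => (nt_mem_restr_faces.1 hf).1) hz
      · exact nt_V4_mono (fun f hf => (nt_mem_restr_faces.1 hf).1) hz
  rw [hun, Finset.sum_union hdis]

theorem nt_Hr_split {W : Wt c} (hW : W.Str) (Ds : ℝ) {T : Top c} {O₁ O₂ : Finset c.I} (h : Splits T O₁ O₂) (f f' : Face c) :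
    Hr W Ds T f f' = Hr W Ds (T.restr O₁) f f' + Hr W Ds (T.restr O₂) f f' := by
  unfold Hr
  rw [hW.Q_add T _ _ h, nt_V4_split h]
  ring

/-- **(ent:guarded-face-error) as a quadratic form.**  PLAN: `sh_E_eq` four times, `nt_step_V4`; `sh_quad` with `A = core k` (`nt_disc_insert`), `F` = the original faces of `D` (`nt_faces_sub`, `sh_Hr_supp`), `K = C e^{-cc (R/32)}`, `κ = cc`:
`hQ.ge` with `G0 = T⁺`, `G1 = T⁻`, `O = patch k`, `r = R/32` (a cell outside `patch k = nbh (R/32) (core k)` has distance `> R/32` from the core). -/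
theorem nt_step_E (hW : Y.W.Str) {C cc Ds : ℝ} (hQ : QLoc Y.W C cc Ds) (hg : NGeo c Y.R) {D : Finset c.I} {U : Finset EvId} {k : EvId}
    (hk : StepOK c Y.R D U k) (y : c.I → ℝ) :
    |(Y.E ((topU c Y.R (insert k U)).restr D) y - Y.E ((topU c Y.R U).restr D) y) - (Y.E (topO c Y.R k) y - Y.E (topC c Y.R k) y)|
      ≤ C * Real.exp (-cc * ((Y.R / 32 : ℕ) : ℝ)) * Cg cc * ∑ f ∈ ((Top.full c).restr D).faces, cwt c (cc / 2) (core c Y.R k) f.1 * Y.w y f ^ 2 := by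
  classical
  have hV := nt_step_V4 hg hk (fun z => sig c z (Y.w y) ^ 2)
  have hF := nt_step_ctl hk
  obtain ⟨-, hkU, hD, hO, hC, -⟩ := hk
  obtain ⟨R, hR⟩ : ∃ R, R = Y.R := ⟨_, rfl⟩
  rw [← hR] at hV hF hD hO hC ⊢
  obtain ⟨Nb, hNb⟩ : ∃ Nb, Nb = nbh c (R / 32) (core c R k) := ⟨_, rfl⟩
  obtain ⟨P, hP⟩ : ∃ P, P = patch c R k := ⟨_, rfl⟩
  have hPNb : P ⊆ Nb := by
    rw [hP, hNb]
    exact Finset.inter_subset_left
  have hmemP : ∀ i, i ∈ P ↔ i ∈ Nb ∧ i ∈ ctl c R k := by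
    intro i
    rw [hP, hNb]
    exact Finset.mem_inter
  rw [← hNb] at hF
  rw [← hP] at hD hO hC
  -- the two ambient topologies
  obtain ⟨G0, hG0⟩ : ∃ G0, G0 = (topU c R (insert k U)).restr D := ⟨_, rfl⟩
  obtain ⟨G1, hG1⟩ : ∃ G1, G1 = (topU c R U).restr D := ⟨_, rfl⟩
  have h10 : G1.faces ⊆ G0.faces := by
    rw [hG0, hG1]
    exact nt_topU_faces_mono R (Finset.subset_insert k U) D
  have ok0 : G0.Ok := hG0 ▸ nt_ok_restr _ (nt_ok_topU _ _) _
  have ok1 : G1.Ok := hG1 ▸ nt_ok_restr _ (nt_ok_topU _ _) _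
  rw [← hG0] at hF
  have hsp : ∀ T : Top c, T.faces ⊆ G0.faces → Splits (T.restr Nb) P (Nb \ P) := by
    intro T hT
    refine ⟨Finset.disjoint_sdiff, ?_, ?_⟩
    · intro i hi
      have : i ∈ Nb := (Finset.mem_inter.1 hi).2
      by_cases hiP : i ∈ P
      · exact Finset.mem_union_left _ hiP
      · exact Finset.mem_union_right _ (Finset.mem_sdiff.2 ⟨this, hiP⟩)
    · intro f hf
      obtain ⟨h1, h2, h3⟩ := nt_mem_restr_faces.1 hf
      have h4 := hF f (hT h1) h2 h3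
      by_cases h5 : f.1 ∈ ctl c R k
      · exact Or.inl ⟨(hmemP _).2 ⟨h2, h5⟩, (hmemP _).2 ⟨h3, h4.1 h5⟩⟩
      · exact Or.inr ⟨Finset.mem_sdiff.2 ⟨h2, fun h => h5 ((hmemP _).1 h).2⟩,
          Finset.mem_sdiff.2 ⟨h3, fun h => h5 (h4.2 ((hmemP _).1 h).2)⟩⟩
  have e0 : (G0.restr Nb).restr P = topO c R k := by
    rw [nt_restr_restr_of_sub _ hPNb, hG0, nt_restr_restr_of_sub _ hD, hO]
  have e1 : (G1.restr Nb).restr P = topC c R k := by
    rw [nt_restr_restr_of_sub _ hPNb, hG1, nt_restr_restr_of_sub _ hD, hC]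
  have e2 : (G0.restr Nb).restr (Nb \ P) = (G1.restr Nb).restr (Nb \ P) := by
    refine top_ext ?_ ?_
    · rw [hG0, hG1]
      rfl
    · ext f
      simp only [nt_mem_restr_faces]
      constructor
      · rintro ⟨⟨h1, h2⟩, h3⟩
        refine ⟨⟨?_, h2⟩, h3⟩
        by_contra h4
        rw [hG0] at h1
        rw [hG1] at h4
        have := nt_cutF_core (nt_step_new h1 h4)
        exact (Finset.mem_sdiff.1 h3.1).2 (hP ▸ nt_dl_core_sub R k this.2.1)
      · rintro ⟨⟨h1, h2⟩, h3⟩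
        exact ⟨⟨h10 h1, h2⟩, h3⟩
  have hHr : ∀ f f', Hr Y.W Ds (G0.restr Nb) f f' - Hr Y.W Ds (G1.restr Nb) f f'
      = Hr Y.W Ds (topO c R k) f f' - Hr Y.W Ds (topC c R k) f f' := by
    intro f f'
    rw [nt_Hr_split hW Ds (hsp G0 (Finset.Subset.refl _)), nt_Hr_split hW Ds (hsp G1 h10), e0, e1, e2]
    ring
  -- the matrix
  obtain ⟨Mx, hMx⟩ : ∃ Mx : Face c → Face c → ℝ, Mx = fun f f' =>
      (Hr Y.W Ds G0 f f' - Hr Y.W Ds G1 f f') - (Hr Y.W Ds (topO c R k) f f' - Hr Y.W Ds (topC c R k) f f') := ⟨_, rfl⟩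
  have hdisc : G0.disc G1 ⊆ core c R k := by
    rw [hG0, hG1]
    exact nt_disc_insert R U k D
  have hE : (Y.E G0 y - Y.E G1 y) - (Y.E (topO c R k) y - Y.E (topC c R k) y) = ∑ f, ∑ f', Mx f f' * Y.w y f * Y.w y f' := by
    unfold Phy.E
    rw [sh_E_eq Y.W Ds G0, sh_E_eq Y.W Ds G1, sh_E_eq Y.W Ds (topO c R k), sh_E_eq Y.W Ds (topC c R k)]
    rw [← hG0, ← hG1] at hV
    have h1 : ∑ f, ∑ f', Mx f f' * Y.w y f * Y.w y f'
        = (∑ f, ∑ f', Hr Y.W Ds G0 f f' * Y.w y f * Y.w y f' - ∑ f, ∑ f', Hr Y.W Ds G1 f f' * Y.w y f * Y.w y f')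
          - (∑ f, ∑ f', Hr Y.W Ds (topO c R k) f f' * Y.w y f * Y.w y f' - ∑ f, ∑ f', Hr Y.W Ds (topC c R k) f f' * Y.w y f * Y.w y f') := by
      rw [hMx]
      simp only [← Finset.sum_sub_distrib]
      refine Finset.sum_congr rfl fun f _ => Finset.sum_congr rfl fun f' _ => ?_
      ring
    rw [h1]
    linear_combination Ds * hV
  rw [← hG0, ← hG1, hE]
  have hsub0 : G0.faces ⊆ ((Top.full c).restr D).faces := hG0 ▸ nt_faces_sub R _ D
  have hsubO : (topO c R k).faces ⊆ ((Top.full c).restr D).faces := by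
    rw [← e0]
    intro f hf
    exact hsub0 (nt_mem_restr_faces.1 (nt_mem_restr_faces.1 hf).1).1
  have hsubC : (topC c R k).faces ⊆ ((Top.full c).restr D).faces := by
    rw [← e1]
    intro f hf
    exact hsub0 (h10 (nt_mem_restr_faces.1 (nt_mem_restr_faces.1 hf).1).1)
  refine sh_quad hQ.cc_pos (mul_nonneg hQ.C_nn (Real.exp_pos _).le) (core c R k) _ Mx ?_ ?_ (Y.w y)
  · intro f f' h
    have t : ∀ T : Top c, T.faces ⊆ ((Top.full c).restr D).faces → Hr Y.W Ds T f f' = 0 := fun T hT =>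
      sh_Hr_supp hW Ds T f f' (h.imp (fun h' h'' => h' (hT h'')) fun h' h'' => h' (hT h''))
    rw [hMx]
    simp only [t G0 hsub0, t G1 (h10.trans hsub0), t _ hsubO, t _ hsubC]
    ring
  · intro f f' D' hD'
    have := hQ.ge G0 G1 ok0 ok1 Nb (R / 32) ?_ f f' D' (fun i hi => hD' i (hdisc hi))
    · rw [hHr] at this
      rw [hMx]
      refine this.trans (le_of_eq ?_)
      rw [mul_assoc, ← Real.exp_add]
      congr 2
      ring
    · intro i hi j hj
      by_contra hcon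
      apply hj
      rw [hNb]
      exact nt_brk_mem_nbh.2 ⟨i, hdisc hi, by omega⟩

end

end Claimed.Agent.R285.Entry
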