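import Claimed.Agent.R285.Entry.NtShape

/-!
# ROW 285, ENTRY, post NORM (#13340, architect helper229), STEP (B): CENTRED NORMALISATION ON THE HALOS.   Prefix `nt_`.
[F] cutoff-entry.tex l.1497-1537, (ent:positive-topology).   SINGLE telescoping: the halo topology `G = halTop S O` is reached from its isolated tiles by restoring the events of `skp S ∪ O` one at a time (`Chain`, owed by GEO);
at every step the patch of the event shows the proxy topologies `topC k → topO k`, so the true centred restoration ratio is bracketed by the proxy ratio (`nm_bracket_T`) and the shape difference is the proxy shape difference up to (ent:guarded-face-error).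
LEAVES: L-NT-STEP-Z (`nt_step_Z0`), L-NT-CHAIN (`nt_chain_Z0`, `nt_chain_E`), L-NT-TILES (`nt_E_split`, `nt_tiles_Z0`, `nt_tiles_E`), L-NT-HTERM (`nt_hterm_le`).
-/

set_option autoImplicit false

namespace Claimed.Agent.R285.Entry

open scoped BigOperators
open Claimed.Agent.R285 Claimed.Agent.R285.RG Claimed.Agent.R285.F4a Claimed.Agent.R285.Ent Fac

noncomputable section

variable {G : Geom} {c : Grid G} (Y : Phy c)

/-- the coefficient of the proxy cost `e1 * halE` -/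
def e1 (C cc : ℝ) (R : ℕ) : ℝ := C * Real.exp (-cc * ((R / 32 : ℕ) : ℝ)) * Cg cc * Cm (cc / 2) / 2

/-- **one restoration.**  PLAN: `T = (topU U).restr D`, `F = Y.evF k`.  `Y.M ((topU (insert k U)).restr D) = (Y.M T).add F` (`nt_topU_insert`, `hY.glue`), so the quotient of the two `Z0` is `(Y.M T).T F`.
`nt_brk Y hY T _ (core k) (R/64) (R/32)` is `Brk (Y.M (topC k)) (Y.M T) (evG k) (evI k)` (`T.restr (patch k) = topC k` by `hk` and `nt_restr_restr_of_sub`; `guard`, `inner`, `patch` unfold to `nbh`).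
`nm_bracket_T` with `H = evH k` (`nt_FFs_in`, `nt_cutF_core`): `(Y.M T).T F ≤ (Y.M (topC k)).T F * xPin ≤ (x * Ck k) * x` (`(Y.M (topC k)).add F = Y.M (topO k)` by the same glueing in `D = patch k`; `hP.nrmE`, `hP.core`). -/
theorem nt_step_Z0 (hY : Y.Ok) (hN : ∀ T, 0 < Y.W.N T) (hg : NGeo c Y.R) {x : ℝ} (hP : Y.Pins x) {D : Finset c.I} {U : Finset EvId} {k : EvId}
    (hk : StepOK c Y.R D U k) :
    (Y.M ((topU c Y.R (insert k U)).restr D)).Z0 ≤ x ^ 2 * Y.Ck k * (Y.M ((topU c Y.R U).restr D)).Z0 := by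
  have hsepP := nt_step_sep hg hk
  obtain ⟨hev, hkU, hPD, hO, hC, -⟩ := hk
  obtain ⟨T, hTdef⟩ : ∃ T, T = (topU c Y.R U).restr D := ⟨_, rfl⟩
  have hT : T.Ok := hTdef ▸ nt_ok_restr _ (nt_ok_topU _ _) _
  have hcoreP : core c Y.R k ⊆ patch c Y.R k := nt_dl_core_sub _ _
  -- glueing in `D`
  obtain ⟨hins, hdis⟩ := nt_topU_insert Y.R U k D hkU (hcoreP.trans hPD)
  rw [← hTdef] at hins hdis
  have hTp : (⟨T.cells, T.faces ∪ cutF c Y.R k⟩ : Top c).Ok := hins ▸ nt_ok_restr _ (nt_ok_topU _ _) _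
  have hglue : Y.M ((topU c Y.R (insert k U)).restr D) = (Y.M T).add (Y.evF k) := by
    rw [hins]
    exact hY.glue T _ hT hTp hdis
  -- glueing in the patch
  obtain ⟨hins', hdis'⟩ := nt_topU_insert Y.R U k (patch c Y.R k) hkU hcoreP
  rw [hO, hC] at hins'
  rw [hC] at hdis'
  have hCok : (topC c Y.R k).Ok := nt_dl_ok_topC _ _
  have hOok : (⟨(topC c Y.R k).cells, (topC c Y.R k).faces ∪ cutF c Y.R k⟩ : Top c).Ok :=
    hins' ▸ nt_ok_restr _ (nt_ok_topU _ _) _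
  have hglue' : Y.M (topO c Y.R k) = (Y.M (topC c Y.R k)).add (Y.evF k) := by
    rw [hins']
    exact hY.glue _ _ hCok hOok hdis'
  -- the bracket
  have hrestr : T.restr (patch c Y.R k) = topC c Y.R k := by
    rw [hTdef, nt_restr_restr_of_sub _ hPD, hC]
  have hcells : patch c Y.R k ⊆ T.cells := by
    rw [hTdef]
    intro i hi
    exact Finset.mem_inter.2 ⟨by simp [topU, Top.cut, Top.full], hPD hi⟩
  have hB : Brk (Y.M (topC c Y.R k)) (Y.M T) (Y.evG k) (Y.evI k) := by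
    have := nt_brk_gen Y hY T hT (inner c Y.R k) (patch c Y.R k) (nt_dl_inner_sub _ _) hcells (fun f hf => by
      refine hsepP f ?_
      rw [hins]
      exact Finset.mem_union_left _ hf)
    rwa [hrestr] at this
  have hbr := (nm_bracket_T _ _ _ _ hB (Y.evF k) (nt_FFs_pos Y hY _) (nt_FFs_new Y hY T hT _ hdis) (Y.evH k)
    (nt_st_mono Y (nt_core_sub_inner _ _)) (nt_FFs_in Y hY _ _ fun f hf => (nt_cutF_core hf).2)).2
  -- numbers
  have z1 : 0 < (Y.M T).Z0 := nt_Z0_pos Y hY T hT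
  have z2 : 0 < (Y.M (topC c Y.R k)).Z0 := nt_Z0_pos Y hY _ hCok
  have z3 : 0 < (Y.M (topO c Y.R k)).Z0 := nt_Z0_pos Y hY _ (nt_ok_restr _ (nt_ok_topU _ _) _)
  have hx : 0 < x := lt_of_lt_of_le one_pos hP.one
  have hCk := nt_Ck_pos Y hN k
  have e1 : (Y.M (topC c Y.R k)).T (Y.evF k) = (Y.M (topO c Y.R k)).Z0 / (Y.M (topC c Y.R k)).Z0 := by
    unfold Fac.Msk.T
    rw [hglue']
  have h1 : (Y.M (topC c Y.R k)).T (Y.evF k) ≤ x * Y.Ck k := e1 ▸ hP.nrmE k hev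
  have h0 : 0 ≤ (Y.M (topC c Y.R k)).T (Y.evF k) := by
    rw [e1]
    positivity
  have h2 : (Y.M T).T (Y.evF k) ≤ x * Y.Ck k * x :=
    hbr.trans (mul_le_mul h1 (hP.core k hev) (le_trans (by
      unfold Fac.Msk.xPin
      have p1 := fk_Z1_pos _ (fk_ok_pin _ (hY.ok _ hCok) (Y.evH k ∪ Y.evG k)) 0
      have p2 := fk_Z1_pos _ (fk_ok_pin _ (hY.ok _ hCok) (Y.evH k)) 0
      have p3 := fk_Z1_pos _ (fk_ok_pin _ (hY.ok _ hCok) (Y.evG k)) 0
      exact (div_pos (mul_pos p1 z2) (mul_pos p2 p3)).le) le_rfl) (by positivity))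
  rw [hglue, ← hTdef]
  have e2 : ((Y.M T).add (Y.evF k)).Z0 = (Y.M T).T (Y.evF k) * (Y.M T).Z0 := by
    unfold Fac.Msk.T
    field_simp
  rw [e2]
  calc (Y.M T).T (Y.evF k) * (Y.M T).Z0 ≤ (x * Y.Ck k * x) * (Y.M T).Z0 := mul_le_mul_of_nonneg_right h2 z1.le
    _ = _ := by ring

/-- induction on `Chain` (`Finset.prod_insert`, `Finset.card_insert_of_notMem`, `nt_Ck_pos`, `hP.one`) -/
theorem nt_chain_Z0 (hY : Y.Ok) (hN : ∀ T, 0 < Y.W.N T) (hg : NGeo c Y.R) {x : ℝ} (hP : Y.Pins x) {D : Finset c.I} {U : Finset EvId}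
    (h : Chain c Y.R D U) :
    (Y.M ((topU c Y.R U).restr D)).Z0 ≤ x ^ (2 * U.card) * (∏ k ∈ U, Y.Ck k) * (Y.M ((topU c Y.R ∅).restr D)).Z0 := by
  induction h with
  | nil => simp
  | @cons U k hU hk ih =>
    have hkU : k ∉ U := hk.2.1
    have h1 := nt_step_Z0 Y hY hN hg hP hk
    rw [Finset.prod_insert hkU, Finset.card_insert_of_notMem hkU]
    have hx : 0 ≤ x := by linarith [hP.one]
    have hCk := nt_Ck_pos Y hN k
    calc (Y.M ((topU c Y.R (insert k U)).restr D)).Z0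
        ≤ x ^ 2 * Y.Ck k * (Y.M ((topU c Y.R U).restr D)).Z0 := h1
      _ ≤ x ^ 2 * Y.Ck k * (x ^ (2 * U.card) * (∏ k ∈ U, Y.Ck k) * (Y.M ((topU c Y.R ∅).restr D)).Z0) :=
          mul_le_mul_of_nonneg_left ih (by positivity)
      _ = x ^ (2 * (U.card + 1)) * (Y.Ck k * ∏ k ∈ U, Y.Ck k) * (Y.M ((topU c Y.R ∅).restr D)).Z0 := by
          rw [show 2 * (U.card + 1) = 2 * U.card + 2 by ring, pow_add]
          ring

/-- the intermediate bound of `nt_chain_E` -/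
theorem nt_chain_E_aux (hW : Y.W.Str) {C cc Ds : ℝ} (hQ : QLoc Y.W C cc Ds) (hg : NGeo c Y.R) {D : Finset c.I} {U : Finset EvId}
    (h : Chain c Y.R D U) (y : c.I → ℝ) :
    ∑ k ∈ U, (Y.E (topO c Y.R k) y - Y.E (topC c Y.R k) y) + Y.E ((topU c Y.R ∅).restr D) y - Y.E ((topU c Y.R U).restr D) y
      ≤ C * Real.exp (-cc * ((Y.R / 32 : ℕ) : ℝ)) * Cg cc
        * ∑ f ∈ ((Top.full c).restr D).faces, (∑ k ∈ U, cwt c (cc / 2) (core c Y.R k) f.1) * Y.w y f ^ 2 := by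
  induction h with
  | nil => simp
  | @cons U k hU hk ih =>
    have hkU : k ∉ U := hk.2.1
    have h1 := (abs_le.1 (nt_step_E Y hW hQ hg hk y)).1
    rw [Finset.sum_insert hkU]
    have e : ∑ f ∈ ((Top.full c).restr D).faces, (∑ k ∈ insert k U, cwt c (cc / 2) (core c Y.R k) f.1) * Y.w y f ^ 2
        = ∑ f ∈ ((Top.full c).restr D).faces, cwt c (cc / 2) (core c Y.R k) f.1 * Y.w y f ^ 2
          + ∑ f ∈ ((Top.full c).restr D).faces, (∑ k ∈ U, cwt c (cc / 2) (core c Y.R k) f.1) * Y.w y f ^ 2 := by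
      rw [← Finset.sum_add_distrib]
      refine Finset.sum_congr rfl fun f _ => ?_
      rw [Finset.sum_insert hkU, add_mul]
    rw [e, mul_add]
    linarith

/-- induction on `Chain` with `nt_step_E` (intermediate bound: `.. * ∑_f (∑_{k ∈ U} cwt (cc/2) (core k) f.1) w_f²`), then `sh_cores` -/
theorem nt_chain_E (hW : Y.W.Str) {C cc Ds : ℝ} (hQ : QLoc Y.W C cc Ds) (hg : NGeo c Y.R) {D : Finset c.I} {U : Finset EvId}
    (h : Chain c Y.R D U) (y : c.I → ℝ) :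
    ∑ k ∈ U, (Y.E (topO c Y.R k) y - Y.E (topC c Y.R k) y) + Y.E ((topU c Y.R ∅).restr D) y - Y.E ((topU c Y.R U).restr D) y
      ≤ 2 * e1 C cc Y.R * ∑ f ∈ ((Top.full c).restr D).faces, Y.w y f ^ 2 := by
  refine (nt_chain_E_aux Y hW hQ hg h y).trans ?_
  have hcc : 0 < cc / 2 := half_pos hQ.cc_pos
  have hCg : 0 ≤ Cg cc := by
    show 0 ≤ 4 * Cs (cc / 2)
    linarith [sh_Cs_pos hcc]
  have hK : 0 ≤ C * Real.exp (-cc * ((Y.R / 32 : ℕ) : ℝ)) * Cg cc :=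
    mul_nonneg (mul_nonneg hQ.C_nn (Real.exp_pos _).le) hCg
  have e : 2 * e1 C cc Y.R * ∑ f ∈ ((Top.full c).restr D).faces, Y.w y f ^ 2
      = C * Real.exp (-cc * ((Y.R / 32 : ℕ) : ℝ)) * Cg cc * ∑ f ∈ ((Top.full c).restr D).faces, Cm (cc / 2) * Y.w y f ^ 2 := by
    rw [← Finset.mul_sum]
    show 2 * (C * Real.exp (-cc * ((Y.R / 32 : ℕ) : ℝ)) * Cg cc * Cm (cc / 2) / 2) * _ = _
    ring
  rw [e]
  refine mul_le_mul_of_nonneg_left (Finset.sum_le_sum fun f _ => ?_) hK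
  exact mul_le_mul_of_nonneg_right (sh_cores hcc Y.R U f.1) (sq_nonneg _)

/-- two pieces -/
theorem nt_E_split_two (hW : Y.W.Str) (T : Top c) (O₁ O₂ : Finset c.I) (h : Splits T O₁ O₂) (y : c.I → ℝ) :
    Y.E T y = Y.E (T.restr O₁) y + Y.E (T.restr O₂) y := by
  unfold Phy.E
  simp only [hW.Q_add T O₁ O₂ h, add_mul, Finset.sum_add_distrib]

/-- no faces, no energy -/
theorem nt_E_split_nil (hW : Y.W.Str) (T : Top c) (h : T.faces = ∅) (y : c.I → ℝ) : Y.E T y = 0 := by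
  unfold Phy.E
  refine Finset.sum_eq_zero fun f _ => Finset.sum_eq_zero fun f' _ => ?_
  rw [hW.Q_supp T f f' (Or.inl (by rw [h]; exact Finset.notMem_empty f)), zero_mul, zero_mul]

/-- **the energy of a topology which splits over labelled regions.**  PLAN: induction on `s` with `hW.Q_add` (`Splits T (O i) (⋃ others)`), `Ent.restr_restr`; empty case: `T.faces = ∅` by `hf`, `hW.Q_supp`. -/
theorem nt_E_split (hW : Y.W.Str) (T : Top c) {ι : Type} [DecidableEq ι] (s : Finset ι) (O : ι → Finset c.I)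
    (hd : ∀ i ∈ s, ∀ j ∈ s, i ≠ j → Disjoint (O i) (O j)) (hc : T.cells ⊆ s.biUnion O) (hf : ∀ f ∈ T.faces, ∃ i ∈ s, f.1 ∈ O i ∧ fnb c f ∈ O i)
    (y : c.I → ℝ) : Y.E T y = ∑ i ∈ s, Y.E (T.restr (O i)) y := by
  classical
  induction s using Finset.induction_on generalizing T with
  | empty =>
    rw [Finset.sum_empty]
    refine nt_E_split_nil Y hW T (Finset.eq_empty_iff_forall_notMem.2 fun f hfm => ?_) y
    obtain ⟨i, hi, -⟩ := hf f hfm
    exact Finset.notMem_empty i hi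
  | @insert a s ha ih =>
    have hdis : Disjoint (O a) (s.biUnion O) := by
      rw [Finset.disjoint_biUnion_right]
      intro i hi
      exact hd a (Finset.mem_insert_self a s) i (Finset.mem_insert_of_mem hi) (fun e => ha (e ▸ hi))
    have hsp : Splits T (O a) (s.biUnion O) := by
      refine ⟨hdis, ?_, fun f hfm => ?_⟩
      · rwa [Finset.biUnion_insert] at hc
      · obtain ⟨i, hi, h1, h2⟩ := hf f hfm
        rcases Finset.mem_insert.1 hi with rfl | hi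
        · exact Or.inl ⟨h1, h2⟩
        · exact Or.inr ⟨Finset.mem_biUnion.2 ⟨i, hi, h1⟩, Finset.mem_biUnion.2 ⟨i, hi, h2⟩⟩
    rw [nt_E_split_two Y hW T _ _ hsp y, Finset.sum_insert ha]
    congr 1
    rw [ih (T.restr (s.biUnion O)) (fun i hi j hj => hd i (Finset.mem_insert_of_mem hi) j (Finset.mem_insert_of_mem hj))
      Finset.inter_subset_right ?_]
    · refine Finset.sum_congr rfl fun i hi => ?_
      rw [nt_restr_restr_of_sub T (Finset.subset_biUnion_of_mem O hi)]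
    · intro f hfm
      have h3 := nt_mem_restr_faces.1 hfm
      obtain ⟨i, hi, h1, h2⟩ := hf f h3.1
      rcases Finset.mem_insert.1 hi with rfl | hi
      · exact absurd h3.2.1 (Finset.disjoint_left.1 hdis h1)
      · exact ⟨i, hi, h1, h2⟩

/-- the geometry of the isolated tiles -/
theorem nt_tiles_geo (R : ℕ) (A : Finset Tile) :
    (∀ t t' : Tile, t ≠ t' → Disjoint (cellsOf c R {t}) (cellsOf c R {t'})) ∧
      (∀ i ∈ ((topU c R ∅).restr (cellsOf c R A)).cells, tile c R i ∈ A ∧ i ∈ cellsOf c R {tile c R i}) ∧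
      (∀ f ∈ ((topU c R ∅).restr (cellsOf c R A)).faces,
        tile c R f.1 ∈ A ∧ f.1 ∈ cellsOf c R {tile c R f.1} ∧ fnb c f ∈ cellsOf c R {tile c R f.1}) ∧
      ∀ t ∈ A, ((topU c R ∅).restr (cellsOf c R A)).restr (cellsOf c R {t}) = tileTop c R t := by
  refine ⟨fun t t' hne => ?_, fun i hi => ?_, fun f hf => ?_, fun t ht => ?_⟩
  · rw [Finset.disjoint_left]
    intro i h1 h2
    exact hne ((Finset.mem_singleton.1 (mem_cellsOf.1 h1)).symm.trans (Finset.mem_singleton.1 (mem_cellsOf.1 h2)))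
  · exact ⟨mem_cellsOf.1 (Finset.mem_inter.1 hi).2, mem_cellsOf.2 (Finset.mem_singleton_self _)⟩
  · have h := nt_mem_restr_faces.1 hf
    have h2 := nt_topU_empty_face h.1
    exact ⟨mem_cellsOf.1 h.2.1, mem_cellsOf.2 (Finset.mem_singleton_self _), mem_cellsOf.2 (Finset.mem_singleton.2 h2.2)⟩
  · rw [nt_restr_restr_of_sub, nt_tileTop_eq]
    intro i hi
    exact mem_cellsOf.2 (by rw [Finset.mem_singleton.1 (mem_cellsOf.1 hi)]; exact ht)

/-- PLAN: `hY.split` with `ι = {t // t ∈ A}`, `O t = cellsOf {t}` (`nt_topU_empty_face`), `fk_split` with `Ψ = 1` at the datum `0`, `nt_tileTop_eq`, `nt_restr_restr_of_sub`, `Finset.prod_coe_sort`. -/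
theorem nt_tiles_Z0 (hY : Y.Ok) (A : Finset Tile) : (Y.M ((topU c Y.R ∅).restr (cellsOf c Y.R A))).Z0 = ∏ t ∈ A, (Y.M (tileTop c Y.R t)).Z0 := by
  classical
  obtain ⟨g1, g2, g3, g4⟩ := nt_tiles_geo (c := c) Y.R A
  have hT : ((topU c Y.R ∅).restr (cellsOf c Y.R A)).Ok := nt_ok_restr _ (nt_ok_topU _ _) _
  have hsp := hY.split _ hT (ι := {t // t ∈ A}) (fun t => cellsOf c Y.R {t.1})
    (fun i j hij => g1 _ _ (fun e => hij (Subtype.ext e)))
    (fun i hi => Finset.mem_biUnion.2 ⟨⟨_, (g2 i hi).1⟩, Finset.mem_univ _, (g2 i hi).2⟩)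
    (fun f hf => ⟨⟨_, (g3 f hf).1⟩, (g3 f hf).2⟩)
  have h := fk_split _ _ hsp (hY.ok _ hT) 0 (fun _ _ => 1) (fun _ => nm_bdd_const 1) (fun _ _ _ _ _ _ => rfl)
  simp only [Finset.prod_const_one] at h
  show (Y.M ((topU c Y.R ∅).restr (cellsOf c Y.R A))).Z 0 (fun _ => 1) = _
  rw [h, ← Finset.prod_coe_sort A (fun t => (Y.M (tileTop c Y.R t)).Z0)]
  refine Finset.prod_congr rfl fun t _ => ?_
  rw [g4 t.1 t.2]
  rfl

theorem nt_tiles_E (hW : Y.W.Str) (A : Finset Tile) (y : c.I → ℝ) :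
    Y.E ((topU c Y.R ∅).restr (cellsOf c Y.R A)) y = ∑ t ∈ A, Y.E (tileTop c Y.R t) y := by
  classical
  obtain ⟨g1, g2, g3, g4⟩ := nt_tiles_geo (c := c) Y.R A
  rw [nt_E_split Y hW _ A (fun t => cellsOf c Y.R {t}) (fun i _ j _ hij => g1 i j hij)
    (fun i hi => Finset.mem_biUnion.2 ⟨_, (g2 i hi).1, (g2 i hi).2⟩) (fun f hf => ⟨_, (g3 f hf).1, (g3 f hf).2⟩) y]
  exact Finset.sum_congr rfl fun t ht => by rw [g4 t ht]

/-- **STEP (B)** = (ent:positive-topology) without the conditional product.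
PLAN: `U = skp S ∪ O`, `D = halC S = cellsOf (halT S)`, `G = halTop S O = (topU U).restr D`.   `hterm / AT = [(Y.M G).Z0 / (∏_U Ck ∏_{halT S} N_t)] * exp ((∑_U (E_O - E_C) + ∑_t E_t - E_G)/2)` (unfold `hterm`, `AT`, `prox`, `tdiv`; `Real.exp_sum`, `Finset.prod_mul_distrib`; `nt_Zh_pos`).
Scalars: `nt_chain_Z0 (hg.chain S O hS hO)`, `nt_tiles_Z0`, `hP.nrmT` (`hg.halT_sub`).   Shapes: `nt_chain_E`, `nt_tiles_E`; `Y.halE S y` is the sum over `((Top.full c).restr (halC S)).faces` by definition. -/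
theorem nt_hterm_le (hY : Y.Ok) (hW : Y.W.Str) (hg : NGeo c Y.R) {C cc Ds : ℝ} (hQ : QLoc Y.W C cc Ds) {x : ℝ} (hP : Y.Pins x)
    {S O : Finset EvId} (hS : Valid c Y.R S) (hO : O ⊆ S) (y : c.I → ℝ) :
    Y.hterm S O y ≤ x ^ (2 * (skp c Y.R S ∪ O).card + (halT c Y.R S).card) * Real.exp (e1 C cc Y.R * Y.halE S y) * Y.AT (halTop c Y.R S O) y := by
  have hN : ∀ T, 0 < Y.W.N T := hW.N_pos
  have hch := hg.chain S O hS hO
  have hx : 0 < x := by linarith [hP.one]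
  have hGok : (halTop c Y.R S O).Ok := nt_ok_halTop _ _ _
  have hZ0 := nt_Z0_pos Y hY _ hGok
  have hZh := nt_Zh_pos Y hY _ hGok y
  have s1 : (Y.M (halTop c Y.R S O)).Z0 ≤ x ^ (2 * (skp c Y.R S ∪ O).card) * (∏ k ∈ skp c Y.R S ∪ O, Y.Ck k)
      * (Y.M ((topU c Y.R ∅).restr (halC c Y.R S))).Z0 := nt_chain_Z0 Y hY hN hg hP hch
  have s2 : (Y.M ((topU c Y.R ∅).restr (halC c Y.R S))).Z0 = ∏ t ∈ halT c Y.R S, (Y.M (tileTop c Y.R t)).Z0 :=
    nt_tiles_Z0 Y hY (halT c Y.R S)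
  have s3 : ∏ t ∈ halT c Y.R S, (Y.M (tileTop c Y.R t)).Z0
      ≤ x ^ (halT c Y.R S).card * ∏ t ∈ halT c Y.R S, Y.W.N (tileTop c Y.R t) := by
    rw [← Finset.prod_const, ← Finset.prod_mul_distrib]
    exact Finset.prod_le_prod (fun t _ => (nt_Z0_pos Y hY _ (nt_ok_restr _ nt_ok_full _)).le)
      (fun t ht => hP.nrmT t (hg.halT_sub S hS.1 ht))
  have t1 : ∑ k ∈ skp c Y.R S ∪ O, (Y.E (topO c Y.R k) y - Y.E (topC c Y.R k) y)
      + Y.E ((topU c Y.R ∅).restr (halC c Y.R S)) y - Y.E (halTop c Y.R S O) y ≤ 2 * e1 C cc Y.R * Y.halE S y :=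
    nt_chain_E Y hW hQ hg hch y
  have t2 : Y.E ((topU c Y.R ∅).restr (halC c Y.R S)) y = ∑ t ∈ halT c Y.R S, Y.E (tileTop c Y.R t) y :=
    nt_tiles_E Y hW (halT c Y.R S) y
  have p1 : ∏ k ∈ skp c Y.R S ∪ O, Y.prox k y = (∏ k ∈ skp c Y.R S ∪ O, Y.Ck k)
      * Real.exp (-(∑ k ∈ skp c Y.R S ∪ O, (Y.E (topO c Y.R k) y - Y.E (topC c Y.R k) y)) / 2) := by
    show ∏ k ∈ skp c Y.R S ∪ O, (Y.Ck k * Real.exp (-(Y.E (topO c Y.R k) y - Y.E (topC c Y.R k) y) / 2)) = _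
    rw [Finset.prod_mul_distrib, ← Real.exp_sum, ← Finset.sum_div, Finset.sum_neg_distrib]
  have p2 : ∏ t ∈ halT c Y.R S, Y.tdiv t y = (∏ t ∈ halT c Y.R S, Y.W.N (tileTop c Y.R t))
      * Real.exp (-(∑ t ∈ halT c Y.R S, Y.E (tileTop c Y.R t) y) / 2) := by
    show ∏ t ∈ halT c Y.R S, (Y.W.N (tileTop c Y.R t) * Real.exp (-Y.E (tileTop c Y.R t) y / 2)) = _
    rw [Finset.prod_mul_distrib, ← Real.exp_sum, ← Finset.sum_div, Finset.sum_neg_distrib]
  have hPC : 0 < ∏ k ∈ skp c Y.R S ∪ O, Y.Ck k := Finset.prod_pos fun k _ => nt_Ck_pos Y hN k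
  have hPN : 0 < ∏ t ∈ halT c Y.R S, Y.W.N (tileTop c Y.R t) := Finset.prod_pos fun t _ => hN _
  show Y.Zh (halTop c Y.R S O) y / ((∏ k ∈ skp c Y.R S ∪ O, Y.prox k y) * ∏ t ∈ halT c Y.R S, Y.tdiv t y)
    ≤ x ^ (2 * (skp c Y.R S ∪ O).card + (halT c Y.R S).card) * Real.exp (e1 C cc Y.R * Y.halE S y)
      * (Real.exp (Y.E (halTop c Y.R S O) y / 2) * Y.Zh (halTop c Y.R S O) y / (Y.M (halTop c Y.R S O)).Z0)
  rw [p1, p2]
  rw [s2] at s1
  rw [t2] at t1
  generalize (∏ k ∈ skp c Y.R S ∪ O, Y.Ck k) = PC at *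
  generalize (∏ t ∈ halT c Y.R S, Y.W.N (tileTop c Y.R t)) = PN at *
  generalize (∑ k ∈ skp c Y.R S ∪ O, (Y.E (topO c Y.R k) y - Y.E (topC c Y.R k) y)) = SD at *
  generalize (∑ t ∈ halT c Y.R S, Y.E (tileTop c Y.R t) y) = SE at *
  generalize (∏ t ∈ halT c Y.R S, (Y.M (tileTop c Y.R t)).Z0) = PZ at *
  generalize Y.Zh (halTop c Y.R S O) y = Zh at *
  generalize (Y.M (halTop c Y.R S O)).Z0 = Z0 at *
  generalize Y.E (halTop c Y.R S O) y = EG at *
  rw [mul_assoc] at t1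
  generalize e1 C cc Y.R * Y.halE S y = eh at *
  generalize (skp c Y.R S ∪ O).card = n1 at *
  generalize (halT c Y.R S).card = n2 at *
  have hA : Z0 ≤ x ^ (2 * n1 + n2) * PC * PN := by
    calc Z0 ≤ x ^ (2 * n1) * PC * PZ := s1
      _ ≤ x ^ (2 * n1) * PC * (x ^ n2 * PN) := mul_le_mul_of_nonneg_left s3 (by positivity)
      _ = x ^ (2 * n1 + n2) * PC * PN := by rw [pow_add]; ring
  have hA' : 1 ≤ x ^ (2 * n1 + n2) * PC * PN / Z0 := (one_le_div hZ0).2 hA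
  have hB : 1 ≤ Real.exp eh * Real.exp (EG / 2) * Real.exp (-SD / 2) * Real.exp (-SE / 2) := by
    rw [← Real.exp_add, ← Real.exp_add, ← Real.exp_add]
    exact Real.one_le_exp (by linarith)
  rw [div_le_iff₀ (by positivity)]
  have e : x ^ (2 * n1 + n2) * Real.exp eh * (Real.exp (EG / 2) * Zh / Z0) * (PC * Real.exp (-SD / 2) * (PN * Real.exp (-SE / 2)))
      = Zh * ((x ^ (2 * n1 + n2) * PC * PN / Z0) * (Real.exp eh * Real.exp (EG / 2) * Real.exp (-SD / 2) * Real.exp (-SE / 2))) := by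
    ring
  rw [e]
  exact le_mul_of_one_le_right hZh.le (one_le_mul_of_one_le_of_one_le hA' hB)

end

end Claimed.Agent.R285.Entry
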