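import Claimed.Agent.R285.Entry.PertGeo
import Claimed.Agent.R285.Entry.NtCut
import Claimed.Agent.R285.Ent.Geo

/-!
# ROW 285, ENTRY, BP-ENT-PERT (#17078): FINITE PERTURBATION IN THE TEMPERATURE, THE EXIT      (helper221)

Paper: [E] entry.tex l.262-330, [C] 50-openness.tex l.818-845.   Prefix `ep_`.   Generic in the representation `Y : Phy c`; `Y.atB t W` = the representation at the uniform temperature `t` (`Entry/PertPhy.lean`).
```
BoxOK (Y.atB b₀ W₀) a P Zs x0 cstar U γ0 C0 ea bg  +  the reserve at b   ⟹   BoxOK (Y.atB b W) a P Zs x cstar U γ C ea bg        (x0 < x, γ0 < γ ≤ 1, C0 < C)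
```
for `n |b - b₀|` small, `n` = a bound of the number of Bessel factors of a box / of the five shapes.
* `EpIn`      : the hypotheses on the representation (structure at `b₀`, geometry, crude bounds of energies / cutoffs / normalisers, number of Bessel factors per cell).
* `ep_X`      : one retained mark (`pm_one_cut/opn` + `pcr_cut/opn` + `pg_mark`).          `ep_good` : one box (`pp_box`).
* **`ep_boxok`** : `EpC` + `BoxOK` at `b₀` + the reserves at `b` ⟹ `BoxOK` at `b`;  `epE`, `ep_E_spec` : the choice of `ε` from the three gaps.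
* **`ep_main`** : the generic exit `EpC (Y.atB b₀ W₀) (Y.atB b W) P U ε` = three clauses (pins `× (1 + ε)`, tiles `± ε`, boxes `Q_b ≤ (1 + ε) (Q_{b₀} + ε)`) as soon as `epA P x Cu U * (exp (4 n |b - b₀|) - 1) ≤ ε`.
-/

set_option autoImplicit false

namespace Claimed.Agent.R285.Entry

open scoped BigOperators
open Claimed.Agent.R285 Claimed.Agent.R285.RG Claimed.Agent.R285.F4a Claimed.Agent.R285.Ent Fac

noncomputable section

/-! ## 0. Forgetting the temperature -/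

/-- the same mask in the original model -/
def epUn {𝔉 : Fac} {β : 𝔉.E → ℝ} (M : (𝔉.atB β).Msk) : 𝔉.Msk := ⟨M.A, M.E, M.O⟩

variable {G : Geom} {c : Grid G}

/-- **the hypotheses on the representation**: `x` = bound of base point normaliser / normaliser at `b₀`, `Cu` = energy per squared face datum, `nb` = Bessel factors per cell -/
structure EpIn (Y : Phy c) (W₀ : Wt c) (b₀ x Cu : ℝ) (nb : ℕ) : Prop where
  sW₀ : SameW Y.W W₀
  bp : 0 < b₀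
  ok : (Y.atB b₀ W₀).Ok
  N : ∀ T, 0 < Y.W.N T
  geo : NGeo c Y.R
  Cn : 0 ≤ Cu
  E : ∀ T : Top c, T.Ok → ∀ y, 0 ≤ Y.E T y ∧ Y.E T y ≤ Cu * ∑ f ∈ T.faces, Y.w y f ^ 2
  X : ∀ y f, Real.exp (-Y.w y f ^ 2 / 2) ≤ Y.Xf y f
  Ck : ∀ k ∈ events c Y.R, Y.Ck k ≤ x * (((Y.M (topO c Y.R k)).at1 b₀).Z0 / ((Y.M (topC c Y.R k)).at1 b₀).Z0)
  card : ∀ T : Top c, T.Ok → (Y.M T).E.card ≤ nb * T.cells.card

variable {Y : Phy c} {W₀ W : Wt c} {b₀ x Cu : ℝ} {nb : ℕ}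

theorem EpIn.sp (H : EpIn Y W₀ b₀ x Cu nb) (T : Top c) (hT : T.Ok) : (Y.M T).Sp := (H.ok.ok T hT).2

theorem EpIn.sh (H : EpIn Y W₀ b₀ x Cu nb) (T : Top c) (hT : T.Ok) {n m : ℕ} (hm : T.cells.card ≤ m) (hn : nb * m ≤ n) : Y.Sh n T :=
  ⟨H.sp T hT, (H.card T hT).trans ((Nat.mul_le_mul_left nb hm).trans hn)⟩

theorem EpIn.Xm (H : EpIn Y W₀ b₀ x Cu nb) : ∀ y f, 0 < Y.Xf y f ∧ Y.Xf y f ≤ 1 := fun y f => ⟨H.ok.Xf_pos y f, H.ok.Xf_le y f⟩

theorem EpIn.N₀ (H : EpIn Y W₀ b₀ x Cu nb) : ∀ T, 0 < (Y.atB b₀ W₀).W.N T := fun T => by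
  show 0 < W₀.N T
  rw [H.sW₀.N]
  exact H.N T

theorem EpIn.E₀ (H : EpIn Y W₀ b₀ x Cu nb) : ∀ T : Top c, T.Ok → ∀ y, 0 ≤ (Y.atB b₀ W₀).E T y ∧ (Y.atB b₀ W₀).E T y ≤ Cu * ∑ f ∈ T.faces, (Y.atB b₀ W₀).w y f ^ 2 := by
  intro T hT y
  simp only [pp_E Y H.sW₀, pp_w Y H.sW₀]
  exact H.E T hT y

theorem EpIn.X₀ (H : EpIn Y W₀ b₀ x Cu nb) : ∀ y f, Real.exp (-(Y.atB b₀ W₀).w y f ^ 2 / 2) ≤ (Y.atB b₀ W₀).Xf y f := by
  intro y f
  rw [pp_w Y H.sW₀]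
  exact H.X y f

/-! ## 1. One retained mark -/

/-- the crude ratio -/
def epR (x Cu U2 : ℝ) : ℝ := x ^ 2 * Real.exp ((Cu + 1) * U2 / 2)

/-- **one retained mark of a piece** -/
theorem ep_X (H : EpIn Y W₀ b₀ x Cu nb) (hP : (Y.atB b₀ W₀).Pins x) {b : ℝ} (hb : 0 < b) (θ : Cut c) {S O : Finset EvId} (hS : Valid c Y.R S) (hO : O ⊆ S)
    {bx : ℕ × ℕ} {k : EvId} (hk : k ∈ θ.keptB Y.R S bx) (n : ℕ) (hn : nb * (θ.box bx).card ≤ n) (y : c.I → ℝ) {U2 : ℝ} (hU2 : 0 ≤ U2)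
    (hU : Y.boxE S θ bx y ≤ U2) :
    ppX Y (θ.piece (halTop c Y.R S O) bx) k y b b₀
      ≤ 2 * pmE n |b - b₀| * (1 + epR x Cu U2) * ((Y.M (θ.piece (halTop c Y.R S O) bx)).at1 b₀).Z0 := by
  have hkS : k ∈ S := (pg_mem_keptB.1 hk).1
  have hev : k ∈ events c Y.R := hS.1 hkS
  have mk := pg_mark (Y.atB b₀ W₀) H.ok H.geo θ hS hO hk
  obtain ⟨Tc, hTc⟩ : ∃ Tc, Tc = θ.piece (halTop c Y.R S (O.erase k)) bx := ⟨_, rfl⟩
  obtain ⟨To, hTo⟩ : ∃ To, To = θ.piece (halTop c Y.R S (insert k O)) bx := ⟨_, rfl⟩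
  obtain ⟨T, hT⟩ : ∃ T, T = θ.piece (halTop c Y.R S O) bx := ⟨_, rfl⟩
  have mk' : PgMark (Y.atB b₀ W₀) T Tc To k := by rw [hT, hTc, hTo]; exact mk
  rw [← hT]
  have hx1 : 1 ≤ x := hP.one
  have hSp : (Y.M Tc).Sp := H.sp Tc mk'.okc
  have hI : Y.evI k ⊆ (Y.M Tc).A := fun v hv => (Finset.mem_sdiff.1 (mk'.brk.sub hv)).1
  have hF : (Y.M Tc).New (Y.evF k) := mk'.new
  have hloc : (Y.M (topC c Y.R k)).loc (Y.evI k) = (Y.M Tc).loc (Y.evI k) := congrArg epUn mk'.brk.loc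
  have hgl : Y.M To = (Y.M Tc).add (Y.evF k) := congrArg epUn mk'.glue
  have hχ : 0 < Y.chiE k y := (nt_chiE_mem (Y.atB b₀ W₀) H.ok k y).1
  have hβ : 0 < Y.prox k y := nt_prox_pos Y H.N k y
  have hcard : ((Y.M Tc).E ∪ (Y.evF k).1).card ≤ n := by
    have h1 : ((Y.M Tc).E ∪ (Y.evF k).1) = (Y.M To).E := by rw [hgl]; rfl
    rw [h1]
    refine (H.card To mk'.oko).trans ((Nat.mul_le_mul_left nb (Finset.card_le_card ?_)).trans hn)
    rw [hTo, pg_cells]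
    exact Finset.inter_subset_right
  have hpg := pg_patch_glue (Y.atB b₀ W₀) H.ok hev
  have hU' : (Y.atB b₀ W₀).boxE S θ bx y ≤ U2 := by rw [pp_boxE Y H.sW₀]; exact hU
  have hε := pm_E_nonneg n |b - b₀| (abs_nonneg _)
  have hexp : Real.exp (Cu * U2 / 2) ≤ Real.exp ((Cu + 1) * U2 / 2) := Real.exp_le_exp.2 (by nlinarith)
  have he0 := Real.exp_pos ((Cu + 1) * U2 / 2)
  rcases mk'.amb with h | h
  · -- the piece is cut at the mark
    rw [h]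
    have h1 := pm_one_cut (Y.M (topC c Y.R k)) (Y.M Tc) hSp (Y.evI k) hI (Y.evF k) hF hloc (Y.chiE k y) (Y.prox k y) hχ.le hβ (Y.D y) hb H.bp n hcard
    have h2 := pcr_cut (Y.atB b₀ W₀) H.ok H.N₀ H.geo hP H.Cn H.E₀ hk hev _ mk'.brk mk'.new hpg y hU'
    rw [pp_prox Y H.sW₀] at h2
    have h2' : Y.chiE k y / Y.prox k y * (((Y.M Tc).add (Y.evF k)).at1 b₀).Z0 ≤ x ^ 2 * Real.exp (Cu * U2 / 2) * ((Y.M Tc).at1 b₀).Z0 := h2
    have z1 : 0 < ((Y.M Tc).at1 b₀).Z0 := pf_Z0_pos _ hSp b₀ H.bp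
    refine h1.trans ?_
    rw [mul_assoc (2 * pmE n |b - b₀|) (1 + epR x Cu U2)]
    refine mul_le_mul_of_nonneg_left ?_ (mul_nonneg zero_le_two hε)
    have h3 : x ^ 2 * Real.exp (Cu * U2 / 2) * ((Y.M Tc).at1 b₀).Z0 ≤ epR x Cu U2 * ((Y.M Tc).at1 b₀).Z0 :=
      mul_le_mul_of_nonneg_right (mul_le_mul_of_nonneg_left hexp (sq_nonneg x)) z1.le
    linarith
  · -- the piece is open at the mark
    rw [h]
    have h1 := pm_one_opn (Y.M (topC c Y.R k)) (Y.M Tc) hSp (Y.evI k) hI (Y.evF k) hF hloc (Y.chiE k y) (Y.prox k y) hχ hβ.le (Y.D y) hb H.bp n hcard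
    have hCk : (Y.atB b₀ W₀).Ck k ≤ x * (((Y.atB b₀ W₀).M (topO c Y.R k)).Z0 / ((Y.atB b₀ W₀).M (topC c Y.R k)).Z0) := by
      rw [pp_Ck Y H.sW₀]
      exact H.Ck k hev
    have h2 := pcr_opn (Y.atB b₀ W₀) H.ok H.N₀ H.geo (zero_le_one.trans hx1) H.Cn H.E₀ H.X₀ hk hev _ mk'.brk mk'.new hpg hCk y hU'
    rw [pp_prox Y H.sW₀] at h2
    have h2' : Y.prox k y / Y.chiE k y * ((Y.M Tc).at1 b₀).Z0 ≤ x * Real.exp ((Cu + 1) * U2 / 2) * (((Y.M Tc).add (Y.evF k)).at1 b₀).Z0 := h2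
    have z1 : 0 < (((Y.M Tc).add (Y.evF k)).at1 b₀).Z0 := pf_Z0_pos _ (fc_sp_add _ hSp _) b₀ H.bp
    unfold ppX
    rw [hgl]
    refine h1.trans ?_
    rw [mul_assoc (2 * pmE n |b - b₀|) (1 + epR x Cu U2)]
    refine mul_le_mul_of_nonneg_left ?_ (mul_nonneg zero_le_two hε)
    have h3 : x * Real.exp ((Cu + 1) * U2 / 2) * (((Y.M Tc).add (Y.evF k)).at1 b₀).Z0 ≤ epR x Cu U2 * (((Y.M Tc).add (Y.evF k)).at1 b₀).Z0 := by
      refine mul_le_mul_of_nonneg_right (mul_le_mul_of_nonneg_right ?_ he0.le) z1.le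
      nlinarith
    linarith

/-! ## 2. One box -/

theorem ep_faces_sub (Y : Phy c) (θ : Cut c) (S O : Finset EvId) (bx : ℕ × ℕ) : (θ.piece (halTop c Y.R S O) bx).faces ⊆ Y.boxF S θ bx := by
  intro f hf
  have h := Finset.mem_filter.1 hf
  have h1 := Finset.mem_sdiff.1 h.1
  exact Finset.mem_filter.2 ⟨Finset.mem_sdiff.2 ⟨nt_faces_sub Y.R _ _ h1.1, h1.2⟩, h.2⟩

/-- `e^{E/2} Ξ ≤ e^{Cu 𝓔 / 2}` -/
theorem ep_kap (H : EpIn Y W₀ b₀ x Cu nb) (T : Top c) (hT : T.Ok) (y : c.I → ℝ) {U2 : ℝ} (hU : ∑ f ∈ T.faces, Y.w y f ^ 2 ≤ U2) :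
    0 ≤ ppKap Y T y ∧ ppKap Y T y ≤ Real.exp (Cu * U2 / 2) := by
  have hX := pp_Xi_mem Y H.Xm T y
  have hE := (H.E T hT y).2
  have h1 := mul_le_mul_of_nonneg_left hU H.Cn
  unfold ppKap
  refine ⟨mul_nonneg (Real.exp_pos _).le hX.1.le, ?_⟩
  calc Real.exp (Y.E T y / 2) * Y.Xi T y ≤ Real.exp (Cu * U2 / 2) * 1 :=
        mul_le_mul (Real.exp_le_exp.2 (by linarith)) hX.2 hX.1.le (Real.exp_pos _).le
    _ = _ := mul_one _

/-- **one box** -/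
theorem ep_good (H : EpIn Y W₀ b₀ x Cu nb) (hP : (Y.atB b₀ W₀).Pins x) (hW : SameW Y.W W) {b : ℝ} (hb : 0 < b) (θ : Cut c) {S O : Finset EvId}
    (hS : Valid c Y.R S) (hO : O ⊆ S) (bx : ℕ × ℕ) (n : ℕ) (hn : nb * (θ.box bx).card ≤ n) (nK : ℕ) (hK : (θ.keptB Y.R S bx).card ≤ nK)
    (y : c.I → ℝ) {U2 : ℝ} (hU2 : 0 ≤ U2) (hU : Y.boxE S θ bx y ≤ U2) :
    (Y.atB b W).QT (θ.piece (halTop c Y.R S O) bx) (θ.keptB Y.R S bx) y
      ≤ Real.exp ((n : ℝ) * |b - b₀|) * ((Y.atB b₀ W₀).QT (θ.piece (halTop c Y.R S O) bx) (θ.keptB Y.R S bx) y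
          + Real.exp (Cu * U2 / 2) * (pmE n |b - b₀| * (1 + 2 * (nK : ℝ) * (1 + epR x Cu U2)))) := by
  have hT := pg_ok θ Y.R S O bx
  have hSh : Y.Sh n (θ.piece (halTop c Y.R S O) bx) := by
    refine H.sh _ hT (Finset.card_le_card ?_) hn
    rw [pg_cells]
    exact Finset.inter_subset_right
  have hKK : ∀ k ∈ θ.keptB Y.R S bx, (Y.M (topC c Y.R k)).Sp ∧ Y.evI k ⊆ (Y.M (topC c Y.R k)).A := fun k hk => by
    have mk := pg_mark (Y.atB b₀ W₀) H.ok H.geo θ hS hO hk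
    exact ⟨H.sp _ (nt_dl_ok_topC _ _), fun v hv => (Finset.mem_sdiff.1 (mk.brk.subo hv)).1⟩
  have key := pp_box Y hW H.sW₀ H.Xm hb H.bp n _ hSh (θ.keptB Y.R S bx) hKK y fun k _ => (nt_prox_pos Y H.N k y).le
  refine key.trans (mul_le_mul_of_nonneg_left (add_le_add_right ?_ _) (Real.exp_pos _).le)
  have hκ := ep_kap H _ hT y ((Finset.sum_le_sum_of_subset_of_nonneg (ep_faces_sub Y θ S O bx) fun _ _ _ => sq_nonneg _).trans hU)
  have hε := pm_E_nonneg n |b - b₀| (abs_nonneg _)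
  have hr : 0 ≤ epR x Cu U2 := mul_nonneg (sq_nonneg x) (Real.exp_pos _).le
  have z0 : 0 < ((Y.M (θ.piece (halTop c Y.R S O) bx)).at1 b₀).Z0 := pf_Z0_pos _ hSh.1 b₀ H.bp
  have hsum : (∑ k ∈ θ.keptB Y.R S bx, ppX Y (θ.piece (halTop c Y.R S O) bx) k y b b₀) / ((Y.M (θ.piece (halTop c Y.R S O) bx)).at1 b₀).Z0
      ≤ pmE n |b - b₀| * (2 * (nK : ℝ) * (1 + epR x Cu U2)) := by
    rw [div_le_iff₀ z0]
    have h1 : ∑ k ∈ θ.keptB Y.R S bx, ppX Y (θ.piece (halTop c Y.R S O) bx) k y b b₀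
        ≤ ∑ _k ∈ θ.keptB Y.R S bx, 2 * pmE n |b - b₀| * (1 + epR x Cu U2) * ((Y.M (θ.piece (halTop c Y.R S O) bx)).at1 b₀).Z0 :=
      Finset.sum_le_sum fun k hk => ep_X H hP hb θ hS hO hk n hn y hU2 hU
    rw [Finset.sum_const, nsmul_eq_mul] at h1
    refine h1.trans ?_
    have h2 : ((θ.keptB Y.R S bx).card : ℝ) ≤ nK := by exact_mod_cast hK
    have h3 : 0 ≤ 2 * pmE n |b - b₀| * (1 + epR x Cu U2) * ((Y.M (θ.piece (halTop c Y.R S O) bx)).at1 b₀).Z0 := by positivity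
    calc _ ≤ (nK : ℝ) * (2 * pmE n |b - b₀| * (1 + epR x Cu U2) * ((Y.M (θ.piece (halTop c Y.R S O) bx)).at1 b₀).Z0) :=
          mul_le_mul_of_nonneg_right h2 h3
      _ = _ := by ring
  have hsum0 : 0 ≤ pmE n |b - b₀| + (∑ k ∈ θ.keptB Y.R S bx, ppX Y (θ.piece (halTop c Y.R S O) bx) k y b b₀)
      / ((Y.M (θ.piece (halTop c Y.R S O) bx)).at1 b₀).Z0 := by
    refine add_nonneg hε (div_nonneg (Finset.sum_nonneg fun k _ => ?_) z0.le)
    exact fk_Z_nonneg _ (fun _ _ => H.bp) _ _ fun h => abs_nonneg _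
  calc ppKap Y _ y * (pmE n |b - b₀| + (∑ k ∈ θ.keptB Y.R S bx, ppX Y (θ.piece (halTop c Y.R S O) bx) k y b b₀)
        / ((Y.M (θ.piece (halTop c Y.R S O) bx)).at1 b₀).Z0)
      ≤ Real.exp (Cu * U2 / 2) * (pmE n |b - b₀| + pmE n |b - b₀| * (2 * (nK : ℝ) * (1 + epR x Cu U2))) :=
        mul_le_mul hκ.2 (by linarith) hsum0 (Real.exp_pos _).le
    _ = _ := by ring

/-! ## 3. Sizes -/

/-- the testing patches of the retained marks are disjoint nonempty subsets of the box -/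
theorem ep_keptB_card {R : ℕ} (hg : NGeo c R) (θ : Cut c) {S : Finset EvId} (hS : Valid c R S) (bx : ℕ × ℕ) : (θ.keptB R S bx).card ≤ (θ.box bx).card := by
  classical
  have hdis : ∀ k ∈ θ.keptB R S bx, ∀ k' ∈ θ.keptB R S bx, k ≠ k' → Disjoint (tpatch c R k) (tpatch c R k') :=
    fun k hk k' hk' hne => hg.tp_disj S hS k (pg_mem_keptB.1 hk).1 k' (pg_mem_keptB.1 hk').1 hne
  calc (θ.keptB R S bx).card = ∑ _k ∈ θ.keptB R S bx, 1 := by simp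
    _ ≤ ∑ k ∈ θ.keptB R S bx, (tpatch c R k).card := Finset.sum_le_sum fun k hk => by
        obtain ⟨i, hi⟩ := hg.tp_ne k (hS.1 (pg_mem_keptB.1 hk).1)
        exact Finset.card_pos.2 ⟨i, pcr_patch_sub R k (nt_dl_core_sub R k hi)⟩
    _ = ((θ.keptB R S bx).biUnion (tpatch c R)).card := (Finset.card_biUnion hdis).symm
    _ ≤ (θ.box bx).card := Finset.card_le_card (Finset.biUnion_subset.2 fun k hk i hi => by
        simp only [Cut.box, Finset.mem_filter, Finset.mem_univ, true_and]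
        exact (pg_mem_keptB.1 hk).2.1 i hi)

theorem ep_tp_card {R : ℕ} (hg : NGeo c R) {k : EvId} (hk : k ∈ events c R) : (tpatch c R k).card ≤ (2 * R + 1) ^ 2 := by
  obtain ⟨i0, hi0⟩ := hg.tp_small k hk
  refine card_le_of_centre i0 fun a ha => ?_
  obtain ⟨a', ha', hd⟩ := nt_brk_mem_nbh.1 (hi0 ha)
  rw [Finset.mem_singleton.1 ha'] at hd
  exact hd

theorem ep_restr_cells (T : Top c) (A : Finset c.I) : (T.restr A).cells ⊆ A := Finset.inter_subset_right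

/-- the five shapes -/
theorem ep_shapes (H : EpIn Y W₀ b₀ x Cu nb) {n : ℕ} (hn : nb * (2 * Y.R + 1) ^ 2 ≤ n) :
    (∀ k ∈ events c Y.R, Y.Sh n (topC c Y.R k) ∧ Y.Sh n (topO c Y.R k) ∧ Y.Sh n (tstO c Y.R k) ∧ Y.Sh n (tstC c Y.R k)) ∧
      ∀ u ∈ tiles c Y.R, Y.Sh n (tileTop c Y.R u) := by
  refine ⟨fun k hk => ?_, fun u _ => ?_⟩
  · have h1 := ep_tp_card H.geo hk
    have h2 : (patch c Y.R k).card ≤ (2 * Y.R + 1) ^ 2 := (Finset.card_le_card (pcr_patch_sub Y.R k)).trans h1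
    exact ⟨H.sh _ (nt_dl_ok_topC _ _) ((Finset.card_le_card (ep_restr_cells _ _)).trans h2) hn,
      H.sh _ (nt_ok_restr _ (nt_ok_topU _ _) _) ((Finset.card_le_card (ep_restr_cells _ _)).trans h2) hn,
      H.sh _ (nt_ok_restr _ (nt_ok_topU _ _) _) ((Finset.card_le_card (ep_restr_cells _ _)).trans h1) hn,
      H.sh _ (nt_ok_restr _ (nt_ok_topU _ _) _) ((Finset.card_le_card (ep_restr_cells _ _)).trans h1) hn⟩
  · refine H.sh _ (nt_ok_restr _ nt_ok_full _) ((Finset.card_le_card (ep_restr_cells _ _)).trans ((H.geo.tile_card u).trans ?_)) hn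
    exact Nat.pow_le_pow_left (by omega) 2

theorem ep_pins_mono {Y : Phy c} (hN : ∀ T, 0 < Y.W.N T) {x x' : ℝ} (h : Y.Pins x) (hx : x ≤ x') : Y.Pins x' :=
  ⟨h.one.trans hx, fun k hk => (h.core k hk).trans hx, fun k hk => (h.tstO k hk).trans hx, fun k hk => (h.tstC k hk).trans hx,
    fun k hk => (h.nrmE k hk).trans (mul_le_mul_of_nonneg_right hx (nt_Ck_pos Y hN k).le),
    fun t ht => (h.nrmT t ht).trans (mul_le_mul_of_nonneg_right hx (hN _).le)⟩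

/-! ## 4. The generic exit: three clauses -/

/-- **the three clauses of the perturbation**: `Y0` = the representation at the base point, `Y1` = at the parameter `b` (same scale `R`) -/
structure EpC (Y0 Y1 : Phy c) (P : ℕ) (U ε : ℝ) : Prop where
  pins : ∀ x : ℝ, Y0.Pins x → Y1.Pins ((1 + ε) * x)
  tile : ∀ t ∈ tiles c Y0.R, ∀ y : c.I → ℝ, Y0.tileE t y ≤ U ^ 2 → |Y1.tfac t y - Y0.tfac t y| ≤ ε
  box : ∀ (S O : Finset EvId) (t bx : ℕ × ℕ), Valid c Y0.R S → O ⊆ S → t ∈ pcuts Y0.R P → ∀ y : c.I → ℝ, Y0.boxE S (pcut c P t) bx y ≤ U ^ 2 →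
    Y1.QT ((pcut c P t).piece (halTop c Y0.R S O) bx) ((pcut c P t).keptB Y0.R S bx) y
      ≤ (1 + ε) * (Y0.QT ((pcut c P t).piece (halTop c Y0.R S O) bx) ((pcut c P t).keptB Y0.R S bx) y + ε)

/-- the coefficient of the error of a box -/
def epB (P : ℕ) (x Cu U : ℝ) : ℝ := Real.exp (Cu * U ^ 2 / 2) * (1 + 2 * (((2 * P) ^ 2 : ℕ) : ℝ) * (1 + epR x Cu (U ^ 2)))

/-- **the constant of the smallness condition** -/
def epA (P : ℕ) (x Cu U : ℝ) : ℝ := 1 + x * Real.exp (Cu * U ^ 2 / 2) + epB P x Cu U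

theorem ep_B_pos (P : ℕ) (x Cu U : ℝ) : 0 < epB P x Cu U := by
  unfold epB epR
  positivity

/-- **GENERIC EXIT.**  `x` = bound of the pins at the base point, `n` = bound of the number of Bessel factors of a box and of the five shapes. -/
theorem ep_main (H : EpIn Y W₀ b₀ x Cu nb) (hP : (Y.atB b₀ W₀).Pins x) (hW : SameW Y.W W) {b : ℝ} (hb : 0 < b) {P : ℕ} (hRP : Y.R ∣ P) (hPn : P ≤ c.n)
    {U ε : ℝ} (n : ℕ) (hn : nb * ((2 * P) ^ 2 + (2 * Y.R + 1) ^ 2) ≤ n)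
    (hsm : epA P x Cu U * (Real.exp (4 * ((n : ℝ) * |b - b₀|)) - 1) ≤ ε) :
    EpC (Y.atB b₀ W₀) (Y.atB b W) P U ε := by
  have hx1 : 1 ≤ x := hP.one
  obtain ⟨η, hη⟩ : ∃ η, η = (n : ℝ) * |b - b₀| := ⟨_, rfl⟩
  have hη0 : 0 ≤ η := by rw [hη]; positivity
  rw [← hη] at hsm
  obtain ⟨e4, he4⟩ : ∃ e4, e4 = Real.exp (4 * η) - 1 := ⟨_, rfl⟩
  rw [← he4] at hsm
  have h40 : 0 ≤ e4 := by
    rw [he4]
    linarith [Real.one_le_exp (show 0 ≤ 4 * η by positivity)]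
  have hB := ep_B_pos P x Cu U
  have ha2 : 0 < x * Real.exp (Cu * U ^ 2 / 2) := by positivity
  have s1 : e4 ≤ ε := by
    refine le_trans ?_ hsm
    unfold epA
    nlinarith
  have s2 : x * Real.exp (Cu * U ^ 2 / 2) * e4 ≤ ε := by
    refine le_trans ?_ hsm
    unfold epA
    nlinarith
  have s3 : epB P x Cu U * e4 ≤ ε := by
    refine le_trans ?_ hsm
    unfold epA
    nlinarith
  have hε0 : 0 ≤ ε := h40.trans s1
  have hpm : pmE n |b - b₀| ≤ e4 := by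
    unfold pmE
    rw [← hη, he4]
    linarith [Real.exp_le_exp.2 (show 2 * η ≤ 4 * η by linarith)]
  have hpm0 := pm_E_nonneg n |b - b₀| (abs_nonneg _)
  have hexp1 : Real.exp η ≤ 1 + ε := by
    have := Real.exp_le_exp.2 (show η ≤ 4 * η by linarith)
    linarith
  have hexp2 : Real.exp η * pmE n |b - b₀| ≤ e4 := by
    unfold pmE
    rw [← hη, he4, mul_sub, ← Real.exp_add, mul_one]
    have h1 := Real.exp_le_exp.2 (show η + 2 * η ≤ 4 * η by linarith)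
    have h2 := Real.one_le_exp hη0
    linarith
  have hn1 : nb * (2 * P) ^ 2 ≤ n := (Nat.mul_le_mul_left nb (Nat.le_add_right _ _)).trans hn
  have hn2 : nb * (2 * Y.R + 1) ^ 2 ≤ n := (Nat.mul_le_mul_left nb (Nat.le_add_left _ _)).trans hn
  obtain ⟨hsh, hshT⟩ := ep_shapes H hn2
  have hNW : ∀ T, 0 < (Y.atB b W).W.N T := fun T => by
    show 0 < W.N T
    rw [hW.N]
    exact H.N T
  refine ⟨fun x' hx' => ?_, fun t ht y hy => ?_, fun S O t bx hS hO ht y hy => ?_⟩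
  · refine ep_pins_mono hNW (pp_pins Y hW H.sW₀ hb H.bp n hsh hshT hx') ?_
    rw [← hη]
    refine mul_le_mul_of_nonneg_right ?_ (zero_le_one.trans hx'.one)
    linarith
  · have hy' : Y.tileE t y ≤ U ^ 2 := by rw [← pp_tileE Y H.sW₀ b₀]; exact hy
    have hx0 : ((Y.M (tileTop c Y.R t)).at1 b₀).Z0 ≤ x * Y.W.N (tileTop c Y.R t) := by
      have := hP.nrmT t ht
      rw [← H.sW₀.N]
      exact this
    refine (pp_tile Y hW H.sW₀ H.Xm hb H.bp n t (hshT t ht) hx0 (H.N _) y).trans ?_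
    have hE := (H.E (tileTop c Y.R t) (nt_ok_restr _ nt_ok_full _) y).2
    have hE2 : Y.E (tileTop c Y.R t) y ≤ Cu * U ^ 2 := hE.trans (mul_le_mul_of_nonneg_left hy' H.Cn)
    have hexp : Real.exp (Y.E (tileTop c Y.R t) y / 2) ≤ Real.exp (Cu * U ^ 2 / 2) := Real.exp_le_exp.2 (by linarith)
    calc pmE n |b - b₀| * x * Real.exp (Y.E (tileTop c Y.R t) y / 2) ≤ e4 * x * Real.exp (Cu * U ^ 2 / 2) :=
          mul_le_mul (mul_le_mul_of_nonneg_right hpm (by linarith)) hexp (Real.exp_pos _).le (by positivity)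
      _ = x * Real.exp (Cu * U ^ 2 / 2) * e4 := by ring
      _ ≤ ε := s2
  · have hy' : Y.boxE S (pcut c P t) bx y ≤ U ^ 2 := by rw [← pp_boxE Y H.sW₀ b₀]; exact hy
    have hbox := pc_box_card (c := c) (pc_lt H.geo.pos hRP ht) hPn bx
    have hK : ((pcut c P t).keptB Y.R S bx).card ≤ (2 * P) ^ 2 := (ep_keptB_card H.geo _ hS bx).trans hbox
    have key := ep_good H hP hW hb (pcut c P t) hS hO bx n ((Nat.mul_le_mul_left nb hbox).trans hn1) ((2 * P) ^ 2) hK y (sq_nonneg U) hy'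
    have hQ0 := (nt_QT_mem (Y.atB b₀ W₀) H.ok H.N₀ _ (pg_ok (pcut c P t) Y.R S O bx) ((pcut c P t).keptB Y.R S bx) y).1
    refine key.trans ?_
    rw [← hη]
    obtain ⟨Q0, hQ⟩ : ∃ Q0, Q0 = (Y.atB b₀ W₀).QT ((pcut c P t).piece (halTop c Y.R S O) bx) ((pcut c P t).keptB Y.R S bx) y := ⟨_, rfl⟩
    rw [← hQ] at hQ0
    show Real.exp η * ((Y.atB b₀ W₀).QT ((pcut c P t).piece (halTop c Y.R S O) bx) ((pcut c P t).keptB Y.R S bx) y + _)
      ≤ (1 + ε) * ((Y.atB b₀ W₀).QT ((pcut c P t).piece (halTop c Y.R S O) bx) ((pcut c P t).keptB Y.R S bx) y + ε)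
    rw [← hQ]
    have e : Real.exp (Cu * U ^ 2 / 2) * (pmE n |b - b₀| * (1 + 2 * (((2 * P) ^ 2 : ℕ) : ℝ) * (1 + epR x Cu (U ^ 2)))) = epB P x Cu U * pmE n |b - b₀| := by
      unfold epB
      ring
    rw [e, mul_add]
    have h1 : Real.exp η * Q0 ≤ (1 + ε) * Q0 := mul_le_mul_of_nonneg_right hexp1 hQ0
    have h2 : Real.exp η * (epB P x Cu U * pmE n |b - b₀|) ≤ ε := by
      calc _ = epB P x Cu U * (Real.exp η * pmE n |b - b₀|) := by ring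
        _ ≤ epB P x Cu U * e4 := mul_le_mul_of_nonneg_left hexp2 hB.le
        _ ≤ ε := s3
    nlinarith

/-! ## 5. From the three clauses to `BoxOK` -/

/-- **`BoxOK` at the base point + the three clauses + the reserves at `b` ⟹ `BoxOK` at `b`**, with room in the three constants; `nK` = bound of the number of retained marks of a box -/
theorem ep_boxok (hW₀ : SameW Y.W W₀) (hW : SameW Y.W W) (hN : ∀ T, 0 < Y.W.N T) {b : ℝ} {P : ℕ} {U ε : ℝ} (h3 : EpC (Y.atB b₀ W₀) (Y.atB b W) P U ε)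
    {a cstar γ0 γ C0 C ea bg x0 : ℝ} {Zs : Finset c.I} (nK : ℕ)
    (hK : ∀ (S : Finset EvId) (t bx : ℕ × ℕ), Valid c Y.R S → t ∈ pcuts Y.R P → ((pcut c P t).keptB Y.R S bx).card ≤ nK)
    (hε : 0 ≤ ε) (hx : (1 + ε) * x0 ≤ x) (hγ0 : 0 ≤ γ0) (hγ : γ0 + ε ≤ γ) (hγp : 0 < γ) (hγ1 : γ ≤ 1) (hC0 : 0 ≤ C0) (hea : 0 ≤ ea)
    (hC : (1 + ε) * (C0 + ε / γ ^ nK) ≤ C)
    (H0 : BoxOK (Y.atB b₀ W₀) a P Zs x0 cstar U γ0 C0 ea bg)
    (hr : ∀ T : Top c, T.Ok → Disjoint T.cells Zs → ∀ y : c.I → ℝ, (Y.atB b W).AT T y ≤ Real.exp ((1 - cstar) / 2 * T.Eobs a W.τ y))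
    (hrZ : ∀ T : Top c, T.Ok → ∀ y : c.I → ℝ, (Y.atB b W).AT T y ≤ bg * Real.exp ((1 - cstar) / 2 * T.Eobs a W.τ y)) :
    BoxOK (Y.atB b W) a P Zs x cstar U γ C ea bg := by
  have hNW : ∀ T, 0 < (Y.atB b W).W.N T := fun T => by
    show 0 < W.N T
    rw [hW.N]
    exact hN T
  refine ⟨ep_pins_mono hNW (h3.pins x0 H0.pins) hx, fun S O t bx hS hO ht hd y hy => ?_, hr, hrZ, fun t ht hd y hy => ?_⟩
  · have hy0 : (Y.atB b₀ W₀).boxE S (pcut c P t) bx y ≤ U ^ 2 := by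
      rw [pp_boxE Y hW₀, ← pp_boxE Y hW b]
      exact hy
    have h1 := h3.box S O t bx hS hO ht y hy0
    have h2 := H0.good S O t bx hS hO ht hd y hy0
    rw [pp_boxE Y hW₀] at h2
    rw [pp_boxE Y hW]
    obtain ⟨E, hE⟩ : ∃ E, E = Y.boxE S (pcut c P t) bx y := ⟨_, rfl⟩
    have hE0 : 0 ≤ E := by
      rw [hE]
      exact Finset.sum_nonneg fun _ _ => sq_nonneg _
    obtain ⟨K, hKd⟩ : ∃ K, K = ((pcut c P t).keptB Y.R S bx).card := ⟨_, rfl⟩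
    have hKn : K ≤ nK := hKd ▸ hK S t bx hS ht
    refine h1.trans ?_
    show _ ≤ C * γ ^ ((pcut c P t).keptB Y.R S bx).card * Real.exp (ea * Y.boxE S (pcut c P t) bx y)
    have h2' : (Y.atB b₀ W₀).QT ((pcut c P t).piece (halTop c Y.R S O) bx) ((pcut c P t).keptB Y.R S bx) y ≤ C0 * γ0 ^ K * Real.exp (ea * E) := by
      rw [hKd, hE]
      exact h2
    rw [← hKd, ← hE]
    have he1 : 1 ≤ Real.exp (ea * E) := Real.one_le_exp (mul_nonneg hea hE0)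
    have hg1 : γ0 ^ K ≤ γ ^ K := pow_le_pow_left₀ hγ0 (by linarith) K
    have hg2 : γ ^ nK ≤ γ ^ K := pow_le_pow_of_le_one hγp.le hγ1 hKn
    have hg0 : 0 < γ ^ nK := pow_pos hγp nK
    have hgK : 0 < γ ^ K := pow_pos hγp K
    have hq : (Y.atB b₀ W₀).QT ((pcut c P t).piece (halTop c Y.R S O) bx) ((pcut c P t).keptB Y.R S bx) y + ε
        ≤ (C0 + ε / γ ^ nK) * (γ ^ K * Real.exp (ea * E)) := by
      have a1 : C0 * γ0 ^ K * Real.exp (ea * E) ≤ C0 * (γ ^ K * Real.exp (ea * E)) := by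
        rw [mul_assoc]
        exact mul_le_mul_of_nonneg_left (mul_le_mul_of_nonneg_right hg1 (Real.exp_pos _).le) hC0
      have a2 : ε ≤ ε / γ ^ nK * (γ ^ K * Real.exp (ea * E)) := by
        rw [div_mul_eq_mul_div, le_div_iff₀ hg0]
        refine mul_le_mul_of_nonneg_left ?_ hε
        calc γ ^ nK ≤ γ ^ K * 1 := by rw [mul_one]; exact hg2
          _ ≤ γ ^ K * Real.exp (ea * E) := mul_le_mul_of_nonneg_left he1 hgK.le
      rw [add_mul]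
      linarith
    calc (1 + ε) * ((Y.atB b₀ W₀).QT ((pcut c P t).piece (halTop c Y.R S O) bx) ((pcut c P t).keptB Y.R S bx) y + ε)
        ≤ (1 + ε) * ((C0 + ε / γ ^ nK) * (γ ^ K * Real.exp (ea * E))) := mul_le_mul_of_nonneg_left hq (by linarith)
      _ = ((1 + ε) * (C0 + ε / γ ^ nK)) * (γ ^ K * Real.exp (ea * E)) := by ring
      _ ≤ C * (γ ^ K * Real.exp (ea * E)) := mul_le_mul_of_nonneg_right hC (by positivity)
      _ = _ := by ring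
  · have hy0 : (Y.atB b₀ W₀).tileE t y ≤ U ^ 2 := by
      rw [pp_tileE Y hW₀, ← pp_tileE Y hW b]
      exact hy
    have h1 := h3.tile t ht y hy0
    have h2 := H0.tile t ht hd y hy0
    calc |(Y.atB b W).tfac t y - 1| = |((Y.atB b W).tfac t y - (Y.atB b₀ W₀).tfac t y) + ((Y.atB b₀ W₀).tfac t y - 1)| := by ring_nf
      _ ≤ |(Y.atB b W).tfac t y - (Y.atB b₀ W₀).tfac t y| + |(Y.atB b₀ W₀).tfac t y - 1| := abs_add_le _ _
      _ ≤ ε + γ0 := add_le_add h1 h2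
      _ ≤ γ := by linarith

/-- the choice of `ε` from the three gaps -/
def epE (nK : ℕ) (x0 x γ0 γ C0 C : ℝ) : ℝ := min (min 1 ((x - x0) / (|x0| + 1))) (min (γ - γ0) ((C - C0) / (C0 + 2 / γ ^ nK)))

theorem ep_E_spec (nK : ℕ) {x0 x γ0 γ C0 C : ℝ} (hx : x0 < x) (hγ : γ0 < γ) (hγp : 0 < γ) (hC0 : 0 ≤ C0) (hC : C0 < C) :
    0 < epE nK x0 x γ0 γ C0 C ∧ (1 + epE nK x0 x γ0 γ C0 C) * x0 ≤ x ∧ γ0 + epE nK x0 x γ0 γ C0 C ≤ γ ∧
      (1 + epE nK x0 x γ0 γ C0 C) * (C0 + epE nK x0 x γ0 γ C0 C / γ ^ nK) ≤ C := by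
  have hg0 : 0 < γ ^ nK := pow_pos hγp nK
  have hd1 : 0 < |x0| + 1 := by positivity
  have hd2 : 0 < C0 + 2 / γ ^ nK := by positivity
  obtain ⟨e, he⟩ : ∃ e, e = epE nK x0 x γ0 γ C0 C := ⟨_, rfl⟩
  rw [← he]
  have e1 : e ≤ 1 := by rw [he]; exact (min_le_left _ _).trans (min_le_left _ _)
  have e2 : e ≤ (x - x0) / (|x0| + 1) := by rw [he]; exact (min_le_left _ _).trans (min_le_right _ _)
  have e3 : e ≤ γ - γ0 := by rw [he]; exact (min_le_right _ _).trans (min_le_left _ _)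
  have e4 : e ≤ (C - C0) / (C0 + 2 / γ ^ nK) := by rw [he]; exact (min_le_right _ _).trans (min_le_right _ _)
  have e0 : 0 < e := by
    rw [he]
    exact lt_min (lt_min one_pos (div_pos (by linarith) hd1)) (lt_min (by linarith) (div_pos (by linarith) hd2))
  rw [le_div_iff₀ hd1] at e2
  rw [le_div_iff₀ hd2] at e4
  refine ⟨e0, ?_, by linarith, ?_⟩
  · have := le_abs_self x0
    nlinarith
  · have h1 : e / γ ^ nK * e ≤ e / γ ^ nK * 1 := mul_le_mul_of_nonneg_left e1 (by positivity)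
    have h2 : e * (2 / γ ^ nK) = 2 * (e / γ ^ nK) := by ring
    nlinarith

/-- Stores the on-demand equation lemmas of the definitions above in THIS module (rule 6 hygiene). -/
theorem ep_forced : True := by
  have := @epUn.eq_1
  have := @epR.eq_1
  have := @epB.eq_1
  have := @epA.eq_1
  have := @epE.eq_1
  trivial

end

end Claimed.Agent.R285.Entry
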