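import Claimed.Agent.R285.Entry.PertMark
import Claimed.Agent.R285.Entry.NtStep
import Claimed.Agent.R285.F4a.Chi

/-!
# ROW 285, ENTRY, BP-ENT-PERT (#17078), part T3: THE CRUDE BOUNDS OF `r_k`      (helper47)

Maths = helper109's note (T3), last paragraph.   Prefix `pcr_`.   Generic in `Y : Phy c` (ONE parameter: apply it to the model at the base point).
`Mc` = the mask of the ambient piece CUT at the mark `k`, `F = Y.evF k`, `χ = Y.chiE k y`, `β = Y.prox k y`, `ΔE = E (topO k) y - E (topC k) y`.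
* `pcr_T_le`, `pcr_T_ge` : `T_patch ≤ Mc.T F ≤ x² C_k`  (`nm_bracket_T`, `Pins.core`, `Pins.nrmE`).
* **`pcr_r_cut`** : `χ / β * (Mc.add F).Z0 ≤ x² e^{ΔE/2} * Mc.Z0`.
* **`pcr_r_opn`** : `β / χ * Mc.Z0 ≤ x e^{-ΔE/2} / χ * (Mc.add F).Z0`   (needs `C_k ≤ x T_patch`: an equality with `x = 1` at the base point).
* `pcr_chiE_ge` : `χ ≥ exp (-∑_{f ∈ cutF k} w_f² / 2)`;   `pcr_chi_ge` : `χ_s (z) ≥ e^{-z²/2}` (the XY cutoff).
* `pcr_faces_box` : the faces of the open patch of a retained mark of the box `b` are original faces of the box;   `pcr_dE_abs`, `pcr_cutE_le` : `|ΔE| ≤ Cu 𝓔_b`, `∑_{cutF k} w_f² ≤ 𝓔_b`.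
* **`pcr_cut`, `pcr_opn`** : the two bounds with the constants `x² e^{Cu U²/2}`, `x e^{(Cu + 1) U²/2}`.
-/

set_option autoImplicit false

namespace Claimed.Agent.R285.Entry

open scoped BigOperators
open Claimed.Agent.R285 Claimed.Agent.R285.RG Claimed.Agent.R285.F4a Claimed.Agent.R285.Ent Fac MeasureTheory

noncomputable section

/-! ## 0. The XY cutoff -/

/-- `χ_s (z) ≥ e^{-z²/2}` (symmetrise, `cosh ≥ 1`) -/
theorem pcr_chi_ge (s z : ℝ) (hs : 0 < s) : Real.exp (-z ^ 2 / 2) ≤ chi s z := by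
  unfold chi
  rw [le_div_iff₀ (chiL_den_pos s hs)]
  have hle : -s ≤ s := by linarith
  set f : ℝ → ℝ := fun t => Real.exp (-(z - t) ^ 2 / 2) with hf
  have hfc : Continuous f := by fun_prop
  have hsym : ∫ t in (-s)..s, f (-t) = ∫ t in (-s)..s, f t := by
    have := intervalIntegral.integral_comp_neg (a := -s) (b := s) f
    rw [neg_neg] at this
    exact this
  have h2 : 2 * ∫ t in (-s)..s, f t = ∫ t in (-s)..s, (f t + f (-t)) := by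
    have hi2 : IntervalIntegrable (fun t => f (-t)) volume (-s) s := (hfc.comp continuous_neg).intervalIntegrable _ _
    rw [intervalIntegral.integral_add (hfc.intervalIntegrable _ _) hi2, hsym]
    ring
  have h3 : ∫ t in (-s)..s, 2 * (Real.exp (-z ^ 2 / 2) * Real.exp (-t ^ 2 / 2)) ≤ ∫ t in (-s)..s, (f t + f (-t)) := by
    refine intervalIntegral.integral_mono_on hle (Continuous.intervalIntegrable (by fun_prop) _ _)
      (Continuous.intervalIntegrable (by fun_prop) _ _) fun t _ => ?_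
    have e1 : f t = Real.exp (-z ^ 2 / 2) * Real.exp (-t ^ 2 / 2) * Real.exp (z * t) := by
      simp only [hf]
      rw [← Real.exp_add, ← Real.exp_add]
      congr 1
      ring
    have e2 : f (-t) = Real.exp (-z ^ 2 / 2) * Real.exp (-t ^ 2 / 2) * Real.exp (-(z * t)) := by
      simp only [hf]
      rw [← Real.exp_add, ← Real.exp_add]
      congr 1
      ring
    rw [e1, e2]
    have hc := Real.one_le_cosh (z * t)
    rw [Real.cosh_eq] at hc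
    have hp : 0 < Real.exp (-z ^ 2 / 2) * Real.exp (-t ^ 2 / 2) := by positivity
    nlinarith
  rw [intervalIntegral.integral_const_mul, intervalIntegral.integral_const_mul] at h3
  linarith

variable {G : Geom} {c : Grid G} (Y : Phy c)

/-! ## 1. The restoration ratio of the ambient piece -/

/-- `ΔE_k (y)` -/
def pcrDE (k : EvId) (y : c.I → ℝ) : ℝ := Y.E (topO c Y.R k) y - Y.E (topC c Y.R k) y

theorem pcr_prox_eq (k : EvId) (y : c.I → ℝ) : Y.prox k y = Y.Ck k * Real.exp (-pcrDE Y k y / 2) := rfl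

theorem pcr_Tp_eq (k : EvId) (hglue : Y.M (topO c Y.R k) = (Y.M (topC c Y.R k)).add (Y.evF k)) :
    (Y.M (topC c Y.R k)).T (Y.evF k) = (Y.M (topO c Y.R k)).Z0 / (Y.M (topC c Y.R k)).Z0 := by
  unfold Fac.Msk.T
  rw [hglue]

theorem pcr_bracket (hY : Y.Ok) (k : EvId) (Mc : Y.Fc.Msk) (hB : Brk (Y.M (topC c Y.R k)) Mc (Y.evG k) (Y.evI k)) (hnew : Mc.New (Y.evF k)) :
    (Y.M (topC c Y.R k)).T (Y.evF k) ≤ Mc.T (Y.evF k) ∧
      Mc.T (Y.evF k) ≤ (Y.M (topC c Y.R k)).T (Y.evF k) * (Y.M (topC c Y.R k)).xPin (Y.evH k) (Y.evG k) :=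
  nm_bracket_T _ _ _ _ hB (Y.evF k) (nt_FFs_pos Y hY _) hnew (Y.evH k)
    (nt_st_mono Y (nt_core_sub_inner _ _)) (nt_FFs_in Y hY _ _ fun _ hf => (nt_cutF_core hf).2)

/-- `T_box ≤ x² C_k` -/
theorem pcr_T_le (hY : Y.Ok) (hN : ∀ T, 0 < Y.W.N T) {x : ℝ} (hP : Y.Pins x) {k : EvId} (hk : k ∈ events c Y.R) (Mc : Y.Fc.Msk)
    (hB : Brk (Y.M (topC c Y.R k)) Mc (Y.evG k) (Y.evI k)) (hnew : Mc.New (Y.evF k))
    (hglue : Y.M (topO c Y.R k) = (Y.M (topC c Y.R k)).add (Y.evF k)) : Mc.T (Y.evF k) ≤ x ^ 2 * Y.Ck k := by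
  have hx : 0 < x := lt_of_lt_of_le one_pos hP.one
  have hCk := nt_Ck_pos Y hN k
  have h1 : (Y.M (topC c Y.R k)).T (Y.evF k) ≤ x * Y.Ck k := pcr_Tp_eq Y k hglue ▸ hP.nrmE k hk
  have h0 : 0 < (Y.M (topC c Y.R k)).xPin (Y.evH k) (Y.evG k) := nm_xPin_pos _ hB.oko _ _
  calc Mc.T (Y.evF k) ≤ (Y.M (topC c Y.R k)).T (Y.evF k) * (Y.M (topC c Y.R k)).xPin (Y.evH k) (Y.evG k) := (pcr_bracket Y hY k Mc hB hnew).2
    _ ≤ (x * Y.Ck k) * x := mul_le_mul h1 (hP.core k hk) h0.le (by positivity)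
    _ = _ := by ring

/-- **the mark in a piece which is CUT at it** -/
theorem pcr_r_cut (hY : Y.Ok) (hN : ∀ T, 0 < Y.W.N T) {x : ℝ} (hP : Y.Pins x) {k : EvId} (hk : k ∈ events c Y.R) (Mc : Y.Fc.Msk)
    (hB : Brk (Y.M (topC c Y.R k)) Mc (Y.evG k) (Y.evI k)) (hnew : Mc.New (Y.evF k))
    (hglue : Y.M (topO c Y.R k) = (Y.M (topC c Y.R k)).add (Y.evF k)) (y : c.I → ℝ) :
    Y.chiE k y / Y.prox k y * (Mc.add (Y.evF k)).Z0 ≤ x ^ 2 * Real.exp (pcrDE Y k y / 2) * Mc.Z0 := by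
  have hCk := nt_Ck_pos Y hN k
  have hχ := nt_chiE_mem Y hY k y
  have z1 : 0 < Mc.Z0 := fk_Z1_pos _ hB.ok 0
  have hT := pcr_T_le Y hY hN hP hk Mc hB hnew hglue
  have hT0 : 0 < Mc.T (Y.evF k) := fk_T_pos _ hB.ok _ (nt_FFs_pos Y hY _)
  have e2 : (Mc.add (Y.evF k)).Z0 = Mc.T (Y.evF k) * Mc.Z0 := by
    unfold Fac.Msk.T
    field_simp
  have e3 : Y.chiE k y / Y.prox k y = Y.chiE k y * Real.exp (pcrDE Y k y / 2) / Y.Ck k := by
    rw [pcr_prox_eq, neg_div, Real.exp_neg]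
    field_simp
  rw [e2, e3]
  have hE := Real.exp_pos (pcrDE Y k y / 2)
  have h1 : Y.chiE k y * Real.exp (pcrDE Y k y / 2) / Y.Ck k * Mc.T (Y.evF k) ≤ x ^ 2 * Real.exp (pcrDE Y k y / 2) := by
    rw [div_mul_eq_mul_div, div_le_iff₀ hCk]
    calc Y.chiE k y * Real.exp (pcrDE Y k y / 2) * Mc.T (Y.evF k) ≤ 1 * Real.exp (pcrDE Y k y / 2) * (x ^ 2 * Y.Ck k) :=
          mul_le_mul (mul_le_mul_of_nonneg_right hχ.2 hE.le) hT hT0.le (by positivity)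
      _ = _ := by ring
  calc _ = (Y.chiE k y * Real.exp (pcrDE Y k y / 2) / Y.Ck k * Mc.T (Y.evF k)) * Mc.Z0 := by ring
    _ ≤ _ := mul_le_mul_of_nonneg_right h1 z1.le

/-- **the mark in a piece which is OPEN at it** -/
theorem pcr_r_opn (hY : Y.Ok) (hN : ∀ T, 0 < Y.W.N T) {x : ℝ} {k : EvId} (Mc : Y.Fc.Msk)
    (hB : Brk (Y.M (topC c Y.R k)) Mc (Y.evG k) (Y.evI k)) (hnew : Mc.New (Y.evF k))
    (hglue : Y.M (topO c Y.R k) = (Y.M (topC c Y.R k)).add (Y.evF k))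
    (hCk : Y.Ck k ≤ x * ((Y.M (topO c Y.R k)).Z0 / (Y.M (topC c Y.R k)).Z0)) (y : c.I → ℝ) :
    Y.prox k y / Y.chiE k y * Mc.Z0 ≤ x * Real.exp (-pcrDE Y k y / 2) / Y.chiE k y * (Mc.add (Y.evF k)).Z0 := by
  have hCk0 := nt_Ck_pos Y hN k
  have hχ := nt_chiE_mem Y hY k y
  have z1 : 0 < Mc.Z0 := fk_Z1_pos _ hB.ok 0
  have hT := (pcr_bracket Y hY k Mc hB hnew).1
  rw [pcr_Tp_eq Y k hglue] at hT
  have hTp : 0 < (Y.M (topO c Y.R k)).Z0 / (Y.M (topC c Y.R k)).Z0 := by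
    rw [← pcr_Tp_eq Y k hglue]
    exact fk_T_pos _ hB.oko _ (nt_FFs_pos Y hY _)
  have hx : 0 < x := by
    by_contra hx
    have : x * ((Y.M (topO c Y.R k)).Z0 / (Y.M (topC c Y.R k)).Z0) ≤ 0 := mul_nonpos_of_nonpos_of_nonneg (not_lt.1 hx) hTp.le
    linarith
  have e2 : (Mc.add (Y.evF k)).Z0 = Mc.T (Y.evF k) * Mc.Z0 := by
    unfold Fac.Msk.T
    field_simp
  have hE := Real.exp_pos (-pcrDE Y k y / 2)
  have h1 : Y.Ck k ≤ x * Mc.T (Y.evF k) := hCk.trans (mul_le_mul_of_nonneg_left hT hx.le)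
  rw [e2, pcr_prox_eq, div_mul_eq_mul_div, div_mul_eq_mul_div]
  refine div_le_div_of_nonneg_right ?_ hχ.1.le
  calc Y.Ck k * Real.exp (-pcrDE Y k y / 2) * Mc.Z0 ≤ (x * Mc.T (Y.evF k)) * Real.exp (-pcrDE Y k y / 2) * Mc.Z0 :=
        mul_le_mul_of_nonneg_right (mul_le_mul_of_nonneg_right h1 hE.le) z1.le
    _ = _ := by ring

/-! ## 2. Cutoffs and energies on good data -/

/-- the sum of `w_f²` over the cut faces of the event -/
def pcrCE (k : EvId) (y : c.I → ℝ) : ℝ := ∑ f ∈ cutF c Y.R k, Y.w y f ^ 2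

theorem pcr_chiE_ge (hX : ∀ y f, Real.exp (-Y.w y f ^ 2 / 2) ≤ Y.Xf y f) (k : EvId) (y : c.I → ℝ) :
    Real.exp (-pcrCE Y k y / 2) ≤ Y.chiE k y := by
  unfold pcrCE Phy.chiE
  have e : Real.exp (-(∑ f ∈ cutF c Y.R k, Y.w y f ^ 2) / 2) = ∏ f ∈ cutF c Y.R k, Real.exp (-Y.w y f ^ 2 / 2) := by
    rw [← Real.exp_sum]
    congr 1
    rw [neg_div, Finset.sum_div, ← Finset.sum_neg_distrib]
    exact Finset.sum_congr rfl fun f _ => by ring
  rw [e]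
  exact Finset.prod_le_prod (fun _ _ => (Real.exp_pos _).le) fun f _ => hX y f

theorem pcr_patch_sub (R : ℕ) (k : EvId) : patch c R k ⊆ tpatch c R k :=
  Finset.inter_subset_inter_right (nt_dl_nbh_mono (Nat.div_le_div_left (by norm_num) (by norm_num)) _)

/-- the faces of the open patch of a retained mark are original faces of its box -/
theorem pcr_faces_box (hg : NGeo c Y.R) {S : Finset EvId} {θ : Cut c} {b : ℕ × ℕ} {k : EvId} (hk : k ∈ θ.keptB Y.R S b) :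
    (topO c Y.R k).faces ⊆ Y.boxF S θ b := by
  classical
  obtain ⟨hkS, hd⟩ : k ∈ S ∧ θ.DeepIn Y.R k b := by
    simpa only [Cut.keptB, Finset.mem_filter] using hk
  intro f hf
  have hf1 : f ∈ (topU c Y.R (pre c Y.R k)).faces ∧ f.1 ∈ patch c Y.R k ∧ fnb c f ∈ patch c Y.R k := by
    simpa only [topO, Top.restr, Finset.mem_filter] using hf
  have hIs : IsFace c f := (nt_ok_topU Y.R _ f hf1.1).1
  have t1 : f.1 ∈ tpatch c Y.R k := pcr_patch_sub Y.R k hf1.2.1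
  have t2 : fnb c f ∈ tpatch c Y.R k := pcr_patch_sub Y.R k hf1.2.2
  have hh := hg.tp_halC S k (Finset.mem_union_left _ hkS)
  have hsm : f ∉ θ.sm := fun h => (hd.2 f h).elim (fun h' => h' t1) fun h' => h' t2
  simp only [Phy.boxF, Cut.piece, Top.restr, Top.cut, Top.full, Cut.box, Finset.mem_filter, Finset.mem_sdiff, Finset.mem_univ, true_and]
  exact ⟨⟨⟨hIs, hh t1, hh t2⟩, hsm⟩, hd.1 _ t1, hd.1 _ t2⟩

theorem pcr_mem_pre {R : ℕ} {k : EvId} (hk : k ∈ events c R) : k ∈ pre c R k := by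
  unfold pre
  split_ifs with h
  · exact Finset.mem_filter.2 ⟨hk, h⟩
  · exact hk

/-- the cut faces are faces of the open patch -/
theorem pcr_cutF_sub {R : ℕ} {k : EvId} (hk : k ∈ events c R) : cutF c R k ⊆ (topO c R k).faces := by
  classical
  intro f hf
  obtain ⟨hIs, h1, h2⟩ := nt_cutF_core hf
  have hkey : evKey c R f = k := (Finset.mem_filter.1 hf).2
  simp only [topO, Top.restr, topU, Top.cut, Top.full, Finset.mem_filter, Finset.mem_sdiff, Finset.mem_univ, true_and]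
  refine ⟨⟨hIs, fun h => h.2 ?_⟩, nt_dl_core_sub R k h1, nt_dl_core_sub R k h2⟩
  rw [hkey]
  exact pcr_mem_pre hk

theorem pcr_topC_sub (R : ℕ) (k : EvId) : (topC c R k).faces ⊆ (topO c R k).faces := by
  classical
  intro f hf
  simp only [topC, topO, Top.restr, topU, Top.cut, Top.full, Finset.mem_filter, Finset.mem_sdiff, Finset.mem_univ, true_and] at hf ⊢
  exact ⟨⟨hf.1.1, fun h => hf.1.2 ⟨h.1, fun h' => h.2 h'.1⟩⟩, hf.2⟩

theorem pcr_sum_le (hg : NGeo c Y.R) {S : Finset EvId} {θ : Cut c} {b : ℕ × ℕ} {k : EvId} (hk : k ∈ θ.keptB Y.R S b) (y : c.I → ℝ)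
    {A : Finset (Face c)} (hA : A ⊆ (topO c Y.R k).faces) : ∑ f ∈ A, Y.w y f ^ 2 ≤ Y.boxE S θ b y :=
  Finset.sum_le_sum_of_subset_of_nonneg (hA.trans (pcr_faces_box Y hg hk)) fun _ _ _ => sq_nonneg _

theorem pcr_cutE_le (hg : NGeo c Y.R) {S : Finset EvId} {θ : Cut c} {b : ℕ × ℕ} {k : EvId} (hk : k ∈ θ.keptB Y.R S b) (hev : k ∈ events c Y.R)
    (y : c.I → ℝ) : pcrCE Y k y ≤ Y.boxE S θ b y :=
  pcr_sum_le Y hg hk y (pcr_cutF_sub hev)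

/-- `|ΔE_k| ≤ Cu 𝓔_b` -/
theorem pcr_dE_abs (hg : NGeo c Y.R) {Cu : ℝ} (hCu : 0 ≤ Cu)
    (hE : ∀ T : Top c, T.Ok → ∀ y, 0 ≤ Y.E T y ∧ Y.E T y ≤ Cu * ∑ f ∈ T.faces, Y.w y f ^ 2)
    {S : Finset EvId} {θ : Cut c} {b : ℕ × ℕ} {k : EvId} (hk : k ∈ θ.keptB Y.R S b) (y : c.I → ℝ) :
    |pcrDE Y k y| ≤ Cu * Y.boxE S θ b y := by
  have h1 := hE (topO c Y.R k) (nt_ok_restr _ (nt_ok_topU _ _) _) y
  have h2 := hE (topC c Y.R k) (nt_dl_ok_topC _ _) y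
  have s1 := mul_le_mul_of_nonneg_left (pcr_sum_le Y hg hk y (Finset.Subset.refl _)) hCu
  have s2 := mul_le_mul_of_nonneg_left (pcr_sum_le Y hg hk y (pcr_topC_sub Y.R k)) hCu
  unfold pcrDE
  rw [abs_le]
  constructor <;> linarith [h1.1, h1.2, h2.1, h2.2]

/-- **CUT, on good data**: `χ / β * Z0_o ≤ x² e^{Cu U² / 2} * Z0_c` -/
theorem pcr_cut (hY : Y.Ok) (hN : ∀ T, 0 < Y.W.N T) (hg : NGeo c Y.R) {x : ℝ} (hP : Y.Pins x) {Cu : ℝ} (hCu : 0 ≤ Cu)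
    (hE : ∀ T : Top c, T.Ok → ∀ y, 0 ≤ Y.E T y ∧ Y.E T y ≤ Cu * ∑ f ∈ T.faces, Y.w y f ^ 2)
    {S : Finset EvId} {θ : Cut c} {b : ℕ × ℕ} {k : EvId} (hk : k ∈ θ.keptB Y.R S b) (hev : k ∈ events c Y.R) (Mc : Y.Fc.Msk)
    (hB : Brk (Y.M (topC c Y.R k)) Mc (Y.evG k) (Y.evI k)) (hnew : Mc.New (Y.evF k))
    (hglue : Y.M (topO c Y.R k) = (Y.M (topC c Y.R k)).add (Y.evF k)) (y : c.I → ℝ) {U2 : ℝ} (hU : Y.boxE S θ b y ≤ U2) :
    Y.chiE k y / Y.prox k y * (Mc.add (Y.evF k)).Z0 ≤ x ^ 2 * Real.exp (Cu * U2 / 2) * Mc.Z0 := by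
  refine (pcr_r_cut Y hY hN hP hev Mc hB hnew hglue y).trans ?_
  have z1 : 0 < Mc.Z0 := fk_Z1_pos _ hB.ok 0
  have h1 := (abs_le.1 (pcr_dE_abs Y hg hCu hE hk y)).2
  have h2 := mul_le_mul_of_nonneg_left hU hCu
  refine mul_le_mul_of_nonneg_right (mul_le_mul_of_nonneg_left (Real.exp_le_exp.2 (by linarith)) (sq_nonneg x)) z1.le

/-- **OPEN, on good data**: `β / χ * Z0_c ≤ x e^{(Cu + 1) U² / 2} * Z0_o` -/
theorem pcr_opn (hY : Y.Ok) (hN : ∀ T, 0 < Y.W.N T) (hg : NGeo c Y.R) {x : ℝ} (hx : 0 ≤ x) {Cu : ℝ} (hCu : 0 ≤ Cu)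
    (hE : ∀ T : Top c, T.Ok → ∀ y, 0 ≤ Y.E T y ∧ Y.E T y ≤ Cu * ∑ f ∈ T.faces, Y.w y f ^ 2)
    (hX : ∀ y f, Real.exp (-Y.w y f ^ 2 / 2) ≤ Y.Xf y f)
    {S : Finset EvId} {θ : Cut c} {b : ℕ × ℕ} {k : EvId} (hk : k ∈ θ.keptB Y.R S b) (hev : k ∈ events c Y.R) (Mc : Y.Fc.Msk)
    (hB : Brk (Y.M (topC c Y.R k)) Mc (Y.evG k) (Y.evI k)) (hnew : Mc.New (Y.evF k))
    (hglue : Y.M (topO c Y.R k) = (Y.M (topC c Y.R k)).add (Y.evF k))
    (hCk : Y.Ck k ≤ x * ((Y.M (topO c Y.R k)).Z0 / (Y.M (topC c Y.R k)).Z0)) (y : c.I → ℝ) {U2 : ℝ} (hU : Y.boxE S θ b y ≤ U2) :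
    Y.prox k y / Y.chiE k y * Mc.Z0 ≤ x * Real.exp ((Cu + 1) * U2 / 2) * (Mc.add (Y.evF k)).Z0 := by
  refine (pcr_r_opn Y hY hN Mc hB hnew hglue hCk y).trans ?_
  have z2 : 0 < (Mc.add (Y.evF k)).Z0 := fk_Z1_pos _ (fk_ok_add _ hB.ok _ (nt_FFs_pos Y hY _)) 0
  have hχ := nt_chiE_mem Y hY k y
  have h1 := (abs_le.1 (pcr_dE_abs Y hg hCu hE hk y)).1
  have h2 := mul_le_mul_of_nonneg_left hU hCu
  have h3 := pcr_chiE_ge Y hX k y
  have h4 := pcr_cutE_le Y hg hk hev y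
  refine mul_le_mul_of_nonneg_right ?_ z2.le
  rw [div_le_iff₀ hχ.1, mul_assoc]
  refine mul_le_mul_of_nonneg_left ?_ hx
  calc Real.exp (-pcrDE Y k y / 2) ≤ Real.exp ((Cu + 1) * U2 / 2) * Real.exp (-pcrCE Y k y / 2) := by
        rw [← Real.exp_add]
        exact Real.exp_le_exp.2 (by linarith)
    _ ≤ _ := mul_le_mul_of_nonneg_left h3 (Real.exp_pos _).le

/-- Stores the on-demand equation lemmas of the definitions above in THIS module (rule 6 hygiene). -/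
theorem pcr_forced : True := by
  have := @pcrDE.eq_1
  have := @pcrCE.eq_1
  trivial

end

end Claimed.Agent.R285.Entry
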