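import Claimed.Agent.R285.C5.FacCont
import Claimed.Agent.R285.E2.Real

/-!
# ROW 285, ENTRY, BP-ENT-PERT = post CONT of `C5.str_box`: FINITE PERTURBATION IN THE TEMPERATURE, FACTOR-MODEL LEVEL      (helper118)

Paper: [E] entry.tex l.262-330 (lem:finite-perturbation), [C] 50-openness.tex l.818-845.   Prefix `pf_`.   Paper-free, generic in `Fac` (XY law and the strengthened law of [C] s5: the Gaussian rows do not see `∂_b`).
`M.at1 t` = the mask `M` at the uniform temperature `t`; `n = M.E.card`, `d = |b - b₀|`.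
* (T0a) `pf_Z1_le_Z0`, `pf_Z_abs_le`;   (T0b) `pf_Z0_le`;   (T0c) `pf_Z_sub`: total variation bound, UNIFORM in the datum (background, connection, centres).
* (T1) `pf_xPin_le`, `pf_T_le`, `pf_P_le`, `pf_ratio_le`.
* (T3-elem) `pf_dlt_elem`.
-/

set_option autoImplicit false

namespace Claimed.Agent.R285.Entry

open scoped BigOperators
open Claimed.Agent.R285 Claimed.Agent.R285.E2 Fac Filter Topology

noncomputable section

/-! ## 0. Lattice systems -/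

section lsys

variable {S : LSys}

/-- the centred sum at the uniform temperature `t` -/
def pfw (S : LSys) (t : ℝ) : ℝ := Zu S t 0 fun _ => 1

theorem pf_w_pos (hS : S.Ok) (t : ℝ) (ht : 0 < t) : 0 < pfw S t := Zu_one_pos hS t ht 0

theorem pf_Zu_abs (hS : S.Ok) (F : S.L → ℝ) (C : ℝ) (hF : ∀ z, |F z| ≤ C) (t : ℝ) (ht : 0 < t) (α : S.Amb) :
    |Zu S t α F| ≤ C * pfw S t := by
  have hC : 0 ≤ C := (abs_nonneg _).trans (hF 0)
  have h1 : Zu S t α F ≤ Zu S t α fun _ => C := Zu_mono hS (Gr.bdd C hF) (Gr.const C) t ht α fun z => (le_abs_self _).trans (hF z)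
  have h2 : Zu S t α (fun _ => -C) ≤ Zu S t α F :=
    Zu_mono hS (Gr.const (-C)) (Gr.bdd C hF) t ht α fun z => (abs_le.1 (hF z)).1
  have e1 : Zu S t α (fun _ => C) = C * Zu S t α fun _ => 1 := by
    rw [← Zu_smul]; exact Zu_congr t α fun _ => by ring
  have e2 : Zu S t α (fun _ => -C) = -C * Zu S t α fun _ => 1 := by
    rw [← Zu_smul]; exact Zu_congr t α fun _ => by ring
  have h3 := mul_le_mul_of_nonneg_left (e2_w_le hS t ht α) hC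
  unfold pfw
  rw [abs_le]
  constructor <;> nlinarith

theorem pf_dZu_abs (hS : S.Ok) (F : S.L → ℝ) (C : ℝ) (hF : ∀ z, |F z| ≤ C) (t : ℝ) (ht : 0 < t) (α : S.Amb) :
    |dZu S t α F| ≤ 2 * (Fintype.card S.E : ℝ) * C * pfw S t := by
  unfold dZu
  refine (Finset.abs_sum_le_sum_abs _ _).trans ?_
  have : ∀ e ∈ (Finset.univ : Finset S.E), |(Zu S t (α + dl S e) F + Zu S t (α - dl S e) F) / 2 - Zu S t α F| ≤ 2 * (C * pfw S t) := by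
    intro e _
    have h1 := abs_le.1 (pf_Zu_abs hS F C hF t ht (α + dl S e))
    have h2 := abs_le.1 (pf_Zu_abs hS F C hF t ht (α - dl S e))
    have h3 := abs_le.1 (pf_Zu_abs hS F C hF t ht α)
    rw [abs_le]
    constructor <;> linarith [h1.1, h1.2, h2.1, h2.2, h3.1, h3.2]
  refine (Finset.sum_le_sum this).trans (le_of_eq ?_)
  rw [Finset.sum_const, Finset.card_univ, nsmul_eq_mul]
  ring

theorem pf_dw_mem (hS : S.Ok) (t : ℝ) (ht : 0 < t) :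
    -((Fintype.card S.E : ℝ) * pfw S t) ≤ dZu S t 0 (fun _ => 1) ∧ dZu S t 0 (fun _ => 1) ≤ 0 := by
  unfold dZu
  constructor
  · have : ∀ e ∈ (Finset.univ : Finset S.E), -pfw S t ≤ (Zu S t (0 + dl S e) (fun _ => 1) + Zu S t (0 - dl S e) fun _ => 1) / 2 - Zu S t 0 fun _ => 1 := by
      intro e _
      have h1 := (Zu_one_pos hS t ht (0 + dl S e)).le
      have h2 := (Zu_one_pos hS t ht (0 - dl S e)).le
      unfold pfw
      linarith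
    refine le_trans (le_of_eq ?_) (Finset.sum_le_sum this)
    rw [Finset.sum_const, Finset.card_univ, nsmul_eq_mul]
    ring
  · refine Finset.sum_nonpos fun e _ => ?_
    have h1 := e2_w_le hS t ht (0 + dl S e)
    have h2 := e2_w_le hS t ht (0 - dl S e)
    linarith

theorem pf_w_hasDerivAt (hS : S.Ok) (t : ℝ) (ht : 0 < t) : HasDerivAt (pfw S) (dZu S t 0 fun _ => 1) t :=
  e2_Zu_hasDerivAt' hS (Gr.const 1) 0 t ht

/-- the centred sum decreases -/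
theorem pf_w_anti (hS : S.Ok) {s t : ℝ} (hs : 0 < s) (hst : s ≤ t) : pfw S t ≤ pfw S s := by
  have hcv : Convex ℝ (Set.Ioi (0 : ℝ)) := convex_Ioi 0
  have hd : ∀ x ∈ Set.Ioi (0 : ℝ), HasDerivAt (pfw S) (dZu S x 0 fun _ => 1) x := fun x hx => pf_w_hasDerivAt hS x hx
  have := antitoneOn_of_deriv_nonpos hcv (fun x hx => (hd x hx).continuousAt.continuousWithinAt)
    (fun x hx => by rw [interior_Ioi] at hx; exact (hd x hx).differentiableAt.differentiableWithinAt)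
    (fun x hx => by rw [interior_Ioi] at hx; rw [(hd x hx).deriv]; exact (pf_dw_mem hS x hx).2)
  exact this hs (lt_of_lt_of_le hs hst) hst

/-- `e^{n t} w_t` increases -/
theorem pf_w_mono (hS : S.Ok) {s t : ℝ} (hs : 0 < s) (hst : s ≤ t) :
    pfw S s ≤ Real.exp ((Fintype.card S.E : ℝ) * (t - s)) * pfw S t := by
  set n : ℝ := (Fintype.card S.E : ℝ) with hn
  have hcv : Convex ℝ (Set.Ioi (0 : ℝ)) := convex_Ioi 0
  have hd : ∀ x ∈ Set.Ioi (0 : ℝ), HasDerivAt (fun x => Real.exp (n * x) * pfw S x)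
      (Real.exp (n * x) * (n * 1) * pfw S x + Real.exp (n * x) * dZu S x 0 fun _ => 1) x := fun x hx =>
    (((hasDerivAt_id x).const_mul n).exp).mul (pf_w_hasDerivAt hS x hx)
  have := monotoneOn_of_deriv_nonneg hcv (fun x hx => (hd x hx).continuousAt.continuousWithinAt)
    (fun x hx => by rw [interior_Ioi] at hx; exact (hd x hx).differentiableAt.differentiableWithinAt)
    (fun x hx => by
      rw [interior_Ioi] at hx
      rw [(hd x hx).deriv]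
      have h1 := (pf_dw_mem hS x hx).1
      have h2 := Real.exp_pos (n * x)
      nlinarith)
  have h3 := this hs (lt_of_lt_of_le hs hst) hst
  have h4 : Real.exp (n * (t - s)) = Real.exp (n * t) / Real.exp (n * s) := by rw [← Real.exp_sub]; congr 1; ring
  rw [h4, div_mul_eq_mul_div, le_div_iff₀ (Real.exp_pos _), mul_comm]
  exact h3

/-- (T0b) -/
theorem pf_w_le (hS : S.Ok) {b b₀ : ℝ} (hb : 0 < b) (hb₀ : 0 < b₀) :
    pfw S b ≤ Real.exp ((Fintype.card S.E : ℝ) * |b - b₀|) * pfw S b₀ := by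
  rcases le_total b b₀ with h | h
  · have := pf_w_mono hS hb h
    rwa [abs_of_nonpos (by linarith), neg_sub]
  · have h1 := pf_w_anti hS hb₀ h
    have h2 : 1 ≤ Real.exp ((Fintype.card S.E : ℝ) * |b - b₀|) := Real.one_le_exp (by positivity)
    nlinarith [pf_w_pos hS b₀ hb₀]

theorem pf_two_mul_exp_le (x : ℝ) (hx : 0 ≤ x) : 2 * x * Real.exp x ≤ Real.exp (2 * x) - 1 := by
  have h1 : Real.exp (2 * x) = Real.exp x * Real.exp x := by rw [← Real.exp_add]; congr 1; ring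
  have h2 : Real.exp x * Real.exp (-x) = 1 := by rw [← Real.exp_add]; simp
  have h3 : 2 * x ≤ Real.exp x - Real.exp (-x) := by
    have := Real.self_le_sinh_iff.2 hx
    rw [Real.sinh_eq] at this
    linarith
  have h4 := mul_le_mul_of_nonneg_right h3 (Real.exp_pos x).le
  nlinarith

/-- (T0c) **total variation bound** -/
theorem pf_Zu_sub (hS : S.Ok) (F : S.L → ℝ) (C : ℝ) (hF : ∀ z, |F z| ≤ C) {b b₀ : ℝ} (hb : 0 < b) (hb₀ : 0 < b₀) (α : S.Amb) :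
    |Zu S b α F - Zu S b₀ α F| ≤ C * (Real.exp (2 * ((Fintype.card S.E : ℝ) * |b - b₀|)) - 1) * pfw S b₀ := by
  set n : ℝ := (Fintype.card S.E : ℝ) with hn
  have hC : 0 ≤ C := (abs_nonneg _).trans (hF 0)
  have hpos : ∀ x ∈ Set.uIcc b₀ b, 0 < x := fun x hx => lt_of_lt_of_le (lt_min hb₀ hb) hx.1
  have hdist : ∀ x ∈ Set.uIcc b₀ b, |x - b₀| ≤ |b - b₀| := fun x hx => Set.abs_sub_left_of_mem_uIcc hx
  have key := Convex.norm_image_sub_le_of_norm_hasDerivWithin_le (f := fun t => Zu S t α F) (f' := fun t => dZu S t α F)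
    (C := 2 * n * C * (Real.exp (n * |b - b₀|) * pfw S b₀)) (s := Set.uIcc b₀ b) (x := b₀) (y := b)
    (fun x hx => (e2_Zu_hasDerivAt' hS (Gr.bdd C hF) α x (hpos x hx)).hasDerivWithinAt)
    (fun x hx => by
      rw [Real.norm_eq_abs]
      refine (pf_dZu_abs hS F C hF x (hpos x hx) α).trans ?_
      refine mul_le_mul_of_nonneg_left ?_ (by positivity)
      refine (pf_w_le hS (hpos x hx) hb₀).trans ?_
      refine mul_le_mul_of_nonneg_right ?_ (pf_w_pos hS b₀ hb₀).le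
      exact Real.exp_le_exp.2 (mul_le_mul_of_nonneg_left (hdist x hx) (by positivity)))
    (convex_uIcc b₀ b) Set.left_mem_uIcc Set.right_mem_uIcc
  rw [Real.norm_eq_abs, Real.norm_eq_abs] at key
  refine key.trans ?_
  have h5 := pf_two_mul_exp_le (n * |b - b₀|) (by positivity)
  have h6 := mul_le_mul_of_nonneg_left h5 (mul_nonneg hC (pf_w_pos hS b₀ hb₀).le)
  nlinarith

end lsys

/-! ## 1. Factor models -/

variable {𝔉 : Fac}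

/-- the mask at the uniform temperature `t` -/
abbrev Fac.Msk.at1 (M : 𝔉.Msk) (t : ℝ) : (𝔉.atB fun _ => t).Msk := M.atB fun _ => t

/-- the same datum in the model with other temperatures -/
def Fac.Dat.atB (D : 𝔉.Dat) (β : 𝔉.E → ℝ) : (𝔉.atB β).Dat := ⟨D.x, D.τ, D.c⟩

theorem pf_ok (M : 𝔉.Msk) (hM : M.Sp) (t : ℝ) (ht : 0 < t) : (M.at1 t).Ok := fc_ok_atB M hM _ fun _ _ => ht

/-- the reference system of a mask -/
def pfS (M : 𝔉.Msk) : LSys := (M.at1 1).sys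

theorem pf_S_ok (M : 𝔉.Msk) (hM : M.Sp) : (pfS M).Ok := fk_sys_ok _ (pf_ok M hM 1 one_pos)

theorem pf_S_card (M : 𝔉.Msk) : (Fintype.card (pfS M).E : ℝ) = M.E.card := by
  have : Fintype.card (pfS M).E = Fintype.card M.E := rfl
  rw [this, Fintype.card_coe]

/-- bridge: all partition sums of a mask at all uniform temperatures are sums of ONE lattice system -/
theorem pf_Z_eq_Zu (M : 𝔉.Msk) (hM : M.Sp) (D : 𝔉.Dat) (Ψ : 𝔉.Ht → ℝ) :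
    ∃ (α : (pfS M).Amb) (Φ : (pfS M).L → ℝ), (∀ C, (∀ h, |Ψ h| ≤ C) → ∀ z, |Φ z| ≤ C) ∧
      ∀ t, 0 < t → (M.at1 t).Z (D.atB _) Ψ = Zu (pfS M) t α Φ := by
  let e := Equiv.ofBijective _ (fk_toL_bij (M.at1 1) (pf_ok M hM 1 one_pos))
  refine ⟨(M.at1 1).amb (D.atB _), fun z => Ψ (D.x + ((e.symm z : 𝔉.sup M.A) : 𝔉.Ht)), fun C hC z => hC _, fun t ht => ?_⟩
  have h1 := fk_Zf_eq (M.at1 t) (pf_ok M hM t ht) (D.atB _) fun z => Ψ (D.x + ((e.symm z : 𝔉.sup M.A) : 𝔉.Ht))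
  refine Eq.trans ?_ (h1.symm.trans rfl)
  refine tsum_congr fun g => ?_
  have h2 : e.symm ((M.at1 t).toL g) = g := e.symm_apply_apply g
  rw [h2]
  rfl

theorem pf_Z0_eq (M : 𝔉.Msk) (hM : M.Sp) (t : ℝ) (ht : 0 < t) : (M.at1 t).Z0 = pfw (pfS M) t :=
  fk_cmp_Z0 (M.at1 t) (pf_ok M hM t ht)

theorem pf_Z0_pos (M : 𝔉.Msk) (hM : M.Sp) (t : ℝ) (ht : 0 < t) : 0 < (M.at1 t).Z0 := fk_Z1_pos _ (pf_ok M hM t ht) _

/-- (T0a) -/
theorem pf_Z_abs_le (M : 𝔉.Msk) (hM : M.Sp) (D : 𝔉.Dat) (Ψ : 𝔉.Ht → ℝ) (C : ℝ) (hΨ : ∀ h, |Ψ h| ≤ C) (t : ℝ) (ht : 0 < t) :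
    |(M.at1 t).Z (D.atB _) Ψ| ≤ C * (M.at1 t).Z0 := by
  obtain ⟨α, Φ, h1, h2⟩ := pf_Z_eq_Zu M hM D Ψ
  rw [h2 t ht, pf_Z0_eq M hM t ht]
  exact pf_Zu_abs (pf_S_ok M hM) Φ C (h1 C hΨ) t ht α

/-- (T0a) -/
theorem pf_Z1_le_Z0 (M : 𝔉.Msk) (hM : M.Sp) (D : 𝔉.Dat) (t : ℝ) (ht : 0 < t) : (M.at1 t).Z1 (D.atB _) ≤ (M.at1 t).Z0 := by
  have := pf_Z_abs_le M hM D (fun _ => 1) 1 (fun _ => by simp) t ht
  rw [one_mul] at this
  exact (le_abs_self _).trans this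

/-- (T0b) the centred sums at two temperatures -/
theorem pf_Z0_le (M : 𝔉.Msk) (hM : M.Sp) {b b₀ : ℝ} (hb : 0 < b) (hb₀ : 0 < b₀) :
    (M.at1 b).Z0 ≤ Real.exp ((M.E.card : ℝ) * |b - b₀|) * (M.at1 b₀).Z0 := by
  rw [pf_Z0_eq M hM b hb, pf_Z0_eq M hM b₀ hb₀, ← pf_S_card]
  exact pf_w_le (pf_S_ok M hM) hb hb₀

/-- (T0c) **total variation bound**, uniform in the datum -/
theorem pf_Z_sub (M : 𝔉.Msk) (hM : M.Sp) (D : 𝔉.Dat) (Ψ : 𝔉.Ht → ℝ) (C : ℝ) (hΨ : ∀ h, |Ψ h| ≤ C) {b b₀ : ℝ} (hb : 0 < b) (hb₀ : 0 < b₀) :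
    |(M.at1 b).Z (D.atB _) Ψ - (M.at1 b₀).Z (D.atB _) Ψ| ≤ C * (Real.exp (2 * ((M.E.card : ℝ) * |b - b₀|)) - 1) * (M.at1 b₀).Z0 := by
  obtain ⟨α, Φ, h1, h2⟩ := pf_Z_eq_Zu M hM D Ψ
  rw [h2 b hb, h2 b₀ hb₀, pf_Z0_eq M hM b₀ hb₀, ← pf_S_card]
  exact pf_Zu_sub (pf_S_ok M hM) Φ C (h1 C hΨ) hb hb₀ α

/-! ## 2. One mark: Markov property at the two temperatures and two applications of the total variation bound -/

/-- (T3-elem) -/
theorem pf_dlt_elem (ρ ρ' β : ℝ) (h : 0 ≤ ρ) (h' : 0 ≤ ρ') (hβ : 0 < β) :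
    |(|ρ - β| / (ρ + β)) - |ρ' - β| / (ρ' + β)| ≤ 2 * β * |ρ - ρ'| / ((ρ + β) * (ρ' + β)) := by
  have p1 : 0 < ρ + β := by linarith
  have p2 : 0 < ρ' + β := by linarith
  have e1 : |ρ - β| / (ρ + β) = |(ρ - β) / (ρ + β)| := by rw [abs_div, abs_of_pos p1]
  have e2 : |ρ' - β| / (ρ' + β) = |(ρ' - β) / (ρ' + β)| := by rw [abs_div, abs_of_pos p2]
  rw [e1, e2]
  refine (abs_abs_sub_abs_le_abs_sub _ _).trans (le_of_eq ?_)
  have e3 : (ρ - β) / (ρ + β) - (ρ' - β) / (ρ' + β) = 2 * β * (ρ - ρ') / ((ρ + β) * (ρ' + β)) := by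
    field_simp
    ring
  rw [e3, abs_div, abs_mul, abs_of_pos (mul_pos p1 p2), abs_of_pos (by positivity : (0 : ℝ) < 2 * β)]

section mark

variable (Mc : 𝔉.Msk) (I : Finset 𝔉.V) (F : 𝔉.Fs) (χ β : ℝ) (D : 𝔉.Dat)

/-- the kernel quotient at the temperature `t` -/
def pfR (t : ℝ) (h : 𝔉.Ht) : ℝ := rho (Mc.at1 t) I F χ (D.atB _) h

/-- `δ` at the temperature `t` -/
def pfD (t : ℝ) (h : 𝔉.Ht) : ℝ := dlt (Mc.at1 t) I F χ β (D.atB _) h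

theorem pf_D_eq (t : ℝ) (h : 𝔉.Ht) : pfD Mc I F χ β D t h = |pfR Mc I F χ D t h - β| / (pfR Mc I F χ D t h + β) := rfl

variable {Mc I F χ β}

theorem pf_R_nonneg (hM : Mc.Sp) (hI : I ⊆ Mc.A) (hχ : 0 ≤ χ) (t : ℝ) (ht : 0 < t) (h : 𝔉.Ht) : 0 ≤ pfR Mc I F χ D t h :=
  nm_rho_nonneg (Mc.at1 t) (pf_ok Mc hM t ht) I hI F (fun _ _ => ht) χ hχ _ h

theorem pf_R_le (hM : Mc.Sp) (hI : I ⊆ Mc.A) (hχ : 0 ≤ χ) (t : ℝ) (ht : 0 < t) (h : 𝔉.Ht) : pfR Mc I F χ D t h ≤ χ := by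
  have := fk_cE_bdd (Mc.at1 t) (pf_ok Mc hM t ht) I hI (D.atB _) (fun h' => χ * Fac.rw (𝔉 := 𝔉.atB fun _ => t) F (D.atB _) h') χ
    (fun h' => by
      obtain ⟨a1, a2⟩ := fk_rw_mem (𝔉 := 𝔉.atB fun _ => t) F (fun _ _ => ht) (D.atB _) h'
      rw [abs_mul, abs_of_nonneg hχ, abs_of_pos a1]
      exact mul_le_of_le_one_right hχ a2) h
  exact (le_abs_self _).trans this

theorem pf_R_inv (t : ℝ) : 𝔉.Inv I (pfR Mc I F χ D t) := fk_cE_inv_self (Mc.at1 t) I (D.atB _) _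

/-- Markov property + restoration: `Z^c_t (Φ ρ_t) = χ Z^o_t (Φ)` -/
theorem pf_markov (hM : Mc.Sp) (hI : I ⊆ Mc.A) (hd : Mc.New F) (t : ℝ) (ht : 0 < t) (Φ : 𝔉.Ht → ℝ) (hΦb : 𝔉.Bdd Φ) (hΦ : 𝔉.Inv I Φ) :
    (Mc.at1 t).Z (D.atB _) (fun h => Φ h * pfR Mc I F χ D t h) = χ * ((Mc.add F).at1 t).Z (D.atB _) Φ := by
  have h1 := fk_markov (Mc.at1 t) (pf_ok Mc hM t ht) I hI (D.atB _) Φ (fun h' => χ * Fac.rw (𝔉 := 𝔉.atB fun _ => t) F (D.atB _) h') hΦb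
    (nm_crw_Bdd (𝔉 := 𝔉.atB fun _ => t) F (fun _ _ => ht) χ (D.atB _)) hΦ
  have h2 := fk_add_eq (Mc.at1 t) F hd (D.atB _) Φ
  have h3 : ((Mc.add F).at1 t).Z (D.atB _) Φ = ((Mc.at1 t).add F).Z (D.atB _) Φ := rfl
  rw [h3, h2, ← fk_Z_smul]
  refine Eq.trans h1.symm ?_
  exact congrArg _ (funext fun h => by ring)

/-- the error factor -/
def pfe (n d : ℝ) : ℝ := Real.exp (2 * (n * d)) - 1

theorem pf_e_nonneg {n d : ℝ} (hn : 0 ≤ n) (hd : 0 ≤ d) : 0 ≤ pfe n d := by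
  unfold pfe
  have := Real.one_le_exp (show 0 ≤ 2 * (n * d) by positivity)
  linarith

theorem pf_e_mono {n n' d : ℝ} (h : n ≤ n') (hd : 0 ≤ d) : pfe n d ≤ pfe n' d := by
  unfold pfe
  have := Real.exp_le_exp.2 (show 2 * (n * d) ≤ 2 * (n' * d) by nlinarith)
  linarith

theorem pf_card_le (Mc : 𝔉.Msk) (F : 𝔉.Fs) : (Mc.E.card : ℝ) ≤ ((Mc.add F).E.card : ℝ) :=
  Nat.cast_le.2 (Finset.card_le_card Finset.subset_union_left)

/-- **one mark, general weight** `ω` (a function of the heights off the interior) -/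
theorem pf_mark_gen (hM : Mc.Sp) (hI : I ⊆ Mc.A) (hd : Mc.New F) (hχ : 0 ≤ χ) (hβ : 0 < β) {b b₀ : ℝ} (hb : 0 < b) (hb₀ : 0 < b₀)
    (ω : 𝔉.Ht → ℝ) (hω : 𝔉.Inv I ω) (hω0 : ∀ h, 0 ≤ ω h) (hωb : 𝔉.Bdd ω) (C1 C2 : ℝ)
    (h1 : ∀ h, ω h * (2 * β) / ((pfR Mc I F χ D b h + β) * (pfR Mc I F χ D b₀ h + β)) ≤ C1)
    (h2 : ∀ h, ω h * (2 * β) / ((pfR Mc I F χ D b h + β) * (pfR Mc I F χ D b₀ h + β)) * pfR Mc I F χ D b h ≤ C2) :
    (Mc.at1 b₀).Z (D.atB _) (fun h => ω h * |pfD Mc I F χ β D b h - pfD Mc I F χ β D b₀ h|)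
      ≤ (C2 * (Mc.at1 b₀).Z0 + χ * C1 * ((Mc.add F).at1 b₀).Z0) * pfe ((Mc.add F).E.card) |b - b₀| := by
  classical
  set ρ : 𝔉.Ht → ℝ := pfR Mc I F χ D b with hρ
  set ρ' : 𝔉.Ht → ℝ := pfR Mc I F χ D b₀ with hρ'
  have r0 : ∀ h, 0 ≤ ρ h := pf_R_nonneg D hM hI hχ b hb
  have r0' : ∀ h, 0 ≤ ρ' h := pf_R_nonneg D hM hI hχ b₀ hb₀
  have rl : ∀ h, ρ h ≤ χ := pf_R_le D hM hI hχ b hb
  have rl' : ∀ h, ρ' h ≤ χ := pf_R_le D hM hI hχ b₀ hb₀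
  have ri : 𝔉.Inv I ρ := pf_R_inv D b
  have ri' : 𝔉.Inv I ρ' := pf_R_inv D b₀
  set sg : 𝔉.Ht → ℝ := fun h => if ρ' h ≤ ρ h then 1 else -1 with hsg
  set w : 𝔉.Ht → ℝ := fun h => ω h * (2 * β) / ((ρ h + β) * (ρ' h + β)) with hw
  set g : 𝔉.Ht → ℝ := fun h => sg h * w h with hg
  have w0 : ∀ h, 0 ≤ w h := fun h => div_nonneg (mul_nonneg (hω0 h) (by positivity))
    (mul_nonneg (by linarith [r0 h]) (by linarith [r0' h]))
  have sgabs : ∀ h, |sg h| = 1 := fun h => by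
    simp only [hsg]
    split_ifs <;> simp
  have sgmul : ∀ h, sg h * (ρ h - ρ' h) = |ρ h - ρ' h| := fun h => by
    simp only [hsg]
    split_ifs with hc
    · rw [one_mul, abs_of_nonneg (by linarith)]
    · rw [abs_of_neg (by linarith)]; ring
  have gabs : ∀ h, |g h| ≤ C1 := fun h => by
    simp only [hg]
    rw [abs_mul, sgabs, one_mul, abs_of_nonneg (w0 h)]
    exact h1 h
  have grabs : ∀ h, |g h * ρ h| ≤ C2 := fun h => by
    simp only [hg]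
    rw [abs_mul, abs_mul, sgabs, one_mul, abs_of_nonneg (w0 h), abs_of_nonneg (r0 h)]
    exact h2 h
  have ginv : 𝔉.Inv I g := fun h n hn => by
    simp only [hg, hsg, hw]
    rw [ri h n hn, ri' h n hn, hω h n hn]
  have gb : 𝔉.Bdd g := ⟨C1, gabs⟩
  have grb : 𝔉.Bdd fun h => g h * ρ h := ⟨C2, grabs⟩
  have grb' : 𝔉.Bdd fun h => g h * ρ' h := nm_bdd_mul gb ⟨χ, fun h => by rw [abs_of_nonneg (r0' h)]; exact rl' h⟩
  have hOk := pf_ok Mc hM b₀ hb₀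
  -- pointwise bound
  have hpt : ∀ h, ω h * |pfD Mc I F χ β D b h - pfD Mc I F χ β D b₀ h| ≤ g h * ρ h + (-1) * (g h * ρ' h) := fun h => by
    have e := pf_dlt_elem (ρ h) (ρ' h) β (r0 h) (r0' h) hβ
    rw [pf_D_eq, pf_D_eq]
    have e2 : g h * ρ h + (-1) * (g h * ρ' h) = ω h * (2 * β * |ρ h - ρ' h| / ((ρ h + β) * (ρ' h + β))) := by
      have : g h * ρ h + (-1) * (g h * ρ' h) = w h * (sg h * (ρ h - ρ' h)) := by simp only [hg]; ring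
      rw [this, sgmul]
      simp only [hw]
      ring
    rw [e2]
    exact mul_le_mul_of_nonneg_left e (hω0 h)
  have hDb : ∀ t, 0 < t → ∀ h, |pfD Mc I F χ β D t h| ≤ 1 := fun t ht h => by
    obtain ⟨a1, a2⟩ := nm_dlt_mem (Mc.at1 t) (pf_ok Mc hM t ht) I hI F (fun _ _ => ht) χ β hχ hβ.le (D.atB _) h
    have a1' : 0 ≤ pfD Mc I F χ β D t h := a1
    exact abs_le.2 ⟨by linarith, a2⟩
  have hlb : 𝔉.Bdd fun h => ω h * |pfD Mc I F χ β D b h - pfD Mc I F χ β D b₀ h| :=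
    nm_bdd_mul hωb ⟨2, fun h => by
      rw [abs_abs]
      have a1 := abs_le.1 (hDb b hb h)
      have a2 := abs_le.1 (hDb b₀ hb₀ h)
      exact abs_le.2 ⟨by linarith [a1.1, a2.2], by linarith [a1.2, a2.1]⟩⟩
  have s1 := fk_Z_mono (Mc.at1 b₀) hOk (D.atB _) _ _ hlb
    (show 𝔉.Bdd fun h => g h * ρ h + (-1) * (g h * ρ' h) from by
      obtain ⟨A1, hA1⟩ := grb
      obtain ⟨A2, hA2⟩ := grb'
      exact ⟨A1 + A2, fun h => by
        have a1 := abs_le.1 (hA1 h)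
        have a2 := abs_le.1 (hA2 h)
        exact abs_le.2 ⟨by linarith [a1.1, a2.2], by linarith [a1.2, a2.1]⟩⟩) hpt
  have s2 : (Mc.at1 b₀).Z (D.atB _) (fun h => g h * ρ h + (-1) * (g h * ρ' h))
      = (Mc.at1 b₀).Z (D.atB _) (fun h => g h * ρ h) - (Mc.at1 b₀).Z (D.atB _) (fun h => g h * ρ' h) := by
    rw [fk_Z_add (Mc.at1 b₀) hOk (D.atB _) (fun h => g h * ρ h) (fun h => (-1) * (g h * ρ' h)) grb
      (nm_bdd_mul (nm_bdd_const _) grb'), fk_Z_smul]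
    ring
  have m1 : (Mc.at1 b₀).Z (D.atB _) (fun h => g h * ρ' h) = χ * ((Mc.add F).at1 b₀).Z (D.atB _) g :=
    pf_markov D hM hI hd b₀ hb₀ g gb ginv
  have m2 : (Mc.at1 b).Z (D.atB _) (fun h => g h * ρ h) = χ * ((Mc.add F).at1 b).Z (D.atB _) g :=
    pf_markov D hM hI hd b hb g gb ginv
  have t1 := (abs_le.1 (pf_Z_sub Mc hM D (fun h => g h * ρ h) C2 grabs hb hb₀)).1
  have t2 := (abs_le.1 (pf_Z_sub (Mc.add F) (fc_sp_add Mc hM F) D g C1 gabs hb hb₀)).2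
  have hC2 : 0 ≤ C2 := (abs_nonneg _).trans (grabs 0)
  have z0 := (pf_Z0_pos Mc hM b₀ hb₀).le
  have em := pf_e_mono (pf_card_le Mc F) (abs_nonneg (b - b₀))
  have t1' : C2 * pfe (Mc.E.card) |b - b₀| * (Mc.at1 b₀).Z0 ≤ C2 * pfe ((Mc.add F).E.card) |b - b₀| * (Mc.at1 b₀).Z0 :=
    mul_le_mul_of_nonneg_right (mul_le_mul_of_nonneg_left em hC2) z0
  have t2' := mul_le_mul_of_nonneg_left t2 hχ
  unfold pfe at t1' ⊢
  rw [s2, m1] at s1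
  rw [m2] at t1
  nlinarith

theorem pf_D_mem (hM : Mc.Sp) (hI : I ⊆ Mc.A) (hχ : 0 ≤ χ) (hβ : 0 ≤ β) (t : ℝ) (ht : 0 < t) (h : 𝔉.Ht) :
    0 ≤ pfD Mc I F χ β D t h ∧ pfD Mc I F χ β D t h ≤ 1 :=
  nm_dlt_mem (Mc.at1 t) (pf_ok Mc hM t ht) I hI F (fun _ _ => ht) χ β hχ hβ (D.atB _) h

theorem pf_D_inv (t : ℝ) : 𝔉.Inv I (pfD Mc I F χ β D t) := nm_dlt_inv_self (Mc.at1 t) I F χ β (D.atB _)

theorem pf_D_sub_abs (hM : Mc.Sp) (hI : I ⊆ Mc.A) (hχ : 0 ≤ χ) (hβ : 0 ≤ β) {b b₀ : ℝ} (hb : 0 < b) (hb₀ : 0 < b₀) (h : 𝔉.Ht) :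
    |pfD Mc I F χ β D b h - pfD Mc I F χ β D b₀ h| ≤ 1 := by
  obtain ⟨a1, a2⟩ := pf_D_mem D hM hI hχ hβ b hb h (F := F)
  obtain ⟨a3, a4⟩ := pf_D_mem D hM hI hχ hβ b₀ hb₀ h (F := F)
  exact abs_le.2 ⟨by linarith, by linarith⟩

/-- **one mark, the ambient topology is CUT at the mark** -/
theorem pf_mark_cut (hM : Mc.Sp) (hI : I ⊆ Mc.A) (hd : Mc.New F) (hχ : 0 ≤ χ) (hβ : 0 < β) {b b₀ : ℝ} (hb : 0 < b) (hb₀ : 0 < b₀) :
    (Mc.at1 b₀).Z (D.atB _) (fun h => |pfD Mc I F χ β D b h - pfD Mc I F χ β D b₀ h|)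
      ≤ 2 * ((Mc.at1 b₀).Z0 + χ / β * ((Mc.add F).at1 b₀).Z0) * pfe ((Mc.add F).E.card) |b - b₀| := by
  have r0 : ∀ h, 0 ≤ pfR Mc I F χ D b h := pf_R_nonneg D hM hI hχ b hb
  have r0' : ∀ h, 0 ≤ pfR Mc I F χ D b₀ h := pf_R_nonneg D hM hI hχ b₀ hb₀
  have key := pf_mark_gen D hM hI hd hχ hβ hb hb₀ (fun _ => 1) (nm_inv_const I 1) (fun _ => zero_le_one) (nm_bdd_const 1) (2 / β) 2
    (fun h => by
      have p1 : 0 < pfR Mc I F χ D b h + β := by linarith [r0 h]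
      have p2 : 0 < pfR Mc I F χ D b₀ h + β := by linarith [r0' h]
      rw [div_le_div_iff₀ (mul_pos p1 p2) hβ]
      nlinarith [mul_nonneg (r0 h) (r0' h), mul_nonneg (r0 h) hβ.le, mul_nonneg (r0' h) hβ.le])
    (fun h => by
      have p1 : 0 < pfR Mc I F χ D b h + β := by linarith [r0 h]
      have p2 : 0 < pfR Mc I F χ D b₀ h + β := by linarith [r0' h]
      rw [div_mul_eq_mul_div, div_le_iff₀ (mul_pos p1 p2)]
      nlinarith [mul_nonneg (r0 h) (r0' h), mul_nonneg (r0 h) hβ.le, mul_nonneg (r0' h) hβ.le, mul_pos hβ hβ])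
  simp only [one_mul] at key
  refine key.trans (le_of_eq ?_)
  ring

/-- **one mark, the ambient topology is OPEN at the mark** -/
theorem pf_mark_open (hM : Mc.Sp) (hI : I ⊆ Mc.A) (hd : Mc.New F) (hχ : 0 < χ) (hβ : 0 < β) {b b₀ : ℝ} (hb : 0 < b) (hb₀ : 0 < b₀) :
    ((Mc.add F).at1 b₀).Z (D.atB _) (fun h => |pfD Mc I F χ β D b h - pfD Mc I F χ β D b₀ h|)
      ≤ 2 * (β / χ * (Mc.at1 b₀).Z0 + ((Mc.add F).at1 b₀).Z0) * pfe ((Mc.add F).E.card) |b - b₀| := by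
  have r0 : ∀ h, 0 ≤ pfR Mc I F χ D b h := pf_R_nonneg D hM hI hχ.le b hb
  have r0' : ∀ h, 0 ≤ pfR Mc I F χ D b₀ h := pf_R_nonneg D hM hI hχ.le b₀ hb₀
  have key := pf_mark_gen D hM hI hd hχ.le hβ hb hb₀ (pfR Mc I F χ D b₀) (pf_R_inv D b₀) r0'
    ⟨χ, fun h => by rw [abs_of_nonneg (r0' h)]; exact pf_R_le D hM hI hχ.le b₀ hb₀ h⟩ 2 (2 * β)
    (fun h => by
      have p1 : 0 < pfR Mc I F χ D b h + β := by linarith [r0 h]
      have p2 : 0 < pfR Mc I F χ D b₀ h + β := by linarith [r0' h]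
      rw [div_le_iff₀ (mul_pos p1 p2)]
      nlinarith [mul_nonneg (r0 h) (r0' h), mul_nonneg (r0 h) hβ.le, mul_nonneg (r0' h) hβ.le, mul_pos hβ hβ])
    (fun h => by
      have p1 : 0 < pfR Mc I F χ D b h + β := by linarith [r0 h]
      have p2 : 0 < pfR Mc I F χ D b₀ h + β := by linarith [r0' h]
      rw [div_mul_eq_mul_div, div_le_iff₀ (mul_pos p1 p2)]
      nlinarith [mul_nonneg (mul_nonneg (r0 h) (r0' h)) hβ.le, mul_nonneg (mul_nonneg (r0 h) hβ.le) hβ.le,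
        mul_nonneg (mul_nonneg (r0' h) hβ.le) hβ.le, mul_pos (mul_pos hβ hβ) hβ])
  have hinv : 𝔉.Inv I fun h => |pfD Mc I F χ β D b h - pfD Mc I F χ β D b₀ h| := fun h n hn => by
    show |pfD Mc I F χ β D b (h + n) - pfD Mc I F χ β D b₀ (h + n)| = _
    rw [pf_D_inv D b h n hn, pf_D_inv D b₀ h n hn]
  have m := pf_markov (χ := χ) D hM hI hd b₀ hb₀ (fun h => |pfD Mc I F χ β D b h - pfD Mc I F χ β D b₀ h|)
    ⟨1, fun h => by rw [abs_abs]; exact pf_D_sub_abs D hM hI hχ.le hβ.le hb hb₀ h⟩ hinv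
  have e : (fun h => pfR Mc I F χ D b₀ h * |pfD Mc I F χ β D b h - pfD Mc I F χ β D b₀ h|)
      = fun h => |pfD Mc I F χ β D b h - pfD Mc I F χ β D b₀ h| * pfR Mc I F χ D b₀ h := funext fun h => mul_comm _ _
  rw [e, m] at key
  have e2 : 2 * (β / χ * (Mc.at1 b₀).Z0 + ((Mc.add F).at1 b₀).Z0) * pfe ((Mc.add F).E.card) |b - b₀|
      = (2 * β * (Mc.at1 b₀).Z0 + χ * 2 * ((Mc.add F).at1 b₀).Z0) * pfe ((Mc.add F).E.card) |b - b₀| / χ := by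
    field_simp
  rw [e2, le_div_iff₀ hχ, mul_comm]
  exact key

end mark

/-! ## 3. Many marks -/

theorem pf_prod_sub {κ : Type*} (K : Finset κ) (a a' : κ → ℝ) (h : ∀ k ∈ K, 0 ≤ a k ∧ a k ≤ 1) (h' : ∀ k ∈ K, 0 ≤ a' k ∧ a' k ≤ 1) :
    |∏ k ∈ K, a k - ∏ k ∈ K, a' k| ≤ ∑ k ∈ K, |a k - a' k| := by
  classical
  induction K using Finset.induction_on with
  | empty => simp
  | insert k K hk ih =>
    rw [Finset.prod_insert hk, Finset.prod_insert hk, Finset.sum_insert hk]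
    have ih' := ih (fun j hj => h j (Finset.mem_insert_of_mem hj)) fun j hj => h' j (Finset.mem_insert_of_mem hj)
    have p1 : 0 ≤ ∏ j ∈ K, a j := Finset.prod_nonneg fun j hj => (h j (Finset.mem_insert_of_mem hj)).1
    have p2 : ∏ j ∈ K, a j ≤ 1 := Finset.prod_le_one (fun j hj => (h j (Finset.mem_insert_of_mem hj)).1)
      fun j hj => (h j (Finset.mem_insert_of_mem hj)).2
    obtain ⟨q1, q2⟩ := h' k (Finset.mem_insert_self k K)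
    have e : a k * ∏ j ∈ K, a j - a' k * ∏ j ∈ K, a' j = (a k - a' k) * ∏ j ∈ K, a j + a' k * (∏ j ∈ K, a j - ∏ j ∈ K, a' j) := by ring
    rw [e]
    refine (abs_add_le _ _).trans (add_le_add ?_ ?_)
    · rw [abs_mul, abs_of_nonneg p1]
      exact mul_le_of_le_one_right (abs_nonneg _) p2
    · rw [abs_mul, abs_of_nonneg q1]
      exact (mul_le_of_le_one_left (abs_nonneg _) q2).trans ih'

/-- **many marks** (every mark has its own mask `M k`: the cut open patch) -/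
theorem pf_marks (T : 𝔉.Msk) (hT : T.Sp) {κ : Type} (K : Finset κ) (M : κ → 𝔉.Msk) (hM : ∀ k ∈ K, (M k).Sp) (I : κ → Finset 𝔉.V)
    (hI : ∀ k ∈ K, I k ⊆ (M k).A) (F : κ → 𝔉.Fs) (χ β : κ → ℝ) (hχ : ∀ k ∈ K, 0 ≤ χ k) (hβ : ∀ k ∈ K, 0 ≤ β k) (D : 𝔉.Dat)
    {b b₀ : ℝ} (hb : 0 < b) (hb₀ : 0 < b₀) :
    |(T.at1 b).Z (D.atB _) (fun h => ∏ k ∈ K, pfD (M k) (I k) (F k) (χ k) (β k) D b h)
        - (T.at1 b₀).Z (D.atB _) (fun h => ∏ k ∈ K, pfD (M k) (I k) (F k) (χ k) (β k) D b₀ h)|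
      ≤ pfe T.E.card |b - b₀| * (T.at1 b₀).Z0
        + ∑ k ∈ K, (T.at1 b₀).Z (D.atB _) fun h => |pfD (M k) (I k) (F k) (χ k) (β k) D b h - pfD (M k) (I k) (F k) (χ k) (β k) D b₀ h| := by
  have mem : ∀ t, 0 < t → ∀ h, ∀ k ∈ K, 0 ≤ pfD (M k) (I k) (F k) (χ k) (β k) D t h ∧ pfD (M k) (I k) (F k) (χ k) (β k) D t h ≤ 1 :=
    fun t ht h k hk => pf_D_mem D (hM k hk) (hI k hk) (hχ k hk) (hβ k hk) t ht h
  have pb : ∀ t, 0 < t → ∀ h, |∏ k ∈ K, pfD (M k) (I k) (F k) (χ k) (β k) D t h| ≤ 1 := fun t ht h => by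
    rw [abs_of_nonneg (Finset.prod_nonneg fun k hk => (mem t ht h k hk).1)]
    exact Finset.prod_le_one (fun k hk => (mem t ht h k hk).1) fun k hk => (mem t ht h k hk).2
  have hOk := pf_ok T hT b₀ hb₀
  have s1 := pf_Z_sub T hT D (fun h => ∏ k ∈ K, pfD (M k) (I k) (F k) (χ k) (β k) D b h) 1 (pb b hb) hb hb₀
  rw [one_mul] at s1
  have bd : ∀ k ∈ K, 𝔉.Bdd fun h => |pfD (M k) (I k) (F k) (χ k) (β k) D b h - pfD (M k) (I k) (F k) (χ k) (β k) D b₀ h| :=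
    fun k hk => ⟨1, fun h => by rw [abs_abs]; exact pf_D_sub_abs D (hM k hk) (hI k hk) (hχ k hk) (hβ k hk) hb hb₀ h⟩
  have b1 : 𝔉.Bdd fun h => ∏ k ∈ K, pfD (M k) (I k) (F k) (χ k) (β k) D b h := ⟨1, pb b hb⟩
  have b2 : 𝔉.Bdd fun h => ∏ k ∈ K, pfD (M k) (I k) (F k) (χ k) (β k) D b₀ h := ⟨1, pb b₀ hb₀⟩
  have b3 : 𝔉.Bdd fun h => ∑ k ∈ K, |pfD (M k) (I k) (F k) (χ k) (β k) D b h - pfD (M k) (I k) (F k) (χ k) (β k) D b₀ h| :=
    ⟨K.card, fun h => by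
      rw [abs_of_nonneg (Finset.sum_nonneg fun _ _ => abs_nonneg _)]
      calc _ ≤ ∑ _k ∈ K, (1 : ℝ) := Finset.sum_le_sum fun k hk => pf_D_sub_abs D (hM k hk) (hI k hk) (hχ k hk) (hβ k hk) hb hb₀ h
        _ = _ := by simp⟩
  have e1 : (T.at1 b₀).Z (D.atB _) (fun h => ∏ k ∈ K, pfD (M k) (I k) (F k) (χ k) (β k) D b h)
      - (T.at1 b₀).Z (D.atB _) (fun h => ∏ k ∈ K, pfD (M k) (I k) (F k) (χ k) (β k) D b₀ h)
      = (T.at1 b₀).Z (D.atB _) (fun h => ∏ k ∈ K, pfD (M k) (I k) (F k) (χ k) (β k) D b h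
          + (-1) * ∏ k ∈ K, pfD (M k) (I k) (F k) (χ k) (β k) D b₀ h) := by
    rw [fk_Z_add (T.at1 b₀) hOk (D.atB _) _ (fun h => (-1) * ∏ k ∈ K, pfD (M k) (I k) (F k) (χ k) (β k) D b₀ h) b1
      (nm_bdd_mul (nm_bdd_const _) b2), fk_Z_smul]
    ring
  have b4 : 𝔉.Bdd fun h => ∏ k ∈ K, pfD (M k) (I k) (F k) (χ k) (β k) D b h
      + (-1) * ∏ k ∈ K, pfD (M k) (I k) (F k) (χ k) (β k) D b₀ h :=
    ⟨2, fun h => by
      have a1 := abs_le.1 (pb b hb h)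
      have a2 := abs_le.1 (pb b₀ hb₀ h)
      exact abs_le.2 ⟨by linarith [a1.1, a2.2], by linarith [a1.2, a2.1]⟩⟩
  have s2 : |(T.at1 b₀).Z (D.atB _) (fun h => ∏ k ∈ K, pfD (M k) (I k) (F k) (χ k) (β k) D b h)
      - (T.at1 b₀).Z (D.atB _) (fun h => ∏ k ∈ K, pfD (M k) (I k) (F k) (χ k) (β k) D b₀ h)|
      ≤ ∑ k ∈ K, (T.at1 b₀).Z (D.atB _) fun h => |pfD (M k) (I k) (F k) (χ k) (β k) D b h - pfD (M k) (I k) (F k) (χ k) (β k) D b₀ h| := by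
    rw [e1, ← fk_Z_sum (T.at1 b₀) hOk (D.atB _) K _ bd]
    refine (fk_Z_abs (T.at1 b₀) hOk (D.atB _) _ b4).trans ?_
    refine fk_Z_mono (T.at1 b₀) hOk (D.atB _) _ _ (fk_alg_bdd_abs _ b4) b3 fun h => ?_
    have := pf_prod_sub K (fun k => pfD (M k) (I k) (F k) (χ k) (β k) D b h) (fun k => pfD (M k) (I k) (F k) (χ k) (β k) D b₀ h)
      (mem b hb h) (mem b₀ hb₀ h)
    have e3 : ∏ k ∈ K, pfD (M k) (I k) (F k) (χ k) (β k) D b h + (-1) * ∏ k ∈ K, pfD (M k) (I k) (F k) (χ k) (β k) D b₀ h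
        = ∏ k ∈ K, pfD (M k) (I k) (F k) (χ k) (β k) D b h - ∏ k ∈ K, pfD (M k) (I k) (F k) (χ k) (β k) D b₀ h := by ring
    rw [e3]
    exact this
  have tri := abs_sub_le ((T.at1 b).Z (D.atB _) (fun h => ∏ k ∈ K, pfD (M k) (I k) (F k) (χ k) (β k) D b h))
    ((T.at1 b₀).Z (D.atB _) (fun h => ∏ k ∈ K, pfD (M k) (I k) (F k) (χ k) (β k) D b h))
    ((T.at1 b₀).Z (D.atB _) (fun h => ∏ k ∈ K, pfD (M k) (I k) (F k) (χ k) (β k) D b₀ h))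
  refine tri.trans (add_le_add ?_ s2)
  exact s1

/-! ## 4. (T1) ratios of centred sums -/

theorem pf_Z0_le' (M : 𝔉.Msk) (hM : M.Sp) {b b₀ : ℝ} (hb : 0 < b) (hb₀ : 0 < b₀) (n : ℕ) (hn : M.E.card ≤ n) :
    (M.at1 b).Z0 ≤ Real.exp ((n : ℝ) * |b - b₀|) * (M.at1 b₀).Z0 := by
  refine (pf_Z0_le M hM hb hb₀).trans (mul_le_mul_of_nonneg_right ?_ (pf_Z0_pos M hM b₀ hb₀).le)
  exact Real.exp_le_exp.2 (mul_le_mul_of_nonneg_right (Nat.cast_le.2 hn) (abs_nonneg _))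

/-- a ratio of two centred sums -/
theorem pf_ratio_le (M M' : 𝔉.Msk) (hM : M.Sp) (hM' : M'.Sp) {b b₀ : ℝ} (hb : 0 < b) (hb₀ : 0 < b₀) (n : ℕ) (hn : M.E.card ≤ n) (hn' : M'.E.card ≤ n) :
    (M.at1 b).Z0 / (M'.at1 b).Z0 ≤ Real.exp (2 * ((n : ℝ) * |b - b₀|)) * ((M.at1 b₀).Z0 / (M'.at1 b₀).Z0) := by
  have h1 := pf_Z0_le' M hM hb hb₀ n hn
  have h2 := pf_Z0_le' M' hM' hb₀ hb n hn'
  rw [abs_sub_comm] at h2
  have p1 := pf_Z0_pos M' hM' b hb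
  have p2 := pf_Z0_pos M' hM' b₀ hb₀
  have p3 := pf_Z0_pos M hM b₀ hb₀
  set u := Real.exp ((n : ℝ) * |b - b₀|) with hu
  have e : Real.exp (2 * ((n : ℝ) * |b - b₀|)) = u * u := by rw [hu, ← Real.exp_add]; congr 1; ring
  have hu0 : 0 < u := Real.exp_pos _
  rw [e, ← mul_div_assoc, div_le_div_iff₀ p1 p2]
  calc (M.at1 b).Z0 * (M'.at1 b₀).Z0 ≤ (u * (M.at1 b₀).Z0) * (u * (M'.at1 b).Z0) :=
        mul_le_mul h1 h2 p2.le (mul_pos hu0 p3).le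
    _ = _ := by ring

/-- the centred restoration ratio -/
theorem pf_T_le (M : 𝔉.Msk) (hM : M.Sp) (F : 𝔉.Fs) {b b₀ : ℝ} (hb : 0 < b) (hb₀ : 0 < b₀) (n : ℕ) (hn : (M.E ∪ F.1).card ≤ n) :
    (M.at1 b).T F ≤ Real.exp (2 * ((n : ℝ) * |b - b₀|)) * (M.at1 b₀).T F :=
  pf_ratio_le (M.add F) M (fc_sp_add M hM F) hM hb hb₀ n hn ((Finset.card_le_card Finset.subset_union_left).trans hn)

/-- the centred probability of a zero pin -/
theorem pf_P_le (M : 𝔉.Msk) (hM : M.Sp) (B : Finset 𝔉.V) {b b₀ : ℝ} (hb : 0 < b) (hb₀ : 0 < b₀) (n : ℕ) (hn : M.E.card ≤ n) :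
    (M.at1 b).P B ≤ Real.exp (2 * ((n : ℝ) * |b - b₀|)) * (M.at1 b₀).P B :=
  pf_ratio_le (M.pin B) M (fc_sp_pin M hM B) hM hb hb₀ n hn hn

/-- (T1) the centred pin interaction -/
theorem pf_xPin_le (M : 𝔉.Msk) (hM : M.Sp) (H q : Finset 𝔉.V) {b b₀ : ℝ} (hb : 0 < b) (hb₀ : 0 < b₀) (n : ℕ) (hn : M.E.card ≤ n) :
    (M.at1 b).xPin H q ≤ Real.exp (4 * ((n : ℝ) * |b - b₀|)) * (M.at1 b₀).xPin H q := by
  have h1 := pf_ratio_le (M.pin (H ∪ q)) (M.pin H) (fc_sp_pin M hM _) (fc_sp_pin M hM _) hb hb₀ n hn hn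
  have h2 := pf_ratio_le M (M.pin q) hM (fc_sp_pin M hM _) hb hb₀ n hn hn
  have e : ∀ t, (M.at1 t).xPin H q = ((M.pin (H ∪ q)).at1 t).Z0 / ((M.pin H).at1 t).Z0 * ((M.at1 t).Z0 / ((M.pin q).at1 t).Z0) := by
    intro t
    show ((M.pin (H ∪ q)).at1 t).Z0 * (M.at1 t).Z0 / (((M.pin H).at1 t).Z0 * ((M.pin q).at1 t).Z0) = _
    rw [mul_div_mul_comm]
  have p1 : 0 ≤ (M.at1 b).Z0 / ((M.pin q).at1 b).Z0 := (div_pos (pf_Z0_pos M hM b hb) (pf_Z0_pos _ (fc_sp_pin M hM _) b hb)).le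
  have p2 : 0 ≤ ((M.pin (H ∪ q)).at1 b₀).Z0 / ((M.pin H).at1 b₀).Z0 :=
    (div_pos (pf_Z0_pos _ (fc_sp_pin M hM _) b₀ hb₀) (pf_Z0_pos _ (fc_sp_pin M hM _) b₀ hb₀)).le
  have e4 : Real.exp (4 * ((n : ℝ) * |b - b₀|)) = Real.exp (2 * ((n : ℝ) * |b - b₀|)) * Real.exp (2 * ((n : ℝ) * |b - b₀|)) := by
    rw [← Real.exp_add]; congr 1; ring
  rw [e, e, e4]
  calc _ ≤ (Real.exp (2 * ((n : ℝ) * |b - b₀|)) * (((M.pin (H ∪ q)).at1 b₀).Z0 / ((M.pin H).at1 b₀).Z0))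
        * (Real.exp (2 * ((n : ℝ) * |b - b₀|)) * ((M.at1 b₀).Z0 / ((M.pin q).at1 b₀).Z0)) :=
        mul_le_mul h1 h2 p1 (mul_nonneg (Real.exp_pos _).le p2)
    _ = _ := by ring

/-- Stores the on-demand equation lemmas of the definitions above in THIS module (rule 6 hygiene). -/
theorem pf_forced : True := by
  have := @pfw.eq_1
  have := @Fac.Msk.at1.eq_1
  have := @Fac.Dat.atB.eq_1
  have := @pfS.eq_1
  have := @pfR.eq_1
  have := @pfD.eq_1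
  have := @pfe.eq_1
  trivial

end

end Claimed.Agent.R285.Entry
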