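import Claimed.Agent.R285.Entry.PertCrude
import Claimed.Agent.R285.Entry.PertPhy

/-!
# ROW 285, ENTRY, BP-ENT-PERT (#17078): THE GEOMETRY OF A RETAINED MARK IN A PIECE      (helper221)

Prefix `pg_`.   `θ : Cut c` arbitrary, `T_O = θ.piece (halTop c R S O) b`, `k ∈ θ.keptB R S b` (the testing patch of `k` lies in the box `b` and contains no removed face).
* `pg_ok`, `pg_tp_sub`, `pg_restr` : the piece is a topology, contains the testing patch and shows there the halo topology.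
* `pg_patch` : `T_O.restr (patch k) = topO k` / `topC k`  (`NGeo.tst`).       `pg_sep` : a face of the piece which starts in `inner k` ends in `patch k`  (`NGeo.tp_cl`).
* `pg_glue` : `T_{insert k O} = ⟨T_O.cells, T_O.faces ∪ cutF k⟩` for `k ∉ O`.
* **`pg_mark`** : for every representation `Y` (`Y.Ok`): the masks `Mc = Y.M T_{O \ k}`, `Mo = Y.M T_{O ∪ k} = Mc.add (evF k)`, the bracket `Brk (Y.M (topC k)) Mc (evG k) (evI k)`, `Mc.New (evF k)`.
* `pg_patch_glue` : `Y.M (topO k) = (Y.M (topC k)).add (evF k)`.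
-/

set_option autoImplicit false

namespace Claimed.Agent.R285.Entry

open scoped BigOperators
open Claimed.Agent.R285 Claimed.Agent.R285.RG Claimed.Agent.R285.F4a Claimed.Agent.R285.Ent Fac

noncomputable section

variable {G : Geom} {c : Grid G}

/-! ## 1. Topologies -/

theorem pg_mem_keptB {θ : Cut c} {R : ℕ} {S : Finset EvId} {b : ℕ × ℕ} {k : EvId} : k ∈ θ.keptB R S b ↔ k ∈ S ∧ θ.DeepIn R k b := by
  classical
  simp only [Cut.keptB, Finset.mem_filter]

theorem pg_ok (θ : Cut c) (R : ℕ) (S O : Finset EvId) (b : ℕ × ℕ) : (θ.piece (halTop c R S O) b).Ok :=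
  nt_ok_restr _ (nt_ok_cut _ (nt_ok_halTop R S O) _) _

theorem pg_cells (θ : Cut c) (R : ℕ) (S O : Finset EvId) (b : ℕ × ℕ) : (θ.piece (halTop c R S O) b).cells = halC c R S ∩ θ.box b := by
  simp [Cut.piece, Top.restr, Top.cut, halTop, topU, Top.full]

theorem pg_tp_sub {R : ℕ} (hg : NGeo c R) {θ : Cut c} {S : Finset EvId} (O : Finset EvId) {b : ℕ × ℕ} {k : EvId} (hk : k ∈ θ.keptB R S b) :
    tpatch c R k ⊆ (θ.piece (halTop c R S O) b).cells := by
  obtain ⟨hkS, hd⟩ := pg_mem_keptB.1 hk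
  rw [pg_cells]
  intro i hi
  refine Finset.mem_inter.2 ⟨hg.tp_halC S k (Finset.mem_union_left _ hkS) hi, ?_⟩
  simp only [Cut.box, Finset.mem_filter, Finset.mem_univ, true_and]
  exact hd.1 i hi

/-- inside the testing patch of a deep mark the piece shows the uncut topology -/
theorem pg_restr {θ : Cut c} {R : ℕ} {b : ℕ × ℕ} {k : EvId} (hd : θ.DeepIn R k b) (T : Top c) {A : Finset c.I} (hA : A ⊆ tpatch c R k) :
    (θ.piece T b).restr A = T.restr A := by
  have hbox : ∀ i ∈ A, i ∈ θ.box b := fun i hi => by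
    simp only [Cut.box, Finset.mem_filter, Finset.mem_univ, true_and]
    exact hd.1 i (hA hi)
  unfold Cut.piece Top.restr Top.cut
  congr 1
  · ext i
    simp only [Finset.mem_inter]
    exact ⟨fun h => ⟨h.1.1, h.2⟩, fun h => ⟨⟨h.1, hbox i h.2⟩, h.2⟩⟩
  · ext f
    simp only [Finset.mem_filter, Finset.mem_sdiff]
    constructor
    · rintro ⟨⟨⟨h1, -⟩, -⟩, h3⟩
      exact ⟨h1, h3⟩
    · rintro ⟨h1, h3⟩
      refine ⟨⟨⟨h1, fun hs => ?_⟩, hbox _ h3.1, hbox _ h3.2⟩, h3⟩
      exact (hd.2 f hs).elim (fun h' => h' (hA h3.1)) fun h' => h' (hA h3.2)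

/-- the open patch of a retained mark in the piece -/
theorem pg_patch {R : ℕ} (hg : NGeo c R) {θ : Cut c} {S O : Finset EvId} (hS : Valid c R S) (hO : O ⊆ S) {b : ℕ × ℕ} {k : EvId} (hk : k ∈ θ.keptB R S b) :
    (θ.piece (halTop c R S O) b).restr (patch c R k) = if k ∈ O then topO c R k else topC c R k := by
  obtain ⟨hkS, hd⟩ := pg_mem_keptB.1 hk
  rw [pg_restr hd _ (pcr_patch_sub R k), ← nt_restr_restr_of_sub _ (pcr_patch_sub R k), hg.tst S O hS hO k hkS]
  split_ifs
  · exact nt_restr_restr_of_sub _ (pcr_patch_sub R k)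
  · exact nt_restr_restr_of_sub _ (pcr_patch_sub R k)

theorem pg_inner_sub_tp (R : ℕ) (k : EvId) : inner c R k ⊆ tpatch c R k := (nt_dl_inner_sub R k).trans (pcr_patch_sub R k)

theorem pg_piece_faces {θ : Cut c} {T : Top c} {b : ℕ × ℕ} {f : Face c} (hf : f ∈ (θ.piece T b).faces) : f ∈ T.faces := by
  simp only [Cut.piece, Top.restr, Top.cut, Finset.mem_filter, Finset.mem_sdiff] at hf
  exact hf.1.1

/-- a face of the piece which starts in the interior of the guard ends in the patch -/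
theorem pg_sep {R : ℕ} (hg : NGeo c R) {θ : Cut c} {S O : Finset EvId} (hS : Valid c R S) (hO : O ⊆ S) {b : ℕ × ℕ} {k : EvId} (hkS : k ∈ S) :
    ∀ f ∈ (θ.piece (halTop c R S O) b).faces, (f.1 ∈ inner c R k → fnb c f ∈ patch c R k) ∧ (fnb c f ∈ inner c R k → f.1 ∈ patch c R k) := by
  have hr : R / 64 + 1 ≤ R / 32 := by
    obtain ⟨m, hm⟩ := hg.d64
    have := hg.pos
    omega
  intro f hf
  have hf' := pg_piece_faces hf
  have hF := nt_brk_face ((nt_ok_halTop R S O) f hf').1 (core c R k) hr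
  have hcl := hg.tp_cl S O hS hO k hkS f hf'
  exact ⟨fun h => Finset.mem_inter.2 ⟨hF.1 (Finset.mem_inter.1 h).1, hcl.1 (pg_inner_sub_tp R k h)⟩,
    fun h => Finset.mem_inter.2 ⟨hF.2 (Finset.mem_inter.1 h).1, hcl.2 (pg_inner_sub_tp R k h)⟩⟩

/-- restoring the faces of a retained mark in the piece -/
theorem pg_glue {R : ℕ} (hg : NGeo c R) {θ : Cut c} {S O : Finset EvId} (hS : Valid c R S) {b : ℕ × ℕ} {k : EvId} (hk : k ∈ θ.keptB R S b) (hkO : k ∉ O) :
    θ.piece (halTop c R S (insert k O)) b = ⟨(θ.piece (halTop c R S O) b).cells, (θ.piece (halTop c R S O) b).faces ∪ cutF c R k⟩ ∧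
      Disjoint (cutF c R k) (θ.piece (halTop c R S O) b).faces := by
  obtain ⟨hkS, hd⟩ := pg_mem_keptB.1 hk
  have hkU : k ∉ skp c R S ∪ O := fun h => (Finset.mem_union.1 h).elim (fun h' => (Finset.disjoint_left.1 hS.2 hkS) h') hkO
  have hcore : core c R k ⊆ tpatch c R k := (nt_dl_core_sub R k).trans (pcr_patch_sub R k)
  have hcH : core c R k ⊆ halC c R S := hcore.trans (hg.tp_halC S k (Finset.mem_union_left _ hkS))
  obtain ⟨h1, h2⟩ := nt_topU_insert R (skp c R S ∪ O) k (halC c R S) hkU hcH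
  have e : halTop c R S (insert k O) = ⟨(halTop c R S O).cells, (halTop c R S O).faces ∪ cutF c R k⟩ := by
    unfold halTop
    rw [Finset.union_insert, h1]
  refine ⟨?_, ?_⟩
  · rw [e]
    unfold Cut.piece Top.restr Top.cut
    congr 1
    ext f
    simp only [Finset.mem_filter, Finset.mem_sdiff, Finset.mem_union]
    constructor
    · rintro ⟨⟨h3 | h3, h4⟩, h5⟩
      · exact Or.inl ⟨⟨h3, h4⟩, h5⟩
      · exact Or.inr h3
    · rintro (⟨⟨h3, h4⟩, h5⟩ | h3)
      · exact ⟨⟨Or.inl h3, h4⟩, h5⟩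
      · obtain ⟨-, c1, c2⟩ := nt_cutF_core h3
        refine ⟨⟨Or.inr h3, fun hs => (hd.2 f hs).elim (fun h' => h' (hcore c1)) fun h' => h' (hcore c2)⟩, ?_, ?_⟩
        · simp only [Cut.box, Finset.mem_filter, Finset.mem_univ, true_and]
          exact hd.1 _ (hcore c1)
        · simp only [Cut.box, Finset.mem_filter, Finset.mem_univ, true_and]
          exact hd.1 _ (hcore c2)
  · rw [Finset.disjoint_left]
    intro f hf hf'
    exact Finset.disjoint_left.1 h2 hf (pg_piece_faces hf')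

/-! ## 2. Masks -/

variable (Y : Phy c)

/-- glueing in the patch -/
theorem pg_patch_glue (hY : Y.Ok) {k : EvId} (hk : k ∈ events c Y.R) : Y.M (topO c Y.R k) = (Y.M (topC c Y.R k)).add (Y.evF k) := by
  have hin : insert k (pre c Y.R k \ {k}) = pre c Y.R k := by
    rw [Finset.insert_sdiff_self_of_mem (pcr_mem_pre hk)]
  obtain ⟨h1, h2⟩ := nt_topU_insert Y.R (pre c Y.R k \ {k}) k (patch c Y.R k) (fun h => (Finset.mem_sdiff.1 h).2 (Finset.mem_singleton_self k))
    (nt_dl_core_sub Y.R k)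
  rw [hin] at h1
  have hO : (⟨(topC c Y.R k).cells, (topC c Y.R k).faces ∪ cutF c Y.R k⟩ : Top c).Ok := by
    have : (topO c Y.R k).Ok := nt_ok_restr _ (nt_ok_topU _ _) _
    unfold topO at this
    rw [h1] at this
    exact this
  have e : topO c Y.R k = ⟨(topC c Y.R k).cells, (topC c Y.R k).faces ∪ cutF c Y.R k⟩ := h1
  rw [e]
  exact hY.glue _ _ (nt_dl_ok_topC _ _) hO h2

/-- **what the perturbation argument uses about a retained mark `k` of the piece `T`**: `Tc`, `To` = the piece cut / open at the mark -/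
structure PgMark (T Tc To : Top c) (k : EvId) : Prop where
  okc : Tc.Ok
  oko : To.Ok
  cells : To.cells = Tc.cells
  amb : T = Tc ∨ T = To
  glue : Y.M To = (Y.M Tc).add (Y.evF k)
  new : (Y.M Tc).New (Y.evF k)
  brk : Brk (Y.M (topC c Y.R k)) (Y.M Tc) (Y.evG k) (Y.evI k)

/-- **the retained marks of a piece** -/
theorem pg_mark (hY : Y.Ok) (hg : NGeo c Y.R) (θ : Cut c) {S O : Finset EvId} (hS : Valid c Y.R S) (hO : O ⊆ S) {b : ℕ × ℕ} {k : EvId}
    (hk : k ∈ θ.keptB Y.R S b) :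
    PgMark Y (θ.piece (halTop c Y.R S O) b) (θ.piece (halTop c Y.R S (O.erase k)) b) (θ.piece (halTop c Y.R S (insert k O)) b) k := by
  obtain ⟨hkS, hd⟩ := pg_mem_keptB.1 hk
  have hOe : O.erase k ⊆ S := (Finset.erase_subset _ _).trans hO
  have hke : k ∉ O.erase k := Finset.notMem_erase k O
  have hins : insert k (O.erase k) = insert k O := by
    ext j
    simp only [Finset.mem_insert, Finset.mem_erase]
    by_cases hj : j = k <;> simp [hj]
  obtain ⟨g1, g2⟩ := pg_glue hg hS hk hke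
  rw [hins] at g1
  have okc := pg_ok θ Y.R S (O.erase k) b
  have oko := pg_ok θ Y.R S (insert k O) b
  refine ⟨okc, oko, ?_, ?_, ?_, nt_FFs_new Y hY _ okc _ g2, ?_⟩
  · rw [g1]
  · by_cases h : k ∈ O
    · right
      rw [Finset.insert_eq_of_mem h]
    · left
      rw [Finset.erase_eq_of_notMem h]
  · have oko' := oko
    rw [g1] at oko' ⊢
    exact hY.glue _ _ okc oko' g2
  · have := nt_brk_gen Y hY _ okc (inner c Y.R k) (patch c Y.R k) (nt_dl_inner_sub _ _)
      ((pcr_patch_sub Y.R k).trans (pg_tp_sub hg _ hk)) (pg_sep hg hS hOe hkS)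
    rw [pg_patch hg hS hOe hk, if_neg hke] at this
    exact this

end

end Claimed.Agent.R285.Entry
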