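import Claimed.Agent.R285.Entry.PertFac

/-!
# ROW 285, ENTRY, BP-ENT-PERT (#17078), part T3 at the FACTOR-MODEL LEVEL: ONE MARK AND MANY MARKS      (helper47)

Paper: [E] entry.tex l.262-330 (lem:finite-perturbation); maths = helper109's note (T3).   Prefix `pm_`.   Paper-free, generic in `Fac`; temperatures via `M.at1 t`, `D.atB _` (`Entry/PertFac.lean`, helper118).
* `pmK M I D h` = the sum over the fibre of the interior `I` through the height `h` (`= (M.pin (M.A \ I)).Z1 (D.bk h)`).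
* `pm_fib` : `M.Z D Φ = ∑_γ Φ (x + γ) K (x + γ)` for `Φ` which does not see `I`;   `pm_rho_eq`, `pm_dlt_eq` : `δ = |χ K_o - β K_c| / (χ K_o + β K_c)`, `K_o`, `K_c` = fibre sums of the AMBIENT masks `M.add F`, `M`.
* `pm_L1` : `∑_γ |K^b - K^{b₀}| ≤ (e^{2 n d} - 1) Z0^{b₀}`.
* **`pm_one_cut`, `pm_one_opn`** : `Z^{b₀} (|δ^b - δ^{b₀}|) ≤ 2 ε (Z0_c + (χ/β) Z0_o)` in the ambient mask cut at the mark, `≤ 2 ε (Z0_o + (β/χ) Z0_c)` in the ambient mask open at the mark.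
* **`pm_multi`** : `|Z^b (∏ δ_k^b) - Z^{b₀} (∏ δ_k^{b₀})| ≤ ε Z0^{b₀} + ∑_k Z^{b₀} (|δ_k^b - δ_k^{b₀}|)`.
-/

set_option autoImplicit false

namespace Claimed.Agent.R285.Entry

open scoped BigOperators
open Claimed.Agent.R285 Fac

noncomputable section

/-! ## 0. Elementary -/

/-- `(A'+B') | |A-B|/(A+B) - |A'-B'|/(A'+B') | ≤ 2 (|A-A'| + |B-B'|)` -/
theorem pm_elem (A B A' B' : ℝ) (hA : 0 ≤ A) (hB : 0 ≤ B) (hA' : 0 ≤ A') (hB' : 0 ≤ B') :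
    (A' + B') * |(|A - B| / (A + B)) - |A' - B'| / (A' + B')| ≤ 2 * (|A - A'| + |B - B'|) := by
  have hs' : 0 ≤ A' + B' := add_nonneg hA' hB'
  have hs : 0 ≤ A + B := add_nonneg hA hB
  have hu : |A - B| ≤ A + B := by
    rw [abs_le]; constructor <;> linarith
  have hu' : |A' - B'| ≤ A' + B' := by
    rw [abs_le]; constructor <;> linarith
  have hq : |A - B| / (A + B) ≤ 1 := div_le_one_of_le₀ hu hs
  have hq0 : 0 ≤ |A - B| / (A + B) := div_nonneg (abs_nonneg _) hs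
  rcases eq_or_lt_of_le hs' with h0 | h0
  · rw [← h0, zero_mul]
    positivity
  have e1 : (A' + B') * |(|A - B| / (A + B)) - |A' - B'| / (A' + B')|
      = abs ((A' + B') * (|A - B| / (A + B)) - |A' - B'|) := by
    rw [← abs_of_pos h0, ← abs_mul, abs_of_pos h0, mul_sub, mul_div_cancel₀ _ h0.ne']
  rw [e1]
  have t1 : |(A' + B') - (A + B)| ≤ |A - A'| + |B - B'| := by
    have : (A' + B') - (A + B) = -(A - A') + -(B - B') := by ring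
    rw [this]
    refine (abs_add_le _ _).trans ?_
    rw [abs_neg, abs_neg]
  have t2 : abs (|A - B| - |A' - B'|) ≤ |A - A'| + |B - B'| := by
    refine (abs_abs_sub_abs_le_abs_sub _ _).trans ?_
    have : (A - B) - (A' - B') = (A - A') + -(B - B') := by ring
    rw [this]
    refine (abs_add_le _ _).trans ?_
    rw [abs_neg]
  rcases eq_or_lt_of_le hs with h1 | h1
  · -- `A = B = 0`
    have hA0 : A = 0 := by linarith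
    have hB0 : B = 0 := by linarith
    subst hA0 hB0
    simp only [sub_zero, abs_zero, add_zero, div_zero, mul_zero, zero_sub, abs_neg, abs_abs]
    rw [abs_of_nonneg hA', abs_of_nonneg hB']
    linarith
  · have e2 : (A' + B') * (|A - B| / (A + B)) - |A' - B'|
        = ((A' + B') - (A + B)) * (|A - B| / (A + B)) + (|A - B| - |A' - B'|) := by
      field_simp
      ring
    rw [e2]
    refine (abs_add_le _ _).trans ?_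
    rw [abs_mul, abs_of_nonneg hq0]
    have : |(A' + B') - (A + B)| * (|A - B| / (A + B)) ≤ |(A' + B') - (A + B)| * 1 :=
      mul_le_mul_of_nonneg_left hq (abs_nonneg _)
    linarith

/-- `|∏ a - ∏ b| ≤ ∑ |a - b|` on `[0, 1]` -/
theorem pm_prod_sub {κ : Type*} (K : Finset κ) (a b : κ → ℝ) (ha : ∀ k ∈ K, 0 ≤ a k ∧ a k ≤ 1) (hb : ∀ k ∈ K, 0 ≤ b k ∧ b k ≤ 1) :
    |∏ k ∈ K, a k - ∏ k ∈ K, b k| ≤ ∑ k ∈ K, |a k - b k| := by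
  classical
  induction K using Finset.induction_on with
  | empty => simp
  | insert k s hk ih =>
    rw [Finset.prod_insert hk, Finset.prod_insert hk, Finset.sum_insert hk]
    have ih' := ih (fun j hj => ha j (Finset.mem_insert_of_mem hj)) fun j hj => hb j (Finset.mem_insert_of_mem hj)
    have h1 := ha k (Finset.mem_insert_self k s)
    have h2 : 0 ≤ ∏ j ∈ s, b j ∧ ∏ j ∈ s, b j ≤ 1 :=
      ⟨Finset.prod_nonneg fun j hj => (hb j (Finset.mem_insert_of_mem hj)).1,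
        Finset.prod_le_one (fun j hj => (hb j (Finset.mem_insert_of_mem hj)).1) fun j hj => (hb j (Finset.mem_insert_of_mem hj)).2⟩
    have e : a k * ∏ j ∈ s, a j - b k * ∏ j ∈ s, b j = a k * (∏ j ∈ s, a j - ∏ j ∈ s, b j) + (a k - b k) * ∏ j ∈ s, b j := by ring
    rw [e]
    refine (abs_add_le _ _).trans ?_
    rw [abs_mul, abs_mul, abs_of_nonneg h1.1, abs_of_nonneg h2.1]
    have t1 : a k * |∏ j ∈ s, a j - ∏ j ∈ s, b j| ≤ 1 * |∏ j ∈ s, a j - ∏ j ∈ s, b j| := mul_le_mul_of_nonneg_right h1.2 (abs_nonneg _)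
    have t2 : |a k - b k| * ∏ j ∈ s, b j ≤ |a k - b k| * 1 := mul_le_mul_of_nonneg_left h2.2 (abs_nonneg _)
    linarith

/-! ## 1. Fibres of the interior, one temperature -/

variable {𝔉 : Fac}

/-- the sum over the fibre of the interior `I` through `h` -/
def pmK (M : 𝔉.Msk) (I : Finset 𝔉.V) (D : 𝔉.Dat) (h : 𝔉.Ht) : ℝ := (M.pin (M.A \ I)).Z1 (D.bk h)

theorem pm_K_pos (M : 𝔉.Msk) (hM : M.Ok) (I : Finset 𝔉.V) (D : 𝔉.Dat) (h : 𝔉.Ht) : 0 < pmK M I D h :=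
  fk_Z1_pos _ (fk_ok_pin M hM _) _

theorem pm_K_inv (M : 𝔉.Msk) (I : Finset 𝔉.V) (hI : I ⊆ M.A) (D : 𝔉.Dat) : 𝔉.Inv I (pmK M I D) := by
  intro h n hn
  show (M.pin (M.A \ I)).Z (D.bk (h + n)) (fun _ => 1) = (M.pin (M.A \ I)).Z (D.bk h) fun _ => 1
  refine fk_bk_congr (M.pin (M.A \ I)) D (h + n) h (fun v hv => ?_) _
  have hv' : v ∉ I := fun hvI => hv (Finset.mem_sdiff.2 ⟨hI hvI, fun h2 => (Finset.mem_sdiff.1 h2).2 hvI⟩)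
  simp [hn v hv']

/-- the fibre formula -/
theorem pm_fib (M : 𝔉.Msk) (hM : M.Ok) (I : Finset 𝔉.V) (D : 𝔉.Dat) (Φ : 𝔉.Ht → ℝ) (hb : 𝔉.Bdd Φ) (hΦ : 𝔉.Inv I Φ) :
    HasSum (fun γ : 𝔉.sup (M.A \ I) => Φ (D.x + (γ : 𝔉.Ht)) * pmK M I D (D.x + (γ : 𝔉.Ht))) (M.Z D Φ) := by
  have h1 := fk_fibre M hM (M.A \ I) Finset.sdiff_subset D Φ hb
  convert h1 using 2 with γ
  have hinv : 𝔉.Inv (M.pin (M.A \ I)).A Φ := by
    intro h n hn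
    refine hΦ h n fun v hv => hn v fun h2 => hv ?_
    have h3 := Finset.mem_sdiff.1 h2
    by_contra hvI
    exact h3.2 (Finset.mem_sdiff.2 ⟨h3.1, hvI⟩)
  have e := fk_Z_inv (M.pin (M.A \ I)) (D.shift (γ : 𝔉.Ht)) Φ (fun _ => 1) hinv
  simp only [mul_one] at e
  rw [e]
  rfl

/-- the fibre sum in terms of the interior model -/
theorem pm_K_eq (M : 𝔉.Msk) (I : Finset 𝔉.V) (hI : I ⊆ M.A) (D : 𝔉.Dat) (h : 𝔉.Ht) :
    pmK M I D h = rw (fk_mkv_rest M I) D h * (M.loc I).Z1 (D.bk h) := by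
  have e := fk_mkv_fib M I hI (D.bk h) (fun _ => 1) (fun _ => 1) (fun _ _ _ => rfl)
  simp only [mul_one, one_mul] at e
  exact e

theorem pm_K_add_eq (M : 𝔉.Msk) (I : Finset 𝔉.V) (hI : I ⊆ M.A) (F : 𝔉.Fs) (hF : M.New F) (D : 𝔉.Dat) (h : 𝔉.Ht) :
    pmK (M.add F) I D h = rw (fk_mkv_rest M I) D h * (M.loc I).Z (D.bk h) (rw F D) := by
  have e0 : pmK (M.add F) I D h = ((M.pin (M.A \ I)).add F).Z (D.bk h) fun _ => 1 := rfl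
  rw [e0, fk_add_eq (M.pin (M.A \ I)) F hF]
  have e := fk_mkv_fib M I hI (D.bk h) (fun _ => 1) (rw F D) (fun _ _ _ => rfl)
  simp only [one_mul] at e ⊢
  exact e

theorem pm_rho_eq (M : 𝔉.Msk) (hM : M.Ok) (I : Finset 𝔉.V) (hI : I ⊆ M.A) (F : 𝔉.Fs) (hF : M.New F) (χ : ℝ) (D : 𝔉.Dat) (h : 𝔉.Ht) :
    rho M I F χ D h = χ * pmK (M.add F) I D h / pmK M I D h := by
  have hr : 0 < rw (fk_mkv_rest M I) D h :=
    (fk_rw_mem (fk_mkv_rest M I) (fun e he => hM.1 e (Finset.mem_sdiff.1 he).1) D h).1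
  have hp := fk_Z1_pos (M.loc I) (fk_ok_loc M hM I hI) (D.bk h)
  rw [pm_K_eq M I hI, pm_K_add_eq M I hI F hF]
  unfold rho Fac.Msk.cE
  rw [fk_Z_smul]
  field_simp

/-- **`δ` through the fibre sums of the ambient masks** -/
theorem pm_dlt_eq (M : 𝔉.Msk) (hM : M.Ok) (I : Finset 𝔉.V) (hI : I ⊆ M.A) (F : 𝔉.Fs) (hF : M.New F) (χ β : ℝ) (D : 𝔉.Dat) (h : 𝔉.Ht) :
    dlt M I F χ β D h = |χ * pmK (M.add F) I D h - β * pmK M I D h| / (χ * pmK (M.add F) I D h + β * pmK M I D h) := by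
  have hp := pm_K_pos M hM I D h
  unfold dlt
  rw [pm_rho_eq M hM I hI F hF]
  have e1 : χ * pmK (M.add F) I D h / pmK M I D h - β = (χ * pmK (M.add F) I D h - β * pmK M I D h) / pmK M I D h := by
    field_simp
  have e2 : χ * pmK (M.add F) I D h / pmK M I D h + β = (χ * pmK (M.add F) I D h + β * pmK M I D h) / pmK M I D h := by
    field_simp
  rw [e1, e2, abs_div, abs_of_pos hp, div_div_div_cancel_right₀ hp.ne']

/-! ## 2. Two temperatures -/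

/-- the fibre sum at the uniform temperature `t` -/
def pmKt (M : 𝔉.Msk) (I : Finset 𝔉.V) (D : 𝔉.Dat) (t : ℝ) (h : 𝔉.Ht) : ℝ := pmK (M.at1 t) I (D.atB _) h

/-- `e^{2 n d} - 1` -/
def pmE (n : ℕ) (d : ℝ) : ℝ := Real.exp (2 * ((n : ℝ) * d)) - 1

theorem pm_E_nonneg (n : ℕ) (d : ℝ) (hd : 0 ≤ d) : 0 ≤ pmE n d := by
  unfold pmE
  have : 1 ≤ Real.exp (2 * ((n : ℝ) * d)) := Real.one_le_exp (by positivity)
  linarith

theorem pm_E_mono {n n' : ℕ} (h : n ≤ n') (d : ℝ) (hd : 0 ≤ d) : pmE n d ≤ pmE n' d := by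
  unfold pmE
  have h' : (n : ℝ) ≤ n' := by exact_mod_cast h
  have : Real.exp (2 * ((n : ℝ) * d)) ≤ Real.exp (2 * ((n' : ℝ) * d)) :=
    Real.exp_le_exp.2 (by nlinarith)
  linarith

theorem pm_Kt_pos (M : 𝔉.Msk) (hM : M.Sp) (I : Finset 𝔉.V) (D : 𝔉.Dat) (t : ℝ) (ht : 0 < t) (h : 𝔉.Ht) : 0 < pmKt M I D t h :=
  pm_K_pos (M.at1 t) (pf_ok M hM t ht) I _ h

theorem pm_Kt_inv (M : 𝔉.Msk) (I : Finset 𝔉.V) (hI : I ⊆ M.A) (D : 𝔉.Dat) (t : ℝ) : 𝔉.Inv I (pmKt M I D t) :=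
  pm_K_inv (M.at1 t) I hI (D.atB _)

theorem pm_fib_t (M : 𝔉.Msk) (hM : M.Sp) (I : Finset 𝔉.V) (D : 𝔉.Dat) (t : ℝ) (ht : 0 < t) (Φ : 𝔉.Ht → ℝ) (hb : 𝔉.Bdd Φ) (hΦ : 𝔉.Inv I Φ) :
    HasSum (fun γ : 𝔉.sup (M.A \ I) => Φ (D.x + (γ : 𝔉.Ht)) * pmKt M I D t (D.x + (γ : 𝔉.Ht))) ((M.at1 t).Z (D.atB _) Φ) :=
  pm_fib (M.at1 t) (pf_ok M hM t ht) I (D.atB _) Φ hb hΦ

/-- **the fibre sums at two temperatures are close in `ℓ¹`** -/
theorem pm_L1 (M : 𝔉.Msk) (hM : M.Sp) (I : Finset 𝔉.V) (hI : I ⊆ M.A) (D : 𝔉.Dat) {b b₀ : ℝ} (hb : 0 < b) (hb₀ : 0 < b₀) :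
    ∃ s : ℝ, HasSum (fun γ : 𝔉.sup (M.A \ I) => |pmKt M I D b (D.x + (γ : 𝔉.Ht)) - pmKt M I D b₀ (D.x + (γ : 𝔉.Ht))|) s ∧
      s ≤ pmE M.E.card |b - b₀| * (M.at1 b₀).Z0 := by
  set sg : 𝔉.Ht → ℝ := fun h => ((SignType.sign (pmKt M I D b h - pmKt M I D b₀ h) : SignType) : ℝ) with hsg
  have hs1 : ∀ h, |sg h| ≤ 1 := by
    intro h
    rcases SignType.trichotomy (SignType.sign (pmKt M I D b h - pmKt M I D b₀ h)) with h0 | h0 | h0 <;> simp [hsg, h0]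
  have hinv : 𝔉.Inv I sg := by
    intro h n hn
    simp only [hsg]
    rw [pm_Kt_inv M I hI D b h n hn, pm_Kt_inv M I hI D b₀ h n hn]
  have h1 := pm_fib_t M hM I D b hb sg ⟨1, hs1⟩ hinv
  have h2 := pm_fib_t M hM I D b₀ hb₀ sg ⟨1, hs1⟩ hinv
  refine ⟨(M.at1 b).Z (D.atB _) sg - (M.at1 b₀).Z (D.atB _) sg, ?_, ?_⟩
  · have e : (fun γ : 𝔉.sup (M.A \ I) => |pmKt M I D b (D.x + (γ : 𝔉.Ht)) - pmKt M I D b₀ (D.x + (γ : 𝔉.Ht))|)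
        = fun γ : 𝔉.sup (M.A \ I) => sg (D.x + (γ : 𝔉.Ht)) * pmKt M I D b (D.x + (γ : 𝔉.Ht)) - sg (D.x + (γ : 𝔉.Ht)) * pmKt M I D b₀ (D.x + (γ : 𝔉.Ht)) := by
      funext γ
      rw [← mul_sub, hsg]
      exact (sign_mul_self _).symm
    rw [e]
    exact h1.sub h2
  · have := pf_Z_sub M hM D sg 1 hs1 hb hb₀
    rw [one_mul] at this
    exact (le_abs_self _).trans this

/-- `δ` at the temperature `t`, local kernel of the mask `Mp` -/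
def pmD (Mp : 𝔉.Msk) (I : Finset 𝔉.V) (F : 𝔉.Fs) (χ β : ℝ) (D : 𝔉.Dat) (t : ℝ) (h : 𝔉.Ht) : ℝ :=
  dlt (Mp.at1 t) I F χ β (D.atB _) h

theorem pm_D_congr (Mp M : 𝔉.Msk) (I : Finset 𝔉.V) (F : 𝔉.Fs) (hloc : Mp.loc I = M.loc I) (χ β : ℝ) (D : 𝔉.Dat) (t : ℝ) :
    pmD Mp I F χ β D t = pmD M I F χ β D t :=
  nm_dlt_congr (Mp.at1 t) (M.at1 t) I F (congrArg (fun N : 𝔉.Msk => N.at1 t) hloc) χ β _ _ (fun _ _ => rfl) fun _ _ => rfl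

theorem pm_D_eq (M : 𝔉.Msk) (hM : M.Sp) (I : Finset 𝔉.V) (hI : I ⊆ M.A) (F : 𝔉.Fs) (hF : M.New F) (χ β : ℝ) (D : 𝔉.Dat) (t : ℝ) (ht : 0 < t) (h : 𝔉.Ht) :
    pmD M I F χ β D t h = |χ * pmKt (M.add F) I D t h - β * pmKt M I D t h| / (χ * pmKt (M.add F) I D t h + β * pmKt M I D t h) :=
  pm_dlt_eq (M.at1 t) (pf_ok M hM t ht) I hI F hF χ β (D.atB _) h

theorem pm_D_mem (M : 𝔉.Msk) (hM : M.Sp) (I : Finset 𝔉.V) (hI : I ⊆ M.A) (F : 𝔉.Fs) (χ β : ℝ) (hχ : 0 ≤ χ) (hβ : 0 ≤ β) (D : 𝔉.Dat)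
    (t : ℝ) (ht : 0 < t) (h : 𝔉.Ht) : 0 ≤ pmD M I F χ β D t h ∧ pmD M I F χ β D t h ≤ 1 :=
  nm_dlt_mem (M.at1 t) (pf_ok M hM t ht) I hI F (fun _ _ => ht) χ β hχ hβ (D.atB _) h

theorem pm_D_inv (M : 𝔉.Msk) (I : Finset 𝔉.V) (F : 𝔉.Fs) (χ β : ℝ) (D : 𝔉.Dat) (t : ℝ) : 𝔉.Inv I (pmD M I F χ β D t) :=
  nm_dlt_inv_self (M.at1 t) I F χ β (D.atB _)

/-- the pointwise inequality on a fibre -/
theorem pm_point (M : 𝔉.Msk) (hM : M.Sp) (I : Finset 𝔉.V) (hI : I ⊆ M.A) (F : 𝔉.Fs) (hF : M.New F) (χ β : ℝ) (hχ : 0 ≤ χ) (hβ : 0 ≤ β)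
    (D : 𝔉.Dat) {b b₀ : ℝ} (hb : 0 < b) (hb₀ : 0 < b₀) (h : 𝔉.Ht) :
    (χ * pmKt (M.add F) I D b₀ h + β * pmKt M I D b₀ h) * |pmD M I F χ β D b h - pmD M I F χ β D b₀ h|
      ≤ 2 * (χ * |pmKt (M.add F) I D b h - pmKt (M.add F) I D b₀ h| + β * |pmKt M I D b h - pmKt M I D b₀ h|) := by
  have hMo : (M.add F).Sp := fc_sp_add M hM F
  have k1 := (pm_Kt_pos M hM I D b hb h).le
  have k2 := (pm_Kt_pos M hM I D b₀ hb₀ h).le
  have k3 := (pm_Kt_pos (M.add F) hMo I D b hb h).le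
  have k4 := (pm_Kt_pos (M.add F) hMo I D b₀ hb₀ h).le
  rw [pm_D_eq M hM I hI F hF χ β D b hb, pm_D_eq M hM I hI F hF χ β D b₀ hb₀]
  refine (pm_elem _ _ _ _ (mul_nonneg hχ k3) (mul_nonneg hβ k1) (mul_nonneg hχ k4) (mul_nonneg hβ k2)).trans (le_of_eq ?_)
  rw [← mul_sub, ← mul_sub, abs_mul, abs_mul, abs_of_nonneg hχ, abs_of_nonneg hβ]

/-- the sum over the fibres of the right side of `pm_point` -/
theorem pm_sum (M : 𝔉.Msk) (hM : M.Sp) (I : Finset 𝔉.V) (hI : I ⊆ M.A) (F : 𝔉.Fs) (χ β : ℝ) (hχ : 0 ≤ χ) (hβ : 0 ≤ β)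
    (D : 𝔉.Dat) {b b₀ : ℝ} (hb : 0 < b) (hb₀ : 0 < b₀) (n : ℕ) (hn : (M.E ∪ F.1).card ≤ n) :
    ∃ s : ℝ, HasSum (fun γ : 𝔉.sup (M.A \ I) =>
        2 * (χ * |pmKt (M.add F) I D b (D.x + (γ : 𝔉.Ht)) - pmKt (M.add F) I D b₀ (D.x + (γ : 𝔉.Ht))|
          + β * |pmKt M I D b (D.x + (γ : 𝔉.Ht)) - pmKt M I D b₀ (D.x + (γ : 𝔉.Ht))|)) s ∧
      s ≤ 2 * pmE n |b - b₀| * (χ * ((M.add F).at1 b₀).Z0 + β * (M.at1 b₀).Z0) := by
  have hMo : (M.add F).Sp := fc_sp_add M hM F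
  obtain ⟨sc, hc, lc⟩ := pm_L1 M hM I hI D hb hb₀
  obtain ⟨so, ho, lo⟩ := pm_L1 (M.add F) hMo I hI D hb hb₀
  refine ⟨2 * (χ * so + β * sc), ((ho.mul_left χ).add (hc.mul_left β)).mul_left 2, ?_⟩
  have z1 := (pf_Z0_pos M hM b₀ hb₀).le
  have z2 := (pf_Z0_pos (M.add F) hMo b₀ hb₀).le
  have e1 : pmE M.E.card |b - b₀| ≤ pmE n |b - b₀| :=
    pm_E_mono ((Finset.card_le_card Finset.subset_union_left).trans hn) _ (abs_nonneg _)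
  have e2 : pmE (M.add F).E.card |b - b₀| ≤ pmE n |b - b₀| := pm_E_mono hn _ (abs_nonneg _)
  have l1 : sc ≤ pmE n |b - b₀| * (M.at1 b₀).Z0 := lc.trans (mul_le_mul_of_nonneg_right e1 z1)
  have l2 : so ≤ pmE n |b - b₀| * ((M.add F).at1 b₀).Z0 := lo.trans (mul_le_mul_of_nonneg_right e2 z2)
  have l3 := mul_le_mul_of_nonneg_left l1 hβ
  have l4 := mul_le_mul_of_nonneg_left l2 hχ
  nlinarith

theorem pm_bdd_diff (M : 𝔉.Msk) (hM : M.Sp) (I : Finset 𝔉.V) (hI : I ⊆ M.A) (F : 𝔉.Fs) (χ β : ℝ) (hχ : 0 ≤ χ) (hβ : 0 ≤ β) (D : 𝔉.Dat)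
    {b b₀ : ℝ} (hb : 0 < b) (hb₀ : 0 < b₀) (h : 𝔉.Ht) : |(|pmD M I F χ β D b h - pmD M I F χ β D b₀ h|)| ≤ 1 := by
  have h1 := pm_D_mem M hM I hI F χ β hχ hβ D b hb h
  have h2 := pm_D_mem M hM I hI F χ β hχ hβ D b₀ hb₀ h
  rw [abs_abs, abs_le]
  constructor <;> linarith [h1.1, h1.2, h2.1, h2.2]

theorem pm_inv_diff (M : 𝔉.Msk) (I : Finset 𝔉.V) (F : 𝔉.Fs) (χ β : ℝ) (D : 𝔉.Dat) (b b₀ : ℝ) :
    𝔉.Inv I fun h => |pmD M I F χ β D b h - pmD M I F χ β D b₀ h| := by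
  intro h n hn
  show |pmD M I F χ β D b (h + n) - pmD M I F χ β D b₀ (h + n)| = _
  rw [pm_D_inv M I F χ β D b h n hn, pm_D_inv M I F χ β D b₀ h n hn]

/-- **ONE MARK, the ambient mask `M` is CUT at the mark.**  `Mp` = any mask with the same factors at the interior (the patch), `n` = any bound of the number of Bessel factors. -/
theorem pm_one_cut (Mp M : 𝔉.Msk) (hM : M.Sp) (I : Finset 𝔉.V) (hI : I ⊆ M.A) (F : 𝔉.Fs) (hF : M.New F) (hloc : Mp.loc I = M.loc I)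
    (χ β : ℝ) (hχ : 0 ≤ χ) (hβ : 0 < β) (D : 𝔉.Dat) {b b₀ : ℝ} (hb : 0 < b) (hb₀ : 0 < b₀) (n : ℕ) (hn : (M.E ∪ F.1).card ≤ n) :
    (M.at1 b₀).Z (D.atB _) (fun h => |pmD Mp I F χ β D b h - pmD Mp I F χ β D b₀ h|)
      ≤ 2 * pmE n |b - b₀| * ((M.at1 b₀).Z0 + χ / β * ((M.add F).at1 b₀).Z0) := by
  rw [pm_D_congr Mp M I F hloc, pm_D_congr Mp M I F hloc]
  have hMo : (M.add F).Sp := fc_sp_add M hM F
  have hfib := pm_fib_t M hM I D b₀ hb₀ _ ⟨1, pm_bdd_diff M hM I hI F χ β hχ hβ.le D hb hb₀⟩ (pm_inv_diff M I F χ β D b b₀)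
  obtain ⟨s, hs, ls⟩ := pm_sum M hM I hI F χ β hχ hβ.le D hb hb₀ n hn
  have hle := hasSum_le (fun γ : 𝔉.sup (M.A \ I) => ?_) hfib (hs.mul_left β⁻¹)
  · refine hle.trans ?_
    have := mul_le_mul_of_nonneg_left ls (inv_nonneg.2 hβ.le)
    refine this.trans (le_of_eq ?_)
    field_simp
    ring
  · have hp := pm_point M hM I hI F hF χ β hχ hβ.le D hb hb₀ (D.x + (γ : 𝔉.Ht))
    have k4 := (pm_Kt_pos (M.add F) hMo I D b₀ hb₀ (D.x + (γ : 𝔉.Ht))).le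
    rw [le_inv_mul_iff₀ hβ]
    refine le_trans ?_ hp
    have h0 := abs_nonneg (pmD M I F χ β D b (D.x + (γ : 𝔉.Ht)) - pmD M I F χ β D b₀ (D.x + (γ : 𝔉.Ht)))
    nlinarith [mul_nonneg (mul_nonneg hχ k4) h0]

/-- **ONE MARK, the ambient mask `M.add F` is OPEN at the mark.** -/
theorem pm_one_opn (Mp M : 𝔉.Msk) (hM : M.Sp) (I : Finset 𝔉.V) (hI : I ⊆ M.A) (F : 𝔉.Fs) (hF : M.New F) (hloc : Mp.loc I = M.loc I)
    (χ β : ℝ) (hχ : 0 < χ) (hβ : 0 ≤ β) (D : 𝔉.Dat) {b b₀ : ℝ} (hb : 0 < b) (hb₀ : 0 < b₀) (n : ℕ) (hn : (M.E ∪ F.1).card ≤ n) :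
    ((M.add F).at1 b₀).Z (D.atB _) (fun h => |pmD Mp I F χ β D b h - pmD Mp I F χ β D b₀ h|)
      ≤ 2 * pmE n |b - b₀| * (((M.add F).at1 b₀).Z0 + β / χ * (M.at1 b₀).Z0) := by
  rw [pm_D_congr Mp M I F hloc, pm_D_congr Mp M I F hloc]
  have hMo : (M.add F).Sp := fc_sp_add M hM F
  have hfib : HasSum (fun γ : 𝔉.sup (M.A \ I) => |pmD M I F χ β D b (D.x + (γ : 𝔉.Ht)) - pmD M I F χ β D b₀ (D.x + (γ : 𝔉.Ht))|
      * pmKt (M.add F) I D b₀ (D.x + (γ : 𝔉.Ht))) (((M.add F).at1 b₀).Z (D.atB _) fun h => |pmD M I F χ β D b h - pmD M I F χ β D b₀ h|) :=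
    pm_fib_t (M.add F) hMo I D b₀ hb₀ _ ⟨1, pm_bdd_diff M hM I hI F χ β hχ.le hβ D hb hb₀⟩ (pm_inv_diff M I F χ β D b b₀)
  obtain ⟨s, hs, ls⟩ := pm_sum M hM I hI F χ β hχ.le hβ D hb hb₀ n hn
  have hle := hasSum_le (fun γ : 𝔉.sup (M.A \ I) => ?_) hfib (hs.mul_left χ⁻¹)
  · refine hle.trans ?_
    have := mul_le_mul_of_nonneg_left ls (inv_nonneg.2 hχ.le)
    refine this.trans (le_of_eq ?_)
    field_simp
  · have hp := pm_point M hM I hI F hF χ β hχ.le hβ D hb hb₀ (D.x + (γ : 𝔉.Ht))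
    have k2 := (pm_Kt_pos M hM I D b₀ hb₀ (D.x + (γ : 𝔉.Ht))).le
    rw [le_inv_mul_iff₀ hχ]
    refine le_trans ?_ hp
    have h0 := abs_nonneg (pmD M I F χ β D b (D.x + (γ : 𝔉.Ht)) - pmD M I F χ β D b₀ (D.x + (γ : 𝔉.Ht)))
    nlinarith [mul_nonneg (mul_nonneg hβ k2) h0]

/-! ## 3. Many marks -/

/-- **MANY MARKS**: telescoping -/
theorem pm_multi (T : 𝔉.Msk) (hT : T.Sp) (D : 𝔉.Dat) {κ : Type} (K : Finset κ) (u v : κ → 𝔉.Ht → ℝ)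
    (hu : ∀ k ∈ K, ∀ h, 0 ≤ u k h ∧ u k h ≤ 1) (hv : ∀ k ∈ K, ∀ h, 0 ≤ v k h ∧ v k h ≤ 1) {b b₀ : ℝ} (hb : 0 < b) (hb₀ : 0 < b₀) :
    |(T.at1 b).Z (D.atB _) (fun h => ∏ k ∈ K, u k h) - (T.at1 b₀).Z (D.atB _) (fun h => ∏ k ∈ K, v k h)|
      ≤ pmE T.E.card |b - b₀| * (T.at1 b₀).Z0 + ∑ k ∈ K, (T.at1 b₀).Z (D.atB _) (fun h => |u k h - v k h|) := by
  have hOk := pf_ok T hT b₀ hb₀
  have pu : ∀ h, 0 ≤ ∏ k ∈ K, u k h ∧ ∏ k ∈ K, u k h ≤ 1 := fun h =>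
    ⟨Finset.prod_nonneg fun k hk => (hu k hk h).1, Finset.prod_le_one (fun k hk => (hu k hk h).1) fun k hk => (hu k hk h).2⟩
  have pv : ∀ h, 0 ≤ ∏ k ∈ K, v k h ∧ ∏ k ∈ K, v k h ≤ 1 := fun h =>
    ⟨Finset.prod_nonneg fun k hk => (hv k hk h).1, Finset.prod_le_one (fun k hk => (hv k hk h).1) fun k hk => (hv k hk h).2⟩
  have bu : (𝔉.atB fun _ => b₀).Bdd fun h => ∏ k ∈ K, u k h := ⟨1, fun h => by rw [abs_of_nonneg (pu h).1]; exact (pu h).2⟩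
  have bv : (𝔉.atB fun _ => b₀).Bdd fun h => ∏ k ∈ K, v k h := ⟨1, fun h => by rw [abs_of_nonneg (pv h).1]; exact (pv h).2⟩
  have bd : ∀ k ∈ K, (𝔉.atB fun _ => b₀).Bdd fun h => |u k h - v k h| := fun k hk => ⟨1, fun h => by
    rw [abs_abs, abs_le]
    constructor <;> linarith [(hu k hk h).1, (hu k hk h).2, (hv k hk h).1, (hv k hk h).2]⟩
  have bs : (𝔉.atB fun _ => b₀).Bdd fun h => ∑ k ∈ K, |u k h - v k h| := by
    refine ⟨K.card, fun h => ?_⟩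
    rw [abs_of_nonneg (Finset.sum_nonneg fun _ _ => abs_nonneg _)]
    have : ∑ k ∈ K, |u k h - v k h| ≤ ∑ _k ∈ K, (1 : ℝ) := Finset.sum_le_sum fun k hk => by
      rw [abs_le]
      constructor <;> linarith [(hu k hk h).1, (hu k hk h).2, (hv k hk h).1, (hv k hk h).2]
    simpa using this
  have h1 := pf_Z_sub T hT D (fun h => ∏ k ∈ K, u k h) 1 (fun h => by rw [abs_of_nonneg (pu h).1]; exact (pu h).2) hb hb₀
  rw [one_mul] at h1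
  have hsum := fk_Z_sum (T.at1 b₀) hOk (D.atB _) K (fun k h => |u k h - v k h|) bd
  have hpt : ∀ h, |∏ k ∈ K, u k h - ∏ k ∈ K, v k h| ≤ ∑ k ∈ K, |u k h - v k h| := fun h =>
    pm_prod_sub K (fun k => u k h) (fun k => v k h) (fun k hk => hu k hk h) fun k hk => hv k hk h
  have h2 : (T.at1 b₀).Z (D.atB _) (fun h => ∏ k ∈ K, u k h)
      ≤ (T.at1 b₀).Z (D.atB _) (fun h => ∏ k ∈ K, v k h) + ∑ k ∈ K, (T.at1 b₀).Z (D.atB _) (fun h => |u k h - v k h|) := by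
    rw [← hsum, ← fk_Z_add (T.at1 b₀) hOk (D.atB _) _ _ bv bs]
    refine fk_Z_mono (T.at1 b₀) hOk (D.atB _) _ _ bu ?_ fun h => ?_
    · obtain ⟨C1, hC1⟩ := bv
      obtain ⟨C2, hC2⟩ := bs
      exact ⟨C1 + C2, fun h => (abs_add_le _ _).trans (add_le_add (hC1 h) (hC2 h))⟩
    · have := (abs_le.1 (hpt h)).2
      linarith
  have h3 : (T.at1 b₀).Z (D.atB _) (fun h => ∏ k ∈ K, v k h)
      ≤ (T.at1 b₀).Z (D.atB _) (fun h => ∏ k ∈ K, u k h) + ∑ k ∈ K, (T.at1 b₀).Z (D.atB _) (fun h => |u k h - v k h|) := by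
    rw [← hsum, ← fk_Z_add (T.at1 b₀) hOk (D.atB _) _ _ bu bs]
    refine fk_Z_mono (T.at1 b₀) hOk (D.atB _) _ _ bv ?_ fun h => ?_
    · obtain ⟨C1, hC1⟩ := bu
      obtain ⟨C2, hC2⟩ := bs
      exact ⟨C1 + C2, fun h => (abs_add_le _ _).trans (add_le_add (hC1 h) (hC2 h))⟩
    · have := (abs_le.1 (hpt h)).1
      linarith
  have h1' := abs_le.1 h1
  unfold pmE
  rw [abs_le]
  constructor <;> linarith [h1'.1, h1'.2]

/-- Stores the on-demand equation lemmas of the definitions above in THIS module (rule 6 hygiene). -/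
theorem pm_forced : True := by
  have := @pmK.eq_1
  have := @pmKt.eq_1
  have := @pmE.eq_1
  have := @pmD.eq_1
  trivial

end

end Claimed.Agent.R285.Entry
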