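import Claimed.Agent.R285.Entry.PhyDefs

/-!
# ROW 285, ENTRY: `Phy.Ok` FROM CARRIERS (generic; architect helper66).   PAPER-FREE, finite combinatorics only.

A factor model on the volume `(G, c)` is LOCAL if every factor has a CARRIER (`Car c = Option (c.I ⊕ Face c)`):
`none` = dead form (never present), `some (inl i)` = the factor lives in the cell `i`, `some (inr f)` = the factor goes through the face `f` (it lives in the two cells of `f`).
`carIn T κ` = the carrier is present in the cut topology `T`;   `carAt κ j` = the cell `j` belongs to the carrier.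
`CarOk Y cE cO` = the masks `Y.M T` and the restorations `Y.FF f` are the sets of factors given by the carriers + supports + positive temperatures + properness of ONE cell.
**`car_ok`** : `CarOk Y cE cO` + the representation `Zh_eq` + the trivial facts on `Xf`, `D` imply `Y.Ok`.
Instances: `Entry/PhyXY.lean` (`xyPhy`), `C5/EntLaw.lean` (`strPhy`).     All helper names: prefix `car`.
-/

set_option autoImplicit false

namespace Claimed.Agent.R285.Entry

open scoped BigOperators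
open Claimed.Agent.R285 Claimed.Agent.R285.RG Claimed.Agent.R285.F4a Claimed.Agent.R285.Ent

noncomputable section

variable {G : Geom} {c : Grid G}

/-- carriers of factors: dead / a cell / a face -/
abbrev Car (c : Grid G) : Type := Option (c.I ⊕ Face c)

/-- the carrier is present in `T` -/
def carIn (T : Top c) : Car c → Prop
  | none => False
  | some (Sum.inl i) => i ∈ T.cells
  | some (Sum.inr f) => f ∈ T.faces ∧ f.1 ∈ T.cells ∧ fnb c f ∈ T.cells

/-- the cell `j` belongs to the carrier (no condition on dead forms) -/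
def carAt : Car c → c.I → Prop
  | none, _ => True
  | some (Sum.inl i), j => j = i
  | some (Sum.inr f), j => j = f.1 ∨ j = fnb c f

/-- the carrier of a primary bond `(v, d)`: dead at a free wall, else its cell or the face which it crosses -/
def carB (c : Grid G) (e : G.V × Bool) : Car c :=
  if stp e.1 e.2 = e.1 then none
  else if c.blk (stp e.1 e.2) = c.blk e.1 then some (Sum.inl (c.blk e.1)) else some (Sum.inr (c.blk e.1, e.2))

/-- **a representation by local factors** -/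
structure CarOk (Y : Phy c) (cE : Y.Fc.E → Car c) (cO : Y.Fc.O → Car c) : Prop where
  A_eq : ∀ T : Top c, (Y.M T).A = Y.st T.cells
  mem_E : ∀ (T : Top c) (e : Y.Fc.E), e ∈ (Y.M T).E ↔ carIn T (cE e)
  mem_O : ∀ (T : Top c) (o : Y.Fc.O), o ∈ (Y.M T).O ↔ carIn T (cO o)
  mem_FE : ∀ (f : Face c) (e : Y.Fc.E), e ∈ (Y.FF f).1 ↔ cE e = some (Sum.inr f)
  mem_FO : ∀ (f : Face c) (o : Y.Fc.O), o ∈ (Y.FF f).2 ↔ cO o = some (Sum.inr f)
  supE : ∀ (e : Y.Fc.E) (v : Y.Fc.V), Y.Fc.d e v ≠ 0 → carAt (cE e) (Y.blk v)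
  supO : ∀ (o : Y.Fc.O) (v : Y.Fc.V), Y.Fc.r o v ≠ 0 → carAt (cO o) (Y.blk v)
  pos : ∀ e : Y.Fc.E, 0 < Y.Fc.b e
  /-- the factors which live in ONE cell separate the real fields on this cell -/
  cell : ∀ (i : c.I) (u : Y.Fc.V → ℝ), (∀ e, cE e = some (Sum.inl i) → ∑ v, (Y.Fc.d e v : ℝ) * u v = 0) →
    (∀ o, cO o = some (Sum.inl i) → ∑ v, Y.Fc.r o v * u v = 0) → ∀ v, Y.blk v = i → u v = 0

theorem car_mem_st (Y : Phy c) (A : Finset c.I) (v : Y.Fc.V) : v ∈ Y.st A ↔ Y.blk v ∈ A := by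
  simp [Phy.st]

/-- a present carrier lies in the present cells -/
theorem car_at_mem {T : Top c} {κ : Car c} (h : carIn T κ) {j : c.I} (hj : carAt κ j) : j ∈ T.cells := by
  rcases κ with _ | i | f
  · exact h.elim
  · have hj' : j = i := hj
    rw [hj']; exact h
  · have h' : f ∈ T.faces ∧ f.1 ∈ T.cells ∧ fnb c f ∈ T.cells := h
    rcases (hj : j = f.1 ∨ j = fnb c f) with hj' | hj'
    · rw [hj']; exact h'.2.1
    · rw [hj']; exact h'.2.2

theorem car_in_mono {T T' : Top c} (h1 : T.cells ⊆ T'.cells) (h2 : T.faces ⊆ T'.faces) {κ : Car c} (h : carIn T κ) : carIn T' κ := by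
  rcases κ with _ | i | f
  · exact h.elim
  · exact h1 h
  · have h' : f ∈ T.faces ∧ f.1 ∈ T.cells ∧ fnb c f ∈ T.cells := h
    exact ⟨h2 h'.1, h1 h'.2.1, h1 h'.2.2⟩

/-- the presence of a carrier at a cell where two well-formed topologies agree -/
theorem car_in_congr {T T' : Top c} (hT : T.Ok) (hT' : T'.Ok) {κ : Car c} {j : c.I} (hj : carAt κ j) (hd : j ∉ T.disc T') :
    carIn T κ ↔ carIn T' κ := by
  classical
  have hd' : (j ∈ T.cells ↔ j ∈ T'.cells) ∧ ∀ f : Face c, (f.1 = j ∨ fnb c f = j) → (f ∈ T.faces ↔ f ∈ T'.faces) := by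
    simp only [Top.disc, Finset.mem_filter, Finset.mem_univ, true_and, not_or, not_not, not_exists, not_and] at hd
    exact hd
  rcases κ with _ | i | f
  · exact Iff.rfl
  · have hj' : j = i := hj
    subst hj'
    exact hd'.1
  · have hf : f ∈ T.faces ↔ f ∈ T'.faces := by
      rcases (hj : j = f.1 ∨ j = fnb c f) with hj' | hj'
      · exact hd'.2 f (Or.inl hj'.symm)
      · exact hd'.2 f (Or.inr hj'.symm)
    constructor
    · intro h
      have h' : f ∈ T.faces ∧ f.1 ∈ T.cells ∧ fnb c f ∈ T.cells := h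
      exact ⟨hf.1 h'.1, (hT' f (hf.1 h'.1)).2⟩
    · intro h
      have h' : f ∈ T'.faces ∧ f.1 ∈ T'.cells ∧ fnb c f ∈ T'.cells := h
      exact ⟨hf.2 h'.1, (hT f (hf.2 h'.1)).2⟩

variable {Y : Phy c} {cE : Y.Fc.E → Car c} {cO : Y.Fc.O → Car c}

theorem car_msk_ok (h : CarOk Y cE cO) (T : Top c) : (Y.M T).Ok := by
  refine ⟨fun e _ => h.pos e, fun u hu hE hO => ?_⟩
  funext v
  by_cases hv : Y.blk v ∈ T.cells
  · refine h.cell (Y.blk v) u (fun e he => hE e ?_) (fun o ho => hO o ?_) v rfl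
    · rw [h.mem_E, he]; exact hv
    · rw [h.mem_O, ho]; exact hv
  · exact hu v (by rw [h.A_eq, car_mem_st]; exact hv)

theorem car_le (h : CarOk Y cE cO) (T T' : Top c) (h1 : T.cells ⊆ T'.cells) (h2 : T.faces ⊆ T'.faces) : (Y.M T).Le (Y.M T') where
  E := fun e he => (h.mem_E T' e).2 (car_in_mono h1 h2 ((h.mem_E T e).1 he))
  O := fun o ho => (h.mem_O T' o).2 (car_in_mono h1 h2 ((h.mem_O T o).1 ho))
  dE := by
    intro e he v _ hv
    by_contra hne
    exact hv (by rw [h.A_eq, car_mem_st]; exact car_at_mem ((h.mem_E T e).1 he) (h.supE e v hne))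
  dO := by
    intro o ho v _ hv
    by_contra hne
    exact hv (by rw [h.A_eq, car_mem_st]; exact car_at_mem ((h.mem_O T o).1 ho) (h.supO o v hne))

theorem car_loc (h : CarOk Y cE cO) (T T' : Top c) (J : Finset c.I) (hT : T.Ok) (hT' : T'.Ok) (hd : Disjoint J (T.disc T')) :
    (Y.M T).loc (Y.st J) = (Y.M T').loc (Y.st J) := by
  classical
  have hE : (Y.M T).EI (Y.st J) = (Y.M T').EI (Y.st J) := by
    ext e
    simp only [Fac.Msk.EI, Finset.mem_filter]
    refine and_congr_left ?_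
    rintro ⟨v, hv, hne⟩
    rw [h.mem_E, h.mem_E]
    exact car_in_congr hT hT' (h.supE e v hne) (Finset.disjoint_left.1 hd ((car_mem_st Y J v).1 hv))
  have hO : (Y.M T).OI (Y.st J) = (Y.M T').OI (Y.st J) := by
    ext o
    simp only [Fac.Msk.OI, Finset.mem_filter]
    refine and_congr_left ?_
    rintro ⟨v, hv, hne⟩
    rw [h.mem_O, h.mem_O]
    exact car_in_congr hT hT' (h.supO o v hne) (Finset.disjoint_left.1 hd ((car_mem_st Y J v).1 hv))
  unfold Fac.Msk.loc
  rw [hE, hO]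

/-- two cells of one present carrier, in disjoint sets which are not joined by a retained face: impossible -/
theorem car_sep_aux {T : Top c} {J J' : Finset c.I} (hd : Disjoint J J')
    (hf : ∀ f ∈ T.faces, ¬ (f.1 ∈ J ∧ fnb c f ∈ J') ∧ ¬ (f.1 ∈ J' ∧ fnb c f ∈ J)) {κ : Car c} (hκ : carIn T κ) {j j' : c.I}
    (hj : carAt κ j) (hj' : carAt κ j') (h1 : j ∈ J) (h2 : j' ∈ J') : False := by
  rcases κ with _ | i | f
  · exact hκ
  · have e1 : j = i := hj
    have e2 : j' = i := hj'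
    exact Finset.disjoint_left.1 hd h1 (by rw [e1, ← e2]; exact h2)
  · have h' : f ∈ T.faces ∧ f.1 ∈ T.cells ∧ fnb c f ∈ T.cells := hκ
    rcases (hj : j = f.1 ∨ j = fnb c f) with e1 | e1 <;> rcases (hj' : j' = f.1 ∨ j' = fnb c f) with e2 | e2
    · exact Finset.disjoint_left.1 hd h1 (by rw [e1, ← e2]; exact h2)
    · exact (hf f h'.1).1 ⟨e1 ▸ h1, e2 ▸ h2⟩
    · exact (hf f h'.1).2 ⟨e2 ▸ h2, e1 ▸ h1⟩
    · exact Finset.disjoint_left.1 hd h1 (by rw [e1, ← e2]; exact h2)

theorem car_sep (h : CarOk Y cE cO) (T : Top c) (J J' : Finset c.I) (hd : Disjoint J J')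
    (hf : ∀ f ∈ T.faces, ¬ (f.1 ∈ J ∧ fnb c f ∈ J') ∧ ¬ (f.1 ∈ J' ∧ fnb c f ∈ J)) : (Y.M T).Sep (Y.st J) (Y.st J') := by
  refine ⟨?_, ?_⟩
  · rintro e he ⟨v, hv, hne⟩ v' hv'
    by_contra hne'
    exact car_sep_aux hd hf ((h.mem_E T e).1 he) (h.supE e v hne) (h.supE e v' hne') ((car_mem_st Y J v).1 hv) ((car_mem_st Y J' v').1 hv')
  · rintro o ho ⟨v, hv, hne⟩ v' hv'
    by_contra hne'
    exact car_sep_aux hd hf ((h.mem_O T o).1 ho) (h.supO o v hne) (h.supO o v' hne') ((car_mem_st Y J v).1 hv) ((car_mem_st Y J' v').1 hv')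

theorem car_in_glue (T : Top c) (E : Finset (Face c)) (hT' : (⟨T.cells, T.faces ∪ E⟩ : Top c).Ok) (κ : Car c) :
    carIn (⟨T.cells, T.faces ∪ E⟩ : Top c) κ ↔ carIn T κ ∨ ∃ f ∈ E, κ = some (Sum.inr f) := by
  rcases κ with _ | i | f
  · simp [carIn]
  · simp [carIn]
  · simp only [carIn, Finset.mem_union, Option.some.injEq, Sum.inr.injEq, exists_eq_right']
    constructor
    · rintro ⟨h1 | h1, h2⟩
      · exact Or.inl ⟨h1, h2⟩
      · exact Or.inr h1
    · rintro (h1 | h1)
      · exact ⟨Or.inl h1.1, h1.2⟩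
      · exact ⟨Or.inr h1, (hT' f (Finset.mem_union_right _ h1)).2⟩

theorem car_glue (h : CarOk Y cE cO) (T : Top c) (E : Finset (Face c)) (hT' : (⟨T.cells, T.faces ∪ E⟩ : Top c).Ok) :
    Y.M ⟨T.cells, T.faces ∪ E⟩ = (Y.M T).add (Y.FFs E) := by
  have hA : (Y.M ⟨T.cells, T.faces ∪ E⟩).A = (Y.M T).A := by rw [h.A_eq, h.A_eq]
  have hE : (Y.M ⟨T.cells, T.faces ∪ E⟩).E = (Y.M T).E ∪ (Y.FFs E).1 := by
    ext e
    rw [h.mem_E, car_in_glue T E hT', Finset.mem_union, h.mem_E]
    simp only [Phy.FFs, Fac.Fs.bU, Finset.mem_biUnion, h.mem_FE]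
  have hO : (Y.M ⟨T.cells, T.faces ∪ E⟩).O = (Y.M T).O ∪ (Y.FFs E).2 := by
    ext o
    rw [h.mem_O, car_in_glue T E hT', Finset.mem_union, h.mem_O]
    simp only [Phy.FFs, Fac.Fs.bU, Finset.mem_biUnion, h.mem_FO]
  unfold Fac.Msk.add
  rw [← hA, ← hE, ← hO]

theorem car_FF_new (h : CarOk Y cE cO) (T : Top c) (f : Face c) (hf : f ∉ T.faces) : (Y.M T).New (Y.FF f) := by
  refine ⟨Finset.disjoint_left.2 fun e h1 h2 => ?_, Finset.disjoint_left.2 fun o h1 h2 => ?_⟩
  · have h3 := (h.mem_E T e).1 h2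
    rw [(h.mem_FE f e).1 h1] at h3
    exact hf h3.1
  · have h3 := (h.mem_O T o).1 h2
    rw [(h.mem_FO f o).1 h1] at h3
    exact hf h3.1

theorem car_FF_dis (h : CarOk Y cE cO) (f f' : Face c) (hne : f ≠ f') : Disjoint (Y.FF f).1 (Y.FF f').1 ∧ Disjoint (Y.FF f).2 (Y.FF f').2 := by
  refine ⟨Finset.disjoint_left.2 fun e h1 h2 => hne ?_, Finset.disjoint_left.2 fun o h1 h2 => hne ?_⟩
  · have := ((h.mem_FE f e).1 h1).symm.trans ((h.mem_FE f' e).1 h2)
    simpa using this
  · have := ((h.mem_FO f o).1 h1).symm.trans ((h.mem_FO f' o).1 h2)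
    simpa using this

theorem car_FF_sup (h : CarOk Y cE cO) (f : Face c) : (Y.FF f).In Finset.univ (Y.st {f.1, fnb c f}) := by
  refine ⟨fun e he v _ hne => ?_, fun o ho v _ hne => ?_⟩
  · have h1 := h.supE e v hne
    rw [(h.mem_FE f e).1 he] at h1
    rw [car_mem_st, Finset.mem_insert, Finset.mem_singleton]
    exact h1
  · have h1 := h.supO o v hne
    rw [(h.mem_FO f o).1 ho] at h1
    rw [car_mem_st, Finset.mem_insert, Finset.mem_singleton]
    exact h1

/-- a carrier which is present in a restriction lies in the region -/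
theorem car_at_restr {T : Top c} {O : Finset c.I} {κ : Car c} (h : carIn (T.restr O) κ) {j : c.I} (hj : carAt κ j) : j ∈ O :=
  (Finset.mem_inter.1 (car_at_mem h hj)).2

theorem car_in_split (T : Top c) {ι : Type} [Fintype ι] (O : ι → Finset c.I) (h1 : T.cells ⊆ Finset.univ.biUnion O)
    (h2 : ∀ f ∈ T.faces, ∃ i, f.1 ∈ O i ∧ fnb c f ∈ O i) (κ : Car c) : carIn T κ ↔ ∃ i, carIn (T.restr (O i)) κ := by
  classical
  rcases κ with _ | j | f
  · simp [carIn]
  · simp only [carIn, Top.restr, Finset.mem_inter]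
    constructor
    · intro h
      obtain ⟨i, -, hi⟩ := Finset.mem_biUnion.1 (h1 h)
      exact ⟨i, h, hi⟩
    · rintro ⟨i, h, -⟩
      exact h
  · simp only [carIn, Top.restr, Finset.mem_inter, Finset.mem_filter]
    constructor
    · rintro ⟨h, h3, h4⟩
      obtain ⟨i, hi⟩ := h2 f h
      exact ⟨i, ⟨h, hi⟩, ⟨h3, hi.1⟩, ⟨h4, hi.2⟩⟩
    · rintro ⟨i, ⟨h, -⟩, ⟨h3, -⟩, ⟨h4, -⟩⟩
      exact ⟨h, h3, h4⟩

/-- a present carrier has a cell -/
theorem car_at_exists {T : Top c} {κ : Car c} (h : carIn T κ) : ∃ j, carAt κ j := by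
  rcases κ with _ | i | f
  · exact h.elim
  · exact ⟨i, rfl⟩
  · exact ⟨f.1, Or.inl rfl⟩

theorem car_split (h : CarOk Y cE cO) (T : Top c) {ι : Type} [Fintype ι] (O : ι → Finset c.I) (hd : ∀ i j, i ≠ j → Disjoint (O i) (O j))
    (h1 : T.cells ⊆ Finset.univ.biUnion O) (h2 : ∀ f ∈ T.faces, ∃ i, f.1 ∈ O i ∧ fnb c f ∈ O i) :
    (Y.M T).Split fun i => Y.M (T.restr (O i)) where
  A := by
    ext v
    simp only [h.A_eq, car_mem_st, Finset.mem_biUnion, Finset.mem_univ, true_and, Top.restr, Finset.mem_inter]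
    constructor
    · intro hv
      obtain ⟨i, -, hi⟩ := Finset.mem_biUnion.1 (h1 hv)
      exact ⟨i, hv, hi⟩
    · rintro ⟨i, hv, -⟩
      exact hv
  E := by
    ext e
    simp only [h.mem_E, Finset.mem_biUnion, Finset.mem_univ, true_and]
    exact car_in_split T O h1 h2 _
  O := by
    ext o
    simp only [h.mem_O, Finset.mem_biUnion, Finset.mem_univ, true_and]
    exact car_in_split T O h1 h2 _
  dA := by
    intro i j hij
    refine Finset.disjoint_left.2 fun v hv hv' => ?_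
    rw [h.A_eq, car_mem_st] at hv hv'
    exact Finset.disjoint_left.1 (hd i j hij) (Finset.mem_inter.1 hv).2 (Finset.mem_inter.1 hv').2
  dE := by
    intro i j hij
    refine Finset.disjoint_left.2 fun e he he' => ?_
    rw [h.mem_E] at he he'
    obtain ⟨k, hk⟩ := car_at_exists he
    exact Finset.disjoint_left.1 (hd i j hij) (car_at_restr he hk) (car_at_restr he' hk)
  dO := by
    intro i j hij
    refine Finset.disjoint_left.2 fun o ho ho' => ?_
    rw [h.mem_O] at ho ho'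
    obtain ⟨k, hk⟩ := car_at_exists ho
    exact Finset.disjoint_left.1 (hd i j hij) (car_at_restr ho hk) (car_at_restr ho' hk)
  sE := by
    intro i j hij e he v hv
    by_contra hne
    rw [h.mem_E] at he
    rw [h.A_eq, car_mem_st] at hv
    exact Finset.disjoint_left.1 (hd i j hij) (car_at_restr he (h.supE e v hne)) (Finset.mem_inter.1 hv).2
  sO := by
    intro i j hij o ho v hv
    by_contra hne
    rw [h.mem_O] at ho
    rw [h.A_eq, car_mem_st] at hv
    exact Finset.disjoint_left.1 (hd i j hij) (car_at_restr ho (h.supO o v hne)) (Finset.mem_inter.1 hv).2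

/-- **`Phy.Ok` from carriers** -/
theorem car_ok (h : CarOk Y cE cO)
    (hZ : ∀ T : Top c, T.Ok → ∀ y : c.I → ℝ, Y.W.Zh T (fun i => (y i : ℂ)) = ((Y.Zh T y : ℝ) : ℂ))
    (hX0 : ∀ y f, 0 < Y.Xf y f) (hX1 : ∀ y f, Y.Xf y f ≤ 1) (hx : ∀ y, (Y.D y).x = 0) : Y.Ok where
  Zh_eq := hZ
  Xf_pos := hX0
  Xf_le := hX1
  x0 := hx
  A_eq := h.A_eq
  ok := fun T _ => car_msk_ok h T
  le := fun T T' _ _ h1 h2 => car_le h T T' h1 h2
  loc := fun T T' J hT hT' hd => car_loc h T T' J hT hT' hd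
  sep := fun T J J' _ hd hf => car_sep h T J J' hd hf
  glue := fun T E _ hT' _ => car_glue h T E hT'
  FF_new := fun T f _ hf => car_FF_new h T f hf
  FF_dis := car_FF_dis h
  FF_pos := fun _ e _ => h.pos e
  FF_sup := car_FF_sup h
  split := fun T _ _ _ O hd h1 h2 => car_split h T O hd h1 h2

/-- Stores the on-demand equation lemmas of the definitions above in THIS module (rule 6 hygiene). -/
theorem car_forced : True := by
  have := @carIn.eq_1
  have := @carIn.eq_2
  have := @carIn.eq_3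
  have := @carAt.eq_1
  have := @carAt.eq_2
  have := @carAt.eq_3
  have := @carB.eq_1
  trivial

end

end Claimed.Agent.R285.Entry
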