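import Claimed.Agent.R285.Entry.Defs

/-!
# ROW 285, Entry toolkit, leaf L-B9-STRIP: three lines with Gaussian damping ([B] (9.32) → (9.27) on complex discs)
PLAN: `G (z) = F (z) exp (-D z²)`, `|exp (-D z²)| = exp (-D (x² - y²))`.  `|G| ≤ M₀` on `ℝ`, `|G| ≤ N := M₁ exp (D (1 + H²))` on `0 ≤ Im z ≤ H`.  Hadamard three lines
(`Complex.HadamardThreeLines.norm_le_interp_of_mem_verticalClosedStrip'` after `z = i H w`... vertical strip `0 ≤ Re w ≤ 1`): `|G (x + i y)| ≤ M₀^{1 - y/H} N^{y/H}`, increasing in `y` since `M₀ ≤ N`; `y ≤ r₀ < H/4`.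
`|F (z)| = |G (z)| exp (D (x² - y²)) ≤ |G (z)| exp (D r₀²)`.  `y < 0`: apply the case `y > 0` to `z ↦ F (-z)`.
-/

set_option autoImplicit false

namespace Claimed.Agent.R285.Entry

open scoped BigOperators ENNReal NNReal
open MeasureTheory ProbabilityTheory

noncomputable section

/-- Hadamard three lines on the horizontal strip `0 ≤ Im z ≤ H`. -/
theorem three_lines_horizontal {G : ℂ → ℂ} {H a b B : ℝ} (hH : 0 < H)
    (hG : ∀ z : ℂ, 0 ≤ z.im → z.im ≤ H → DifferentiableAt ℂ G z)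
    (hB : ∀ z : ℂ, 0 ≤ z.im → z.im ≤ H → ‖G z‖ ≤ B)
    (ha : ∀ x : ℝ, ‖G x‖ ≤ a) (hb : ∀ z : ℂ, z.im = H → ‖G z‖ ≤ b) :
    ∀ z : ℂ, 0 ≤ z.im → z.im ≤ H → ‖G z‖ ≤ a ^ (1 - z.im / H) * b ^ (z.im / H) := by
  intro z hz0 hz1
  set f : ℂ → ℂ := fun w => G (Complex.I * w) with hf
  have him : ∀ w : ℂ, (Complex.I * w).im = w.re := fun w => by simp
  have hd : ∀ w : ℂ, 0 ≤ w.re → w.re ≤ H → DifferentiableAt ℂ f w := by
    intro w h0 h1
    have h2 : DifferentiableAt ℂ G (Complex.I * w) := hG _ (by rw [him]; exact h0) (by rw [him]; exact h1)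
    exact DifferentiableAt.comp w h2 ((differentiableAt_id).const_mul Complex.I)
  have hcl : closure (Complex.HadamardThreeLines.verticalStrip 0 H) ⊆
      Complex.HadamardThreeLines.verticalClosedStrip 0 H := by
    refine closure_minimal (fun w hw => ⟨hw.1.le, hw.2.le⟩) ?_
    exact isClosed_Icc.preimage Complex.continuous_re
  have hdc : DiffContOnCl ℂ f (Complex.HadamardThreeLines.verticalStrip 0 H) :=
    ⟨fun w hw => (hd w hw.1.le hw.2.le).differentiableWithinAt,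
      fun w hw => (hd w (hcl hw).1 (hcl hw).2).continuousAt.continuousWithinAt⟩
  have hbd : BddAbove ((norm ∘ f) '' Complex.HadamardThreeLines.verticalClosedStrip 0 H) := by
    refine ⟨B, ?_⟩
    rintro _ ⟨w, hw, rfl⟩
    exact hB _ (by rw [him]; exact hw.1) (by rw [him]; exact hw.2)
  have hw : (-Complex.I * z) ∈ Complex.HadamardThreeLines.verticalClosedStrip 0 H := by
    show (-Complex.I * z).re ∈ Set.Icc 0 H
    have : (-Complex.I * z).re = z.im := by simp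
    rw [this]
    exact ⟨hz0, hz1⟩
  have key := Complex.HadamardThreeLines.norm_le_interp_of_mem_verticalClosedStrip' (f := f)
    (a := a) (b := b) hH hw hdc hbd
    (fun w hw => by
      have hw0 : w.re = 0 := hw
      have e : Complex.I * w = ((-w.im : ℝ) : ℂ) := by
        apply Complex.ext <;> simp [hw0]
      show ‖G (Complex.I * w)‖ ≤ a
      rw [e]
      exact ha _)
    (fun w hw => by
      have hw0 : w.re = H := hw
      exact hb _ (by rw [him]; exact hw0))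
  have e1 : f (-Complex.I * z) = G z := by
    simp only [hf]
    congr 1
    rw [← mul_assoc, mul_neg, Complex.I_mul_I]
    ring
  have e2 : (-Complex.I * z).re = z.im := by simp
  rw [e1, e2, sub_zero, sub_zero] at key
  exact key

/-- monotonicity of the interpolation weight. -/
theorem interp_mono {a b s t : ℝ} (ha : 0 < a) (hab : a ≤ b) (hst : s ≤ t) :
    a ^ (1 - s) * b ^ s ≤ a ^ (1 - t) * b ^ t := by
  have hb : 0 < b := lt_of_lt_of_le ha hab
  have e : ∀ u : ℝ, a ^ (1 - u) * b ^ u = a * (b / a) ^ u := by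
    intro u
    rw [Real.rpow_sub ha, Real.rpow_one, Real.div_rpow hb.le ha.le]
    field_simp
  rw [e, e]
  refine mul_le_mul_of_nonneg_left ?_ ha.le
  exact Real.rpow_le_rpow_of_exponent_le ((one_le_div ha).2 hab) hst

theorem strip_interpolation_aux (F : ℂ → ℂ) (hF : Differentiable ℂ F) (H r0 D M0 M1 : ℝ) (hr : 0 < r0)
    (hH : 4 * r0 < H) (hD : 0 ≤ D) (hM0 : 0 < M0) (hM : M0 ≤ M1)
    (hreal : ∀ x : ℝ, ‖F x‖ ≤ M0 * Real.exp (D * x ^ 2))
    (hstrip : ∀ z : ℂ, |z.im| ≤ H → ‖F z‖ ≤ M1 * Real.exp (D * (1 + z.re ^ 2))) :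
    ∀ z : ℂ, 0 ≤ z.im → ‖z‖ ≤ r0 →
      ‖F z‖ ≤ M0 ^ (3 / 4 : ℝ) * M1 ^ (1 / 4 : ℝ) * Real.exp (D * (1 + H ^ 2) / 4 + D * r0 ^ 2) := by
  intro z hz0 hzr
  have hH0 : 0 < H := by linarith
  have hM1 : 0 < M1 := lt_of_lt_of_le hM0 hM
  set G : ℂ → ℂ := fun z => F z * Complex.exp (-(D : ℂ) * z ^ 2) with hG
  have hnorm : ∀ z : ℂ, ‖Complex.exp (-(D : ℂ) * z ^ 2)‖ = Real.exp (-(D * (z.re ^ 2 - z.im ^ 2))) := by
    intro z
    rw [Complex.norm_exp]
    congr 1
    simp [pow_two, Complex.mul_re]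
  set N : ℝ := M1 * Real.exp (D * (1 + H ^ 2)) with hN
  have hGd : ∀ z : ℂ, DifferentiableAt ℂ G z := fun z =>
    (hF z).mul (((differentiableAt_id.pow 2).const_mul (-(D : ℂ))).cexp)
  have hGB : ∀ z : ℂ, 0 ≤ z.im → z.im ≤ H → ‖G z‖ ≤ N := by
    intro z h0 h1
    simp only [hG]
    rw [norm_mul, hnorm]
    have h2 := hstrip z (by rw [abs_of_nonneg h0]; exact h1)
    calc ‖F z‖ * Real.exp (-(D * (z.re ^ 2 - z.im ^ 2)))
        ≤ M1 * Real.exp (D * (1 + z.re ^ 2)) * Real.exp (-(D * (z.re ^ 2 - z.im ^ 2))) :=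
          mul_le_mul_of_nonneg_right h2 (Real.exp_pos _).le
      _ = M1 * Real.exp (D * (1 + z.im ^ 2)) := by
          rw [mul_assoc, ← Real.exp_add]
          congr 2
          ring
      _ ≤ N := by
          refine mul_le_mul_of_nonneg_left (Real.exp_le_exp.2 ?_) hM1.le
          refine mul_le_mul_of_nonneg_left ?_ hD
          have : z.im ^ 2 ≤ H ^ 2 := pow_le_pow_left₀ h0 h1 2
          linarith
  have hGa : ∀ x : ℝ, ‖G x‖ ≤ M0 := by
    intro x
    simp only [hG]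
    rw [norm_mul, hnorm]
    calc ‖F x‖ * Real.exp (-(D * ((x : ℂ).re ^ 2 - (x : ℂ).im ^ 2)))
        ≤ M0 * Real.exp (D * x ^ 2) * Real.exp (-(D * ((x : ℂ).re ^ 2 - (x : ℂ).im ^ 2))) :=
          mul_le_mul_of_nonneg_right (hreal x) (Real.exp_pos _).le
      _ = M0 := by
          rw [mul_assoc, ← Real.exp_add]
          simp
  have him : z.im ≤ r0 := (Complex.abs_im_le_norm z |> le_trans (le_abs_self _)).trans hzr
  have key := three_lines_horizontal hH0 (fun z _ _ => hGd z) hGB hGa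
    (fun z hz => hGB z (by rw [hz]; exact hH0.le) hz.le) z hz0 (by linarith)
  have hMN : M0 ≤ N := by
    refine hM.trans ?_
    rw [hN]
    have : 1 ≤ Real.exp (D * (1 + H ^ 2)) := Real.one_le_exp (by positivity)
    nlinarith
  have ht : z.im / H ≤ 1 / 4 := by
    rw [div_le_iff₀ hH0]
    linarith
  have key2 : ‖G z‖ ≤ M0 ^ (3 / 4 : ℝ) * N ^ (1 / 4 : ℝ) := by
    refine key.trans ((interp_mono hM0 hMN ht).trans (le_of_eq ?_))
    norm_num
  have hN4 : N ^ (1 / 4 : ℝ) = M1 ^ (1 / 4 : ℝ) * Real.exp (D * (1 + H ^ 2) / 4) := by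
    rw [hN, Real.mul_rpow hM1.le (Real.exp_pos _).le, ← Real.exp_mul]
    congr 2
    ring
  have hFz : ‖F z‖ = ‖G z‖ * Real.exp (D * (z.re ^ 2 - z.im ^ 2)) := by
    simp only [hG]
    rw [norm_mul, hnorm, mul_assoc, ← Real.exp_add]
    simp
  have hx : z.re ^ 2 - z.im ^ 2 ≤ r0 ^ 2 := by
    have h1 : z.re ^ 2 + z.im ^ 2 = ‖z‖ ^ 2 := by
      rw [Complex.sq_norm, Complex.normSq_apply]
      ring
    have h2 : ‖z‖ ^ 2 ≤ r0 ^ 2 := pow_le_pow_left₀ (norm_nonneg _) hzr 2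
    nlinarith [sq_nonneg z.im]
  rw [hFz]
  calc ‖G z‖ * Real.exp (D * (z.re ^ 2 - z.im ^ 2))
      ≤ (M0 ^ (3 / 4 : ℝ) * N ^ (1 / 4 : ℝ)) * Real.exp (D * r0 ^ 2) :=
        mul_le_mul key2 (Real.exp_le_exp.2 (mul_le_mul_of_nonneg_left hx hD)) (Real.exp_pos _).le
          (by positivity)
    _ = _ := by
        rw [hN4, Real.exp_add]
        ring

/-- `M₀` = real bound (small), `M₁` = strip bound. -/
theorem strip_interpolation (F : ℂ → ℂ) (hF : Differentiable ℂ F) (H r0 D M0 M1 : ℝ) (hr : 0 < r0) (hH : 4 * r0 < H)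
    (hD : 0 ≤ D) (hM0 : 0 < M0) (hM : M0 ≤ M1)
    (hreal : ∀ x : ℝ, ‖F x‖ ≤ M0 * Real.exp (D * x ^ 2))
    (hstrip : ∀ z : ℂ, |z.im| ≤ H → ‖F z‖ ≤ M1 * Real.exp (D * (1 + z.re ^ 2))) :
    ∀ z : ℂ, ‖z‖ ≤ r0 → ‖F z‖ ≤ M0 ^ (3 / 4 : ℝ) * M1 ^ (1 / 4 : ℝ) * Real.exp (D * (1 + H ^ 2) / 4 + D * r0 ^ 2) := by
  intro z hz
  rcases le_total 0 z.im with h | h
  · exact strip_interpolation_aux F hF H r0 D M0 M1 hr hH hD hM0 hM hreal hstrip z h hz
  · have key := strip_interpolation_aux (fun w => F (-w)) (hF.comp differentiable_neg) H r0 D M0 M1 hr hH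
      hD hM0 hM
      (fun x => by
        have := hreal (-x)
        simpa using this)
      (fun w hw => by
        have := hstrip (-w) (by simpa using hw)
        simpa using this)
      (-z) (by simpa using h) (by simpa using hz)
    simpa using key

end

end Claimed.Agent.R285.Entry
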