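import Claimed.Agent.R285.Entry.Quad

/-!
# ROW 285, Entry toolkit, leaf L-B9-VREG-A: the variational regulator (9.13), elementary properties ([B] L9.2 first half, (9.14), (9.28))
All from `qf_triangle` / `qf_add_le` and `sup_t { h (a + t)² - t²/p } = h a² / (1 - h p)` (`h p < 1`):  with `ε = (1 - h p)/(h p)`:  `h qf (f + Lξ) ≤ h (1 + ε⁻¹) qf f + h (1 + ε) |ξ|² = h/(1 - hp) qf f + |ξ|²/p`.
-/

set_option autoImplicit false

namespace Claimed.Agent.R285.Entry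

open scoped BigOperators ENNReal NNReal
open MeasureTheory ProbabilityTheory

noncomputable section

variable {O Ξ Ξ' : Type} [Fintype O] [Fintype Ξ] [Fintype Ξ']
variable {M : Matrix O O ℝ} {Lm : Matrix O Ξ ℝ} {hs p1 : ℝ}

theorem vreg_bddAbove_of_le {α : Type} {F : α → ℝ} {c : ℝ} (h : ∀ a, F a ≤ c) : BddAbove (Set.range F) :=
  ⟨c, by rintro _ ⟨a, rfl⟩; exact h a⟩

theorem vreg_dot_nonneg (ξ : Ξ → ℝ) : 0 ≤ ξ ⬝ᵥ ξ :=
  Finset.sum_nonneg fun i _ => mul_self_nonneg (ξ i)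

theorem vreg_dot_sum (v : Ξ ⊕ Ξ' → ℝ) :
    v ⬝ᵥ v = (v ∘ Sum.inl) ⬝ᵥ (v ∘ Sum.inl) + (v ∘ Sum.inr) ⬝ᵥ (v ∘ Sum.inr) := by
  simp [dotProduct, Fintype.sum_sum_type]

/-- the pointwise bound behind L9.2 -/
theorem vreg_pt_le (h : VHyp M Lm hs p1) (f : O → ℝ) (ξ : Ξ → ℝ) :
    hs * qf M (f + Lm.mulVec ξ) - p1⁻¹ * (ξ ⬝ᵥ ξ) ≤ hs / (1 - p1 * hs) * qf M f := by
  have hp : 0 < p1 := by linarith [h.p1_gt]
  have hm : 0 < 1 - p1 * hs := by linarith [h.margin]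
  have hph : 0 < p1 * hs := mul_pos hp h.hs_pos
  have hε : 0 < p1 * hs / (1 - p1 * hs) := div_pos hph hm
  have h1 := qf_add_le M h.psd _ hε f (Lm.mulVec ξ)
  have h2 := h.contr ξ
  have e1 : 1 + p1 * hs / (1 - p1 * hs) = 1 / (1 - p1 * hs) := by field_simp; ring
  have e2 : 1 + (p1 * hs / (1 - p1 * hs))⁻¹ = 1 / (p1 * hs) := by
    rw [inv_div, eq_div_iff hph.ne', add_mul, div_mul_cancel₀ _ hph.ne']
    ring
  rw [e1, e2] at h1
  have h3 : 1 / (p1 * hs) * qf M (Lm.mulVec ξ) ≤ 1 / (p1 * hs) * (ξ ⬝ᵥ ξ) :=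
    mul_le_mul_of_nonneg_left h2 (by positivity)
  have h4 : hs * qf M (f + Lm.mulVec ξ) ≤ hs * (1 / (1 - p1 * hs) * qf M f + 1 / (p1 * hs) * (ξ ⬝ᵥ ξ)) :=
    mul_le_mul_of_nonneg_left (by linarith) h.hs_pos.le
  have e3 : hs * (1 / (1 - p1 * hs) * qf M f + 1 / (p1 * hs) * (ξ ⬝ᵥ ξ))
      = hs / (1 - p1 * hs) * qf M f + p1⁻¹ * (ξ ⬝ᵥ ξ) := by
    have := h.hs_pos.ne'
    field_simp
  linarith

/-- L9.2: the supremum is finite -/
theorem vreg_bdd (h : VHyp M Lm hs p1) (f : O → ℝ) :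
    BddAbove (Set.range fun ξ : Ξ → ℝ => hs * qf M (f + Lm.mulVec ξ) - p1⁻¹ * (ξ ⬝ᵥ ξ)) := by
  refine ⟨hs / (1 - p1 * hs) * qf M f, ?_⟩
  rintro _ ⟨ξ, rfl⟩
  exact vreg_pt_le h f ξ

/-- (9.14), first inequality, with the explicit constant -/
theorem vreg_bounds (h : VHyp M Lm hs p1) (f : O → ℝ) :
    hs / 2 * qf M f ≤ Vreg M Lm hs p1 f ∧ Vreg M Lm hs p1 f ≤ hs / (2 * (1 - p1 * hs)) * qf M f := by
  have hm : 0 < 1 - p1 * hs := by linarith [h.margin]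
  constructor
  · have h1 := le_ciSup (vreg_bdd h f) 0
    simp only [Matrix.mulVec_zero, add_zero, dotProduct_zero, mul_zero, sub_zero] at h1
    unfold Vreg
    linarith
  · have h1 : (⨆ ξ : Ξ → ℝ, (hs * qf M (f + Lm.mulVec ξ) - p1⁻¹ * (ξ ⬝ᵥ ξ))) ≤ hs / (1 - p1 * hs) * qf M f :=
      ciSup_le fun ξ => vreg_pt_le h f ξ
    unfold Vreg
    have e : hs / (2 * (1 - p1 * hs)) * qf M f = (1 / 2) * (hs / (1 - p1 * hs) * qf M f) := by
      field_simp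
    rw [e]
    linarith

theorem vreg_smul (h : VHyp M Lm hs p1) (t : ℝ) (f : O → ℝ) :
    Vreg M Lm hs p1 (t • f) = t ^ 2 * Vreg M Lm hs p1 f := by
  by_cases ht : t = 0
  · subst ht
    have h1 := vreg_bounds h (0 : O → ℝ)
    have h0 : qf M (0 : O → ℝ) = 0 := by simp [qf]
    rw [h0, mul_zero, mul_zero] at h1
    rw [zero_smul, le_antisymm h1.2 h1.1]
    simp
  · unfold Vreg
    rw [mul_left_comm, Real.mul_iSup_of_nonneg (sq_nonneg t)]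
    congr 1
    have hsurj : Function.Surjective (fun ξ : Ξ → ℝ => t • ξ) := fun ξ => ⟨t⁻¹ • ξ, by
      simp only [smul_smul, mul_inv_cancel₀ ht, one_smul]⟩
    rw [← hsurj.iSup_comp]
    refine iSup_congr fun ξ => ?_
    have e : t • f + Lm.mulVec (t • ξ) = t • (f + Lm.mulVec ξ) := by
      rw [Matrix.mulVec_smul, smul_add]
    have e2 : ∀ y : O → ℝ, qf M (t • y) = t ^ 2 * qf M y := by
      intro y
      simp only [qf, Matrix.mulVec_smul, smul_dotProduct, dotProduct_smul, smul_eq_mul]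
      ring
    rw [e, e2]
    simp only [smul_dotProduct, dotProduct_smul, smul_eq_mul]
    ring

/-- directions killed by the energy do not matter (constants) -/
theorem vreg_add_null (h : VHyp M Lm hs p1) (f g : O → ℝ) (hg : qf M g = 0) :
    Vreg M Lm hs p1 (f + g) = Vreg M Lm hs p1 f := by
  unfold Vreg
  congr 1
  refine iSup_congr fun ξ => ?_
  rw [add_right_comm, qf_null M h.psd g hg]

/-- monotonicity in the energy (enlargement of the support) -/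
theorem vreg_mono {M' : Matrix O O ℝ} (h : VHyp M Lm hs p1) (h' : VHyp M' Lm hs p1)
    (hMM : ∀ y, qf M y ≤ qf M' y) (f : O → ℝ) : Vreg M Lm hs p1 f ≤ Vreg M' Lm hs p1 f := by
  unfold Vreg
  refine mul_le_mul_of_nonneg_left (ciSup_mono (vreg_bdd h' f) fun ξ => ?_) (by norm_num)
  have := mul_le_mul_of_nonneg_left (hMM (f + Lm.mulVec ξ)) h.hs_pos.le
  linarith

/-- more Gaussian coordinates increase `V` -/
theorem vreg_le_fromCols (T : Matrix O Ξ' ℝ) (h : VHyp M (Matrix.fromCols Lm T) hs p1) (f : O → ℝ) :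
    Vreg M Lm hs p1 f ≤ Vreg M (Matrix.fromCols Lm T) hs p1 f := by
  unfold Vreg
  refine mul_le_mul_of_nonneg_left (ciSup_le fun ξ => ?_) (by norm_num)
  refine le_trans (le_of_eq ?_) (le_ciSup (vreg_bdd h f) (Sum.elim ξ 0))
  simp only [Matrix.fromCols_mulVec_sumElim, Matrix.mulVec_zero, add_zero, vreg_dot_sum,
    Sum.elim_comp_inl, Sum.elim_comp_inr, dotProduct_zero]

/-- the hypotheses pass to a part of the coordinates -/
theorem vhyp_left (T : Matrix O Ξ' ℝ) (h : VHyp M (Matrix.fromCols Lm T) hs p1) : VHyp M Lm hs p1 := by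
  refine ⟨h.psd, fun ξ => ?_, h.hs_pos, h.p1_gt, h.margin⟩
  have h1 := h.contr (Sum.elim ξ 0)
  simpa only [Matrix.fromCols_mulVec_sumElim, Matrix.mulVec_zero, add_zero, vreg_dot_sum,
    Sum.elim_comp_inl, Sum.elim_comp_inr, dotProduct_zero] using h1

/-- the JOINT contraction gives the stability margin of (9.17): `2 V (T z) ≤ h_* |z|²` -/
theorem vreg_shell_le (T : Matrix O Ξ' ℝ) (h : VHyp M (Matrix.fromCols Lm T) hs p1) (z : Ξ' → ℝ) :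
    2 * Vreg M Lm hs p1 (T.mulVec z) ≤ hs * (z ⬝ᵥ z) := by
  have hp : 0 < p1 := by linarith [h.p1_gt]
  have h1 : (⨆ ξ : Ξ → ℝ, (hs * qf M (T.mulVec z + Lm.mulVec ξ) - p1⁻¹ * (ξ ⬝ᵥ ξ))) ≤ hs * (z ⬝ᵥ z) := by
    refine ciSup_le fun ξ => ?_
    have h2 := h.contr (Sum.elim ξ z)
    simp only [Matrix.fromCols_mulVec_sumElim, vreg_dot_sum, Sum.elim_comp_inl, Sum.elim_comp_inr] at h2
    rw [add_comm] at h2
    have h3 := mul_le_mul_of_nonneg_left h2 h.hs_pos.le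
    have h4 : hs ≤ p1⁻¹ := by
      rw [le_inv_comm₀ h.hs_pos hp]
      rw [← one_div, le_div_iff₀ h.hs_pos]
      exact h.margin.le
    have h5 := mul_le_mul_of_nonneg_right h4 (vreg_dot_nonneg ξ)
    nlinarith
  unfold Vreg
  linarith

theorem vreg_two_mul (M : Matrix O O ℝ) (Lm : Matrix O Ξ ℝ) (hs p1 : ℝ) (f : O → ℝ) :
    2 * Vreg M Lm hs p1 f = ⨆ ξ : Ξ → ℝ, (hs * qf M (f + Lm.mulVec ξ) - p1⁻¹ * (ξ ⬝ᵥ ξ)) := by
  unfold Vreg
  ring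

/-- iterated suprema: `sup_z { 2 V_L (f + T z) - |z|²/p₁ } = 2 V_{[L T]} (f)` -/
theorem vreg_iterate (T : Matrix O Ξ' ℝ) (h : VHyp M (Matrix.fromCols Lm T) hs p1) (f : O → ℝ) :
    (1 / 2) * ⨆ z : Ξ' → ℝ, (2 * Vreg M Lm hs p1 (f + T.mulVec z) - p1⁻¹ * (z ⬝ᵥ z))
      = Vreg M (Matrix.fromCols Lm T) hs p1 f := by
  have hL := vhyp_left T h
  have hpt : ∀ z : Ξ' → ℝ, 2 * Vreg M Lm hs p1 (f + T.mulVec z) - p1⁻¹ * (z ⬝ᵥ z)
      ≤ ⨆ v : Ξ ⊕ Ξ' → ℝ, (hs * qf M (f + (Matrix.fromCols Lm T).mulVec v) - p1⁻¹ * (v ⬝ᵥ v)) := by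
    intro z
    rw [vreg_two_mul, sub_le_iff_le_add]
    refine ciSup_le fun ξ => ?_
    rw [← sub_le_iff_le_add]
    refine le_trans (le_of_eq ?_) (le_ciSup (vreg_bdd h f) (Sum.elim ξ z))
    simp only [Matrix.fromCols_mulVec_sumElim, vreg_dot_sum, Sum.elim_comp_inl, Sum.elim_comp_inr]
    rw [add_assoc f, add_comm (T.mulVec z)]
    ring
  have hbd : BddAbove (Set.range fun z : Ξ' → ℝ => 2 * Vreg M Lm hs p1 (f + T.mulVec z) - p1⁻¹ * (z ⬝ᵥ z)) :=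
    vreg_bddAbove_of_le hpt
  unfold Vreg
  congr 1
  refine le_antisymm (ciSup_le hpt) (ciSup_le fun v => ?_)
  refine le_trans ?_ (le_ciSup hbd (v ∘ Sum.inr))
  rw [vreg_two_mul, le_sub_iff_add_le]
  refine le_trans (le_of_eq ?_) (le_ciSup (vreg_bdd hL (f + T.mulVec (v ∘ Sum.inr))) (v ∘ Sum.inl))
  simp only [Matrix.fromCols_mulVec, vreg_dot_sum v]
  rw [add_assoc f, add_comm (T.mulVec _)]
  ring

theorem vreg_qf_blocks {O₂ : Type} [Fintype O₂] (M : Matrix O O ℝ) (M₂ : Matrix O₂ O₂ ℝ) (y : O → ℝ) (y₂ : O₂ → ℝ) :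
    qf (Matrix.fromBlocks M 0 0 M₂) (Sum.elim y y₂) = qf M y + qf M₂ y₂ := by
  simp [qf, Matrix.fromBlocks_mulVec, dotProduct, Fintype.sum_sum_type]

/-- **additivity** on separated supports: block-diagonal energy and coordinates -/
theorem vreg_add {O₂ Ξ₂ : Type} [Fintype O₂] [Fintype Ξ₂] {M₂ : Matrix O₂ O₂ ℝ} {L₂ : Matrix O₂ Ξ₂ ℝ}
    (h : VHyp M Lm hs p1) (h₂ : VHyp M₂ L₂ hs p1) (f : O → ℝ) (f₂ : O₂ → ℝ) :
    Vreg (Matrix.fromBlocks M 0 0 M₂) (Matrix.fromBlocks Lm 0 0 L₂) hs p1 (Sum.elim f f₂)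
      = Vreg M Lm hs p1 f + Vreg M₂ L₂ hs p1 f₂ := by
  have hval : ∀ v : Ξ ⊕ Ξ₂ → ℝ,
      hs * qf (Matrix.fromBlocks M 0 0 M₂) (Sum.elim f f₂ + (Matrix.fromBlocks Lm 0 0 L₂).mulVec v) - p1⁻¹ * (v ⬝ᵥ v)
        = (hs * qf M (f + Lm.mulVec (v ∘ Sum.inl)) - p1⁻¹ * ((v ∘ Sum.inl) ⬝ᵥ (v ∘ Sum.inl)))
          + (hs * qf M₂ (f₂ + L₂.mulVec (v ∘ Sum.inr)) - p1⁻¹ * ((v ∘ Sum.inr) ⬝ᵥ (v ∘ Sum.inr))) := by
    intro v
    have e : Sum.elim f f₂ + (Matrix.fromBlocks Lm 0 0 L₂).mulVec v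
        = Sum.elim (f + Lm.mulVec (v ∘ Sum.inl)) (f₂ + L₂.mulVec (v ∘ Sum.inr)) := by
      rw [Matrix.fromBlocks_mulVec]
      funext i
      rcases i with i | i <;> simp
    rw [e, vreg_qf_blocks, vreg_dot_sum v]
    ring
  have hle : ∀ v : Ξ ⊕ Ξ₂ → ℝ,
      hs * qf (Matrix.fromBlocks M 0 0 M₂) (Sum.elim f f₂ + (Matrix.fromBlocks Lm 0 0 L₂).mulVec v) - p1⁻¹ * (v ⬝ᵥ v)
        ≤ 2 * Vreg M Lm hs p1 f + 2 * Vreg M₂ L₂ hs p1 f₂ := by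
    intro v
    rw [hval, vreg_two_mul, vreg_two_mul]
    exact add_le_add (le_ciSup (vreg_bdd h f) _) (le_ciSup (vreg_bdd h₂ f₂) _)
  have hbd : BddAbove (Set.range fun v : Ξ ⊕ Ξ₂ → ℝ =>
      hs * qf (Matrix.fromBlocks M 0 0 M₂) (Sum.elim f f₂ + (Matrix.fromBlocks Lm 0 0 L₂).mulVec v) - p1⁻¹ * (v ⬝ᵥ v)) :=
    vreg_bddAbove_of_le hle
  have key : 2 * Vreg (Matrix.fromBlocks M 0 0 M₂) (Matrix.fromBlocks Lm 0 0 L₂) hs p1 (Sum.elim f f₂)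
      = 2 * Vreg M Lm hs p1 f + 2 * Vreg M₂ L₂ hs p1 f₂ := by
    refine le_antisymm ?_ ?_
    · rw [vreg_two_mul]
      exact ciSup_le hle
    · rw [← le_sub_iff_add_le, vreg_two_mul M Lm]
      refine ciSup_le fun ξ => ?_
      rw [le_sub_iff_add_le, add_comm, ← le_sub_iff_add_le, vreg_two_mul M₂ L₂]
      refine ciSup_le fun ξ₂ => ?_
      rw [le_sub_iff_add_le, add_comm, vreg_two_mul]
      refine le_trans (le_of_eq ?_) (le_ciSup hbd (Sum.elim ξ ξ₂))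
      rw [hval, Sum.elim_comp_inl, Sum.elim_comp_inr]
  linarith

/-- **(9.28)**: a real translate is paid by the gap `h₁ < h_*`, the regulator stays at `f` -/
theorem vreg_translate (h : VHyp M Lm hs p1) (h1 : ℝ) (h10 : 0 < h1) (h1s : h1 < hs) (f g : O → ℝ) :
    Vreg M Lm h1 p1 (f + g) ≤ Vreg M Lm hs p1 f + h1 * hs / (2 * (hs - h1)) * qf M g := by
  have hd : 0 < hs - h1 := by linarith
  have key : 2 * Vreg M Lm h1 p1 (f + g) ≤ 2 * Vreg M Lm hs p1 f + h1 * hs / (hs - h1) * qf M g := by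
    rw [vreg_two_mul, vreg_two_mul]
    refine ciSup_le fun ξ => ?_
    have h2 := le_ciSup (vreg_bdd h f) ξ
    have hε : 0 < (hs - h1) / h1 := div_pos hd h10
    have h3 := qf_add_le M h.psd _ hε (f + Lm.mulVec ξ) g
    have e1 : 1 + (hs - h1) / h1 = hs / h1 := by field_simp; ring
    have e2 : 1 + ((hs - h1) / h1)⁻¹ = hs / (hs - h1) := by
      rw [inv_div, eq_div_iff hd.ne', add_mul, div_mul_cancel₀ _ hd.ne']
      ring
    rw [e1, e2, add_right_comm] at h3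
    have h4 := mul_le_mul_of_nonneg_left h3 h10.le
    have e3 : h1 * (hs / h1 * qf M (f + Lm.mulVec ξ) + hs / (hs - h1) * qf M g)
        = hs * qf M (f + Lm.mulVec ξ) + h1 * hs / (hs - h1) * qf M g := by
      field_simp
    rw [e3] at h4
    linarith
  have e : h1 * hs / (2 * (hs - h1)) * qf M g = (1 / 2) * (h1 * hs / (hs - h1) * qf M g) := by
    field_simp
  rw [e]
  linarith

/-- `V` depends on the coordinates only through the covariance `L Lᵀ` (`exists_preimage_le`) -/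
theorem vreg_congr (Lm' : Matrix O Ξ' ℝ) (hL : Lm * Lm.transpose = Lm' * Lm'.transpose) (hp : 0 ≤ p1) (f : O → ℝ) :
    Vreg M Lm hs p1 f = Vreg M Lm' hs p1 f := by
  have hdom : ∀ {X X' : Type} [Fintype X] [Fintype X'] (A : Matrix O X ℝ) (A' : Matrix O X' ℝ),
      A * A.transpose = A' * A'.transpose → ∀ ξ : X → ℝ, ∃ ξ' : X' → ℝ,
        hs * qf M (f + A.mulVec ξ) - p1⁻¹ * (ξ ⬝ᵥ ξ) ≤ hs * qf M (f + A'.mulVec ξ') - p1⁻¹ * (ξ' ⬝ᵥ ξ') := by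
    intro X X' _ _ A A' hA ξ
    obtain ⟨ξ', h1, h2⟩ := exists_preimage_le A A' hA ξ
    refine ⟨ξ', ?_⟩
    rw [h1]
    have := mul_le_mul_of_nonneg_left h2 (inv_nonneg.2 hp)
    linarith
  have hub : ∀ {X X' : Type} [Fintype X] [Fintype X'] (A : Matrix O X ℝ) (A' : Matrix O X' ℝ),
      A * A.transpose = A' * A'.transpose →
      BddAbove (Set.range fun ξ : X' → ℝ => hs * qf M (f + A'.mulVec ξ) - p1⁻¹ * (ξ ⬝ᵥ ξ)) →
      BddAbove (Set.range fun ξ : X → ℝ => hs * qf M (f + A.mulVec ξ) - p1⁻¹ * (ξ ⬝ᵥ ξ)) ∧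
      (⨆ ξ : X → ℝ, (hs * qf M (f + A.mulVec ξ) - p1⁻¹ * (ξ ⬝ᵥ ξ)))
        ≤ ⨆ ξ : X' → ℝ, (hs * qf M (f + A'.mulVec ξ) - p1⁻¹ * (ξ ⬝ᵥ ξ)) := by
    intro X X' _ _ A A' hA hb
    have hpt : ∀ ξ : X → ℝ, hs * qf M (f + A.mulVec ξ) - p1⁻¹ * (ξ ⬝ᵥ ξ)
        ≤ ⨆ ξ : X' → ℝ, (hs * qf M (f + A'.mulVec ξ) - p1⁻¹ * (ξ ⬝ᵥ ξ)) := by
      intro ξ
      obtain ⟨ξ', h1⟩ := hdom A A' hA ξ
      exact h1.trans (le_ciSup hb ξ')
    exact ⟨vreg_bddAbove_of_le hpt, ciSup_le hpt⟩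
  unfold Vreg
  congr 1
  by_cases hb : BddAbove (Set.range fun ξ : Ξ → ℝ => hs * qf M (f + Lm.mulVec ξ) - p1⁻¹ * (ξ ⬝ᵥ ξ))
  · have h1 := hub Lm' Lm hL.symm hb
    have h2 := hub Lm Lm' hL h1.1
    exact le_antisymm h2.2 h1.2
  · have hb' : ¬ BddAbove (Set.range fun ξ : Ξ' → ℝ => hs * qf M (f + Lm'.mulVec ξ) - p1⁻¹ * (ξ ⬝ᵥ ξ)) :=
      fun hb' => hb (hub Lm Lm' hL hb').1
    rw [Real.iSup_of_not_bddAbove hb, Real.iSup_of_not_bddAbove hb']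

end

end Claimed.Agent.R285.Entry
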